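import Vale.Agent.P205.F.AbsorbCore

/-!
Absorption of the slow part of the quadratic term: the iteration in abstract form, part 2.
-/

noncomputable section

namespace Vale.Agent.P205.F

universe u

section

variable {P κ : Type*} {S : DAlg P κ} {ι : Type*} {μ s : ι → ℝ} {u : ι → P → ℂ}

/-- a constant factor in the scale is harmless -/
theorem DAlg.FO.const_mu {c : ℝ} (hc : 1 ≤ c) (hμ : ∀ i, 0 ≤ μ i) (hs : ∀ i, 0 ≤ s i)
    (hu : S.FO (fun i => μ i * c) s u) : S.FO μ s u := by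
  refine ⟨hu.1, fun k => ?_⟩
  obtain ⟨C, hC, h⟩ := hu.2 k
  refine ⟨C * c ^ k, by positivity, fun i w hw p => (h i w hw p).trans ?_⟩
  rw [mul_pow]
  have h1 : c ^ w.length ≤ c ^ k := pow_le_pow_right₀ hc hw
  have h2 : 0 ≤ μ i ^ w.length := pow_nonneg (hμ i) _
  have h3 := hs i
  calc C * s i * (μ i ^ w.length * c ^ w.length)
      = (C * s i * μ i ^ w.length) * c ^ w.length := by ring
    _ ≤ (C * s i * μ i ^ w.length) * c ^ k :=
        mul_le_mul_of_nonneg_left h1 (by positivity)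
    _ = C * c ^ k * s i * μ i ^ w.length := by ring

end

variable {P : Type u} {κ : Type} [Fintype κ] {S : DAlg P κ} {ι : Type u} {Q : Type} [Fintype Q]
  {θ x : ι → ℝ} {R : ι → Q → Set P}
  {K : Q → κ → Fin 4 → (ι → P → ℂ) → ι → P → ℂ} {dΨ : Q → κ → ι → P → ℂ}
  {E : Q → Fin 4 → ι → P → ℂ}

/-- coefficient functionals -/
def ellF (ℓ : Q → κ → κ → ι → P → ℂ) (a : Q) (T : κ → κ → ι → P → ℂ) : ι → P → ℂ :=
  fun i p => ∑ j, ∑ k, ℓ a j k i p * T j k i p

/-- cut-offs and coefficient functionals -/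
structure AbsData (S : DAlg P κ) (θ : ι → ℝ) (R : ι → Q → Set P) (dΨ : Q → κ → ι → P → ℂ)
    (χ : Q → ι → P → ℂ) (ℓ : Q → κ → κ → ι → P → ℂ) : Prop where
  aχ : Amp S R χ
  fχ : ∀ a, S.FO θ (fun _ => 1) (χ a)
  rℓ : ∀ a j k i, Rl (ℓ a j k i)
  fℓ : ∀ a j k, S.FO θ (fun _ => 1) (ℓ a j k)
  dec : ∀ (T : κ → κ → ι → P → ℂ) i, S.IsT (fun j k => T j k i) → ∀ j k p, T j k i p =
    ∑ a, χ a i p ^ 2 * ellF ℓ a T i p * (dΨ a j i p * dΨ a k i p)

variable {χ : Q → ι → P → ℂ} {ℓ : Q → κ → κ → ι → P → ℂ}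

theorem AbsData.ell_fo (hD : AbsData S θ R dΨ χ ℓ) (a : Q) {s : ι → ℝ}
    {T : κ → κ → ι → P → ℂ} (hT : ∀ j k, S.FO θ s (T j k)) : S.FO θ s (ellF ℓ a T) := by
  have h := DAlg.FO.sum' (S := S) (μ := θ) (s := s) (A := (Finset.univ : Finset κ))
    (u := fun j i p => ∑ k ∈ (Finset.univ : Finset κ), (ℓ a j k i * T j k i) p)
    fun j _ => DAlg.FO.sum' (S := S) (μ := θ) (s := s) (A := (Finset.univ : Finset κ))
      (u := fun k i => ℓ a j k i * T j k i)
      fun k _ => ((hD.fℓ a j k).mul (hT j k)).congr_s fun i => by ring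
  exact h

theorem AbsData.ell_rl (hD : AbsData S θ R dΨ χ ℓ) (a : Q)
    {T : κ → κ → ι → P → ℂ} {i : ι} (hT : ∀ j k, Rl (T j k i)) : Rl (ellF ℓ a T i) :=
  Rl.sum (A := (Finset.univ : Finset κ)) (u := fun j p => ∑ k, ℓ a j k i p * T j k i p)
    fun j _ => Rl.sum (A := (Finset.univ : Finset κ)) (u := fun k p => ℓ a j k i p * T j k i p)
      fun k _ => (hD.rℓ a j k i).mul (hT j k)

/-- Hypotheses for the iteration after the square root: `α0 = χ ρ`, `γ(E) = χ σ ell E` -/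
structure Root (S : DAlg P κ) (θ : ι → ℝ) (R : ι → Q → Set P) (ℓ : Q → κ → κ → ι → P → ℂ)
    (T : κ → κ → ι → P → ℂ) (σ : Q → ι → P → ℂ) : Prop where
  rl : ∀ a i, Rl (σ a i)
  fo : ∀ a, S.FO θ (fun _ => 1) (σ a)
  sq : ∀ a i, ∀ p ∈ R i a, σ a i p ^ 2 * (2 * ellF ℓ a T i p) = 1

theorem AbsData.exists_root (hD : AbsData S θ R dΨ χ ℓ) (hθ : ∀ i, 0 ≤ θ i)
    {T : κ → κ → ι → P → ℂ} (hTr : ∀ j k i, Rl (T j k i))
    (hT : ∀ j k, S.FO θ (fun _ => 1) (T j k)) {c0 : ℝ} (hc : 0 < c0)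
    (hlow : ∀ a i, ∀ p ∈ R i a, c0 ≤ (ellF ℓ a T i p).re) :
    ∃ σ, Root S θ R ℓ T σ := by
  have h : ∀ a, ∃ σ : ι → P → ℂ, (∀ i, Rl (σ i)) ∧ S.FO θ (fun _ => 1) σ ∧
      ∀ i, ∀ p ∈ R i a, σ i p ^ 2 * (2 * ellF ℓ a T i p) = 1 := by
    intro a
    set L : ℝ := max 1 (1 / (2 * c0)) with hL
    have hL1 : 1 ≤ L := le_max_left _ _
    have hL0 : 0 < L := by linarith
    have hu : S.FO θ (fun _ => 1) (fun i p => (2 : ℂ) * ellF ℓ a T i p) :=
      (hD.ell_fo a hT).const_mul 2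
    obtain ⟨σ, h1, h2, h3⟩ := DAlg.FO.exists_invSqrt (L := fun _ => L) hu hθ (fun _ => hL1)
      (fun _ => le_rfl) (fun i => Rl.smul (c := 2) (by simp) (hD.ell_rl a fun j k => hTr j k i))
      (fun i => R i a) (fun i p hp => by
        have h4 := hlow a i p hp
        have h5 : ((2 : ℂ) * ellF ℓ a T i p).re = 2 * (ellF ℓ a T i p).re := by simp
        rw [h5, div_le_iff₀ hL0]
        have h6 : 1 / (2 * c0) ≤ L := le_max_right _ _
        rw [div_le_iff₀ (by positivity)] at h6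
        nlinarith)
    refine ⟨σ, h1, ?_, h3⟩
    have h4 : S.FO (fun i => θ i * L) (fun _ => L) σ := h2.congr_mu fun i => by ring
    have h5 := h4.const_mu hL1 hθ fun _ => hL0.le
    exact h5.mono_s (C := L) (fun i => by simp) (fun _ => zero_le_one) hθ
  choose σ h1 h2 h3 using h
  exact ⟨σ, h1, h2, h3⟩

theorem Bf_sub_left (hK : KOp S θ x R K dΨ E) {α γ β : Q → ι → P → ℂ} (hα : Amp S R α)
    (hγ : Amp S R γ) (j k : κ) (i : ι) (p : P) :
    Bf K (fun a i => α a i - γ a i) β j k i p = Bf K α β j k i p - Bf K γ β j k i p := by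
  unfold Bf
  rw [← Finset.sum_sub_distrib]
  refine Finset.sum_congr rfl fun a _ => ?_
  rw [← Finset.sum_sub_distrib]
  refine Finset.sum_congr rfl fun b _ => ?_
  rw [hK.sub a j b (α a) (γ a) (hα.sm a) (hγ.sm a) (hα.zs a) (hγ.zs a) i p, map_sub]
  ring

theorem Bf_sub_right (hK : KOp S θ x R K dΨ E) {α γ β : Q → ι → P → ℂ} (hα : Amp S R α)
    (hγ : Amp S R γ) (j k : κ) (i : ι) (p : P) :
    Bf K β (fun a i => α a i - γ a i) j k i p = Bf K β α j k i p - Bf K β γ j k i p := by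
  unfold Bf
  rw [← Finset.sum_sub_distrib]
  refine Finset.sum_congr rfl fun a _ => ?_
  rw [← Finset.sum_sub_distrib]
  refine Finset.sum_congr rfl fun b _ => ?_
  rw [hK.sub a k b (α a) (γ a) (hα.sm a) (hγ.sm a) (hα.zs a) (hγ.zs a) i p, map_sub]
  ring

/-- **the absorption, abstract form** -/
theorem absorb_core (hK : KOp S θ x R K dΨ E) (hD : AbsData S θ R dΨ χ ℓ)
    (hθ : ∀ i, 0 ≤ θ i) (hx0 : ∀ i, 0 ≤ x i) (hx1 : ∀ i, x i ≤ 1)
    {T : κ → κ → ι → P → ℂ} (hTi : ∀ i, S.IsT (fun j k => T j k i))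
    (hTr : ∀ j k i, Rl (T j k i)) (hT : ∀ j k, S.FO θ (fun _ => 1) (T j k)) {c0 : ℝ}
    (hc : 0 < c0) (hlow : ∀ a i, ∀ p ∈ R i a, c0 ≤ (ellF ℓ a T i p).re) (n : ℕ) :
    ∃ α : Q → ι → P → ℂ, Amp S R α ∧ (∀ a, S.FO θ (fun _ => 1) (α a)) ∧
      ∀ j k, S.FO θ (fun i => x i ^ (n + 1)) (fun i p => Bf K α α j k i p - T j k i p) := by
  obtain ⟨σ, hσ⟩ := hD.exists_root hθ hTr hT hc hlow
  have h10 : ∀ _ : ι, (0 : ℝ) ≤ 1 := fun _ => zero_le_one
  -- the operator `γ`
  set g : (κ → κ → ι → P → ℂ) → Q → ι → P → ℂ :=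
    fun W a i => χ a i * (σ a i * ellF ℓ a W i) with hg
  have gfo : ∀ (W : κ → κ → ι → P → ℂ) (s : ι → ℝ), (∀ j k, S.FO θ s (W j k)) →
      ∀ a, S.FO θ s (g W a) := by
    intro W s hW a
    exact ((hD.fχ a).mul ((hσ.fo a).mul (hD.ell_fo a hW))).congr_s fun i => by ring
  have gamp : ∀ (W : κ → κ → ι → P → ℂ) (s : ι → ℝ), (∀ j k, S.FO θ s (W j k)) →
      (∀ j k i, Rl (W j k i)) → Amp S R (g W) := by
    intro W s hW hr
    have hsm : ∀ a i, S.Sm (σ a i * ellF ℓ a W i) := fun a i =>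
      S.sm_mul ((hσ.fo a).sm i) ((hD.ell_fo a hW).sm i)
    exact ⟨fun a i => S.sm_mul (hD.aχ.sm a i) (hsm a i),
      fun a i => (hD.aχ.rl a i).mul ((hσ.rl a i).mul (hD.ell_rl a fun j k => hr j k i)),
      fun a i => DAlg.Zs.mul_left (hD.aχ.sm a i) (hsm a i) (hD.aχ.zs a i)⟩
  -- the first amplitudes
  set α0 : Q → ι → P → ℂ := g (fun j k i p => 2 * T j k i p) with hα0
  have h2T : ∀ j k, S.FO θ (fun _ => 1) (fun i p => 2 * T j k i p) := fun j k =>
    (hT j k).const_mul 2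
  have h2Tr : ∀ j k i, Rl (fun p => 2 * T j k i p) := fun j k i =>
    Rl.smul (c := 2) (by simp) (hTr j k i)
  have a0 : Amp S R α0 := gamp _ _ h2T h2Tr
  have f0 : ∀ a, S.FO θ (fun _ => 1) (α0 a) := gfo _ _ h2T
  have ell2 : ∀ a i p, ellF ℓ a (fun j k i p => 2 * T j k i p) i p = 2 * ellF ℓ a T i p := by
    intro a i p
    unfold ellF
    rw [Finset.mul_sum]
    refine Finset.sum_congr rfl fun j _ => ?_
    rw [Finset.mul_sum]
    refine Finset.sum_congr rfl fun k _ => ?_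
    ring
  -- products with `α0`
  have prod : ∀ (W : κ → κ → ι → P → ℂ) a i p,
      α0 a i p * g W a i p = χ a i p ^ 2 * ellF ℓ a W i p := by
    intro W a i p
    by_cases hp : p ∈ R i a
    · have h1 := hσ.sq a i p hp
      simp only [hα0, hg, Pi.mul_apply, ell2]
      linear_combination (χ a i p ^ 2 * ellF ℓ a W i p) * h1
    · have z : χ a i p = 0 := (hD.aχ.zs a i).apply hp
      simp [hg, z]
  have lead : ∀ (W : κ → κ → ι → P → ℂ), (∀ i, S.IsT (fun j k => W j k i)) → ∀ j k i p,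
      Lf dΨ α0 (g W) j k i p + Lf dΨ (g W) α0 j k i p = W j k i p := by
    intro W hW j k i p
    rw [hD.dec W i (hW i) j k p]
    unfold Lf
    rw [← Finset.sum_add_distrib]
    refine Finset.sum_congr rfl fun a _ => ?_
    have h1 := prod W a i p
    linear_combination (dΨ a j i p * dΨ a k i p) * h1
  have claim : ∃ α : Q → ι → P → ℂ, Amp S R α ∧ (∀ a, S.FO θ x (fun i => α a i - α0 a i)) ∧
      ∀ j k, S.FO θ (fun i => x i ^ (n + 1)) (fun i p => Bf K α α j k i p - T j k i p) := by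
    induction n with
    | zero =>
      refine ⟨α0, a0, fun a => ?_, fun j k => ?_⟩
      · refine (DAlg.FO.zero (S := S) (μ := θ) (s := x)).congr fun i p => ?_
        simp
      · have h1 := Bf_lead hK hx0 hx1 hθ h10 h10 a0 a0 f0 f0 j k
        refine (h1.congr_s fun i => by ring).congr fun i p => ?_
        have h2 : Lf dΨ α0 α0 j k i p = T j k i p := by
          have h3 := lead (fun j k i p => 2 * T j k i p) (fun i => by
            refine ⟨fun j k => ?_, fun p c hc k => ?_⟩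
            · funext p
              have := congrFun ((hTi i).1 j k) p
              simp only at this ⊢
              rw [this]
            · have h4 := (hTi i).2 p c hc k
              have h5 : ∀ j, c j * (2 * T j k i p) = 2 * (c j * T j k i p) := fun j => by ring
              simp only [h5, ← Finset.mul_sum]
              rw [h4, mul_zero]) j k i p
          have h6 : Lf dΨ α0 α0 j k i p + Lf dΨ α0 α0 j k i p = 2 * T j k i p := h3
          linear_combination (1 / 2 : ℂ) * h6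
        rw [h2]
    | succ n ih =>
      obtain ⟨α, hα, hδ, hR⟩ := ih
      -- the remainder
      set W : κ → κ → ι → P → ℂ := fun j k i p => Bf K α α j k i p - T j k i p with hW
      have hWi : ∀ i, S.IsT (fun j k => W j k i) := fun i => (Bf_isT hK hα i).sub (hTi i)
      have hWr : ∀ j k i, Rl (W j k i) := fun j k i => (Bf_real α j k i).sub (hTr j k i)
      set s : ι → ℝ := fun i => x i ^ (n + 1) with hs
      have hs0 : ∀ i, 0 ≤ s i := fun i => pow_nonneg (hx0 i) _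
      have hs1 : ∀ i, s i ≤ 1 := fun i => pow_le_one₀ (hx0 i) (hx1 i)
      have hγ : Amp S R (g W) := gamp W s hR hWr
      have fγ : ∀ a, S.FO θ s (g W a) := gfo W s hR
      have hd : Amp S R (fun a i => α a i - α0 a i) := hα.sub a0
      refine ⟨fun a i => α a i - g W a i, hα.sub hγ, fun a => ?_, fun j k => ?_⟩
      · have h1 : S.FO θ x (g W a) := (fγ a).mono_s' (fun i => by
          simp only [hs, pow_succ]
          exact mul_le_of_le_one_left (hx0 i) (pow_le_one₀ (hx0 i) (hx1 i))) hθ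
        refine ((hδ a).sub h1).congr fun i p => ?_
        simp only [Pi.sub_apply]
        ring
      · -- the terms of the new remainder
        have e1 := Bf_lead hK hx0 hx1 hθ h10 hs0 a0 hγ f0 fγ j k
        have e2 := Bf_lead hK hx0 hx1 hθ hs0 h10 hγ a0 fγ f0 j k
        have e3 := Bf_fo hK hx0 hx1 hθ hx0 hs0 hd hγ hδ fγ j k
        have e4 := Bf_fo hK hx0 hx1 hθ hs0 hx0 hγ hd fγ hδ j k
        have e5 := Bf_fo hK hx0 hx1 hθ hs0 hs0 hγ hγ fγ fγ j k
        have s1 : ∀ i, 1 * s i * x i = x i ^ (n + 1 + 1) := fun i => by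
          simp only [hs]
          ring
        have s2 : ∀ i, s i * 1 * x i = x i ^ (n + 1 + 1) := fun i => by
          simp only [hs]
          ring
        have s3 : ∀ i, x i * s i = x i ^ (n + 1 + 1) := fun i => by
          simp only [hs]
          ring
        have s4 : ∀ i, s i * x i = x i ^ (n + 1 + 1) := fun i => by
          simp only [hs]
          ring
        have s5 : ∀ i, s i * s i ≤ x i ^ (n + 1 + 1) := fun i => by
          have h1 : s i ≤ x i := by
            simp only [hs, pow_succ]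
            exact mul_le_of_le_one_left (hx0 i) (pow_le_one₀ (hx0 i) (hx1 i))
          calc s i * s i ≤ s i * x i := mul_le_mul_of_nonneg_left h1 (hs0 i)
            _ = x i ^ (n + 1 + 1) := s4 i
        have f := (((((e1.congr_s s1).add (e2.congr_s s2)).add (e3.congr_s s3)).add
          (e4.congr_s s4)).neg).add (e5.mono_s' s5 hθ)
        refine f.congr fun i p => ?_
        have l1 := lead W hWi j k i p
        have l2 : W j k i p = Bf K α α j k i p - T j k i p := rfl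
        rw [Bf_sub_left hK hα hγ, Bf_sub_right hK hα hγ, Bf_sub_right hK hα hγ]
        simp only [Pi.add_apply, Pi.neg_apply]
        rw [Bf_sub_left hK hα a0, Bf_sub_right hK hα a0]
        linear_combination l1 - l2
  obtain ⟨α, h1, h2, h3⟩ := claim
  refine ⟨α, h1, fun a => ?_, h3⟩
  have h4 := ((h2 a).mono_s' (s' := fun _ => 1) hx1 hθ).add (f0 a)
  refine h4.congr fun i p => ?_
  simp only [Pi.add_apply, Pi.sub_apply]
  ring

end Vale.Agent.P205.F
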