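import Vale.Agent.P205.F.AbsorbDef
import Vale.Agent.P205.F.AbsorbIter

/-!
Absorption of the slow part of the quadratic term.
-/

noncomputable section

namespace Vale.Agent.P205.F

universe u

variable {P : Type u} {κ : Type} [Fintype κ] {S : DAlg P κ} {Q : Type} [Fintype Q] {ι : Type u}

/-- the operator `α ↦ kerB α` of the family -/
def KF (S : DAlg P κ) (lam : ι → ℝ) (d : ι → PData P κ Q) (X : ι → Fin 4 → P → ℂ)
    (F : ι → Q ⊕ (Q × Q × Bool) → Frm P) (m : ℕ) (a : Q) (j : κ) (b : Fin 4)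
    (α : ι → P → ℂ) : ι → P → ℂ :=
  fun i p => S.kerB (lam i) ((d i).ray a) (F i (Sum.inl a)) (X i) m (α i) j b p

theorem slowM_eq_Bf (lam : ι → ℝ) (d : ι → PData P κ Q) (X : ι → Fin 4 → P → ℂ)
    (F : ι → Q ⊕ (Q × Q × Bool) → Frm P) (m : ℕ) (α : Q → ι → P → ℂ) (j k : κ) (i : ι) (p : P) :
    slowM (S.sB (lam i) (d i) (F i) (X i) m (fun a => α a i)) j k p =
      Bf (KF S lam d X F m) α α j k i p := by
  unfold slowM Bf KF DAlg.sB dot cjv
  refine Finset.sum_congr rfl fun a _ => ?_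
  rw [Finset.mul_sum, Complex.re_sum]
  push_cast
  refine Finset.sum_congr rfl fun b _ => ?_
  rw [Complex.re_eq_add_conj, map_mul, map_mul, Complex.conj_conj]
  simp only [map_div₀, map_one, map_ofNat]
  ring

theorem kop (hA : S.KerAlg) (hB : S.KerB) (hL : S.KerLin) (m : ℕ) {θ b lam : ι → ℝ}
    {d : ι → PData P κ Q} {X : ι → Fin 4 → P → ℂ} {F : ι → Q ⊕ (Q × Q × Bool) → Frm P}
    (hb : ∀ i, 1 ≤ b i) (hbθ : ∀ i, b i ≤ θ i) (hθl : ∀ i, θ i ≤ lam i)
    (hd : ∀ i, (d i).Ok S) (hfd : PData.FBd S d θ) (hX : ∀ i a, S.Sm (X i a))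
    (hXr : ∀ i a, Rl (X i a)) (hF : FrmBd S θ b d X F) :
    KOp S θ (fun i => θ i / lam i) (fun i a => ((d i).ray a).K) (KF S lam d X F m)
      (fun a j i => S.D j ((d i).ray a).Ψ) (fun a b' i => (F i (Sum.inl a)).E b') := by
  have h1θ : ∀ i, 1 ≤ θ i := fun i => (hb i).trans (hbθ i)
  have hθ0 : ∀ i, 0 ≤ θ i := fun i => zero_le_one.trans (h1θ i)
  have hl0 : ∀ i, lam i ≠ 0 := fun i => by
    have := (h1θ i).trans (hθl i)
    positivity
  have hu : ∀ a : Q, usedRay (Sum.inl a : Q ⊕ (Q × Q × Bool)) := fun _ => trivial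
  have hok : ∀ i a, (F i (Sum.inl a)).Ok S ((d i).ray a) (X i) := fun i a =>
    hF.ok i (Sum.inl a) (hu a)
  have slow : ∀ (v : ι → P → ℂ), S.FO (fun _ => 1) (fun _ => 1) v → S.FO θ (fun _ => 1) v :=
    fun v hv => hv.mono_mu h1θ (fun _ => zero_le_one) fun _ => zero_le_one
  have smB : ∀ a (α : ι → P → ℂ), (∀ i, S.Sm (α i)) → (∀ i, S.Zs ((d i).ray a).K (α i)) →
      ∀ i c, S.Sm (S.ker (lam i) ((d i).ray a) (F i (Sum.inl a)) (X i) m (α i) c) := by
    intro a α hα hz i c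
    exact (hA (lam i) ((d i).ray a) (F i (Sum.inl a)) (X i) m (α i) (hl0 i) ((hd i).ray a)
      (hX i) (hXr i) (hok i a) (hα i) (hz i)).1 c
  refine ⟨?_, ?_, ?_, ?_, ?_, ?_, ?_, ?_, ?_⟩
  · intro a j b' α β hα hβ zα zβ i p
    have e : ∀ c, S.ker (lam i) ((d i).ray a) (F i (Sum.inl a)) (X i) m (α i - β i) c
        = S.ker (lam i) ((d i).ray a) (F i (Sum.inl a)) (X i) m (α i) c
          - S.ker (lam i) ((d i).ray a) (F i (Sum.inl a)) (X i) m (β i) c := by
      intro c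
      funext q
      have h1 := hL (lam i) ((d i).ray a) (F i (Sum.inl a)) (X i) m (α i) (β i) (-1)
        ((hd i).ray a) (hX i) (hok i a) (hα i) (hβ i) c q
      have h2 : (fun q => α i q + (-1 : ℂ) * β i q) = α i - β i := by
        funext q
        simp only [Pi.sub_apply]
        ring
      rw [h2] at h1
      rw [h1, Pi.sub_apply]
      ring
    unfold KF DAlg.kerB
    simp only [e]
    rw [S.D_sub j (smB a α hα zα i b') (smB a β hβ zβ i b')]
    simp only [Pi.sub_apply]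
    ring
  · intro a b' α hα hz i p c hc
    unfold KF DAlg.kerB
    have h1 := hc _ (smB a α hα hz i b')
    have h2 := hc _ ((hd i).ray a).smΨ
    simp only [mul_add, Finset.sum_add_distrib]
    rw [h1, zero_add]
    have e : ∀ j, c j * (Complex.I * (lam i) * S.D j ((d i).ray a).Ψ p *
        S.ker (lam i) ((d i).ray a) (F i (Sum.inl a)) (X i) m (α i) b' p)
        = (c j * S.D j ((d i).ray a).Ψ p) * (Complex.I * (lam i) *
          S.ker (lam i) ((d i).ray a) (F i (Sum.inl a)) (X i) m (α i) b' p) := fun j => by ring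
    simp only [e]
    rw [← Finset.sum_mul, h2, zero_mul]
  · intro a b' α hα hz i p c hc
    unfold KF DAlg.kerB
    have h1 := DAlg.Ann.conj hc (smB a α hα hz i b')
    have h2 := DAlg.Ann.conj hc ((hd i).ray a).smΨ
    simp only [map_add, mul_add, Finset.sum_add_distrib]
    rw [h1, zero_add]
    have e : ∀ j, c j * (starRingEnd ℂ) (Complex.I * (lam i) * S.D j ((d i).ray a).Ψ p *
        S.ker (lam i) ((d i).ray a) (F i (Sum.inl a)) (X i) m (α i) b' p)
        = (c j * (starRingEnd ℂ) (S.D j ((d i).ray a).Ψ p)) * ((starRingEnd ℂ)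
          (Complex.I * (lam i)) * (starRingEnd ℂ)
          (S.ker (lam i) ((d i).ray a) (F i (Sum.inl a)) (X i) m (α i) b' p)) := fun j => by
      simp only [map_mul]
      ring
    simp only [e]
    rw [← Finset.sum_mul, h2, zero_mul]
  · intro a j b' s α hs hz hα
    have h := (hB ι θ b lam s (fun i => (d i).ray a) (fun i => F i (Sum.inl a)) X m α hb hbθ
      hθl hs (fun j => slow _ (hfd.t (Sum.inl a) (hu a) j))
      (fun j => slow _ (hfd.w (Sum.inl a) (hu a) j))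
      (fun j => slow _ (hfd.Ψ (Sum.inl a) (hu a) j))
      (hF.E (Sum.inl a) (hu a)) (hF.N (Sum.inl a) (hu a)) (hF.P1 (Sum.inl a) (hu a))
      (hF.P2 (Sum.inl a) (hu a)) (hF.tt (Sum.inl a) (hu a)) (hF.wt (Sum.inl a) (hu a))
      (hF.tw (Sum.inl a) (hu a)) hα).2.1 j b'
    exact h
  · intro a i p hp
    exact (hok i a).EE p hp
  · exact fun a b' i => (hok i a).rE b'
  · exact fun a j i => S.rl_D j ((hd i).ray a).smΨ ((hd i).ray a).rΨ
  · exact fun a b' => hF.E (Sum.inl a) (hu a) b'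
  · exact fun a j => slow _ (hfd.Ψ (Sum.inl a) (hu a) j)

/-- **(S)** the absorption -/
theorem DAlg.absorbU (hA : S.KerAlg) (hB : S.KerB) (hL : S.KerLin) : S.AbsorbU Q := by
  intro m n ι θ b lam c0 d X F T hc0 hb hbθ hθl hd hfd hX hXr hF hTi hTr hT hlow
  have h1θ : ∀ i, 1 ≤ θ i := fun i => (hb i).trans (hbθ i)
  have hθ0 : ∀ i, 0 ≤ θ i := fun i => zero_le_one.trans (h1θ i)
  have hl0 : ∀ i, 0 < lam i := fun i => by
    have := (h1θ i).trans (hθl i)
    positivity
  have slow : ∀ (v : ι → P → ℂ), S.FO (fun _ => 1) (fun _ => 1) v → S.FO θ (fun _ => 1) v :=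
    fun v hv => hv.mono_mu h1θ (fun _ => zero_le_one) fun _ => zero_le_one
  have hK := kop hA hB hL m hb hbθ hθl hd hfd hX hXr hF
  have hD : AbsData S θ (fun i a => ((d i).ray a).K) (fun a j i => S.D j ((d i).ray a).Ψ)
      (fun a i => (d i).χ a) (fun a j k i => (d i).ℓ a j k) := by
    refine ⟨⟨fun a i => (hd i).smχ a, fun a i => (hd i).rχ a, fun a i => (hd i).zχ a⟩,
      hfd.χ, fun a j k i => (hd i).rℓ a j k, fun a j k => slow _ (hfd.ℓ a j k), ?_⟩
    intro T' i hT' j k p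
    exact (hd i).dec (fun j k => T' j k i) hT' j k p
  obtain ⟨α, hα, fα, hR⟩ := absorb_core hK hD hθ0
    (fun i => div_nonneg (hθ0 i) (hl0 i).le) (fun i => (div_le_one (hl0 i)).2 (hθl i))
    (T := fun j k i => T i j k) (fun i => hTi i) (fun j k i => hTr i j k) hT hc0
    (fun a i p hp => hlow i a p hp) n
  refine ⟨fun i a => α a i, fun i a => hα.sm a i, fun i a => hα.rl a i, fun i a => hα.zs a i,
    fα, fun j k => (hR j k).congr fun i p => ?_⟩
  rw [slowM_eq_Bf]

end Vale.Agent.P205.F
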