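import Vale.Agent.P205.F.CompFO

/-!
A smooth function with bounded derivatives which is the inverse square root on `[1, ∞)`, and the
inverse square root of a family bounded below on a set.
-/

noncomputable section

open scoped ContDiff

namespace Vale.Agent.P205.F

/-- equal to `y` for `y ≥ 1`, at least `1/2` -/
def kf (y : ℝ) : ℝ := 1 / 2 + (y - 1 / 2) * Real.smoothTransition (4 * y - 3)

theorem kf_of_one_le {y : ℝ} (hy : 1 ≤ y) : kf y = y := by
  unfold kf
  rw [Real.smoothTransition.one_of_one_le (by linarith)]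
  ring

theorem kf_of_le {y : ℝ} (hy : y ≤ 3 / 4) : kf y = 1 / 2 := by
  unfold kf
  rw [Real.smoothTransition.zero_of_nonpos (by linarith)]
  ring

theorem half_le_kf (y : ℝ) : 1 / 2 ≤ kf y := by
  rcases le_total y (3 / 4) with h | h
  · rw [kf_of_le h]
  · unfold kf
    have h1 := Real.smoothTransition.nonneg (4 * y - 3)
    have h2 : 0 ≤ (y - 1 / 2) * Real.smoothTransition (4 * y - 3) :=
      mul_nonneg (by linarith) h1
    linarith

theorem kf_smooth : ContDiff ℝ ∞ kf := by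
  unfold kf
  have h1 : ContDiff ℝ ∞ (fun y : ℝ => Real.smoothTransition (4 * y - 3)) :=
    Real.smoothTransition.contDiff.comp ((contDiff_const.mul contDiff_id).sub contDiff_const)
  exact contDiff_const.add ((contDiff_id.sub contDiff_const).mul h1)

/-- derivative of `kf` as a complex function -/
def kg (y : ℝ) : ℂ := ((deriv kf y : ℝ) : ℂ)

theorem kf'_smooth : ContDiff ℝ ∞ (deriv kf) := by
  have h2 := kf_smooth
  rw [show (∞ : WithTop ℕ∞) = ∞ + 1 from rfl] at h2
  exact (contDiff_succ_iff_deriv.1 h2).2.2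

theorem kg_smooth : ContDiff ℝ ∞ kg := Complex.ofRealCLM.contDiff.comp kf'_smooth

theorem kf'_of_lt {y : ℝ} (hy : y < 3 / 4) : deriv kf y = 0 := by
  have h : kf =ᶠ[nhds y] fun _ => 1 / 2 := by
    filter_upwards [Iio_mem_nhds hy] with z hz
    exact kf_of_le (le_of_lt hz)
  rw [h.deriv_eq]
  exact deriv_const y _

theorem kf'_of_gt {y : ℝ} (hy : 1 < y) : deriv kf y = 1 := by
  have h : kf =ᶠ[nhds y] fun z => z := by
    filter_upwards [Ioi_mem_nhds hy] with z hz
    exact kf_of_one_le (le_of_lt hz)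
  rw [h.deriv_eq]
  exact deriv_id y

theorem kg_bf : BF kg := by
  have hc : HasCompactSupport (deriv kg) := by
    refine HasCompactSupport.intro (isCompact_Icc (a := (3 / 4 : ℝ)) (b := 1)) fun y hy => ?_
    rw [Set.mem_Icc, not_and_or, not_le, not_le] at hy
    rcases hy with hy | hy
    · have h : kg =ᶠ[nhds y] fun _ => 0 := by
        filter_upwards [Iio_mem_nhds hy] with z hz
        unfold kg
        rw [kf'_of_lt hz]
        simp
      rw [h.deriv_eq]
      exact deriv_const y _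
    · have h : kg =ᶠ[nhds y] fun _ => 1 := by
        filter_upwards [Ioi_mem_nhds hy] with z hz
        unfold kg
        rw [kf'_of_gt hz]
        simp
      rw [h.deriv_eq]
      exact deriv_const y _
  obtain ⟨B, hB⟩ := (isCompact_Icc (a := (3 / 4 : ℝ)) (b := 1)).exists_bound_of_continuousOn
    (f := kg) kg_smooth.continuous.continuousOn
  refine BF.of_deriv_compact kg_smooth hc (B := max B 1) fun y => ?_
  by_cases hy : y ∈ Set.Icc (3 / 4 : ℝ) 1
  · exact (hB y hy).trans (le_max_left _ _)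
  · rw [Set.mem_Icc, not_and_or, not_le, not_le] at hy
    refine le_trans ?_ (le_max_right _ _)
    rcases hy with hy | hy
    · unfold kg
      rw [kf'_of_lt hy]
      simp
    · unfold kg
      rw [kf'_of_gt hy]
      simp

/-- inverse square root on `[1, ∞)` -/
def kh (y : ℝ) : ℝ := (Real.sqrt (kf y))⁻¹

theorem kf_pos (y : ℝ) : 0 < kf y := lt_of_lt_of_le (by norm_num) (half_le_kf y)

theorem kh_smooth : ContDiff ℝ ∞ kh := by
  unfold kh
  exact (kf_smooth.sqrt fun y => (kf_pos y).ne').inv fun y => (Real.sqrt_pos.2 (kf_pos y)).ne'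

/-- complex version -/
def kH (y : ℝ) : ℂ := ((kh y : ℝ) : ℂ)

theorem kH_smooth : ContDiff ℝ ∞ kH := Complex.ofRealCLM.contDiff.comp kh_smooth

theorem kH_deriv : deriv kH = fun y => (-1 / 2 : ℂ) * (kg y * (kH y * (kH y * kH y))) := by
  funext y
  have h0 := kf_pos y
  have hs : Real.sqrt (kf y) ≠ 0 := (Real.sqrt_pos.2 h0).ne'
  have h1 : HasDerivAt kf (deriv kf y) y :=
    (kf_smooth.differentiable (by simp) y).hasDerivAt
  have h2 : HasDerivAt kh (-(deriv kf y / (2 * Real.sqrt (kf y))) / (Real.sqrt (kf y)) ^ 2) y :=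
    (h1.sqrt h0.ne').inv hs
  have h3 : HasDerivAt kH
      (((-(deriv kf y / (2 * Real.sqrt (kf y))) / (Real.sqrt (kf y)) ^ 2 : ℝ)) : ℂ) y :=
    h2.ofReal_comp
  rw [h3.deriv]
  have e : (-(deriv kf y / (2 * Real.sqrt (kf y))) / (Real.sqrt (kf y)) ^ 2 : ℝ)
      = (-1 / 2) * (deriv kf y * (kh y * (kh y * kh y))) := by
    unfold kh
    field_simp
  rw [e]
  unfold kg kH
  push_cast
  ring

theorem kH_norm_le (y : ℝ) : ‖kH y‖ ≤ 2 := by
  unfold kH kh
  rw [Complex.norm_real, Real.norm_eq_abs, abs_of_nonneg (inv_nonneg.2 (Real.sqrt_nonneg _))]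
  rw [inv_le_comm₀ (Real.sqrt_pos.2 (kf_pos y)) (by norm_num)]
  rw [Real.le_sqrt' (by norm_num)]
  have := half_le_kf y
  linarith

theorem kH_bf : BF kH := by
  intro k
  induction k with
  | zero =>
    exact ⟨2, fun j hj x => by
      have : j = 0 := by omega
      subst this
      rw [iteratedDeriv_zero]
      exact kH_norm_le x⟩
  | succ k ih =>
    obtain ⟨B, hB⟩ := ih
    obtain ⟨C, hC⟩ := kg_bf k
    obtain ⟨A1, h1⟩ := hB.mul kH_smooth kH_smooth hB
    obtain ⟨A2, h2⟩ := hB.mul kH_smooth (kH_smooth.mul kH_smooth) h1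
    obtain ⟨A3, h3⟩ := hC.mul kg_smooth (kH_smooth.mul (kH_smooth.mul kH_smooth)) h2
    obtain ⟨D, hD⟩ := BF.const (-1 / 2 : ℂ) k
    obtain ⟨A4, h4⟩ := hD.mul contDiff_const
      (kg_smooth.mul (kH_smooth.mul (kH_smooth.mul kH_smooth))) h3
    refine ⟨_, BFn.of_deriv kH_norm_le (C := A4) ?_⟩
    rw [kH_deriv]
    exact h4

theorem kH_sq {y : ℝ} (hy : 1 ≤ y) : kH y ^ 2 * (y : ℂ) = 1 := by
  unfold kH kh
  rw [kf_of_one_le hy]
  have h0 : (0 : ℝ) < y := by linarith
  have h : (Real.sqrt y)⁻¹ ^ 2 * y = 1 := by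
    rw [inv_pow, Real.sq_sqrt h0.le]
    exact inv_mul_cancel₀ h0.ne'
  exact_mod_cast h

theorem kH_im (y : ℝ) : (kH y).im = 0 := Complex.ofReal_im _

variable {P κ : Type*} {S : DAlg P κ} {ι : Type*} {μ L s : ι → ℝ} {u : ι → P → ℂ}

/-- inverse square root of a real family `u = O(s)` with `1 / L ≤ u` on `K`:
`σ = O(√L)` at scale `L s μ` and `σ² u = 1` on `K` -/
theorem DAlg.FO.exists_invSqrt (hu : S.FO μ s u) (hμ : ∀ i, 0 ≤ μ i) (hL : ∀ i, 1 ≤ L i)
    (hs : ∀ i, 1 ≤ s i) (hr : ∀ i, Rl (u i)) (K : ι → Set P)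
    (hK : ∀ i, ∀ p ∈ K i, 1 / L i ≤ (u i p).re) :
    ∃ σ : ι → P → ℂ, (∀ i, Rl (σ i)) ∧ S.FO (fun i => μ i * (L i * s i)) L σ ∧
      ∀ i, ∀ p ∈ K i, σ i p ^ 2 * u i p = 1 := by
  have hLs : ∀ i, 1 ≤ L i * s i := fun i => one_le_mul_of_one_le_of_one_le (hL i) (hs i)
  have hu1 : S.FO μ (fun i => L i * s i) (fun i p => (L i : ℂ) * u i p) :=
    DAlg.FO.real_mul (fun i => by linarith [hL i]) hu
  have hr1 : ∀ i, Rl (fun p => (L i : ℂ) * u i p) := fun i =>
    Rl.smul (Complex.ofReal_im _) (hr i)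
  have h1 := DAlg.FO.comp kH_smooth kH_bf hu1 hμ hLs hr1
  have hsq : ∀ i, 0 ≤ Real.sqrt (L i) := fun i => Real.sqrt_nonneg _
  have h2 := DAlg.FO.real_mul (r := fun i => Real.sqrt (L i)) hsq h1
  refine ⟨fun i p => ((Real.sqrt (L i) : ℝ) : ℂ) * kH ((L i : ℂ) * u i p).re, fun i => ?_, ?_,
    fun i p hp => ?_⟩
  · exact Rl.smul (Complex.ofReal_im _) fun p => kH_im _
  · refine h2.mono_s' (fun i => ?_) fun i =>
      mul_nonneg (hμ i) (by linarith [hLs i])
    rw [mul_one]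
    have := hL i
    rw [Real.sqrt_le_left (by linarith)]
    nlinarith
  · have hLi : (0 : ℝ) < L i := by linarith [hL i]
    have h3 := hK i p hp
    have h4 : u i p = ((u i p).re : ℂ) := (Rl.ofReal_re (hr i) p).symm
    have h5 : ((L i : ℂ) * u i p).re = L i * (u i p).re := by
      rw [Complex.re_ofReal_mul]
    have h6 : 1 ≤ L i * (u i p).re := by
      rw [div_le_iff₀ hLi] at h3
      linarith
    have h7 := kH_sq h6
    have h8 : (((Real.sqrt (L i) : ℝ) : ℂ)) ^ 2 = ((L i : ℝ) : ℂ) := by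
      rw [← Complex.ofReal_pow, Real.sq_sqrt hLi.le]
    change (((Real.sqrt (L i) : ℝ) : ℂ) * kH ((L i : ℂ) * u i p).re) ^ 2 * u i p = 1
    rw [h5, mul_pow, h8]
    calc ((L i : ℝ) : ℂ) * kH (L i * (u i p).re) ^ 2 * u i p
        = kH (L i * (u i p).re) ^ 2 * (((L i : ℝ) : ℂ) * u i p) := by ring
      _ = kH (L i * (u i p).re) ^ 2 * ((L i * (u i p).re : ℝ) : ℂ) := by
          rw [Complex.ofReal_mul, ← h4]
      _ = 1 := h7

end Vale.Agent.P205.F
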