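import Vale.Agent.P205.F.StageDef
import Vale.Agent.P205.F.InvSqrt

/-!
Absorption of the slow part of the quadratic term: the iteration in abstract form.
-/

noncomputable section

namespace Vale.Agent.P205.F

universe u

variable {P : Type u} {κ : Type} [Fintype κ] {S : DAlg P κ}

/-! ### tensors -/

/-- the relations between the derivations at `p` -/
def DAlg.Ann (S : DAlg P κ) (p : P) (c : κ → ℂ) : Prop :=
  ∀ u, S.Sm u → ∑ j, c j * S.D j u p = 0

theorem DAlg.IsT.sub {T T' : κ → κ → P → ℂ} (h : S.IsT T) (h' : S.IsT T') :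
    S.IsT (fun j k p => T j k p - T' j k p) := by
  refine ⟨fun j k => ?_, fun p c hc k => ?_⟩
  · funext p
    simp only [h.1 j k, h'.1 j k]
  · simp only [mul_sub, Finset.sum_sub_distrib]
    rw [h.2 p c hc k, h'.2 p c hc k, sub_zero]

/-- the derivatives of the conjugates -/
theorem DAlg.Ann.conj {p : P} {c : κ → ℂ} (hc : S.Ann p c) {u : P → ℂ} (hu : S.Sm u) :
    ∑ j, c j * (starRingEnd ℂ) (S.D j u p) = 0 := by
  have h := hc _ (S.sm_conj hu)
  rw [← h]
  refine Finset.sum_congr rfl fun j _ => ?_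
  rw [S.D_conj j hu]

/-! ### the abstract operator -/

variable {ι : Type u} {Q : Type} [Fintype Q]

/-- abstract form of the map `α ↦ kerB α` -/
structure KOp (S : DAlg P κ) (θ x : ι → ℝ) (R : ι → Q → Set P)
    (K : Q → κ → Fin 4 → (ι → P → ℂ) → ι → P → ℂ) (dΨ : Q → κ → ι → P → ℂ)
    (E : Q → Fin 4 → ι → P → ℂ) : Prop where
  sub : ∀ a j b (α β : ι → P → ℂ), (∀ i, S.Sm (α i)) → (∀ i, S.Sm (β i)) →
    (∀ i, S.Zs (R i a) (α i)) → (∀ i, S.Zs (R i a) (β i)) → ∀ i p,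
    K a j b (fun i => α i - β i) i p = K a j b α i p - K a j b β i p
  ann : ∀ a b (α : ι → P → ℂ), (∀ i, S.Sm (α i)) → (∀ i, S.Zs (R i a) (α i)) → ∀ i p c,
    S.Ann p c → ∑ j, c j * K a j b α i p = 0
  annc : ∀ a b (α : ι → P → ℂ), (∀ i, S.Sm (α i)) → (∀ i, S.Zs (R i a) (α i)) → ∀ i p c,
    S.Ann p c → ∑ j, c j * (starRingEnd ℂ) (K a j b α i p) = 0
  bd : ∀ a j b (s : ι → ℝ) (α : ι → P → ℂ), (∀ i, 0 ≤ s i) → (∀ i, S.Zs (R i a) (α i)) →
    S.FO θ s α →
    S.FO θ (fun i => s i * x i) (fun i p => K a j b α i p - α i p * dΨ a j i p * E a b i p)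
  EE : ∀ a i, ∀ p ∈ R i a, ∑ b, E a b i p * E a b i p = 1
  rE : ∀ a b i, Rl (E a b i)
  rΨ : ∀ a j i, Rl (dΨ a j i)
  fE : ∀ a b, S.FO θ (fun _ => 1) (E a b)
  fΨ : ∀ a j, S.FO θ (fun _ => 1) (dΨ a j)

variable {θ x : ι → ℝ} {R : ι → Q → Set P}
  {K : Q → κ → Fin 4 → (ι → P → ℂ) → ι → P → ℂ} {dΨ : Q → κ → ι → P → ℂ}
  {E : Q → Fin 4 → ι → P → ℂ}

/-- polarised slow part -/
def Bf (K : Q → κ → Fin 4 → (ι → P → ℂ) → ι → P → ℂ) (α β : Q → ι → P → ℂ) (j k : κ) :
    ι → P → ℂ :=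
  fun i p => ∑ a, ∑ b, (K a j b (α a) i p * (starRingEnd ℂ) (K a k b (β a) i p)
    + (starRingEnd ℂ) (K a j b (α a) i p) * K a k b (β a) i p) / 4

theorem Bf_real (α : Q → ι → P → ℂ) (j k : κ) (i : ι) : Rl (Bf K α α j k i) := by
  intro p
  unfold Bf
  rw [Complex.im_sum]
  refine Finset.sum_eq_zero fun a _ => ?_
  rw [Complex.im_sum]
  refine Finset.sum_eq_zero fun b _ => ?_
  have h : ((K a j b (α a) i p * (starRingEnd ℂ) (K a k b (α a) i p)
    + (starRingEnd ℂ) (K a j b (α a) i p) * K a k b (α a) i p)).im = 0 := by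
    simp only [Complex.add_im, Complex.mul_im, Complex.conj_re, Complex.conj_im]
    ring
  rw [Complex.div_im]
  simp only [Complex.re_ofNat, Complex.im_ofNat, h]
  ring

/-- amplitudes -/
structure Amp (S : DAlg P κ) (R : ι → Q → Set P) (α : Q → ι → P → ℂ) : Prop where
  sm : ∀ a i, S.Sm (α a i)
  rl : ∀ a i, Rl (α a i)
  zs : ∀ a i, S.Zs (R i a) (α a i)

theorem Amp.sub {α β : Q → ι → P → ℂ} (h : Amp S R α) (h' : Amp S R β) :
    Amp S R (fun a i => α a i - β a i) :=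
  ⟨fun a i => S.sm_sub (h.sm a i) (h'.sm a i), fun a i => (h.rl a i).sub (h'.rl a i),
    fun a i => DAlg.Zs.sub (h.sm a i) (h'.sm a i) (h.zs a i) (h'.zs a i)⟩

theorem Bf_isT (hK : KOp S θ x R K dΨ E) {α : Q → ι → P → ℂ} (h : Amp S R α) (i : ι) :
    S.IsT (fun j k => Bf K α α j k i) := by
  refine ⟨fun j k => ?_, fun p c hc k => ?_⟩
  · funext p
    unfold Bf
    refine Finset.sum_congr rfl fun a _ => Finset.sum_congr rfl fun b _ => ?_
    ring
  · unfold Bf
    simp only [Finset.mul_sum]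
    rw [Finset.sum_comm]
    refine Finset.sum_eq_zero fun a _ => ?_
    rw [Finset.sum_comm]
    refine Finset.sum_eq_zero fun b _ => ?_
    have h1 := hK.ann a b (α a) (h.sm a) (h.zs a) i p c hc
    have h2 := hK.annc a b (α a) (h.sm a) (h.zs a) i p c hc
    have e : ∀ j, c j * ((K a j b (α a) i p * (starRingEnd ℂ) (K a k b (α a) i p)
        + (starRingEnd ℂ) (K a j b (α a) i p) * K a k b (α a) i p) / 4)
        = (c j * K a j b (α a) i p) * ((starRingEnd ℂ) (K a k b (α a) i p) / 4)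
          + (c j * (starRingEnd ℂ) (K a j b (α a) i p)) * (K a k b (α a) i p / 4) :=
      fun j => by ring
    simp only [e, Finset.sum_add_distrib, ← Finset.sum_mul]
    rw [h1, h2]
    ring

/-- bound of the operator -/
theorem KOp.fo (hK : KOp S θ x R K dΨ E) (hx0 : ∀ i, 0 ≤ x i) (hx1 : ∀ i, x i ≤ 1)
    (hθ : ∀ i, 0 ≤ θ i) (a : Q) (j : κ) (b : Fin 4) {s : ι → ℝ} {α : ι → P → ℂ}
    (hs : ∀ i, 0 ≤ s i) (hz : ∀ i, S.Zs (R i a) (α i)) (hα : S.FO θ s α) :
    S.FO θ s (K a j b α) := by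
  have h1 := (hK.bd a j b s α hs hz hα).mono_s' (s' := s)
    (fun i => mul_le_of_le_one_right (hs i) (hx1 i)) hθ
  have h2 : S.FO θ s (fun i => α i * dΨ a j i * E a b i) :=
    ((hα.mul (hK.fΨ a j)).mul (hK.fE a b)).congr_s fun i => by ring
  refine (h1.add h2).congr fun i p => ?_
  simp only [Pi.add_apply, Pi.mul_apply]
  ring

/-- bound of the polarised slow part -/
theorem Bf_fo (hK : KOp S θ x R K dΨ E) (hx0 : ∀ i, 0 ≤ x i) (hx1 : ∀ i, x i ≤ 1)
    (hθ : ∀ i, 0 ≤ θ i) {s s' : ι → ℝ} {α β : Q → ι → P → ℂ} (hs : ∀ i, 0 ≤ s i)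
    (hs' : ∀ i, 0 ≤ s' i) (hα : Amp S R α) (hβ : Amp S R β) (fα : ∀ a, S.FO θ s (α a))
    (fβ : ∀ a, S.FO θ s' (β a)) (j k : κ) :
    S.FO θ (fun i => s i * s' i) (Bf K α β j k) := by
  have h : ∀ a b, S.FO θ (fun i => s i * s' i) (fun i p =>
      (1 / 4 : ℂ) * ((K a j b (α a) i p * (starRingEnd ℂ) (K a k b (β a) i p)
    + (starRingEnd ℂ) (K a j b (α a) i p) * K a k b (β a) i p))) := by
    intro a b
    have h1 := hK.fo hx0 hx1 hθ a j b hs (hα.zs a) (fα a)
    have h2 := hK.fo hx0 hx1 hθ a k b hs' (hβ.zs a) (fβ a)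
    exact ((h1.mul h2.conj).add (h1.conj.mul h2)).const_mul (1 / 4)
  have h3 := DAlg.FO.sum' (S := S) (A := (Finset.univ : Finset Q))
    (u := fun a i p => ∑ b ∈ (Finset.univ : Finset (Fin 4)), (1 / 4 : ℂ) *
      ((K a j b (α a) i p * (starRingEnd ℂ) (K a k b (β a) i p)
    + (starRingEnd ℂ) (K a j b (α a) i p) * K a k b (β a) i p)))
    fun a _ => DAlg.FO.sum' (S := S) (A := (Finset.univ : Finset (Fin 4))) fun b _ => h a b
  refine h3.congr fun i p => ?_
  unfold Bf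
  refine Finset.sum_congr rfl fun a _ => Finset.sum_congr rfl fun b _ => ?_
  ring

/-- leading part of the polarised slow part -/
def Lf (dΨ : Q → κ → ι → P → ℂ) (α β : Q → ι → P → ℂ) (j k : κ) : ι → P → ℂ :=
  fun i p => ∑ a, (1 / 2 : ℂ) * (α a i p * β a i p * (dΨ a j i p * dΨ a k i p))

theorem Bf_lead (hK : KOp S θ x R K dΨ E) (hx0 : ∀ i, 0 ≤ x i) (hx1 : ∀ i, x i ≤ 1)
    (hθ : ∀ i, 0 ≤ θ i) {s s' : ι → ℝ} {α β : Q → ι → P → ℂ} (hs : ∀ i, 0 ≤ s i)
    (hs' : ∀ i, 0 ≤ s' i) (hα : Amp S R α) (hβ : Amp S R β) (fα : ∀ a, S.FO θ s (α a))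
    (fβ : ∀ a, S.FO θ s' (β a)) (j k : κ) :
    S.FO θ (fun i => s i * s' i * x i)
      (fun i p => Bf K α β j k i p - Lf dΨ α β j k i p) := by
  -- errors and leading terms
  set lα : Q → κ → Fin 4 → ι → P → ℂ := fun a j b i p => α a i p * dΨ a j i p * E a b i p
    with hlα
  set lβ : Q → κ → Fin 4 → ι → P → ℂ := fun a j b i p => β a i p * dΨ a j i p * E a b i p
    with hlβ
  have h : ∀ a b, S.FO θ (fun i => s i * s' i * x i) (fun i p =>
      (1 / 4 : ℂ) * (((K a j b (α a) i p - lα a j b i p) * (starRingEnd ℂ) (K a k b (β a) i p)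
        + lα a j b i p * (starRingEnd ℂ) (K a k b (β a) i p - lβ a k b i p))
        + ((starRingEnd ℂ) (K a j b (α a) i p - lα a j b i p) * K a k b (β a) i p
        + (starRingEnd ℂ) (lα a j b i p) * (K a k b (β a) i p - lβ a k b i p)))) := by
    intro a b
    have e1 := hK.bd a j b s (α a) hs (hα.zs a) (fα a)
    have e2 := hK.bd a k b s' (β a) hs' (hβ.zs a) (fβ a)
    have h2 := hK.fo hx0 hx1 hθ a k b hs' (hβ.zs a) (fβ a)
    have l1 : S.FO θ s (lα a j b) :=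
      (((fα a).mul (hK.fΨ a j)).mul (hK.fE a b)).congr_s fun i => by ring
    have t1 := (e1.mul h2.conj).congr_s (s' := fun i => s i * s' i * x i) fun i => by ring
    have t2 := (l1.mul e2.conj).congr_s (s' := fun i => s i * s' i * x i) fun i => by ring
    have t3 := (e1.conj.mul h2).congr_s (s' := fun i => s i * s' i * x i) fun i => by ring
    have t4 := (l1.conj.mul e2).congr_s (s' := fun i => s i * s' i * x i) fun i => by ring
    exact ((t1.add t2).add (t3.add t4)).const_mul (1 / 4)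
  have h3 := DAlg.FO.sum' (S := S) (A := (Finset.univ : Finset Q))
    fun a _ => DAlg.FO.sum' (S := S) (A := (Finset.univ : Finset (Fin 4))) fun b _ => h a b
  refine h3.congr fun i p => ?_
  -- pointwise identity
  have key : Lf dΨ α β j k i p = ∑ a, ∑ b, (1 / 4 : ℂ) *
      (lα a j b i p * (starRingEnd ℂ) (lβ a k b i p)
        + (starRingEnd ℂ) (lα a j b i p) * lβ a k b i p) := by
    unfold Lf
    refine Finset.sum_congr rfl fun a _ => ?_
    have c1 : (starRingEnd ℂ) (α a i p) = α a i p := Complex.conj_eq_iff_im.2 (hα.rl a i p)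
    have c2 : (starRingEnd ℂ) (β a i p) = β a i p := Complex.conj_eq_iff_im.2 (hβ.rl a i p)
    have c3 : ∀ j, (starRingEnd ℂ) (dΨ a j i p) = dΨ a j i p := fun j =>
      Complex.conj_eq_iff_im.2 (hK.rΨ a j i p)
    have c4 : ∀ b, (starRingEnd ℂ) (E a b i p) = E a b i p := fun b =>
      Complex.conj_eq_iff_im.2 (hK.rE a b i p)
    by_cases hp : p ∈ R i a
    · have hE := hK.EE a i p hp
      have e : ∀ b, (1 / 4 : ℂ) * (lα a j b i p * (starRingEnd ℂ) (lβ a k b i p)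
          + (starRingEnd ℂ) (lα a j b i p) * lβ a k b i p)
          = (1 / 2 : ℂ) * (α a i p * β a i p * (dΨ a j i p * dΨ a k i p))
            * (E a b i p * E a b i p) := by
        intro b
        simp only [hlα, hlβ, map_mul, c1, c2, c3, c4]
        ring
      simp only [e]
      rw [← Finset.mul_sum, hE, mul_one]
    · have z : α a i p = 0 := (hα.zs a i).apply hp
      simp [hlα, z]
  rw [key]
  unfold Bf
  rw [← Finset.sum_sub_distrib]
  refine Finset.sum_congr rfl fun a _ => ?_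
  rw [← Finset.sum_sub_distrib]
  refine Finset.sum_congr rfl fun b _ => ?_
  simp only [map_sub]
  ring

end Vale.Agent.P205.F
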