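import Vale.Agent.P205.F.QuadDef

/-!
Absorption of the slow part of the quadratic term: statement (scale invariant form,
`1 ≤ b ≤ θ ≤ λ`, all constants `O(1)`).
-/

noncomputable section

namespace Vale.Agent.P205.F

universe u

variable {P : Type u} {κ : Type} [Fintype κ] (S : DAlg P κ)

/-- **(S)** absorption of the slow part: amplitudes `α = O(1)` with
`slowM(sB α) = T + O((θ/λ)^(n+1))`; no restriction of the family is needed -/
def DAlg.AbsorbU (Q : Type) [Fintype Q] : Prop :=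
  ∀ (m n : ℕ) (ι : Type u) (θ b lam : ι → ℝ) (c0 : ℝ) (d : ι → PData P κ Q)
    (X : ι → Fin 4 → P → ℂ) (F : ι → Q ⊕ (Q × Q × Bool) → Frm P) (T : ι → κ → κ → P → ℂ),
    0 < c0 → (∀ i, 1 ≤ b i) → (∀ i, b i ≤ θ i) → (∀ i, θ i ≤ lam i) →
    (∀ i, (d i).Ok S) → PData.FBd S d θ → (∀ i a, S.Sm (X i a)) → (∀ i a, Rl (X i a)) →
    FrmBd S θ b d X F →
    (∀ i, S.IsT (T i)) → (∀ i j k, Rl (T i j k)) →
    (∀ j k, S.FO θ (fun _ => 1) (fun i => T i j k)) →
    (∀ i a p, p ∈ ((d i).ray a).K → c0 ≤ ((d i).ell a (T i) p).re) →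
    ∃ α : ι → Q → P → ℂ, (∀ i a, S.Sm (α i a)) ∧ (∀ i a, Rl (α i a)) ∧
      (∀ i a, S.Zs ((d i).ray a).K (α i a)) ∧
      (∀ a, S.FO θ (fun _ => 1) (fun i => α i a)) ∧
      ∀ j k, S.FO θ (fun i => (θ i / lam i) ^ (n + 1))
        (fun i p => slowM (S.sB (lam i) (d i) (F i) (X i) m (α i)) j k p - T i j k p)

end Vale.Agent.P205.F
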