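import Vale.Agent.P205.F.Stage0

/-!
Assembly of the stage `StageF` from `Prep`, the absorption of the slow part, `QuadAlg`, `KerB`,
`WkbB`.
-/

noncomputable section

open scoped Classical

namespace Vale.Agent.P205.F

universe u

variable {P : Type u} {κ : Type} [Fintype κ] {S : DAlg P κ}

/-- **(S)** absorption of the slow part, in the form used by the stage -/
def DAlg.AbsU (S : DAlg P κ) (Q : Type) [Fintype Q] : Prop :=
  ∀ (m : ℕ) (ι : Type u) (θ b lam : ι → ℝ) (c0 : ℝ) (d : ι → PData P κ Q)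
    (X : ι → Fin 4 → P → ℂ) (F : ι → Q ⊕ (Q × Q × Bool) → Frm P) (T : ι → κ → κ → P → ℂ),
    0 < c0 → (∀ i, 1 ≤ b i) → (∀ i, b i ≤ θ i) → (∀ i, θ i ≤ lam i) →
    (∀ i, (d i).Ok S) → PData.FBd S d θ → (∀ i a, S.Sm (X i a)) → (∀ i a, Rl (X i a)) →
    FrmBd S θ b d X F →
    (∀ i, S.IsT (T i)) → (∀ i j k, Rl (T i j k)) →
    (∀ j k, S.FO θ (fun _ => 1) (fun i => T i j k)) →
    (∀ i a p, p ∈ ((d i).ray a).K → c0 ≤ ((d i).ell a (T i) p).re) →
    ∃ α : ι → Q → P → ℂ, (∀ i a, S.Sm (α i a)) ∧ (∀ i a, Rl (α i a)) ∧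
      (∀ i a, S.Zs ((d i).ray a).K (α i a)) ∧ (∀ a, S.FO θ (fun _ => 1) (fun i => α i a)) ∧
      ∀ j k, S.FO θ (fun i => (θ i / lam i) ^ m)
        (fun i p => slowM (S.sB (lam i) (d i) (F i) (X i) m (α i)) j k p - T i j k p)

namespace StB

variable {Q : Type} [Fintype Q] {ι : Type u} {θ b lam : ι → ℝ} {d : ι → PData P κ Q}
  {X : ι → Fin 4 → P → ℂ} {F : ι → Q ⊕ (Q × Q × Bool) → Frm P} {α : ι → Q → P → ℂ}

theorem lb1 (H : StB S θ b lam d X F α) (i : ι) : 1 ≤ lam i / b i :=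
  (one_le_div (H.bpos i)).2 ((H.hθ i).trans (H.hlam i))

theorem Du1_bd (H : StB S θ b lam d X F α) (hKB : S.KerB) (m : ℕ) (j : κ) (c : Fin 4) :
    S.FO lam (fun _ => 1)
      (fun i => S.Dv j (S.su1 (lam i) (d i) (F i) (X i) m (α i)) c) :=
  ((H.u1_bd hKB m c).D j).congr_s fun i => div_mul_cancel₀ _ (H.lampos i).ne'

theorem Du2_bd (H : StB S θ b lam d X F α) (hKB : S.KerB) (hWB : S.WkbB) (m : ℕ) (j : κ)
    (c : Fin 4) :
    S.FO lam (fun i => lam i / b i)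
      (fun i => S.Dv j (S.su2 (lam i) (d i) (F i) (X i) m (α i)) c) :=
  ((H.u2_bd hKB hWB m c).D j).congr_s fun i => by ring

theorem y_bd (H : StB S θ b lam d X F α) (hKB : S.KerB) (hWB : S.WkbB) (m : ℕ) {ε : ι → ℝ}
    (hε : ∀ i, 0 ≤ ε i) (hε1 : ∀ i, ε i ≤ 1) (c : Fin 4) :
    S.FO lam (fun i => ε i / b i)
      (fun i => S.sy (lam i) (d i) (F i) (X i) m (α i) (ε i) c) := by
  have h1 := (DAlg.FO.real_mul hε (H.u1_bd hKB m c)).mono_s' (s' := fun i => ε i / b i)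
    (fun i => by
      rw [mul_one_div]
      exact div_le_div_of_nonneg_left (hε i) (H.bpos i) ((H.hθ i).trans (H.hlam i))) H.lam0
  have h2 := (DAlg.FO.real_mul (fun i => pow_nonneg (hε i) 2) (H.u2_bd hKB hWB m c)).mono_s'
    (s' := fun i => ε i / b i) (fun i => by
      rw [mul_one_div]
      refine div_le_div_of_nonneg_right ?_ (H.bpos i).le
      nlinarith [hε i, hε1 i]) H.lam0
  refine (h1.add h2).congr fun i q => ?_
  simp only [Pi.add_apply, DAlg.sy]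
  push_cast
  rfl

theorem rl_su1 (lam : ℝ) (d : PData P κ Q) (F : Q ⊕ (Q × Q × Bool) → Frm P)
    (X : Fin 4 → P → ℂ) (m : ℕ) (α : Q → P → ℂ) (c : Fin 4) :
    Rl (S.su1 lam d F X m α c) := by
  unfold DAlg.su1
  exact Rl.sum fun a _ => Rl.ofReal _

theorem rl_su2 (lam : ℝ) (d : PData P κ Q) (F : Q ⊕ (Q × Q × Bool) → Frm P)
    (X : Fin 4 → P → ℂ) (m : ℕ) (α : Q → P → ℂ) (c : Fin 4) :
    Rl (S.su2 lam d F X m α c) := by
  unfold DAlg.su2
  refine Rl.neg (u := fun q => _) (Rl.sum fun x _ => ?_)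
  by_cases hx : usedRay (Sum.inr x)
  · simp only [if_pos hx]
    exact Rl.ofReal _
  · simp only [if_neg hx]
    exact Rl.const (by simp)

theorem rl_sy (lam : ℝ) (d : PData P κ Q) (F : Q ⊕ (Q × Q × Bool) → Frm P)
    (X : Fin 4 → P → ℂ) (m : ℕ) (α : Q → P → ℂ) (ε : ℝ) (c : Fin 4) :
    Rl (S.sy lam d F X m α ε c) := by
  intro q
  have h1 := rl_su1 (S := S) lam d F X m α c q
  have h2 := rl_su2 (S := S) lam d F X m α c q
  simp only [DAlg.sy, Complex.add_im, Complex.mul_im, h1, h2, Complex.ofReal_im]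
  have h3 : ((ε : ℂ) ^ 2).im = 0 := by
    rw [← Complex.ofReal_pow]; exact Complex.ofReal_im _
  rw [h3]; ring

theorem err_bd (H : StB S θ b lam d X F α) (hKB : S.KerB) (hWB : S.WkbB) (hQ : S.QuadAlg Q)
    (m : ℕ) {ε : ι → ℝ} (hε : ∀ i, 0 ≤ ε i) (hε1 : ∀ i, ε i ≤ 1) {T : ι → κ → κ → P → ℂ}
    (hM : ∀ j k, S.FO θ (fun i => (θ i / lam i) ^ m)
        (fun i p => slowM (S.sB (lam i) (d i) (F i) (X i) m (α i)) j k p - T i j k p))
    (j k : κ) :
    S.FO lam (fun i => ε i * (θ i / lam i) ^ m + ε i ^ 3 * (lam i / b i) ^ 2)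
        (fun i p => S.met (fun a => X i a + S.sy (lam i) (d i) (F i) (X i) m (α i) (ε i) a) j k p
          - S.met (X i) j k p - ε i ^ 2 * T i j k p) := by
  have r0 : ∀ i, 0 ≤ (θ i / lam i) ^ m := fun i => pow_nonneg (H.ρ0 i) m
  have l0 : ∀ i, 0 ≤ ε i ^ 3 * (lam i / b i) ^ 2 := fun i =>
    mul_nonneg (pow_nonneg (hε i) 3) (sq_nonneg _)
  have e0 : ∀ i, 0 ≤ ε i * (θ i / lam i) ^ m := fun i => mul_nonneg (hε i) (r0 i)
  have e2 : ∀ i, ε i ^ 2 ≤ ε i := fun i => by nlinarith [hε i, hε1 i]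
  have e2' : ∀ i, ε i ^ 2 * (θ i / lam i) ^ m ≤
      ε i * (θ i / lam i) ^ m + ε i ^ 3 * (lam i / b i) ^ 2 := fun i => by
    have := mul_le_mul_of_nonneg_right (e2 i) (r0 i)
    linarith [l0 i]
  have A1 := (DAlg.FO.real_mul hε (H.t1_bd hKB m j k)).mono_s'
    (s' := fun i => ε i * (θ i / lam i) ^ m + ε i ^ 3 * (lam i / b i) ^ 2)
    (fun i => by linarith [l0 i]) H.lam0
  have A2 := (DAlg.FO.real_mul (fun i => pow_nonneg (hε i) 2) (H.t2_bd hKB hWB m j k)).mono_s'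
    (s' := fun i => ε i * (θ i / lam i) ^ m + ε i ^ 3 * (lam i / b i) ^ 2) e2' H.lam0
  have A3 := (DAlg.FO.real_mul (fun i => pow_nonneg (hε i) 2)
    ((hM j k).mono_mu H.hlam H.θ0 r0)).mono_s'
    (s' := fun i => ε i * (θ i / lam i) ^ m + ε i ^ 3 * (lam i / b i) ^ 2) e2' H.lam0
  have D1 := fun j c => H.Du1_bd hKB m j c
  have D2 := fun j c => H.Du2_bd hKB hWB m j c
  have A4 : S.FO lam (fun i => ε i * (θ i / lam i) ^ m + ε i ^ 3 * (lam i / b i) ^ 2)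
      (fun i p => ((ε i ^ 3 : ℝ) : ℂ) * ((fun i =>
        dot (S.Dv j (S.su1 (lam i) (d i) (F i) (X i) m (α i)))
          (S.Dv k (S.su2 (lam i) (d i) (F i) (X i) m (α i)))
        + dot (S.Dv j (S.su2 (lam i) (d i) (F i) (X i) m (α i)))
          (S.Dv k (S.su1 (lam i) (d i) (F i) (X i) m (α i)))) i p)) := by
    refine (DAlg.FO.real_mul (fun i => pow_nonneg (hε i) 3)
      (((DAlg.FO.dot (D1 j) (D2 k)).congr_s fun i => one_mul _).add
        ((DAlg.FO.dot (D2 j) (D1 k)).congr_s fun i => mul_one _))).mono_s' (fun i => ?_) H.lam0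
    have h1 := H.lb1 i
    have h2 : lam i / b i ≤ (lam i / b i) ^ 2 := by nlinarith
    have h3 := mul_le_mul_of_nonneg_left h2 (pow_nonneg (hε i) 3)
    linarith [e0 i]
  have A5 : S.FO lam (fun i => ε i * (θ i / lam i) ^ m + ε i ^ 3 * (lam i / b i) ^ 2)
      (fun i p => ((ε i ^ 4 : ℝ) : ℂ) * ((fun i =>
        dot (S.Dv j (S.su2 (lam i) (d i) (F i) (X i) m (α i)))
          (S.Dv k (S.su2 (lam i) (d i) (F i) (X i) m (α i)))) i p)) := by
    refine (DAlg.FO.real_mul (fun i => pow_nonneg (hε i) 4)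
      ((DAlg.FO.dot (D2 j) (D2 k)).congr_s fun i => rfl)).mono_s' (fun i => ?_) H.lam0
    have h1 : 0 ≤ (lam i / b i) ^ 2 := sq_nonneg _
    have h2 : ε i ^ 4 ≤ ε i ^ 3 := by
      have := pow_nonneg (hε i) 3
      nlinarith [hε1 i]
    have h3 := mul_le_mul_of_nonneg_right h2 h1
    have h4 : ε i ^ 4 * (lam i / b i * (lam i / b i)) = ε i ^ 4 * (lam i / b i) ^ 2 := by ring
    rw [h4]
    linarith [e0 i]
  refine ((((A1.add A2).neg.add A3).add A4).add A5).congr fun i p => ?_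
  have h := hQ (lam i) (ε i) (d i) (F i) (X i) m (α i) (H.lampos i).ne' (H.dOk i) (H.sX i)
    (H.rX i) (H.fr.ok i) (H.sα i) (H.zα i) (H.rα i) j k p
  rw [h]
  simp only [Pi.add_apply, Pi.neg_apply]
  push_cast
  ring

end StB

/-- **(ST)** -/
theorem DAlg.stageF {Q : Type} [Fintype Q] (hP : S.Prep Q) (hA : S.AbsU Q) (hQ : S.QuadAlg Q)
    (hKB : S.KerB) (hWB : S.WkbB) : S.StageF Q := by
  intro m ι θ b lam ε c0 d X T hc0 hb hθ hlam hε hε1 dOk FB Nd sX rX DX DDX tT rT bT pT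
  obtain ⟨F, hF⟩ := hP ι θ b c0 d X hc0 hb hθ dOk FB Nd sX rX DX DDX
  obtain ⟨α, sα, rα, zα, bα, hM⟩ := hA m ι θ b lam c0 d X F T hc0 hb hθ hlam dOk FB sX rX hF
    tT rT bT pT
  have H : StB S θ b lam d X F α :=
    { hb := hb, hθ := hθ, hlam := hlam, dOk := dOk, FB := FB, sX := sX, rX := rX, fr := hF,
      sα := sα, rα := rα, zα := zα, bα := bα }
  refine ⟨1, one_pos, fun i => S.sy (lam i) (d i) (F i) (X i) m (α i) (ε i),
    fun i a => (H.y_bd hKB hWB m hε hε1 a).1 i, fun i a => StB.rl_sy _ _ _ _ _ _ _ a,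
    fun a => ?_, fun j k => ?_⟩
  · exact DAlg.FO.reindex (fun i : {i // θ i / lam i ≤ 1} => i.1) (H.y_bd hKB hWB m hε hε1 a)
  · exact DAlg.FO.reindex (fun i : {i // θ i / lam i ≤ 1} => i.1)
      (H.err_bd hKB hWB hQ m hε hε1 hM j k)

end Vale.Agent.P205.F
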