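import Vale.Agent.P205.F.Absorb
import Vale.Agent.P205.F.Stage

/-!
The absorption in the form used by the stage.
-/

noncomputable section

namespace Vale.Agent.P205.F

universe u

variable {P : Type u} {κ : Type} [Fintype κ] {S : DAlg P κ} {Q : Type} [Fintype Q]

theorem DAlg.absU (hA : S.KerAlg) (hB : S.KerB) (hL : S.KerLin) : S.AbsU Q := by
  intro m ι θ b lam c0 d X F T hc0 hb hbθ hθl hd hfd hX hXr hF hTi hTr hT hlow
  obtain ⟨α, h1, h2, h3, h4, h5⟩ := DAlg.absorbU hA hB hL m m ι θ b lam c0 d X F T hc0 hb hbθ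
    hθl hd hfd hX hXr hF hTi hTr hT hlow
  refine ⟨α, h1, h2, h3, h4, fun j k => (h5 j k).mono_s' (fun i => ?_)
    fun i => zero_le_one.trans ((hb i).trans (hbθ i))⟩
  have h6 : 1 ≤ θ i := (hb i).trans (hbθ i)
  have h7 : 0 < lam i := by linarith [hθl i]
  exact pow_le_pow_of_le_one (div_nonneg (by linarith) h7.le) ((div_le_one h7).2 (hθl i))
    (Nat.le_succ m)

end Vale.Agent.P205.F
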