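import Vale.Agent.P205.F.DAlg

/-!
Closure lemmas for `Sm`, `wd`, `Bd`, `FO`, `Zs` (P205, full question).
-/

open scoped ContDiff

namespace Vale.Agent.P205.F

variable {P κ : Type*}

/-! ### smooth functions and derivations -/

section Sm

variable (S : DAlg P κ)

theorem DAlg.sm_zero : S.Sm 0 := S.sm_const 0

theorem DAlg.sm_one : S.Sm 1 := S.sm_const 1

theorem DAlg.sm_smul {u : P → ℂ} (c : ℂ) (hu : S.Sm u) : S.Sm (fun p => c * u p) :=
  S.sm_mul (S.sm_const c) hu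

theorem DAlg.sm_smul' {u : P → ℂ} (c : ℂ) (hu : S.Sm u) : S.Sm (c • u) :=
  S.sm_mul (S.sm_const c) hu

theorem DAlg.sm_neg {u : P → ℂ} (hu : S.Sm u) : S.Sm (-u) := by
  have h := S.sm_smul (-1) hu
  have e : (fun p => (-1 : ℂ) * u p) = -u := by
    funext p
    simp
  rwa [e] at h

theorem DAlg.sm_sub {u v : P → ℂ} (hu : S.Sm u) (hv : S.Sm v) : S.Sm (u - v) := by
  rw [sub_eq_add_neg]
  exact S.sm_add hu (S.sm_neg hv)

theorem DAlg.sm_sum {ι : Type*} {A : Finset ι} {u : ι → P → ℂ} (hu : ∀ a ∈ A, S.Sm (u a)) :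
    S.Sm (∑ a ∈ A, u a) := by
  classical
  induction A using Finset.induction_on with
  | empty => exact S.sm_zero
  | insert a A ha ih =>
    rw [Finset.sum_insert ha]
    exact S.sm_add (hu a (Finset.mem_insert_self a A))
      (ih fun b hb => hu b (Finset.mem_insert_of_mem hb))

theorem DAlg.sm_sum' {ι : Type*} {A : Finset ι} {u : ι → P → ℂ} (hu : ∀ a ∈ A, S.Sm (u a)) :
    S.Sm (fun p => ∑ a ∈ A, u a p) := by
  have h := S.sm_sum hu
  have e : (∑ a ∈ A, u a) = fun p => ∑ a ∈ A, u a p := by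
    funext p
    exact Finset.sum_apply p A u
  rwa [e] at h

theorem DAlg.sm_prod {ι : Type*} {A : Finset ι} {u : ι → P → ℂ} (hu : ∀ a ∈ A, S.Sm (u a)) :
    S.Sm (∏ a ∈ A, u a) := by
  classical
  induction A using Finset.induction_on with
  | empty => exact S.sm_one
  | insert a A ha ih =>
    rw [Finset.prod_insert ha]
    exact S.sm_mul (hu a (Finset.mem_insert_self a A))
      (ih fun b hb => hu b (Finset.mem_insert_of_mem hb))

theorem DAlg.sm_pow {u : P → ℂ} (hu : S.Sm u) (n : ℕ) : S.Sm (u ^ n) := by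
  induction n with
  | zero =>
    rw [pow_zero]
    exact S.sm_one
  | succ n ih =>
    rw [pow_succ]
    exact S.sm_mul ih hu

theorem DAlg.sm_dir [Fintype κ] {c : κ → P → ℂ} {u : P → ℂ} (hc : ∀ j, S.Sm (c j))
    (hu : S.Sm u) : S.Sm (S.dir c u) :=
  S.sm_sum' fun j _ => S.sm_mul (hc j) (S.sm_D j hu)

theorem DAlg.sm_dot {X Y : Fin 4 → P → ℂ} (hX : ∀ a, S.Sm (X a)) (hY : ∀ a, S.Sm (Y a)) :
    S.Sm (dot X Y) :=
  S.sm_sum' fun a _ => S.sm_mul (hX a) (hY a)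

theorem DAlg.sm_wd (w : List κ) {u : P → ℂ} (hu : S.Sm u) : S.Sm (S.wd w u) := by
  induction w with
  | nil => exact hu
  | cons j w ih => exact S.sm_D j ih

/-- real part -/
theorem DAlg.sm_re {u : P → ℂ} (hu : S.Sm u) : S.Sm (fun p => ((u p).re : ℂ)) := by
  have h := S.sm_smul (1 / 2) (S.sm_add hu (S.sm_conj hu))
  have e : (fun p => (1 / 2 : ℂ) * (u + fun p => (starRingEnd ℂ) (u p)) p)
      = fun p => ((u p).re : ℂ) := by
    funext p
    have h2 := Complex.add_conj (u p)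
    simp only [Pi.add_apply, h2]
    push_cast
    ring
  rwa [e] at h

theorem DAlg.D_zero (j : κ) : S.D j 0 = 0 := S.D_const j 0

theorem DAlg.D_smul {u : P → ℂ} (j : κ) (c : ℂ) (hu : S.Sm u) :
    S.D j (fun p => c * u p) = fun p => c * S.D j u p := by
  have h := S.D_mul j (S.sm_const c) hu
  rw [S.D_const] at h
  have e : ((fun _ : P => c) * u) = fun p => c * u p := rfl
  rw [e] at h
  rw [h]
  funext p
  simp

theorem DAlg.D_smul' {u : P → ℂ} (j : κ) (c : ℂ) (hu : S.Sm u) :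
    S.D j (c • u) = c • S.D j u := S.D_smul j c hu

theorem DAlg.D_neg {u : P → ℂ} (j : κ) (hu : S.Sm u) : S.D j (-u) = -S.D j u := by
  have h := S.D_smul j (-1) hu
  have e : (fun p => (-1 : ℂ) * u p) = -u := by
    funext p
    simp
  rw [e] at h
  rw [h]
  funext p
  simp

theorem DAlg.D_sub {u v : P → ℂ} (j : κ) (hu : S.Sm u) (hv : S.Sm v) :
    S.D j (u - v) = S.D j u - S.D j v := by
  rw [sub_eq_add_neg, S.D_add j hu (S.sm_neg hv), S.D_neg j hv, sub_eq_add_neg]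

theorem DAlg.D_sum {ι : Type*} {A : Finset ι} {u : ι → P → ℂ} (j : κ)
    (hu : ∀ a ∈ A, S.Sm (u a)) : S.D j (∑ a ∈ A, u a) = ∑ a ∈ A, S.D j (u a) := by
  classical
  induction A using Finset.induction_on with
  | empty => simpa using S.D_zero j
  | insert a A ha ih =>
    have h1 : ∀ b ∈ A, S.Sm (u b) := fun b hb => hu b (Finset.mem_insert_of_mem hb)
    rw [Finset.sum_insert ha, Finset.sum_insert ha,
      S.D_add j (hu a (Finset.mem_insert_self a A)) (S.sm_sum h1), ih h1]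

theorem DAlg.D_sum' {ι : Type*} {A : Finset ι} {u : ι → P → ℂ} (j : κ)
    (hu : ∀ a ∈ A, S.Sm (u a)) :
    S.D j (fun p => ∑ a ∈ A, u a p) = fun p => ∑ a ∈ A, S.D j (u a) p := by
  have e : (∑ a ∈ A, u a) = fun p => ∑ a ∈ A, u a p := by
    funext p
    exact Finset.sum_apply p A u
  have h := S.D_sum j hu
  rw [e] at h
  rw [h]
  funext p
  exact Finset.sum_apply p A _

/-! pointwise versions -/

theorem DAlg.D_zero_apply (j : κ) (p : P) : S.D j 0 p = 0 := by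
  rw [S.D_zero]
  rfl

theorem DAlg.D_const_apply (j : κ) (c : ℂ) (p : P) : S.D j (fun _ => c) p = 0 := by
  rw [S.D_const]
  rfl

theorem DAlg.D_add_apply {u v : P → ℂ} (j : κ) (hu : S.Sm u) (hv : S.Sm v) (p : P) :
    S.D j (u + v) p = S.D j u p + S.D j v p := by
  rw [S.D_add j hu hv]
  rfl

theorem DAlg.D_sub_apply {u v : P → ℂ} (j : κ) (hu : S.Sm u) (hv : S.Sm v) (p : P) :
    S.D j (u - v) p = S.D j u p - S.D j v p := by
  rw [S.D_sub j hu hv]
  rfl

theorem DAlg.D_neg_apply {u : P → ℂ} (j : κ) (hu : S.Sm u) (p : P) :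
    S.D j (-u) p = -S.D j u p := by
  rw [S.D_neg j hu]
  rfl

theorem DAlg.D_mul_apply {u v : P → ℂ} (j : κ) (hu : S.Sm u) (hv : S.Sm v) (p : P) :
    S.D j (u * v) p = S.D j u p * v p + u p * S.D j v p := by
  rw [S.D_mul j hu hv]
  rfl

theorem DAlg.D_smul_apply {u : P → ℂ} (j : κ) (c : ℂ) (hu : S.Sm u) (p : P) :
    S.D j (fun p => c * u p) p = c * S.D j u p := by
  rw [S.D_smul j c hu]

theorem DAlg.D_conj_apply {u : P → ℂ} (j : κ) (hu : S.Sm u) (p : P) :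
    S.D j (fun p => (starRingEnd ℂ) (u p)) p = (starRingEnd ℂ) (S.D j u p) := by
  rw [S.D_conj j hu]

theorem DAlg.D_sum_apply {ι : Type*} {A : Finset ι} {u : ι → P → ℂ} (j : κ)
    (hu : ∀ a ∈ A, S.Sm (u a)) (p : P) :
    S.D j (fun p => ∑ a ∈ A, u a p) p = ∑ a ∈ A, S.D j (u a) p := by
  rw [S.D_sum' j hu]

theorem DAlg.D_dot {X Y : Fin 4 → P → ℂ} (j : κ) (hX : ∀ a, S.Sm (X a))
    (hY : ∀ a, S.Sm (Y a)) (p : P) :
    S.D j (dot X Y) p = dot (fun a => S.D j (X a)) Y p + dot X (fun a => S.D j (Y a)) p := by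
  have h : S.D j (dot X Y) p = ∑ a, S.D j (X a * Y a) p :=
    S.D_sum_apply (A := Finset.univ) (u := fun a => X a * Y a) j
      (fun a _ => S.sm_mul (hX a) (hY a)) p
  rw [h]
  simp only [dot]
  rw [← Finset.sum_add_distrib]
  exact Finset.sum_congr rfl fun a _ => S.D_mul_apply j (hX a) (hY a) p

theorem DAlg.D_dir [Fintype κ] {c : κ → P → ℂ} {u : P → ℂ} (j : κ) (hc : ∀ l, S.Sm (c l))
    (hu : S.Sm u) (p : P) :
    S.D j (S.dir c u) p
      = S.dir (fun l => S.D j (c l)) u p + ∑ l, c l p * S.D j (S.D l u) p := by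
  have h : S.D j (S.dir c u) p = ∑ l, S.D j (c l * S.D l u) p :=
    S.D_sum_apply (A := Finset.univ) (u := fun l => c l * S.D l u) j
      (fun l _ => S.sm_mul (hc l) (S.sm_D l hu)) p
  rw [h]
  simp only [DAlg.dir]
  rw [← Finset.sum_add_distrib]
  exact Finset.sum_congr rfl fun l _ => S.D_mul_apply j (hc l) (S.sm_D l hu) p

section dirlin

variable [Fintype κ] {c c' : κ → P → ℂ} {u v : P → ℂ}

theorem DAlg.dir_const (c : κ → P → ℂ) (a : ℂ) (p : P) : S.dir c (fun _ => a) p = 0 := by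
  simp only [DAlg.dir]
  exact Finset.sum_eq_zero fun j _ => by rw [S.D_const_apply, mul_zero]

theorem DAlg.dir_zero (c : κ → P → ℂ) (p : P) : S.dir c 0 p = 0 := S.dir_const c 0 p

theorem DAlg.dir_add (hu : S.Sm u) (hv : S.Sm v) (p : P) :
    S.dir c (u + v) p = S.dir c u p + S.dir c v p := by
  simp only [DAlg.dir]
  rw [← Finset.sum_add_distrib]
  exact Finset.sum_congr rfl fun j _ => by rw [S.D_add_apply j hu hv, mul_add]

theorem DAlg.dir_sub (hu : S.Sm u) (hv : S.Sm v) (p : P) :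
    S.dir c (u - v) p = S.dir c u p - S.dir c v p := by
  simp only [DAlg.dir]
  rw [← Finset.sum_sub_distrib]
  exact Finset.sum_congr rfl fun j _ => by rw [S.D_sub_apply j hu hv, mul_sub]

theorem DAlg.dir_neg (hu : S.Sm u) (p : P) : S.dir c (-u) p = -S.dir c u p := by
  simp only [DAlg.dir]
  rw [← Finset.sum_neg_distrib]
  exact Finset.sum_congr rfl fun j _ => by rw [S.D_neg_apply j hu, mul_neg]

theorem DAlg.dir_mul (hu : S.Sm u) (hv : S.Sm v) (p : P) :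
    S.dir c (u * v) p = S.dir c u p * v p + u p * S.dir c v p := by
  simp only [DAlg.dir]
  rw [Finset.sum_mul, Finset.mul_sum, ← Finset.sum_add_distrib]
  refine Finset.sum_congr rfl fun j _ => ?_
  rw [S.D_mul_apply j hu hv]
  ring

theorem DAlg.dir_smul (a : ℂ) (hu : S.Sm u) (p : P) :
    S.dir c (fun p => a * u p) p = a * S.dir c u p := by
  simp only [DAlg.dir]
  rw [Finset.mul_sum]
  refine Finset.sum_congr rfl fun j _ => ?_
  rw [S.D_smul_apply j a hu]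
  ring

theorem DAlg.dir_sum {ι : Type*} {A : Finset ι} {u : ι → P → ℂ} (hu : ∀ a ∈ A, S.Sm (u a))
    (p : P) : S.dir c (fun p => ∑ a ∈ A, u a p) p = ∑ a ∈ A, S.dir c (u a) p := by
  simp only [DAlg.dir]
  rw [Finset.sum_comm]
  refine Finset.sum_congr rfl fun j _ => ?_
  rw [S.D_sum_apply j hu, Finset.mul_sum]

theorem DAlg.dir_coeff_add (p : P) :
    S.dir (fun j => c j + c' j) u p = S.dir c u p + S.dir c' u p := by
  simp only [DAlg.dir]
  rw [← Finset.sum_add_distrib]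
  exact Finset.sum_congr rfl fun j _ => by rw [Pi.add_apply, add_mul]

theorem DAlg.dir_coeff_mul (f : P → ℂ) (p : P) :
    S.dir (fun j => f * c j) u p = f p * S.dir c u p := by
  simp only [DAlg.dir]
  rw [Finset.mul_sum]
  exact Finset.sum_congr rfl fun j _ => by rw [Pi.mul_apply, mul_assoc]

/-- derivative of a dot product along a field -/
theorem DAlg.dir_dot {X Y : Fin 4 → P → ℂ} (hX : ∀ a, S.Sm (X a)) (hY : ∀ a, S.Sm (Y a))
    (p : P) :
    S.dir c (dot X Y) p = dot (fun a => S.dir c (X a)) Y p + dot X (fun a => S.dir c (Y a)) p := by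
  have h : S.dir c (dot X Y) p = ∑ a, S.dir c (X a * Y a) p :=
    S.dir_sum (A := Finset.univ) (u := fun a => X a * Y a) (fun a _ => S.sm_mul (hX a) (hY a)) p
  rw [h]
  simp only [dot]
  rw [← Finset.sum_add_distrib]
  exact Finset.sum_congr rfl fun a _ => S.dir_mul (hX a) (hY a) p

end dirlin

/-! ### words -/

@[simp] theorem DAlg.wd_nil (u : P → ℂ) : S.wd [] u = u := rfl

@[simp] theorem DAlg.wd_cons (j : κ) (w : List κ) (u : P → ℂ) :
    S.wd (j :: w) u = S.D j (S.wd w u) := rfl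

theorem DAlg.wd_append (w w' : List κ) (u : P → ℂ) :
    S.wd (w ++ w') u = S.wd w (S.wd w' u) := by
  induction w with
  | nil => rfl
  | cons j w ih => rw [List.cons_append, S.wd_cons, ih, S.wd_cons]

theorem DAlg.wd_snoc (w : List κ) (j : κ) (u : P → ℂ) :
    S.wd (w ++ [j]) u = S.wd w (S.D j u) := S.wd_append w [j] u

theorem DAlg.wd_zero (w : List κ) : S.wd w 0 = 0 := by
  induction w with
  | nil => rfl
  | cons j w ih => rw [S.wd_cons, ih, S.D_zero]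

theorem DAlg.wd_const (w : List κ) (hw : w ≠ []) (c : ℂ) : S.wd w (fun _ => c) = 0 := by
  induction w with
  | nil => exact absurd rfl hw
  | cons j w ih =>
    rw [S.wd_cons]
    by_cases h : w = []
    · subst h
      exact S.D_const j c
    · rw [ih h, S.D_zero]

theorem DAlg.wd_add (w : List κ) {u v : P → ℂ} (hu : S.Sm u) (hv : S.Sm v) :
    S.wd w (u + v) = S.wd w u + S.wd w v := by
  induction w with
  | nil => rfl
  | cons j w ih =>
    rw [S.wd_cons, ih, S.D_add j (S.sm_wd w hu) (S.sm_wd w hv)]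
    rfl

theorem DAlg.wd_neg (w : List κ) {u : P → ℂ} (hu : S.Sm u) : S.wd w (-u) = -S.wd w u := by
  induction w with
  | nil => rfl
  | cons j w ih =>
    rw [S.wd_cons, ih, S.D_neg j (S.sm_wd w hu)]
    rfl

theorem DAlg.wd_sub (w : List κ) {u v : P → ℂ} (hu : S.Sm u) (hv : S.Sm v) :
    S.wd w (u - v) = S.wd w u - S.wd w v := by
  rw [sub_eq_add_neg, S.wd_add w hu (S.sm_neg hv), S.wd_neg w hv, sub_eq_add_neg]

theorem DAlg.wd_smul (w : List κ) (c : ℂ) {u : P → ℂ} (hu : S.Sm u) :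
    S.wd w (fun p => c * u p) = fun p => c * S.wd w u p := by
  induction w with
  | nil => rfl
  | cons j w ih =>
    rw [S.wd_cons, ih, S.D_smul j c (S.sm_wd w hu)]
    rfl

theorem DAlg.wd_conj (w : List κ) {u : P → ℂ} (hu : S.Sm u) :
    S.wd w (fun p => (starRingEnd ℂ) (u p)) = fun p => (starRingEnd ℂ) (S.wd w u p) := by
  induction w with
  | nil => rfl
  | cons j w ih =>
    rw [S.wd_cons, ih, S.D_conj j (S.sm_wd w hu)]
    rfl

theorem DAlg.wd_sum {ι : Type*} {A : Finset ι} {u : ι → P → ℂ} (w : List κ)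
    (hu : ∀ a ∈ A, S.Sm (u a)) : S.wd w (∑ a ∈ A, u a) = ∑ a ∈ A, S.wd w (u a) := by
  induction w with
  | nil => rfl
  | cons j w ih =>
    rw [S.wd_cons, ih, S.D_sum j fun a ha => S.sm_wd w (hu a ha)]
    rfl

theorem DAlg.wd_sum' {ι : Type*} {A : Finset ι} {u : ι → P → ℂ} (w : List κ)
    (hu : ∀ a ∈ A, S.Sm (u a)) (p : P) :
    S.wd w (fun p => ∑ a ∈ A, u a p) p = ∑ a ∈ A, S.wd w (u a) p := by
  have e : (∑ a ∈ A, u a) = fun p => ∑ a ∈ A, u a p := by
    funext p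
    exact Finset.sum_apply p A u
  have h := S.wd_sum w hu
  rw [e] at h
  rw [h]
  exact Finset.sum_apply p A _

/-- real valued functions have real valued derivatives -/
theorem DAlg.rl_D {u : P → ℂ} (j : κ) (hu : S.Sm u) (hr : Rl u) : Rl (S.D j u) := by
  have e : (fun p => (starRingEnd ℂ) (u p)) = u := by
    funext p
    exact Complex.conj_eq_iff_im.2 (hr p)
  have h := S.D_conj j hu
  rw [e] at h
  intro p
  exact Complex.conj_eq_iff_im.1 (congrFun h p).symm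

theorem DAlg.rl_wd {u : P → ℂ} (w : List κ) (hu : S.Sm u) (hr : Rl u) : Rl (S.wd w u) := by
  induction w with
  | nil => exact hr
  | cons j w ih => exact S.rl_D j (S.sm_wd w hu) ih

end Sm

/-! ### real valued functions -/

theorem Rl.add {u v : P → ℂ} (hu : Rl u) (hv : Rl v) : Rl (u + v) := fun p => by
  rw [Pi.add_apply, Complex.add_im, hu p, hv p, add_zero]

theorem Rl.neg {u : P → ℂ} (hu : Rl u) : Rl (-u) := fun p => by
  rw [Pi.neg_apply, Complex.neg_im, hu p, neg_zero]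

theorem Rl.sub {u v : P → ℂ} (hu : Rl u) (hv : Rl v) : Rl (u - v) := fun p => by
  rw [Pi.sub_apply, Complex.sub_im, hu p, hv p, sub_zero]

theorem Rl.mul {u v : P → ℂ} (hu : Rl u) (hv : Rl v) : Rl (u * v) := fun p => by
  rw [Pi.mul_apply, Complex.mul_im, hu p, hv p, mul_zero, zero_mul, add_zero]

theorem Rl.const {c : ℂ} (hc : c.im = 0) : Rl (fun _ : P => c) := fun _ => hc

theorem Rl.ofReal (f : P → ℝ) : Rl (fun p => (f p : ℂ)) := fun p => Complex.ofReal_im (f p)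

theorem Rl.smul {u : P → ℂ} {c : ℂ} (hc : c.im = 0) (hu : Rl u) : Rl (fun p => c * u p) :=
  (Rl.const hc).mul hu

theorem Rl.sum {ι : Type*} {A : Finset ι} {u : ι → P → ℂ} (hu : ∀ a ∈ A, Rl (u a)) :
    Rl (fun p => ∑ a ∈ A, u a p) := fun p => by
  rw [Complex.im_sum]
  exact Finset.sum_eq_zero fun a ha => hu a ha p

theorem Rl.dir [Fintype κ] {S : DAlg P κ} {c : κ → P → ℂ} {u : P → ℂ} (hc : ∀ j, Rl (c j))
    (hu : S.Sm u) (hr : Rl u) : Rl (S.dir c u) :=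
  Rl.sum (A := Finset.univ) (u := fun j => c j * S.D j u) fun j _ => (hc j).mul (S.rl_D j hu hr)

theorem Rl.dot {X Y : Fin 4 → P → ℂ} (hX : ∀ a, Rl (X a)) (hY : ∀ a, Rl (Y a)) :
    Rl (dot X Y) :=
  Rl.sum (A := Finset.univ) (u := fun a => X a * Y a) fun a _ => (hX a).mul (hY a)

theorem Rl.ofReal_re {u : P → ℂ} (hu : Rl u) (p : P) : ((u p).re : ℂ) = u p :=
  Complex.ext (by simp) (by simp [hu p])

/-! ### one function: `Bd` and `Nb` -/

section Bd

variable {S : DAlg P κ} {μ μ' C C' : ℝ} {k k' : ℕ} {u v : P → ℂ}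

theorem DAlg.Bd.mono (h : S.Bd μ k C u) (hμ : 0 ≤ μ) (hC : C ≤ C') : S.Bd μ k C' u :=
  fun w hw p => (h w hw p).trans (mul_le_mul_of_nonneg_right hC (pow_nonneg hμ _))

theorem DAlg.Bd.mono_k (h : S.Bd μ k C u) (hk : k' ≤ k) : S.Bd μ k' C u :=
  fun w hw p => h w (hw.trans hk) p

theorem DAlg.Bd.mono_mu (h : S.Bd μ k C u) (hμ : 0 ≤ μ) (hμ' : μ ≤ μ') (hC : 0 ≤ C) :
    S.Bd μ' k C u :=
  fun w hw p => (h w hw p).trans (mul_le_mul_of_nonneg_left (pow_le_pow_left₀ hμ hμ' _) hC)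

theorem DAlg.Bd.nonneg [Nonempty P] (h : S.Bd μ k C u) : 0 ≤ C := by
  have p : P := Classical.arbitrary P
  have := h [] (Nat.zero_le _) p
  simp only [List.length_nil, pow_zero, mul_one] at this
  exact (norm_nonneg _).trans this

theorem DAlg.Bd.apply (h : S.Bd μ k C u) (p : P) : ‖u p‖ ≤ C := by
  have := h [] (Nat.zero_le _) p
  simpa using this

theorem DAlg.Bd.add (hu : S.Sm u) (hv : S.Sm v) (h : S.Bd μ k C u) (h' : S.Bd μ k C' v) :
    S.Bd μ k (C + C') (u + v) := fun w hw p => by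
  rw [S.wd_add w hu hv, Pi.add_apply, add_mul]
  exact (norm_add_le _ _).trans (add_le_add (h w hw p) (h' w hw p))

theorem DAlg.Bd.neg (hu : S.Sm u) (h : S.Bd μ k C u) : S.Bd μ k C (-u) := fun w hw p => by
  rw [S.wd_neg w hu, Pi.neg_apply, norm_neg]
  exact h w hw p

theorem DAlg.Bd.sub (hu : S.Sm u) (hv : S.Sm v) (h : S.Bd μ k C u) (h' : S.Bd μ k C' v) :
    S.Bd μ k (C + C') (u - v) := fun w hw p => by
  rw [S.wd_sub w hu hv, Pi.sub_apply, add_mul]
  exact (norm_sub_le _ _).trans (add_le_add (h w hw p) (h' w hw p))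

theorem DAlg.Bd.conj (hu : S.Sm u) (h : S.Bd μ k C u) :
    S.Bd μ k C (fun p => (starRingEnd ℂ) (u p)) := fun w hw p => by
  rw [S.wd_conj w hu, RCLike.norm_conj]
  exact h w hw p

theorem DAlg.Bd.smul (hu : S.Sm u) (h : S.Bd μ k C u) (c : ℂ) {r : ℝ} (hc : ‖c‖ ≤ r) :
    S.Bd μ k (r * C) (fun p => c * u p) := fun w hw p => by
  rw [S.wd_smul w c hu, norm_mul, mul_assoc]
  exact mul_le_mul hc (h w hw p) (norm_nonneg _) ((norm_nonneg _).trans hc)

theorem DAlg.Bd.D (j : κ) (h : S.Bd μ (k + 1) C u) : S.Bd μ k (C * μ) (S.D j u) :=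
  fun w hw p => by
  have h1 := h (w ++ [j]) (by simpa using hw) p
  rw [S.wd_snoc, List.length_append, List.length_singleton, pow_succ] at h1
  calc ‖S.wd w (S.D j u) p‖ ≤ C * (μ ^ w.length * μ) := h1
    _ = C * μ * μ ^ w.length := by ring

theorem DAlg.Bd.mul (hu : S.Sm u) (hv : S.Sm v) (h : S.Bd μ k C u) (h' : S.Bd μ k C' v) :
    S.Bd μ k (2 ^ k * (C * C')) (u * v) := by
  induction k generalizing u v C C' with
  | zero =>
    intro w hw p
    have hw0 : w = [] := List.length_eq_zero_iff.1 (Nat.le_zero.1 hw)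
    subst hw0
    simp only [S.wd_nil, Pi.mul_apply, List.length_nil, pow_zero, mul_one, one_mul, norm_mul]
    exact mul_le_mul (h.apply p) (h'.apply p) (norm_nonneg _)
      ((norm_nonneg _).trans (h.apply p))
  | succ k ih =>
    intro w hw p
    rcases List.eq_nil_or_concat w with rfl | ⟨w', j, rfl⟩
    · simp only [S.wd_nil, Pi.mul_apply, List.length_nil, pow_zero, mul_one, norm_mul]
      have hu0 := (norm_nonneg _).trans (h.apply p)
      have hv0 := (norm_nonneg _).trans (h'.apply p)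
      have h1 : ‖u p‖ * ‖v p‖ ≤ C * C' :=
        mul_le_mul (h.apply p) (h'.apply p) (norm_nonneg _) hu0
      have h2 : (1 : ℝ) ≤ 2 ^ (k + 1) := one_le_pow₀ one_le_two
      nlinarith [mul_nonneg hu0 hv0]
    · rw [List.concat_eq_append] at hw ⊢
      have hw' : w'.length ≤ k := by simpa using hw
      rw [S.wd_snoc, S.D_mul j hu hv,
        S.wd_add w' (S.sm_mul (S.sm_D j hu) hv) (S.sm_mul hu (S.sm_D j hv)), Pi.add_apply,
        List.length_append, List.length_singleton]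
      have e1 := ih (S.sm_D j hu) hv (h.D j) (h'.mono_k (Nat.le_succ k)) w' hw' p
      have e2 := ih hu (S.sm_D j hv) (h.mono_k (Nat.le_succ k)) (h'.D j) w' hw' p
      calc ‖S.wd w' (S.D j u * v) p + S.wd w' (u * S.D j v) p‖
          ≤ 2 ^ k * (C * μ * C') * μ ^ w'.length + 2 ^ k * (C * (C' * μ)) * μ ^ w'.length :=
            (norm_add_le _ _).trans (add_le_add e1 e2)
        _ = 2 ^ (k + 1) * (C * C') * μ ^ (w'.length + 1) := by ring

theorem DAlg.Bd.const (c : ℂ) (hμ : 0 ≤ μ) (hc : ‖c‖ ≤ C) : S.Bd μ k C (fun _ : P => c) :=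
  fun w _ p => by
  by_cases h : w = []
  · subst h
    simpa using hc
  · rw [S.wd_const w h, Pi.zero_apply, norm_zero]
    exact mul_nonneg ((norm_nonneg _).trans hc) (pow_nonneg hμ _)

theorem DAlg.Bd.sum {ι : Type*} {A : Finset ι} {u : ι → P → ℂ} {C : ι → ℝ}
    (hu : ∀ a ∈ A, S.Sm (u a)) (h : ∀ a ∈ A, S.Bd μ k (C a) (u a)) :
    S.Bd μ k (∑ a ∈ A, C a) (∑ a ∈ A, u a) := fun w hw p => by
  rw [S.wd_sum w hu, Finset.sum_apply, Finset.sum_mul]
  exact (norm_sum_le _ _).trans (Finset.sum_le_sum fun a ha => h a ha w hw p)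

theorem DAlg.Nb.mono (h : S.Nb k C u) (hC : C ≤ C') : S.Nb k C' u :=
  fun w hw p => (h w hw p).trans hC

theorem DAlg.Nb.mono_k (h : S.Nb k C u) (hk : k' ≤ k) : S.Nb k' C u :=
  fun w hw p => h w (hw.trans hk) p

theorem DAlg.Nb.bd (h : S.Nb k C u) : S.Bd 1 k C u := fun w hw p => by
  simpa using h w hw p

theorem DAlg.Bd.nb (h : S.Bd μ k C u) (hμ : 1 ≤ μ) (hC : 0 ≤ C) : S.Nb k (C * μ ^ k) u :=
  fun w hw p => (h w hw p).trans
    (mul_le_mul_of_nonneg_left (pow_le_pow_right₀ hμ hw) hC)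

theorem DAlg.Bd.nb' (h : S.Bd 1 k C u) : S.Nb k C u := fun w hw p => by
  simpa using h w hw p

theorem DAlg.Nb.add (hu : S.Sm u) (hv : S.Sm v) (h : S.Nb k C u) (h' : S.Nb k C' v) :
    S.Nb k (C + C') (u + v) := (h.bd.add hu hv h'.bd).nb'

theorem DAlg.Nb.sub (hu : S.Sm u) (hv : S.Sm v) (h : S.Nb k C u) (h' : S.Nb k C' v) :
    S.Nb k (C + C') (u - v) := (h.bd.sub hu hv h'.bd).nb'

theorem DAlg.Nb.neg (hu : S.Sm u) (h : S.Nb k C u) : S.Nb k C (-u) := (h.bd.neg hu).nb'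

theorem DAlg.Nb.mul (hu : S.Sm u) (hv : S.Sm v) (h : S.Nb k C u) (h' : S.Nb k C' v) :
    S.Nb k (2 ^ k * (C * C')) (u * v) := (h.bd.mul hu hv h'.bd).nb'

theorem DAlg.Nb.D (j : κ) (h : S.Nb (k + 1) C u) : S.Nb k C (S.D j u) := by
  have := (h.bd.D j).nb'
  rwa [mul_one] at this

end Bd

/-! ### families: `FO` -/

section FO

variable {S : DAlg P κ} {ι : Type*} {μ μ' s s' r : ι → ℝ} {u v : ι → P → ℂ}

theorem DAlg.FO.sm (hu : S.FO μ s u) (i : ι) : S.Sm (u i) := hu.1 i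

theorem DAlg.FO.bd (hu : S.FO μ s u) (k : ℕ) :
    ∃ C : ℝ, 0 ≤ C ∧ ∀ i, S.Bd (μ i) k (C * s i) (u i) := hu.2 k

/-- pointwise bound -/
theorem DAlg.FO.apply (hu : S.FO μ s u) : ∃ C : ℝ, 0 ≤ C ∧ ∀ i p, ‖u i p‖ ≤ C * s i := by
  obtain ⟨C, hC, h⟩ := hu.2 0
  exact ⟨C, hC, fun i p => (h i).apply p⟩

theorem DAlg.FO.congr (hu : S.FO μ s u) (h : ∀ i p, u i p = v i p) : S.FO μ s v := by
  have e : u = v := funext fun i => funext fun p => h i p
  rwa [e] at hu

theorem DAlg.FO.congr_s (hu : S.FO μ s u) (h : ∀ i, s i = s' i) : S.FO μ s' u := by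
  have e : s = s' := funext h
  rwa [e] at hu

theorem DAlg.FO.congr_mu (hu : S.FO μ s u) (h : ∀ i, μ i = μ' i) : S.FO μ' s u := by
  have e : μ = μ' := funext h
  rwa [e] at hu

theorem DAlg.FO.add (hu : S.FO μ s u) (hv : S.FO μ s v) : S.FO μ s (fun i => u i + v i) := by
  refine ⟨fun i => S.sm_add (hu.1 i) (hv.1 i), fun k => ?_⟩
  obtain ⟨C, hC, h⟩ := hu.2 k
  obtain ⟨C', hC', h'⟩ := hv.2 k
  refine ⟨C + C', add_nonneg hC hC', fun i => ?_⟩
  rw [add_mul]
  exact (h i).add (hu.1 i) (hv.1 i) (h' i)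

theorem DAlg.FO.neg (hu : S.FO μ s u) : S.FO μ s (fun i => -u i) := by
  refine ⟨fun i => S.sm_neg (hu.1 i), fun k => ?_⟩
  obtain ⟨C, hC, h⟩ := hu.2 k
  exact ⟨C, hC, fun i => (h i).neg (hu.1 i)⟩

theorem DAlg.FO.sub (hu : S.FO μ s u) (hv : S.FO μ s v) : S.FO μ s (fun i => u i - v i) := by
  refine ⟨fun i => S.sm_sub (hu.1 i) (hv.1 i), fun k => ?_⟩
  obtain ⟨C, hC, h⟩ := hu.2 k
  obtain ⟨C', hC', h'⟩ := hv.2 k
  refine ⟨C + C', add_nonneg hC hC', fun i => ?_⟩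
  rw [add_mul]
  exact (h i).sub (hu.1 i) (hv.1 i) (h' i)

theorem DAlg.FO.conj (hu : S.FO μ s u) :
    S.FO μ s (fun i p => (starRingEnd ℂ) (u i p)) := by
  refine ⟨fun i => S.sm_conj (hu.1 i), fun k => ?_⟩
  obtain ⟨C, hC, h⟩ := hu.2 k
  exact ⟨C, hC, fun i => (h i).conj (hu.1 i)⟩

theorem DAlg.FO.zero : S.FO μ s (fun _ => 0) := by
  refine ⟨fun _ => S.sm_zero, fun k => ⟨0, le_rfl, fun i w _ p => ?_⟩⟩
  rw [S.wd_zero]
  simp

theorem DAlg.FO.sum {α : Type*} {A : Finset α} {u : α → ι → P → ℂ}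
    (hu : ∀ a ∈ A, S.FO μ s (u a)) : S.FO μ s (fun i => ∑ a ∈ A, u a i) := by
  classical
  induction A using Finset.induction_on with
  | empty => simpa using (DAlg.FO.zero (S := S) (μ := μ) (s := s))
  | insert a A ha ih =>
    have h := (hu a (Finset.mem_insert_self a A)).add
      (ih fun b hb => hu b (Finset.mem_insert_of_mem hb))
    refine h.congr fun i p => ?_
    rw [Finset.sum_insert ha]

/-- version of `FO.sum` with the sum inside -/
theorem DAlg.FO.sum' {α : Type*} {A : Finset α} {u : α → ι → P → ℂ}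
    (hu : ∀ a ∈ A, S.FO μ s (u a)) : S.FO μ s (fun i p => ∑ a ∈ A, u a i p) :=
  (DAlg.FO.sum hu).congr fun _ p => Finset.sum_apply p A _

theorem DAlg.FO.mul (hu : S.FO μ s u) (hv : S.FO μ s' v) :
    S.FO μ (fun i => s i * s' i) (fun i => u i * v i) := by
  refine ⟨fun i => S.sm_mul (hu.1 i) (hv.1 i), fun k => ?_⟩
  obtain ⟨C, hC, h⟩ := hu.2 k
  obtain ⟨C', hC', h'⟩ := hv.2 k
  refine ⟨2 ^ k * (C * C'), by positivity, fun i => ?_⟩
  have e : 2 ^ k * (C * C') * (s i * s' i) = 2 ^ k * (C * s i * (C' * s' i)) := by ring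
  rw [e]
  exact (h i).mul (hu.1 i) (hv.1 i) (h' i)

theorem DAlg.FO.D (j : κ) (hu : S.FO μ s u) :
    S.FO μ (fun i => s i * μ i) (fun i => S.D j (u i)) := by
  refine ⟨fun i => S.sm_D j (hu.1 i), fun k => ?_⟩
  obtain ⟨C, hC, h⟩ := hu.2 (k + 1)
  refine ⟨C, hC, fun i => ?_⟩
  rw [← mul_assoc]
  exact (h i).D j

theorem DAlg.FO.wd (w : List κ) (hu : S.FO μ s u) :
    S.FO μ (fun i => s i * μ i ^ w.length) (fun i => S.wd w (u i)) := by
  induction w with
  | nil => exact hu.congr_s fun i => by simp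
  | cons j w ih =>
    refine (ih.D j).congr_s fun i => ?_
    rw [List.length_cons, pow_succ, mul_assoc]

/-- constants -/
theorem DAlg.FO.cst {c : ι → ℂ} {C : ℝ} (hc : ∀ i, ‖c i‖ ≤ C * s i) (hs : ∀ i, 0 ≤ s i)
    (hμ : ∀ i, 0 ≤ μ i) : S.FO μ s (fun i _ => c i) := by
  refine ⟨fun i => S.sm_const (c i), fun k => ⟨|C|, abs_nonneg C, fun i => ?_⟩⟩
  exact DAlg.Bd.const (c i) (hμ i)
    ((hc i).trans (mul_le_mul_of_nonneg_right (le_abs_self C) (hs i)))

/-- a fixed constant -/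
theorem DAlg.FO.const (c : ℂ) (hμ : ∀ i, 0 ≤ μ i) : S.FO μ (fun _ => 1) (fun _ _ => c) :=
  DAlg.FO.cst (C := ‖c‖) (fun _ => by simp) (fun _ => zero_le_one) hμ

theorem DAlg.FO.smul {c : ι → ℂ} {C : ℝ} (hc : ∀ i, ‖c i‖ ≤ C * r i) (hr : ∀ i, 0 ≤ r i)
    (hu : S.FO μ s u) : S.FO μ (fun i => r i * s i) (fun i p => c i * u i p) := by
  refine ⟨fun i => S.sm_smul (c i) (hu.1 i), fun k => ?_⟩
  obtain ⟨C', hC', h⟩ := hu.2 k
  refine ⟨|C| * C', by positivity, fun i => ?_⟩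
  have e : |C| * C' * (r i * s i) = |C| * r i * (C' * s i) := by ring
  rw [e]
  exact (h i).smul (hu.1 i) (c i)
    ((hc i).trans (mul_le_mul_of_nonneg_right (le_abs_self C) (hr i)))

/-- multiplication by one fixed constant -/
theorem DAlg.FO.const_mul (c : ℂ) (hu : S.FO μ s u) : S.FO μ s (fun i p => c * u i p) :=
  (DAlg.FO.smul (r := fun _ => 1) (c := fun _ => c) (C := ‖c‖) (fun _ => by simp)
    (fun _ => zero_le_one) hu).congr_s fun i => one_mul (s i)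

/-- multiplication by a real number depending on the index -/
theorem DAlg.FO.real_mul (hr : ∀ i, 0 ≤ r i) (hu : S.FO μ s u) :
    S.FO μ (fun i => r i * s i) (fun i p => (r i : ℂ) * u i p) :=
  DAlg.FO.smul (C := 1) (fun i => by rw [Complex.norm_real, Real.norm_eq_abs,
    abs_of_nonneg (hr i), one_mul]) hr hu

theorem DAlg.FO.mono_s {C : ℝ} (hu : S.FO μ s u) (h : ∀ i, s i ≤ C * s' i)
    (hs' : ∀ i, 0 ≤ s' i) (hμ : ∀ i, 0 ≤ μ i) : S.FO μ s' u := by
  refine ⟨hu.1, fun k => ?_⟩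
  obtain ⟨C', hC', h'⟩ := hu.2 k
  refine ⟨C' * |C|, by positivity, fun i => (h' i).mono (hμ i) ?_⟩
  rw [mul_assoc]
  exact mul_le_mul_of_nonneg_left
    ((h i).trans (mul_le_mul_of_nonneg_right (le_abs_self C) (hs' i))) hC'

theorem DAlg.FO.mono_s' (hu : S.FO μ s u) (h : ∀ i, s i ≤ s' i) (hμ : ∀ i, 0 ≤ μ i) :
    S.FO μ s' u := by
  refine ⟨hu.1, fun k => ?_⟩
  obtain ⟨C', hC', h'⟩ := hu.2 k
  exact ⟨C', hC', fun i => (h' i).mono (hμ i) (mul_le_mul_of_nonneg_left (h i) hC')⟩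

theorem DAlg.FO.mono_mu (hu : S.FO μ s u) (h : ∀ i, μ i ≤ μ' i) (hμ : ∀ i, 0 ≤ μ i)
    (hs : ∀ i, 0 ≤ s i) : S.FO μ' s u := by
  refine ⟨hu.1, fun k => ?_⟩
  obtain ⟨C', hC', h'⟩ := hu.2 k
  exact ⟨C', hC', fun i => (h' i).mono_mu (hμ i) (h i) (mul_nonneg hC' (hs i))⟩

/-- restriction / reindexing of a family -/
theorem DAlg.FO.reindex {ι' : Type*} (f : ι' → ι) (hu : S.FO μ s u) :
    S.FO (fun i => μ (f i)) (fun i => s (f i)) (fun i => u (f i)) :=
  ⟨fun i => hu.1 (f i), fun k => by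
    obtain ⟨C, hC, h⟩ := hu.2 k
    exact ⟨C, hC, fun i => h (f i)⟩⟩

theorem DAlg.FO.dir [Fintype κ] {c : ι → κ → P → ℂ} (hc : ∀ j, S.FO μ s (fun i => c i j))
    (hu : S.FO μ s' u) :
    S.FO μ (fun i => s i * s' i * μ i) (fun i => S.dir (c i) (u i)) := by
  have h := DAlg.FO.sum' (S := S) (μ := μ) (s := fun i => s i * (s' i * μ i))
    (A := (Finset.univ : Finset κ)) (u := fun j i => c i j * S.D j (u i))
    fun j _ => (hc j).mul (hu.D j)
  exact h.congr_s fun i => by ring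

theorem DAlg.FO.dot {X Y : ι → Fin 4 → P → ℂ} (hX : ∀ a, S.FO μ s (fun i => X i a))
    (hY : ∀ a, S.FO μ s' (fun i => Y i a)) :
    S.FO μ (fun i => s i * s' i) (fun i => dot (X i) (Y i)) :=
  DAlg.FO.sum' (S := S) (A := (Finset.univ : Finset (Fin 4))) (u := fun a i => X i a * Y i a)
    fun a _ => (hX a).mul (hY a)

theorem DAlg.FO.pow (hu : S.FO μ s u) (hμ : ∀ i, 0 ≤ μ i) (n : ℕ) :
    S.FO μ (fun i => s i ^ n) (fun i => u i ^ n) := by
  induction n with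
  | zero =>
    refine (DAlg.FO.const (S := S) (μ := μ) (ι := ι) 1 hμ).congr_s (fun i => ?_) |>.congr
      fun i p => ?_
    · simp
    · simp
  | succ n ih =>
    refine (ih.mul hu).congr_s (fun i => ?_) |>.congr fun i p => ?_
    · rw [pow_succ]
    · rw [pow_succ]

end FO

/-! ### supports: `Zs` -/

section Zs

variable {S : DAlg P κ} {K K' : Set P} {u v : P → ℂ}

theorem DAlg.Zs.apply (h : S.Zs K u) {p : P} (hp : p ∉ K) : u p = 0 := h [] p hp

theorem DAlg.Zs.mono (h : S.Zs K u) (hK : K ⊆ K') : S.Zs K' u :=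
  fun w p hp => h w p fun h' => hp (hK h')

theorem DAlg.Zs.zero : S.Zs K 0 := fun w p _ => by
  rw [S.wd_zero]
  rfl

theorem DAlg.Zs.D (j : κ) (h : S.Zs K u) : S.Zs K (S.D j u) := fun w p hp => by
  rw [← S.wd_snoc]
  exact h _ p hp

theorem DAlg.Zs.wd (w : List κ) (h : S.Zs K u) : S.Zs K (S.wd w u) := fun w' p hp => by
  rw [← S.wd_append]
  exact h _ p hp

theorem DAlg.Zs.add (hu : S.Sm u) (hv : S.Sm v) (h : S.Zs K u) (h' : S.Zs K v) :
    S.Zs K (u + v) := fun w p hp => by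
  rw [S.wd_add w hu hv, Pi.add_apply, h w p hp, h' w p hp, add_zero]

theorem DAlg.Zs.neg (hu : S.Sm u) (h : S.Zs K u) : S.Zs K (-u) := fun w p hp => by
  rw [S.wd_neg w hu, Pi.neg_apply, h w p hp, neg_zero]

theorem DAlg.Zs.sub (hu : S.Sm u) (hv : S.Sm v) (h : S.Zs K u) (h' : S.Zs K v) :
    S.Zs K (u - v) := fun w p hp => by
  rw [S.wd_sub w hu hv, Pi.sub_apply, h w p hp, h' w p hp, sub_zero]

theorem DAlg.Zs.smul (hu : S.Sm u) (c : ℂ) (h : S.Zs K u) : S.Zs K (fun p => c * u p) :=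
  fun w p hp => by
  rw [S.wd_smul w c hu]
  change c * S.wd w u p = 0
  rw [h w p hp, mul_zero]

theorem DAlg.Zs.conj (hu : S.Sm u) (h : S.Zs K u) :
    S.Zs K (fun p => (starRingEnd ℂ) (u p)) := fun w p hp => by
  rw [S.wd_conj w hu]
  change (starRingEnd ℂ) (S.wd w u p) = 0
  rw [h w p hp, map_zero]

/-- one factor suffices (the left one) -/
theorem DAlg.Zs.mul_left (hu : S.Sm u) (hv : S.Sm v) (h : S.Zs K u) : S.Zs K (u * v) := by
  intro w
  induction w using List.reverseRecOn generalizing u v with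
  | nil =>
    intro p hp
    rw [S.wd_nil, Pi.mul_apply, h.apply hp, zero_mul]
  | append_singleton w j ih =>
    intro p hp
    rw [S.wd_snoc, S.D_mul j hu hv,
      S.wd_add w (S.sm_mul (S.sm_D j hu) hv) (S.sm_mul hu (S.sm_D j hv)), Pi.add_apply,
      ih (S.sm_D j hu) hv (h.D j) p hp, ih hu (S.sm_D j hv) h p hp, add_zero]

/-- one factor suffices (the right one) -/
theorem DAlg.Zs.mul_right (hu : S.Sm u) (hv : S.Sm v) (h : S.Zs K v) : S.Zs K (u * v) := by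
  rw [mul_comm]
  exact DAlg.Zs.mul_left hv hu h

theorem DAlg.Zs.sum {ι : Type*} {A : Finset ι} {u : ι → P → ℂ} (hu : ∀ a ∈ A, S.Sm (u a))
    (h : ∀ a ∈ A, S.Zs K (u a)) : S.Zs K (∑ a ∈ A, u a) := fun w p hp => by
  rw [S.wd_sum w hu, Finset.sum_apply]
  exact Finset.sum_eq_zero fun a ha => h a ha w p hp

theorem DAlg.Zs.sum' {ι : Type*} {A : Finset ι} {u : ι → P → ℂ} (hu : ∀ a ∈ A, S.Sm (u a))
    (h : ∀ a ∈ A, S.Zs K (u a)) : S.Zs K (fun p => ∑ a ∈ A, u a p) := fun w p hp => by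
  rw [S.wd_sum' w hu]
  exact Finset.sum_eq_zero fun a ha => h a ha w p hp

theorem DAlg.Zs.dir [Fintype κ] {c : κ → P → ℂ} (hc : ∀ j, S.Sm (c j)) (hu : S.Sm u)
    (h : S.Zs K u) : S.Zs K (S.dir c u) :=
  DAlg.Zs.sum' (A := Finset.univ) (u := fun j => c j * S.D j u)
    (fun j _ => S.sm_mul (hc j) (S.sm_D j hu))
    fun j _ => DAlg.Zs.mul_right (hc j) (S.sm_D j hu) (h.D j)

/-- support from the coefficients -/
theorem DAlg.Zs.dir_coeff [Fintype κ] {c : κ → P → ℂ} (hc : ∀ j, S.Sm (c j)) (hu : S.Sm u)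
    (h : ∀ j, S.Zs K (c j)) : S.Zs K (S.dir c u) :=
  DAlg.Zs.sum' (A := Finset.univ) (u := fun j => c j * S.D j u)
    (fun j _ => S.sm_mul (hc j) (S.sm_D j hu))
    fun j _ => DAlg.Zs.mul_left (hc j) (S.sm_D j hu) (h j)

theorem DAlg.Zs.dot_left {X Y : Fin 4 → P → ℂ} (hX : ∀ a, S.Sm (X a)) (hY : ∀ a, S.Sm (Y a))
    (h : ∀ a, S.Zs K (X a)) : S.Zs K (dot X Y) :=
  DAlg.Zs.sum' (A := Finset.univ) (u := fun a => X a * Y a)
    (fun a _ => S.sm_mul (hX a) (hY a)) fun a _ => DAlg.Zs.mul_left (hX a) (hY a) (h a)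

theorem DAlg.Zs.dot_right {X Y : Fin 4 → P → ℂ} (hX : ∀ a, S.Sm (X a)) (hY : ∀ a, S.Sm (Y a))
    (h : ∀ a, S.Zs K (Y a)) : S.Zs K (dot X Y) :=
  DAlg.Zs.sum' (A := Finset.univ) (u := fun a => X a * Y a)
    (fun a _ => S.sm_mul (hX a) (hY a)) fun a _ => DAlg.Zs.mul_right (hX a) (hY a) (h a)

/-- identities on `K` between functions vanishing outside `K` hold everywhere -/
theorem DAlg.Zs.eq_of_eqOn (h : S.Zs K u) (h' : S.Zs K v) (e : ∀ p ∈ K, u p = v p) : u = v := by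
  funext p
  by_cases hp : p ∈ K
  · exact e p hp
  · rw [h.apply hp, h'.apply hp]

end Zs

end Vale.Agent.P205.F
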