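import Vale.Agent.P205.F.StageDef
import Vale.Agent.P205.F.Calc1

/-!
Existence of `Boxes` for a compact differential function space with local coordinates
(P205, block BOXES).
-/

set_option linter.all false

open scoped ContDiff Topology

noncomputable section

namespace Vale.Agent.P205.F

universe u

variable {P : Type u} {κ : Type} [Fintype κ] (S : DAlg P κ)

/-- locality, bumps, local coordinates, brackets -/
structure DAlg.Loc [TopologicalSpace P] : Prop where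
  cont : ∀ {u}, S.Sm u → Continuous u
  loc : ∀ {u} {U : Set P}, S.Sm u → IsOpen U → (∀ p ∈ U, u p = 0) → ∀ j, ∀ p ∈ U, S.D j u p = 0
  bump : ∀ (p : P) (U : Set P), IsOpen U → p ∈ U →
    ∃ f, S.Sm f ∧ Rl f ∧ f p = 1 ∧ tsupport f ⊆ U
  coord : ∀ p : P, ∃ (x : Fin 2 → P → ℂ) (U : Set P), (∀ i, S.Sm (x i)) ∧ (∀ i, Rl (x i)) ∧
    IsOpen U ∧ p ∈ U ∧
    (∃ c : Fin 2 → κ → ℝ, ∀ i k, ∑ j, (c i j : ℂ) * S.D j (x k) p = if i = k then 1 else 0) ∧
    ∀ q ∈ U, ∀ u, S.Sm u → ∃ a : Fin 2 → ℂ, ∀ j, S.D j u q = ∑ i, a i * S.D j (x i) q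
  brk : ∀ (j k : κ) (p : P), ∃ c : κ → ℂ, ∀ u, S.Sm u →
    S.D j (S.D k u) p - S.D k (S.D j u) p = ∑ l, c l * S.D l u p

/-- positive tensors -/
def DAlg.PosT (G : κ → κ → P → ℂ) : Prop :=
  ∀ (p : P) (c : κ → ℝ), (∃ u, S.Sm u ∧ ∑ j, (c j : ℂ) * S.D j u p ≠ 0) →
    0 < (∑ j, ∑ k, (c j : ℂ) * (c k : ℂ) * G j k p).re

/-! ### smooth functions on the line -/

/-- `1/t` for `t ≥ c`, smooth -/
def invFb (c t : ℝ) : ℝ := Real.smoothTransition (2 * t / c - 1) * t⁻¹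

/-- `1/√t` for `t ≥ c`, smooth -/
def isqF (c t : ℝ) : ℝ := Real.smoothTransition (2 * t / c - 1) * (√t)⁻¹

theorem cut_contDiff {c : ℝ} (hc : 0 < c) {φ : ℝ → ℝ} (hφ : ∀ t, 0 < t → ContDiffAt ℝ ∞ φ t) :
    ContDiff ℝ ∞ (fun t => ((Real.smoothTransition (2 * t / c - 1) * φ t : ℝ) : ℂ)) := by
  have h1 : ContDiff ℝ ∞ (fun t => Real.smoothTransition (2 * t / c - 1) * φ t) := by
    rw [contDiff_iff_contDiffAt]
    intro t
    have hs : ContDiff ℝ ∞ (fun t : ℝ => Real.smoothTransition (2 * t / c - 1)) :=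
      Real.smoothTransition.contDiff.comp
        (((contDiff_const.mul contDiff_id).div_const c).sub contDiff_const)
    by_cases ht : 0 < t
    · exact hs.contDiffAt.mul (hφ t ht)
    · have hz : (fun t => Real.smoothTransition (2 * t / c - 1) * φ t) =ᶠ[𝓝 t] fun _ => 0 := by
        have h2 : ∀ᶠ s in 𝓝 t, s < c / 2 := (isOpen_Iio.mem_nhds (by
          simp only [Set.mem_Iio]; linarith))
        filter_upwards [h2] with s hs'
        rw [Real.smoothTransition.zero_of_nonpos, zero_mul]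
        have : 2 * s / c ≤ 1 := by
          rw [div_le_one hc]; linarith
        linarith
      exact contDiffAt_const.congr_of_eventuallyEq hz
  exact Complex.ofRealCLM.contDiff.comp h1

theorem invFb_contDiff {c : ℝ} (hc : 0 < c) : ContDiff ℝ ∞ (fun t => ((invFb c t : ℝ) : ℂ)) :=
  cut_contDiff hc fun t ht => contDiffAt_inv ℝ ht.ne'

theorem isqF_contDiff {c : ℝ} (hc : 0 < c) : ContDiff ℝ ∞ (fun t => ((isqF c t : ℝ) : ℂ)) :=
  cut_contDiff hc fun t ht => (Real.contDiffAt_sqrt ht.ne').inv (Real.sqrt_pos.2 ht).ne'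

theorem cut_one {c t : ℝ} (hc : 0 < c) (ht : c ≤ t) :
    Real.smoothTransition (2 * t / c - 1) = 1 := by
  apply Real.smoothTransition.one_of_one_le
  have : 2 ≤ 2 * t / c := by
    rw [le_div_iff₀ hc]; linarith
  linarith

theorem invFb_eq {c t : ℝ} (hc : 0 < c) (ht : c ≤ t) : invFb c t = t⁻¹ := by
  rw [invFb, cut_one hc ht, one_mul]

theorem isqF_eq {c t : ℝ} (hc : 0 < c) (ht : c ≤ t) : isqF c t = (√t)⁻¹ := by
  rw [isqF, cut_one hc ht, one_mul]

/-! ### brackets -/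

/-- the bracket of two fields is a combination of the `D l` at every point -/
theorem DAlg.Loc.bracket {S : DAlg P κ} [TopologicalSpace P] (H : S.Loc) {Y Z : κ → P → ℂ}
    (hY : ∀ j, S.Sm (Y j)) (hZ : ∀ j, S.Sm (Z j)) (p : P) : ∃ e : κ → ℂ, ∀ u, S.Sm u →
      S.dir Y (S.dir Z u) p - S.dir Z (S.dir Y u) p = ∑ l, e l * S.D l u p := by
  choose c hc using fun j k => H.brk j k p
  refine ⟨fun l => (S.dir Y (Z l) p - S.dir Z (Y l) p) + ∑ j, ∑ k, Y j p * Z k p * c j k l, ?_⟩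
  intro u hu
  have h1 : S.dir Y (S.dir Z u) p = ∑ l, S.dir Y (Z l) p * S.D l u p +
      ∑ j, ∑ k, Y j p * Z k p * S.D j (S.D k u) p := by
    have e1 : S.dir Y (S.dir Z u) p = ∑ j, Y j p * (∑ k, S.D j (Z k) p * S.D k u p +
        ∑ k, Z k p * S.D j (S.D k u) p) := by
      unfold DAlg.dir
      refine Finset.sum_congr rfl fun j _ => ?_
      have := S.D_dir j hZ hu p
      unfold DAlg.dir at this
      rw [this]
    rw [e1]
    simp only [mul_add, Finset.sum_add_distrib, Finset.mul_sum, DAlg.dir, Finset.sum_mul]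
    congr 1
    · rw [Finset.sum_comm]
      refine Finset.sum_congr rfl fun j _ => Finset.sum_congr rfl fun k _ => ?_
      ring
    · refine Finset.sum_congr rfl fun j _ => Finset.sum_congr rfl fun k _ => ?_
      ring
  have h2 : S.dir Z (S.dir Y u) p = ∑ l, S.dir Z (Y l) p * S.D l u p +
      ∑ j, ∑ k, Y j p * Z k p * S.D k (S.D j u) p := by
    have e1 : S.dir Z (S.dir Y u) p = ∑ j, Z j p * (∑ k, S.D j (Y k) p * S.D k u p +
        ∑ k, Y k p * S.D j (S.D k u) p) := by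
      unfold DAlg.dir
      refine Finset.sum_congr rfl fun j _ => ?_
      have := S.D_dir j hY hu p
      unfold DAlg.dir at this
      rw [this]
    rw [e1]
    simp only [mul_add, Finset.sum_add_distrib, Finset.mul_sum, DAlg.dir, Finset.sum_mul]
    congr 1
    · rw [Finset.sum_comm]
      refine Finset.sum_congr rfl fun j _ => Finset.sum_congr rfl fun k _ => ?_
      ring
    · rw [Finset.sum_comm]
      refine Finset.sum_congr rfl fun j _ => Finset.sum_congr rfl fun k _ => ?_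
      ring
  have h3 : ∑ j, ∑ k, Y j p * Z k p * S.D j (S.D k u) p -
      ∑ j, ∑ k, Y j p * Z k p * S.D k (S.D j u) p =
      ∑ l, (∑ j, ∑ k, Y j p * Z k p * c j k l) * S.D l u p := by
    simp only [← Finset.sum_sub_distrib, ← mul_sub]
    have e2 : ∀ j k, Y j p * Z k p * (S.D j (S.D k u) p - S.D k (S.D j u) p) =
        ∑ l, Y j p * Z k p * c j k l * S.D l u p := by
      intro j k
      rw [hc j k u hu, Finset.mul_sum]
      refine Finset.sum_congr rfl fun l _ => ?_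
      ring
    simp only [e2, Finset.sum_mul]
    have e3 : ∀ j, ∑ k, ∑ l, Y j p * Z k p * c j k l * S.D l u p =
        ∑ l, ∑ k, Y j p * Z k p * c j k l * S.D l u p := fun j => Finset.sum_comm
    simp only [e3]
    exact Finset.sum_comm
  rw [h1, h2]
  simp only [add_mul, sub_mul, Finset.sum_add_distrib, Finset.sum_sub_distrib]
  rw [← h3]
  ring

/-! ### local boxes -/

/-- coefficients of the tensor `G` in the fields `Y` -/
def Nn (G : κ → κ → P → ℂ) (Y : Fin 2 → κ → P → ℂ) (i j : Fin 2) : P → ℂ :=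
  fun p => ∑ j', ∑ k', Y i j' p * Y j k' p * G j' k' p

/-- a local coordinate box -/
structure LBox (K : Set P) (x : Fin 2 → P → ℂ) (Y : Fin 2 → κ → P → ℂ) : Prop where
  smx : ∀ i, S.Sm (x i)
  rx : ∀ i, Rl (x i)
  smY : ∀ i j, S.Sm (Y i j)
  rY : ∀ i j, Rl (Y i j)
  Yx : ∀ p ∈ K, ∀ i j, S.dir (Y i) (x j) p = if i = j then 1 else 0
  dec : ∀ u, S.Sm u → ∀ j, ∀ p ∈ K, S.D j u p = ∑ i, S.D j (x i) p * S.dir (Y i) u p
  comm : ∀ u, S.Sm u → ∀ p ∈ K,
    S.dir (Y 0) (S.dir (Y 1) u) p = S.dir (Y 1) (S.dir (Y 0) u) p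

theorem Rl.inv_comp {c : ℝ} (u : P → ℂ) : Rl (fun p => ((invFb c (u p).re : ℝ) : ℂ)) :=
  fun p => Complex.ofReal_im _

/-- coordinates give a local box -/
theorem DAlg.Loc.lbox {S : DAlg P κ} [TopologicalSpace P] (H : S.Loc) (p : P) :
    ∃ (K : Set P) (x : Fin 2 → P → ℂ) (Y : Fin 2 → κ → P → ℂ), IsOpen K ∧ p ∈ K ∧
      LBox S K x Y := by
  obtain ⟨x, U, sx, rx, oU, pU, ⟨c, hc⟩, hU⟩ := H.coord p
  have sA : ∀ i j, S.Sm (S.D j (x i)) := fun i j => S.sm_D j (sx i)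
  have rA : ∀ i j, Rl (S.D j (x i)) := fun i j => S.rl_D j (sx i) (rx i)
  -- Gram matrix
  obtain ⟨g, hg⟩ : ∃ g : Fin 2 → Fin 2 → P → ℂ, ∀ i k,
      g i k = fun q => ∑ j, (S.D j (x i) * S.D j (x k)) q := ⟨_, fun _ _ => rfl⟩
  have sg : ∀ i k, S.Sm (g i k) := fun i k => by
    rw [hg]; exact S.sm_sum' fun j _ => S.sm_mul (sA i j) (sA k j)
  have rg : ∀ i k, Rl (g i k) := fun i k => by
    rw [hg]; exact Rl.sum fun j _ => (rA i j).mul (rA k j)
  have gsym : ∀ q, g 0 1 q = g 1 0 q := fun q => by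
    rw [hg, hg]; exact Finset.sum_congr rfl fun j _ => by simp only [Pi.mul_apply]; ring
  obtain ⟨d, hd⟩ : ∃ d : P → ℂ, d = g 0 0 * g 1 1 - g 0 1 * g 0 1 := ⟨_, rfl⟩
  have sd : S.Sm d := by
    rw [hd]; exact S.sm_sub (S.sm_mul (sg 0 0) (sg 1 1)) (S.sm_mul (sg 0 1) (sg 0 1))
  have rd : Rl d := by
    rw [hd]; exact ((rg 0 0).mul (rg 1 1)).sub ((rg 0 1).mul (rg 0 1))
  -- positivity of the determinant at `p`
  have dpos : 0 < (d p).re := by
    -- real vectors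
    obtain ⟨A, hA⟩ : ∃ A : Fin 2 → κ → ℝ, ∀ i j, A i j = (S.D j (x i) p).re := ⟨_, fun _ _ => rfl⟩
    have hA' : ∀ i j, S.D j (x i) p = ((A i j : ℝ) : ℂ) := fun i j => by
      rw [hA]; exact (Rl.ofReal_re (rA i j) p).symm
    have gA : ∀ i k, g i k p = ((∑ j, A i j * A k j : ℝ) : ℂ) := fun i k => by
      rw [hg]
      simp only [Pi.mul_apply, hA']
      push_cast
      rfl
    have cA : ∀ i k, ∑ j, c i j * A k j = if i = k then (1 : ℝ) else 0 := fun i k => by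
      have h := hc i k
      simp only [hA'] at h
      have h2 : ((∑ j, c i j * A k j : ℝ) : ℂ) = ((if i = k then (1 : ℝ) else 0 : ℝ) : ℂ) := by
        push_cast
        rw [h]
        try split_ifs <;> simp
      exact_mod_cast h2
    have c00 := cA 0 0
    have c01 := cA 0 1
    have c10 := cA 1 0
    have c11 := cA 1 1
    simp at c00 c01 c10 c11
    have ed : (d p).re = (∑ j, A 0 j * A 0 j) * (∑ j, A 1 j * A 1 j) -
        (∑ j, A 0 j * A 1 j) * (∑ j, A 0 j * A 1 j) := by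
      rw [hd]
      simp only [Pi.sub_apply, Pi.mul_apply, gA]
      rw [← Complex.ofReal_mul, ← Complex.ofReal_mul, ← Complex.ofReal_sub, Complex.ofReal_re]
    rw [ed]
    by_contra hneg
    push Not at hneg
    set a := ∑ j, A 0 j * A 0 j with ha
    set b := ∑ j, A 0 j * A 1 j with hb
    set e := ∑ j, A 1 j * A 1 j with he
    have e0 : 0 ≤ e := Finset.sum_nonneg fun j _ => mul_self_nonneg _
    have key : ∑ j, (e * A 0 j - b * A 1 j) ^ 2 = e * (a * e - b * b) := by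
      have : ∀ j, (e * A 0 j - b * A 1 j) ^ 2 = e * e * (A 0 j * A 0 j) -
          2 * e * b * (A 0 j * A 1 j) + b * b * (A 1 j * A 1 j) := fun j => by ring
      simp only [this, Finset.sum_add_distrib, Finset.sum_sub_distrib, ← Finset.mul_sum]
      rw [← ha, ← hb, ← he]
      ring
    have key0 : ∑ j, (e * A 0 j - b * A 1 j) ^ 2 = 0 := by
      apply le_antisymm
      · rw [key]; exact mul_nonpos_of_nonneg_of_nonpos e0 hneg
      · exact Finset.sum_nonneg fun j _ => sq_nonneg _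
    have key1 : ∀ j, e * A 0 j - b * A 1 j = 0 := fun j => by
      have := (Finset.sum_eq_zero_iff_of_nonneg (fun j _ => sq_nonneg _)).1 key0 j
        (Finset.mem_univ j)
      exact pow_eq_zero_iff (two_ne_zero) |>.1 this
    have e1 : e = 0 := by
      have h1 : ∑ j, c 0 j * (e * A 0 j - b * A 1 j) = 0 :=
        Finset.sum_eq_zero fun j _ => by rw [key1, mul_zero]
      have h2 : ∑ j, c 0 j * (e * A 0 j - b * A 1 j) = e * ∑ j, c 0 j * A 0 j -
          b * ∑ j, c 0 j * A 1 j := by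
        rw [Finset.mul_sum, Finset.mul_sum, ← Finset.sum_sub_distrib]
        exact Finset.sum_congr rfl fun j _ => by ring
      rw [h2, c00, c01] at h1
      linarith
    have e2 : ∀ j, A 1 j = 0 := fun j => by
      rw [e1] at he
      have := (Finset.sum_eq_zero_iff_of_nonneg (fun j _ => mul_self_nonneg (A 1 j))).1 he.symm j
        (Finset.mem_univ j)
      exact mul_self_eq_zero.1 this
    simp only [e2, mul_zero, Finset.sum_const_zero] at c11
    exact zero_ne_one c11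
  obtain ⟨d0, hd0⟩ : ∃ d0 : ℝ, d0 = (d p).re / 2 := ⟨_, rfl⟩
  have d0pos : 0 < d0 := by rw [hd0]; linarith
  obtain ⟨v, hv⟩ : ∃ v : P → ℂ, v = fun q => ((invFb d0 (d q).re : ℝ) : ℂ) := ⟨_, rfl⟩
  have sv : S.Sm v := by rw [hv]; exact S.sm_comp (invFb_contDiff d0pos) sd rd
  have rv : Rl v := by rw [hv]; exact Rl.inv_comp d
  obtain ⟨K, hK⟩ : ∃ K : Set P, K = U ∩ {q | d0 < (d q).re} := ⟨_, rfl⟩
  have oK : IsOpen K := by
    rw [hK]
    exact oU.inter (isOpen_lt continuous_const (Complex.continuous_re.comp (H.cont sd)))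
  have pK : p ∈ K := by
    rw [hK]; refine ⟨pU, ?_⟩
    simp only [Set.mem_setOf_eq]; rw [hd0]; linarith
  have vd : ∀ q ∈ K, v q * d q = 1 := fun q hq => by
    rw [hK] at hq
    have h1 : d0 ≤ (d q).re := le_of_lt hq.2
    have h2 : d q = (((d q).re : ℝ) : ℂ) := (Rl.ofReal_re rd q).symm
    have h3 : (d q).re ≠ 0 := by
      have := hq.2
      simp only [Set.mem_setOf_eq] at this
      linarith
    rw [hv]
    simp only []
    rw [invFb_eq d0pos h1]
    rw [h2]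
    simp only [Complex.ofReal_re]
    rw [← Complex.ofReal_mul, inv_mul_cancel₀ h3, Complex.ofReal_one]
  obtain ⟨Y, hY⟩ : ∃ Y : Fin 2 → κ → P → ℂ, Y =
    ![fun j => v * (g 1 1 * S.D j (x 0) - g 0 1 * S.D j (x 1)),
      fun j => v * (g 0 0 * S.D j (x 1) - g 0 1 * S.D j (x 0))] := ⟨_, rfl⟩
  have hY0 : ∀ j, Y 0 j = v * (g 1 1 * S.D j (x 0) - g 0 1 * S.D j (x 1)) := fun j => by
    rw [hY]; rfl
  have hY1 : ∀ j, Y 1 j = v * (g 0 0 * S.D j (x 1) - g 0 1 * S.D j (x 0)) := fun j => by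
    rw [hY]; rfl
  have sY : ∀ i j, S.Sm (Y i j) := by
    intro i j
    fin_cases i
    · show S.Sm (Y 0 j)
      rw [hY0]
      exact S.sm_mul sv (S.sm_sub (S.sm_mul (sg 1 1) (sA 0 j)) (S.sm_mul (sg 0 1) (sA 1 j)))
    · show S.Sm (Y 1 j)
      rw [hY1]
      exact S.sm_mul sv (S.sm_sub (S.sm_mul (sg 0 0) (sA 1 j)) (S.sm_mul (sg 0 1) (sA 0 j)))
  have rY : ∀ i j, Rl (Y i j) := by
    intro i j
    fin_cases i
    · show Rl (Y 0 j)
      rw [hY0]
      exact rv.mul (((rg 1 1).mul (rA 0 j)).sub ((rg 0 1).mul (rA 1 j)))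
    · show Rl (Y 1 j)
      rw [hY1]
      exact rv.mul (((rg 0 0).mul (rA 1 j)).sub ((rg 0 1).mul (rA 0 j)))
  have dirY0 : ∀ k q, S.dir (Y 0) (x k) q = v q * (g 1 1 q * g 0 k q - g 0 1 q * g 1 k q) := by
    intro k q
    unfold DAlg.dir
    simp only [hY0, Pi.mul_apply, Pi.sub_apply]
    rw [hg 0 k, hg 1 k]
    simp only [Pi.mul_apply, Finset.mul_sum, ← Finset.sum_sub_distrib]
    exact Finset.sum_congr rfl fun j _ => by ring
  have dirY1 : ∀ k q, S.dir (Y 1) (x k) q = v q * (g 0 0 q * g 1 k q - g 0 1 q * g 0 k q) := by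
    intro k q
    unfold DAlg.dir
    simp only [hY1, Pi.mul_apply, Pi.sub_apply]
    rw [hg 0 k, hg 1 k]
    simp only [Pi.mul_apply, Finset.mul_sum, ← Finset.sum_sub_distrib]
    exact Finset.sum_congr rfl fun j _ => by ring
  have Yx : ∀ q ∈ K, ∀ i j, S.dir (Y i) (x j) q = if i = j then 1 else 0 := by
    intro q hq i j
    have h := vd q hq
    rw [hd] at h
    simp only [Pi.sub_apply, Pi.mul_apply] at h
    have hs := gsym q
    fin_cases i <;> fin_cases j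
    · show S.dir (Y 0) (x 0) q = if (0 : Fin 2) = 0 then 1 else 0
      rw [dirY0, if_pos rfl, ← hs]
      linear_combination h
    · show S.dir (Y 0) (x 1) q = if (0 : Fin 2) = 1 then 1 else 0
      rw [dirY0, if_neg (by decide)]
      ring
    · show S.dir (Y 1) (x 0) q = if (1 : Fin 2) = 0 then 1 else 0
      rw [dirY1, if_neg (by decide), ← hs]
      ring
    · show S.dir (Y 1) (x 1) q = if (1 : Fin 2) = 1 then 1 else 0
      rw [dirY1, if_pos rfl]
      linear_combination h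
  have dirY : ∀ q ∈ K, ∀ u, S.Sm u → ∀ a : Fin 2 → ℂ,
      (∀ j, S.D j u q = ∑ i, a i * S.D j (x i) q) → ∀ i, S.dir (Y i) u q = a i := by
    intro q hq u su a ha i
    have h1 : S.dir (Y i) u q = a 0 * S.dir (Y i) (x 0) q + a 1 * S.dir (Y i) (x 1) q := by
      unfold DAlg.dir
      simp only [ha, Fin.sum_univ_two, Finset.mul_sum, ← Finset.sum_add_distrib]
      exact Finset.sum_congr rfl fun j _ => by ring
    rw [h1, Yx q hq, Yx q hq]
    fin_cases i <;> simp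
  have KU : ∀ q ∈ K, q ∈ U := fun q hq => by rw [hK] at hq; exact hq.1
  refine ⟨K, x, Y, oK, pK, ⟨sx, rx, sY, rY, Yx, ?_, ?_⟩⟩
  · intro u su j q hq
    obtain ⟨a, ha⟩ := hU q (KU q hq) u su
    rw [ha j]
    refine Finset.sum_congr rfl fun i _ => ?_
    rw [dirY q hq u su a ha i, mul_comm]
  · intro u su q hq
    obtain ⟨e, he⟩ := H.bracket (sY 0) (sY 1) q
    obtain ⟨a, ha⟩ := hU q (KU q hq) u su
    have hz : ∀ i k, ∀ j, S.D j (S.dir (Y i) (x k)) q = 0 := by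
      intro i k j
      have s1 := S.sm_dir (sY i) (sx k)
      have h1 := H.loc (u := S.dir (Y i) (x k) - fun _ => if i = k then 1 else 0) (U := K)
        (S.sm_sub s1 (S.sm_const _)) oK (fun r hr => by
          rw [Pi.sub_apply, Yx r hr, sub_self]) j q hq
      rw [S.D_sub_apply j s1 (S.sm_const _), S.D_const_apply, sub_zero] at h1
      exact h1
    have hx : ∀ k, ∑ l, e l * S.D l (x k) q = 0 := by
      intro k
      rw [← he (x k) (sx k)]
      have h1 : ∀ i, S.dir (Y 0) (S.dir (Y i) (x k)) q = 0 := fun i => by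
        unfold DAlg.dir
        exact Finset.sum_eq_zero fun j _ => by
          have := hz i k j
          unfold DAlg.dir at this
          rw [this, mul_zero]
      have h2 : ∀ i, S.dir (Y 1) (S.dir (Y i) (x k)) q = 0 := fun i => by
        unfold DAlg.dir
        exact Finset.sum_eq_zero fun j _ => by
          have := hz i k j
          unfold DAlg.dir at this
          rw [this, mul_zero]
      rw [h1, h2, sub_zero]
    have h3 := he u su
    have h4 : ∑ l, e l * S.D l u q = 0 := by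
      have : ∑ l, e l * S.D l u q = a 0 * ∑ l, e l * S.D l (x 0) q +
          a 1 * ∑ l, e l * S.D l (x 1) q := by
        simp only [ha, Fin.sum_univ_two, Finset.mul_sum, ← Finset.sum_add_distrib]
        exact Finset.sum_congr rfl fun j _ => by ring
      rw [this, hx, hx, mul_zero, mul_zero, add_zero]
    rw [h4] at h3
    exact sub_eq_zero.1 h3

theorem DAlg.dir_lin {S : DAlg P κ} (Y Z : κ → P → ℂ) (a b : ℂ) (u : P → ℂ) (q : P) :
    S.dir (fun j q => a * Y j q + b * Z j q) u q = a * S.dir Y u q + b * S.dir Z u q := by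
  unfold DAlg.dir
  simp only [Finset.mul_sum, ← Finset.sum_add_distrib]
  exact Finset.sum_congr rfl fun j _ => by ring

theorem DAlg.dir_lin' {S : DAlg P κ} {c : κ → P → ℂ} {u v : P → ℂ} (su : S.Sm u) (sv : S.Sm v)
    (a b : ℂ) (q : P) :
    S.dir c (fun q => a * u q + b * v q) q = a * S.dir c u q + b * S.dir c v q := by
  have h := S.dir_add (c := c) (S.sm_smul a su) (S.sm_smul b sv) q
  rw [S.dir_smul a su, S.dir_smul b sv] at h
  exact h

theorem Nn_symm {G : κ → κ → P → ℂ} (hG : ∀ j k, G j k = G k j) (Y : Fin 2 → κ → P → ℂ)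
    (i j : Fin 2) (q : P) : Nn G Y i j q = Nn G Y j i q := by
  unfold Nn
  rw [Finset.sum_comm]
  refine Finset.sum_congr rfl fun j' _ => Finset.sum_congr rfl fun k' _ => ?_
  rw [hG k' j']
  ring

/-- linear combination of fields -/
theorem Nn_lin (G : κ → κ → P → ℂ) (Y : Fin 2 → κ → P → ℂ) (M : Fin 2 → Fin 2 → ℂ)
    (i j : Fin 2) (q : P) :
    Nn G (fun i k q => M i 0 * Y 0 k q + M i 1 * Y 1 k q) i j q =
      M i 0 * M j 0 * Nn G Y 0 0 q + M i 0 * M j 1 * Nn G Y 0 1 q +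
      M i 1 * M j 0 * Nn G Y 1 0 q + M i 1 * M j 1 * Nn G Y 1 1 q := by
  unfold Nn
  simp only [Finset.mul_sum, ← Finset.sum_add_distrib]
  refine Finset.sum_congr rfl fun j' _ => Finset.sum_congr rfl fun k' _ => ?_
  ring

/-- change of a local box by an upper triangular matrix -/
theorem LBox.change {S : DAlg P κ} {K : Set P} {x : Fin 2 → P → ℂ} {Y : Fin 2 → κ → P → ℂ}
    (h : LBox S K x Y) {α β γ : ℝ} (hα : α ≠ 0) (hγ : γ ≠ 0) :
    LBox S K ![fun q => (α : ℂ) * x 0 q + (β : ℂ) * x 1 q, fun q => 0 * x 0 q + (γ : ℂ) * x 1 q]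
      (fun i k q => (![![((α⁻¹ : ℝ) : ℂ), 0], ![((-(β * (α * γ)⁻¹) : ℝ) : ℂ), ((γ⁻¹ : ℝ) : ℂ)]] :
        Fin 2 → Fin 2 → ℂ) i 0 * Y 0 k q +
        (![![((α⁻¹ : ℝ) : ℂ), 0], ![((-(β * (α * γ)⁻¹) : ℝ) : ℂ), ((γ⁻¹ : ℝ) : ℂ)]] :
        Fin 2 → Fin 2 → ℂ) i 1 * Y 1 k q) := by
  obtain ⟨sx, rx, sY, rY, Yx, dec, comm⟩ := h
  have hα' : (α : ℂ) ≠ 0 := by exact_mod_cast hα
  have hγ' : (γ : ℂ) ≠ 0 := by exact_mod_cast hγ
  have sx0 : S.Sm (fun q => (α : ℂ) * x 0 q + (β : ℂ) * x 1 q) :=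
    S.sm_add (S.sm_smul _ (sx 0)) (S.sm_smul _ (sx 1))
  have sx1 : S.Sm (fun q => 0 * x 0 q + (γ : ℂ) * x 1 q) :=
    S.sm_add (S.sm_smul _ (sx 0)) (S.sm_smul _ (sx 1))
  have sYl : ∀ (a b : ℂ) j, S.Sm (fun q => a * Y 0 j q + b * Y 1 j q) := fun a b j =>
    S.sm_add (S.sm_smul _ (sY 0 j)) (S.sm_smul _ (sY 1 j))
  have rl : ∀ (a b : ℝ) {u v : P → ℂ}, Rl u → Rl v → Rl (fun q => (a : ℂ) * u q + (b : ℂ) * v q) :=
    fun a b u v hu hv => (Rl.smul (Complex.ofReal_im a) hu).add (Rl.smul (Complex.ofReal_im b) hv)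
  refine ⟨?_, ?_, ?_, ?_, ?_, ?_, ?_⟩
  · intro i
    fin_cases i
    · exact sx0
    · exact sx1
  · intro i
    fin_cases i
    · exact rl α β (rx 0) (rx 1)
    · have := rl 0 γ (rx 0) (rx 1)
      simpa using this
  · intro i j
    exact sYl _ _ j
  · intro i j
    fin_cases i
    · have := rl α⁻¹ 0 (rY 0 j) (rY 1 j)
      simpa using this
    · exact rl _ _ (rY 0 j) (rY 1 j)
  · intro p hp i j
    have e00 := Yx p hp 0 0
    have e01 := Yx p hp 0 1
    have e10 := Yx p hp 1 0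
    have e11 := Yx p hp 1 1
    rw [if_pos rfl] at e00 e11
    rw [if_neg (by decide)] at e01 e10
    fin_cases i <;> fin_cases j
    · show S.dir (fun k q => _ * Y 0 k q + _ * Y 1 k q)
        (fun q => (α : ℂ) * x 0 q + (β : ℂ) * x 1 q) p = if (0 : Fin 2) = 0 then 1 else 0
      rw [S.dir_lin' (sx 0) (sx 1), DAlg.dir_lin, DAlg.dir_lin, e00, e01, e10, e11]
      simp
      field_simp
    · show S.dir (fun k q => _ * Y 0 k q + _ * Y 1 k q)
        (fun q => 0 * x 0 q + (γ : ℂ) * x 1 q) p = if (0 : Fin 2) = 1 then 1 else 0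
      rw [S.dir_lin' (sx 0) (sx 1), DAlg.dir_lin, DAlg.dir_lin, e00, e01, e10, e11]
      simp
    · show S.dir (fun k q => _ * Y 0 k q + _ * Y 1 k q)
        (fun q => (α : ℂ) * x 0 q + (β : ℂ) * x 1 q) p = if (1 : Fin 2) = 0 then 1 else 0
      rw [S.dir_lin' (sx 0) (sx 1), DAlg.dir_lin, DAlg.dir_lin, e00, e01, e10, e11]
      simp
      field_simp
      ring
    · show S.dir (fun k q => _ * Y 0 k q + _ * Y 1 k q)
        (fun q => 0 * x 0 q + (γ : ℂ) * x 1 q) p = if (1 : Fin 2) = 1 then 1 else 0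
      rw [S.dir_lin' (sx 0) (sx 1), DAlg.dir_lin, DAlg.dir_lin, e00, e01, e10, e11]
      simp
      field_simp
  · intro u su j p hp
    have h1 := dec u su j p hp
    rw [Fin.sum_univ_two] at h1
    rw [Fin.sum_univ_two]
    show S.D j u p = S.D j (fun q => (α : ℂ) * x 0 q + (β : ℂ) * x 1 q) p *
        S.dir (fun k q => _ * Y 0 k q + _ * Y 1 k q) u p +
      S.D j (fun q => 0 * x 0 q + (γ : ℂ) * x 1 q) p *
        S.dir (fun k q => _ * Y 0 k q + _ * Y 1 k q) u p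
    rw [DAlg.dir_lin, DAlg.dir_lin]
    have d0 : S.D j (fun q => (α : ℂ) * x 0 q + (β : ℂ) * x 1 q) p =
        (α : ℂ) * S.D j (x 0) p + (β : ℂ) * S.D j (x 1) p := by
      have := S.D_add_apply j (S.sm_smul (α : ℂ) (sx 0)) (S.sm_smul (β : ℂ) (sx 1)) p
      rw [S.D_smul_apply j _ (sx 0), S.D_smul_apply j _ (sx 1)] at this
      exact this
    have d1 : S.D j (fun q => 0 * x 0 q + (γ : ℂ) * x 1 q) p =
        0 * S.D j (x 0) p + (γ : ℂ) * S.D j (x 1) p := by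
      have := S.D_add_apply j (S.sm_smul (0 : ℂ) (sx 0)) (S.sm_smul (γ : ℂ) (sx 1)) p
      rw [S.D_smul_apply j _ (sx 0), S.D_smul_apply j _ (sx 1)] at this
      exact this
    rw [d0, d1, h1]
    simp
    field_simp
    ring
  · intro u su p hp
    have h1 := comm u su p hp
    have s0 := S.sm_dir (sY 0) su
    have s1 := S.sm_dir (sY 1) su
    have e : ∀ a b : ℂ, S.dir (fun j q => a * Y 0 j q + b * Y 1 j q) u =
        fun q => a * S.dir (Y 0) u q + b * S.dir (Y 1) u q := fun a b => by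
      funext q
      exact DAlg.dir_lin _ _ _ _ _ _
    show S.dir (fun k q => _ * Y 0 k q + _ * Y 1 k q)
        (S.dir (fun k q => _ * Y 0 k q + _ * Y 1 k q) u) p =
      S.dir (fun k q => _ * Y 0 k q + _ * Y 1 k q)
        (S.dir (fun k q => _ * Y 0 k q + _ * Y 1 k q) u) p
    rw [e, e, S.dir_lin' s0 s1, S.dir_lin' s0 s1]
    simp only [DAlg.dir_lin]
    simp
    linear_combination ((α : ℂ)⁻¹ * (γ : ℂ)⁻¹) * h1

theorem DAlg.sm_Nn {S : DAlg P κ} {G : κ → κ → P → ℂ} (sG : ∀ j k, S.Sm (G j k))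
    {Y : Fin 2 → κ → P → ℂ} (sY : ∀ i j, S.Sm (Y i j)) (i j : Fin 2) : S.Sm (Nn G Y i j) :=
  S.sm_sum' fun j' _ => S.sm_sum' fun k' _ => S.sm_mul (S.sm_mul (sY i j') (sY j k')) (sG j' k')

theorem Rl.Nn {G : κ → κ → P → ℂ} (rG : ∀ j k, Rl (G j k))
    {Y : Fin 2 → κ → P → ℂ} (rY : ∀ i j, Rl (Y i j)) (i j : Fin 2) : Rl (Nn G Y i j) :=
  Rl.sum fun j' _ => Rl.sum fun k' _ => ((rY i j').mul (rY j k')).mul (rG j' k')

/-- a local box in which `G` is nearly Euclidean -/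
theorem DAlg.Loc.nbox {S : DAlg P κ} [TopologicalSpace P] (H : S.Loc) {G : κ → κ → P → ℂ}
    (hT : S.IsT G) (rG : ∀ j k, Rl (G j k)) (sG : ∀ j k, S.Sm (G j k)) (hpos : S.PosT G)
    {κ0 : ℝ} (hκ : 0 < κ0) (p : P) :
    ∃ (K : Set P) (x : Fin 2 → P → ℂ) (Y : Fin 2 → κ → P → ℂ), IsOpen K ∧ p ∈ K ∧
      LBox S K x Y ∧ ∀ q ∈ K, ∀ i j, ‖Nn G Y i j q - (if i = j then 1 else 0)‖ ≤ κ0 := by
  obtain ⟨K, x, Y, oK, pK, hL⟩ := H.lbox p
  have sN := fun i j => DAlg.sm_Nn sG hL.smY i j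
  have rN := fun i j => Rl.Nn rG hL.rY i j
  obtain ⟨E, hE⟩ : ∃ E : ℝ, E = (Nn G Y 0 0 p).re := ⟨_, rfl⟩
  obtain ⟨F, hF⟩ : ∃ F : ℝ, F = (Nn G Y 0 1 p).re := ⟨_, rfl⟩
  obtain ⟨D, hD⟩ : ∃ D : ℝ, D = (Nn G Y 1 1 p).re := ⟨_, rfl⟩
  have hE' : Nn G Y 0 0 p = (E : ℂ) := by rw [hE]; exact (Rl.ofReal_re (rN 0 0) p).symm
  have hF' : Nn G Y 0 1 p = (F : ℂ) := by rw [hF]; exact (Rl.ofReal_re (rN 0 1) p).symm
  have hF'' : Nn G Y 1 0 p = (F : ℂ) := by rw [Nn_symm hT.1]; exact hF'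
  have hD' : Nn G Y 1 1 p = (D : ℂ) := by rw [hD]; exact (Rl.ofReal_re (rN 1 1) p).symm
  -- positivity
  have pos : ∀ s t : ℝ, (s ≠ 0 ∨ t ≠ 0) → 0 < s * s * E + 2 * (s * t) * F + t * t * D := by
    intro s t hst
    have hYr : ∀ i j, Y i j p = (((Y i j p).re : ℝ) : ℂ) :=
      fun i j => (Rl.ofReal_re (hL.rY i j) p).symm
    have h1 := hpos p (fun j => s * (Y 0 j p).re + t * (Y 1 j p).re)
    have e1 : ∀ u, ∑ j, ((s * (Y 0 j p).re + t * (Y 1 j p).re : ℝ) : ℂ) * S.D j u p =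
        s * S.dir (Y 0) u p + t * S.dir (Y 1) u p := by
      intro u
      unfold DAlg.dir
      rw [Finset.mul_sum, Finset.mul_sum, ← Finset.sum_add_distrib]
      refine Finset.sum_congr rfl fun j _ => ?_
      push_cast
      rw [← hYr, ← hYr]
      ring
    have e2 : ∑ j, ∑ k, ((s * (Y 0 j p).re + t * (Y 1 j p).re : ℝ) : ℂ) *
        ((s * (Y 0 k p).re + t * (Y 1 k p).re : ℝ) : ℂ) * G j k p =
        ((s * s * E + 2 * (s * t) * F + t * t * D : ℝ) : ℂ) := by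
      have e3 : ∑ j, ∑ k, ((s * (Y 0 j p).re + t * (Y 1 j p).re : ℝ) : ℂ) *
        ((s * (Y 0 k p).re + t * (Y 1 k p).re : ℝ) : ℂ) * G j k p =
          s * s * Nn G Y 0 0 p + s * t * Nn G Y 0 1 p + t * s * Nn G Y 1 0 p +
            t * t * Nn G Y 1 1 p := by
        unfold Nn
        simp only [Finset.mul_sum, ← Finset.sum_add_distrib]
        refine Finset.sum_congr rfl fun j _ => Finset.sum_congr rfl fun k _ => ?_
        push_cast
        rw [← hYr, ← hYr, ← hYr, ← hYr]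
        ring
      rw [e3, hE', hF', hF'', hD']
      push_cast
      ring
    rw [e2, Complex.ofReal_re] at h1
    apply h1
    rcases hst with h | h
    · refine ⟨x 0, hL.smx 0, ?_⟩
      rw [e1, hL.Yx p pK, hL.Yx p pK]
      simpa using h
    · refine ⟨x 1, hL.smx 1, ?_⟩
      rw [e1, hL.Yx p pK, hL.Yx p pK]
      simpa using h
  have Epos : 0 < E := by
    have := pos 1 0 (Or.inl one_ne_zero)
    simpa using this
  have Dpos : 0 < E * D - F * F := by
    have h1 := pos (-F) E (Or.inr Epos.ne')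
    have h2 : -F * -F * E + 2 * (-F * E) * F + E * E * D = E * (E * D - F * F) := by ring
    rw [h2] at h1
    exact (pos_iff_pos_of_mul_pos h1).1 Epos
  obtain ⟨α, hα⟩ : ∃ α : ℝ, α = √E := ⟨_, rfl⟩
  have α0 : 0 < α := by rw [hα]; exact Real.sqrt_pos.2 Epos
  have α2 : α * α = E := by rw [hα]; exact Real.mul_self_sqrt Epos.le
  obtain ⟨β, hβ⟩ : ∃ β : ℝ, β = F / α := ⟨_, rfl⟩
  have β1 : α * β = F := by rw [hβ]; field_simp
  obtain ⟨γ, hγ⟩ : ∃ γ : ℝ, γ = √((E * D - F * F) / E) := ⟨_, rfl⟩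
  have γ0 : 0 < γ := by rw [hγ]; exact Real.sqrt_pos.2 (div_pos Dpos Epos)
  have γ2 : γ * γ * E = E * D - F * F := by
    rw [hγ, Real.mul_self_sqrt (div_pos Dpos Epos).le]
    field_simp
  have hL' := hL.change (β := β) α0.ne' γ0.ne'
  obtain ⟨M, hM⟩ : ∃ M : Fin 2 → Fin 2 → ℂ,
      M = ![![((α⁻¹ : ℝ) : ℂ), 0], ![((-(β * (α * γ)⁻¹) : ℝ) : ℂ), ((γ⁻¹ : ℝ) : ℂ)]] := ⟨_, rfl⟩
  rw [← hM] at hL'
  obtain ⟨Y', hY'⟩ : ∃ Y' : Fin 2 → κ → P → ℂ,
      Y' = fun i k q => M i 0 * Y 0 k q + M i 1 * Y 1 k q := ⟨_, rfl⟩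
  rw [← hY'] at hL'
  have M00 : M 0 0 = ((α⁻¹ : ℝ) : ℂ) := by rw [hM]; rfl
  have M01 : M 0 1 = 0 := by rw [hM]; rfl
  have M10 : M 1 0 = ((-(β * (α * γ)⁻¹) : ℝ) : ℂ) := by rw [hM]; rfl
  have M11 : M 1 1 = ((γ⁻¹ : ℝ) : ℂ) := by rw [hM]; rfl
  have nn : ∀ i j, Nn G Y' i j p = if i = j then 1 else 0 := by
    intro i j
    rw [hY', Nn_lin, hE', hF', hF'', hD']
    have n00 : M 0 0 * M 0 0 * (E : ℂ) + M 0 0 * M 0 1 * (F : ℂ) + M 0 1 * M 0 0 * (F : ℂ) +
        M 0 1 * M 0 1 * (D : ℂ) = 1 := by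
      rw [M00, M01]
      have : (α⁻¹ * α⁻¹ * E : ℝ) = 1 := by rw [← α2]; field_simp
      have h2 : ((α⁻¹ * α⁻¹ * E : ℝ) : ℂ) = 1 := by rw [this]; simp
      push_cast at h2 ⊢
      linear_combination h2
    have n01 : M 0 0 * M 1 0 * (E : ℂ) + M 0 0 * M 1 1 * (F : ℂ) + M 0 1 * M 1 0 * (F : ℂ) +
        M 0 1 * M 1 1 * (D : ℂ) = 0 := by
      rw [M00, M01, M10, M11]
      have : (α⁻¹ * (-(β * (α * γ)⁻¹)) * E + α⁻¹ * γ⁻¹ * F : ℝ) = 0 := by
        rw [← α2, ← β1]; field_simp; ring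
      have h2 : ((α⁻¹ * (-(β * (α * γ)⁻¹)) * E + α⁻¹ * γ⁻¹ * F : ℝ) : ℂ) = 0 := by
        rw [this]; simp
      push_cast at h2 ⊢
      linear_combination h2
    have n11 : M 1 0 * M 1 0 * (E : ℂ) + M 1 0 * M 1 1 * (F : ℂ) + M 1 1 * M 1 0 * (F : ℂ) +
        M 1 1 * M 1 1 * (D : ℂ) = 1 := by
      rw [M10, M11]
      have h0 : D = (γ * γ * E + F * F) / E := by
        rw [γ2]; field_simp; ring
      have : ((-(β * (α * γ)⁻¹)) * (-(β * (α * γ)⁻¹)) * E + 2 * ((-(β * (α * γ)⁻¹)) * γ⁻¹ * F) +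
          γ⁻¹ * γ⁻¹ * D : ℝ) = 1 := by
        rw [h0, ← α2, ← β1]; field_simp; ring
      have h2 : (((-(β * (α * γ)⁻¹)) * (-(β * (α * γ)⁻¹)) * E +
          2 * ((-(β * (α * γ)⁻¹)) * γ⁻¹ * F) + γ⁻¹ * γ⁻¹ * D : ℝ) : ℂ) = 1 := by
        rw [this]; simp
      push_cast at h2 ⊢
      linear_combination h2
    fin_cases i <;> fin_cases j
    · show _ = if (0 : Fin 2) = 0 then (1 : ℂ) else 0
      rw [if_pos rfl]; exact n00
    · show _ = if (0 : Fin 2) = 1 then (1 : ℂ) else 0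
      rw [if_neg (by decide)]; exact n01
    · show _ = if (1 : Fin 2) = 0 then (1 : ℂ) else 0
      rw [if_neg (by decide), ← n01]
      show M 1 0 * M 0 0 * (E : ℂ) + M 1 0 * M 0 1 * (F : ℂ) + M 1 1 * M 0 0 * (F : ℂ) +
        M 1 1 * M 0 1 * (D : ℂ) = _
      rw [M01]; ring
    · show _ = if (1 : Fin 2) = 1 then (1 : ℂ) else 0
      rw [if_pos rfl]; exact n11
  have sN' := fun i j => DAlg.sm_Nn sG hL'.smY i j
  obtain ⟨K', hK'⟩ : ∃ K' : Set P, K' = K ∩ ⋂ i, ⋂ j,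
      {q | ‖Nn G Y' i j q - (if i = j then 1 else 0)‖ < κ0} := ⟨_, rfl⟩
  have oK' : IsOpen K' := by
    rw [hK']
    refine oK.inter (isOpen_iInter_of_finite fun i => isOpen_iInter_of_finite fun j => ?_)
    exact isOpen_lt (((H.cont (sN' i j)).sub continuous_const).norm) continuous_const
  refine ⟨K', _, Y', oK', ?_, ⟨hL'.smx, hL'.rx, hL'.smY, hL'.rY, ?_, ?_, ?_⟩, ?_⟩
  · rw [hK']
    refine ⟨pK, ?_⟩
    simp only [Set.mem_iInter, Set.mem_setOf_eq]
    intro i j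
    rw [nn, sub_self, norm_zero]
    exact hκ
  · intro q hq i j
    rw [hK'] at hq
    exact hL'.Yx q hq.1 i j
  · intro u su j q hq
    rw [hK'] at hq
    exact hL'.dec u su j q hq.1
  · intro u su q hq
    rw [hK'] at hq
    exact hL'.comm u su q hq.1
  · intro q hq i j
    rw [hK'] at hq
    have := hq.2
    simp only [Set.mem_iInter, Set.mem_setOf_eq] at this
    exact (this i j).le

/-- words of a function which vanishes on an open set -/
theorem DAlg.Loc.wd_zero_on {S : DAlg P κ} [TopologicalSpace P] (H : S.Loc) {u : P → ℂ}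
    (su : S.Sm u) {U : Set P} (oU : IsOpen U) (hu : ∀ p ∈ U, u p = 0) (w : List κ) :
    ∀ p ∈ U, S.wd w u p = 0 := by
  induction w with
  | nil => exact hu
  | cons j w ih => exact H.loc (S.sm_wd w su) oU ih j

/-- **existence of boxes** -/
theorem DAlg.Loc.exists_boxes {S : DAlg P κ} [TopologicalSpace P] [CompactSpace P] [Nonempty P]
    (H : S.Loc) {G : κ → κ → P → ℂ} (hT : S.IsT G) (rG : ∀ j k, Rl (G j k))
    (sG : ∀ j k, S.Sm (G j k)) (hpos : S.PosT G) {κ0 : ℝ} (hκ : 0 < κ0) :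
    ∃ n : ℕ, Nonempty (Boxes S (Fin n) G κ0) := by
  choose K x Y oK pK hL hN using fun p => H.nbox hT rG sG hpos hκ p
  choose f sf rf fp tf using fun p => H.bump p (K p) (oK p) (pK p)
  -- cover
  have hcov : ∀ p : P, {q | 0 < (f p q * f p q).re} ∈ 𝓝 p := by
    intro p
    refine IsOpen.mem_nhds ?_ ?_
    · exact isOpen_lt continuous_const
        (Complex.continuous_re.comp ((H.cont (sf p)).mul (H.cont (sf p))))
    · simp only [Set.mem_setOf_eq, fp, mul_one, Complex.one_re]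
      norm_num
  obtain ⟨t, ht⟩ := CompactSpace.elim_nhds_subcover _ hcov
  obtain ⟨s, hs⟩ : ∃ s : P → ℂ, s = fun q => ∑ p ∈ t, (f p * f p) q := ⟨_, rfl⟩
  have ss : S.Sm s := by rw [hs]; exact S.sm_sum' fun p _ => S.sm_mul (sf p) (sf p)
  have rs : Rl s := by rw [hs]; exact Rl.sum fun p _ => (rf p).mul (rf p)
  have nn : ∀ p q, 0 ≤ (f p q * f p q).re := fun p q => by
    rw [Complex.mul_re, rf p q]; simp [mul_self_nonneg]
  have spos : ∀ q, 0 < (s q).re := by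
    intro q
    have hq : q ∈ ⋃ p ∈ t, {q | 0 < (f p q * f p q).re} := by rw [ht]; trivial
    simp only [Set.mem_iUnion, Set.mem_setOf_eq] at hq
    obtain ⟨p, hp, h1⟩ := hq
    rw [hs]
    simp only [Pi.mul_apply, Complex.re_sum]
    exact Finset.sum_pos' (fun p _ => nn p q) ⟨p, hp, h1⟩
  have hcont : Continuous fun q => (s q).re := Complex.continuous_re.comp (H.cont ss)
  obtain ⟨q0, -, hq0⟩ := isCompact_univ.exists_isMinOn (s := (Set.univ : Set P))
    Set.univ_nonempty hcont.continuousOn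
  obtain ⟨c, hc⟩ : ∃ c : ℝ, c = (s q0).re := ⟨_, rfl⟩
  have c0 : 0 < c := by rw [hc]; exact spos q0
  have hcs : ∀ q, c ≤ (s q).re := fun q => by rw [hc]; exact hq0 (Set.mem_univ q)
  obtain ⟨v, hv⟩ : ∃ v : P → ℂ, v = fun q => ((isqF c (s q).re : ℝ) : ℂ) := ⟨_, rfl⟩
  have sv : S.Sm v := by rw [hv]; exact S.sm_comp (isqF_contDiff c0) ss rs
  have rv : Rl v := by rw [hv]; exact fun p => Complex.ofReal_im _
  have vs : ∀ q, v q ^ 2 * s q = 1 := by
    intro q
    have h1 : s q = (((s q).re : ℝ) : ℂ) := (Rl.ofReal_re rs q).symm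
    rw [hv]
    simp only []
    rw [isqF_eq c0 (hcs q), h1]
    simp only [Complex.ofReal_re]
    rw [← Complex.ofReal_pow, ← Complex.ofReal_mul, inv_pow, Real.sq_sqrt (spos q).le,
      inv_mul_cancel₀ (spos q).ne', Complex.ofReal_one]
  let e := t.equivFin.symm
  refine ⟨t.card, ⟨?_⟩⟩
  refine
    { x := fun c => x (e c)
      Y := fun c => Y (e c)
      K := fun c => K (e c)
      ρ := fun c => f (e c) * v
      smx := fun c => (hL (e c)).smx
      rx := fun c => (hL (e c)).rx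
      smY := fun c => (hL (e c)).smY
      rY := fun c => (hL (e c)).rY
      smρ := fun c => S.sm_mul (sf _) sv
      rρ := fun c => (rf _).mul rv
      zρ := ?_
      sum := ?_
      Yx := fun c => (hL (e c)).Yx
      dec := fun c => (hL (e c)).dec
      near := fun c => hN (e c)
      comm := fun c => (hL (e c)).comm
      loc := fun c u su hu j p hp => H.loc su (oK (e c)) hu j p hp }
  · intro c
    refine DAlg.Zs.mul_left (sf _) sv ?_
    intro w p hp
    have hp' : p ∈ (tsupport (f (e c)))ᶜ := fun h => hp (tf _ h)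
    exact H.wd_zero_on (sf _) (isClosed_tsupport _).isOpen_compl
      (fun q hq => image_eq_zero_of_notMem_tsupport hq) w p hp'
  · intro p
    have h1 : ∑ c, (f (e c) * v) p ^ 2 = ∑ y : t, (f y * v) p ^ 2 :=
      Equiv.sum_comp e (fun y : t => (f y * v) p ^ 2)
    have h2 : ∑ y : t, (f y * v) p ^ 2 = ∑ y ∈ t, (f y * v) p ^ 2 :=
      Finset.sum_coe_sort t (fun y => (f y * v) p ^ 2)
    rw [h1, h2, ← vs p, hs]
    simp only [Pi.mul_apply, Finset.mul_sum]
    exact Finset.sum_congr rfl fun y _ => by ring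

end Vale.Agent.P205.F
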