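import Vale.Agent.P205.F.Inst0
import Vale.Agent.P205.F.Calc1

/-!
The cut-off chart fields span; completeness of the differential function space.
-/

noncomputable section

set_option linter.unusedSectionVars false

open scoped Manifold ContDiff Topology
open Set Filter

namespace Vale.Agent.P205.F

namespace Cov

variable {E : Type*} [NormedAddCommGroup E] [NormedSpace ℝ E]
  {M : Type*} [TopologicalSpace M] [ChartedSpace E M] [IsManifold 𝓘(ℝ, E) ∞ M]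
  (K : Cov E M) {A : Type*} [Fintype A] (b : Module.Basis A ℝ E)
  {F : Type*} [NormedAddCommGroup F] [NormedSpace ℝ F]

/-- the fields of one chart span, up to the cut-off -/
theorem X_span {i : Fin K.n} {p : M} (hp : p ∈ (K.ph i).source)
    (ξ : TangentSpace 𝓘(ℝ, E) p) :
    K.χ i p • ξ = ∑ a, (b.repr (mfderiv 𝓘(ℝ, E) 𝓘(ℝ, E) (K.ph i) p ξ : E) a) • K.X b (i, a) p := by
  have h1 := mfderivWithin_extChartAt_symm_comp_mfderiv_extChartAt' (I := 𝓘(ℝ, E)) (x := K.c i) hp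
  rw [ModelWithCorners.range_eq_univ, mfderivWithin_univ] at h1
  let T : E →L[ℝ] E := mfderiv 𝓘(ℝ, E) 𝓘(ℝ, E) (K.ph i).symm (K.ph i p)
  let S : E →L[ℝ] E := mfderiv 𝓘(ℝ, E) 𝓘(ℝ, E) (K.ph i) p
  have h2 : ∀ v : E, T (S v) = v := fun v => DFunLike.congr_fun h1 v
  have key : ∀ (r : ℝ) (v : E), r • v = ∑ a, (b.repr (S v) a) • (r • T (b a) : E) := by
    intro r v
    have h3 : ∑ a, (b.repr (S v) a) • (r • T (b a) : E) =
        r • T (∑ a, (b.repr (S v) a) • b a) := by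
      rw [map_sum, Finset.smul_sum]
      refine Finset.sum_congr rfl fun a _ => ?_
      rw [map_smul, smul_comm]
    rw [h3, b.sum_repr, h2]
  exact key (K.χ i p) ξ

/-- on `V i` the derivatives along the fields of the chart `i` determine all derivatives -/
theorem Dv_span {i : Fin K.n} {p : M} (hp : p ∈ K.V i) (ξ : TangentSpace 𝓘(ℝ, E) p) :
    ∃ c : A → ℝ, ∀ {u : M → F}, ContMDiff 𝓘(ℝ, E) 𝓘(ℝ, F) ∞ u →
      (mfderiv 𝓘(ℝ, E) 𝓘(ℝ, F) u p ξ : F) = ∑ a, c a • K.Dv b (i, a) u p := by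
  refine ⟨fun a => b.repr (mfderiv 𝓘(ℝ, E) 𝓘(ℝ, E) (K.ph i) p ξ : E) a, fun {u} hu => ?_⟩
  have h1 := K.X_span b (K.V_sub i hp) ξ
  rw [K.one i p hp, one_smul] at h1
  have h2 : (mfderiv 𝓘(ℝ, E) 𝓘(ℝ, F) u p ξ : F) =
      (mfderiv 𝓘(ℝ, E) 𝓘(ℝ, F) u p : E →L[ℝ] F) ((∑ a, (b.repr (mfderiv 𝓘(ℝ, E) 𝓘(ℝ, E)
        (K.ph i) p ξ : E) a) • K.X b (i, a) p : TangentSpace 𝓘(ℝ, E) p)) :=
    congrArg _ h1
  rw [h2]
  have key : ∀ (T : E →L[ℝ] F) (r : A → ℝ) (v : A → E),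
      T (∑ a, r a • v a) = ∑ a, r a • T (v a) := by
    intro T r v
    rw [map_sum]
    exact Finset.sum_congr rfl fun a _ => map_smul _ _ _
  refine (key _ _ _).trans (Finset.sum_congr rfl fun a _ => ?_)
  rw [K.Dv_eq b hu]
  rfl

theorem Dv_V {i : Fin K.n} {p : M} (hp : p ∈ K.V i) (a : A) (u : M → F) :
    K.Dv b (i, a) u p = fderiv ℝ (u ∘ (K.ph i).symm) (K.ph i p) (b a) := by
  rw [Dv]
  change K.χ i p • _ = _
  rw [K.one i p hp, one_smul]

end Cov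

/-- uniform limits -/
theorem inst_unif {P : Type*} {f : ℕ → P → ℂ} {c : ℕ → ℝ} (hc : Summable c) {q0 : ℕ}
    (h : ∀ q, q0 ≤ q → ∀ p, ‖f (q + 1) p - f q p‖ ≤ c q) :
    ∃ g : P → ℂ, TendstoUniformly f g atTop := by
  have hd : Summable (fun n => c (n + q0)) := (summable_nat_add_iff q0).2 hc
  have h1 : ∀ p n, dist (f (n + q0) p) (f (n.succ + q0) p) ≤ c (n + q0) := by
    intro p n
    rw [dist_comm, dist_eq_norm]
    have h2 := h (n + q0) (Nat.le_add_left _ _) p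
    rwa [show n + q0 + 1 = n.succ + q0 by omega] at h2
  have h2 : ∀ p, ∃ a, Tendsto (fun n => f (n + q0) p) atTop (𝓝 a) := fun p =>
    cauchySeq_tendsto_of_complete (cauchySeq_of_dist_le_of_summable _ (h1 p) hd)
  choose g hg using h2
  refine ⟨g, ?_⟩
  rw [Metric.tendstoUniformly_iff]
  intro ε hε
  have h3 := tendsto_sum_nat_add (fun n => c (n + q0))
  obtain ⟨N, hN⟩ := eventually_atTop.1 (h3.eventually (gt_mem_nhds hε))
  refine eventually_atTop.2 ⟨N + q0, fun q hq p => ?_⟩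
  obtain ⟨m, rfl⟩ : ∃ m, q = m + q0 := ⟨q - q0, by omega⟩
  have h5 := dist_le_tsum_of_dist_le_of_tendsto _ (h1 p) hd (hg p) m
  have h6 := hN m (by omega)
  rw [dist_comm]
  refine lt_of_le_of_lt h5 (lt_of_eq_of_lt ?_ h6)
  exact tsum_congr fun k => by rw [add_comm m k]

end Vale.Agent.P205.F
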