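import Vale.Agent.P205.F.BoxesEx
import Vale.Agent.P205.F.Inst1

/-!
Locality, bumps, coordinates and brackets for the differential function space of a compact surface;
the tensor of a Riemannian metric (P205, block BOXES).
-/

noncomputable section

set_option linter.all false

open scoped Manifold ContDiff Topology
open Set Filter

namespace Vale.Agent.P205.F

namespace Cov

variable {E : Type*} [NormedAddCommGroup E] [NormedSpace ℝ E]
  {M : Type*} [TopologicalSpace M] [ChartedSpace E M] [IsManifold 𝓘(ℝ, E) ∞ M]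
  (K : Cov E M) {A : Type*} (b : A → E)
  {F : Type*} [NormedAddCommGroup F] [NormedSpace ℝ F]

/-- derivatives are local -/
theorem Dv_congr {u v : M → F} {U : Set M} (oU : IsOpen U) (h : ∀ p ∈ U, u p = v p)
    (j : Fin K.n × A) {p : M} (hp : p ∈ U) : K.Dv b j u p = K.Dv b j v p := by
  by_cases hs : p ∈ (K.ph j.1).source
  · have h1 : u ∘ (K.ph j.1).symm =ᶠ[𝓝 (K.ph j.1 p)] v ∘ (K.ph j.1).symm := by
      have hc : ContinuousAt (K.ph j.1).symm (K.ph j.1 p) :=
        continuousAt_extChartAt_symm'' ((K.ph j.1).map_source hs)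
      have h2 : U ∈ 𝓝 ((K.ph j.1).symm (K.ph j.1 p)) := by
        rw [(K.ph j.1).left_inv hs]
        exact oU.mem_nhds hp
      filter_upwards [hc h2] with y hy
      exact h _ hy
    rw [Dv, Dv, h1.fderiv_eq]
  · rw [K.Dv_eq_zero b j _ hs, K.Dv_eq_zero b j _ hs]

/-- the coordinates of the chart `i`, cut off -/
def co (b : Module.Basis (Fin 2) ℝ E) (i : Fin K.n) (a : Fin 2) (p : M) : ℂ :=
  ((K.χ i p * b.repr (K.ph i p) a : ℝ) : ℂ)

variable [FiniteDimensional ℝ E] (b : Module.Basis (Fin 2) ℝ E)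

theorem co_contMDiff (i : Fin K.n) (a : Fin 2) :
    ContMDiff 𝓘(ℝ, E) 𝓘(ℝ, ℂ) ∞ (K.co b i a) := by
  have h1 : ContMDiff 𝓘(ℝ, E) 𝓘(ℝ, ℝ) ∞ (fun p => K.χ i p * b.repr (K.ph i p) a) := by
    refine contMDiff_of_tsupport fun p hp => ?_
    have h2 : p ∈ (K.ph i).source := K.tsupport_sub i (tsupport_smul_subset_left
      (K.χ i) (fun p => b.repr (K.ph i p) a) hp)
    have h3 : ContMDiffAt 𝓘(ℝ, E) 𝓘(ℝ, E) ∞ (K.ph i) p := by
      rw [extChartAt_source] at h2
      exact (contMDiffOn_extChartAt (x := K.c i)).contMDiffAt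
        ((chartAt E (K.c i)).open_source.mem_nhds h2)
    have h4 : ContDiff ℝ ∞ (fun y : E => b.repr y a) := by
      have h5 : ContDiff ℝ ∞ (LinearMap.toContinuousLinearMap (b.coord a)) :=
        ContinuousLinearMap.contDiff _
      exact h5
    exact (K.sm i).contMDiffAt.smul (h4.contMDiff.contMDiffAt.comp p h3)
  exact Complex.ofRealCLM.contDiff.comp_contMDiff h1

/-- the derivatives of the coordinates along the fields of the same chart -/
theorem Dv_co {i : Fin K.n} {p : M} (hp : p ∈ K.V i) (a a' : Fin 2) :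
    K.Dv b (i, a') (K.co b i a) p = if a' = a then 1 else 0 := by
  have hs := K.V_sub i hp
  rw [K.Dv_V b hp]
  have h1 : K.co b i a ∘ (K.ph i).symm =ᶠ[𝓝 (K.ph i p)]
      (Complex.ofRealCLM.comp (LinearMap.toContinuousLinearMap (b.coord a)) : E →L[ℝ] ℂ) := by
    have hc : ContinuousAt (K.ph i).symm (K.ph i p) :=
      continuousAt_extChartAt_symm'' ((K.ph i).map_source hs)
    have h2 : K.V i ∈ 𝓝 ((K.ph i).symm (K.ph i p)) := by
      rw [(K.ph i).left_inv hs]
      exact (K.opn i).mem_nhds hp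
    filter_upwards [hc h2, (K.isOpen_target i).mem_nhds ((K.ph i).map_source hs)] with y hy hy'
    simp only [Function.comp_apply, co]
    rw [K.one i _ hy, (K.ph i).right_inv hy', one_mul]
    rfl
  rw [h1.fderiv_eq, ContinuousLinearMap.fderiv]
  simp only [ContinuousLinearMap.comp_apply, LinearMap.coe_toContinuousLinearMap',
    Module.Basis.coord_apply, Module.Basis.repr_self, Complex.ofRealCLM_apply]
  rw [Finsupp.single_apply]
  split_ifs <;> simp

/-- second derivatives commute -/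
theorem Dv_comm {u : M → F} (hu : ContMDiff 𝓘(ℝ, E) 𝓘(ℝ, F) ∞ u) {i : Fin K.n} {p : M}
    (hp : p ∈ K.V i) (a a' : Fin 2) :
    K.Dv b (i, a) (K.Dv b (i, a') u) p = K.Dv b (i, a') (K.Dv b (i, a) u) p := by
  have hs := K.V_sub i hp
  have key : ∀ a a' : Fin 2, K.Dv b (i, a) (K.Dv b (i, a') u) p =
      fderiv ℝ (fderiv ℝ (u ∘ (K.ph i).symm)) (K.ph i p) (b a) (b a') := by
    intro a a'
    rw [K.Dv_V b hp]
    have h1 : K.Dv b (i, a') u ∘ (K.ph i).symm =ᶠ[𝓝 (K.ph i p)]
        fun y => fderiv ℝ (u ∘ (K.ph i).symm) y (b a') := by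
      have hc : ContinuousAt (K.ph i).symm (K.ph i p) :=
        continuousAt_extChartAt_symm'' ((K.ph i).map_source hs)
      have h2 : K.V i ∈ 𝓝 ((K.ph i).symm (K.ph i p)) := by
        rw [(K.ph i).left_inv hs]
        exact (K.opn i).mem_nhds hp
      filter_upwards [hc h2, (K.isOpen_target i).mem_nhds ((K.ph i).map_source hs)] with y hy hy'
      simp only [Function.comp_apply]
      rw [K.Dv_V b hy, (K.ph i).right_inv hy']
    rw [h1.fderiv_eq]
    have hd : DifferentiableAt ℝ (fderiv ℝ (u ∘ (K.ph i).symm)) (K.ph i p) := by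
      have h3 : ContDiffOn ℝ ∞ (fderiv ℝ (u ∘ (K.ph i).symm)) (K.ph i).target :=
        (K.contDiffOn_symm hu i).fderiv_of_isOpen (K.isOpen_target i) (by simp)
      exact (h3.contDiffAt ((K.isOpen_target i).mem_nhds
        ((K.ph i).map_source hs))).differentiableAt (by simp)
    have h4 := (hd.hasFDerivAt.clm_apply (hasFDerivAt_const (b a') (K.ph i p))).fderiv
    rw [h4]
    simp
  rw [key, key]
  have h5 : ContDiffAt ℝ ∞ (u ∘ (K.ph i).symm) (K.ph i p) :=
    (K.contDiffOn_symm hu i).contDiffAt ((K.isOpen_target i).mem_nhds ((K.ph i).map_source hs))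
  have h6 := (h5.isSymmSndFDerivAt (n := ∞) (by
    simp only [minSmoothness_of_isRCLikeNormedField]
    have h7 : ((2 : ℕ∞) : WithTop ℕ∞) ≤ ((⊤ : ℕ∞) : WithTop ℕ∞) := WithTop.coe_le_coe.2 le_top
    exact h7))
  exact h6 (b a) (b a')

/-- decomposition of all derivatives in the coordinates of one chart -/
theorem Dv_dec {i : Fin K.n} {p : M} (hp : p ∈ K.V i) {u : M → ℂ}
    (hu : ContMDiff 𝓘(ℝ, E) 𝓘(ℝ, ℂ) ∞ u) (j : Fin K.n × Fin 2) :
    K.Dv b j u p = ∑ a, K.Dv b j (K.co b i a) p * K.Dv b (i, a) u p := by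
  obtain ⟨c, hc⟩ := K.Dv_span b (F := ℂ) hp (K.X b j p)
  have h1 : ∀ {u : M → ℂ}, ContMDiff 𝓘(ℝ, E) 𝓘(ℝ, ℂ) ∞ u →
      K.Dv b j u p = ∑ a, c a • K.Dv b (i, a) u p := by
    intro u hu
    rw [K.Dv_eq b hu]
    exact hc hu
  have h2 : ∀ a, K.Dv b j (K.co b i a) p = (c a : ℂ) := by
    intro a
    rw [h1 (K.co_contMDiff b i a), Fin.sum_univ_two, K.Dv_co b hp, K.Dv_co b hp]
    fin_cases a
    · simp
    · simp
  rw [h1 hu]
  refine Finset.sum_congr rfl fun a _ => ?_
  rw [h2, Complex.real_smul]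

/-- **locality, bumps, coordinates, brackets** for the differential function space of a compact
surface -/
theorem loc [T2Space M] [CompactSpace M] : (K.dalg b).Loc where
  cont := fun {u} hu => ContMDiff.continuous hu
  loc := by
    intro u U hu oU h j p hp
    have h1 := K.Dv_congr b (u := u) (v := fun _ => (0 : ℂ)) oU h j hp
    rw [K.dalg_D, h1, K.Dv_const]
    rfl
  bump := by
    intro p U oU pU
    obtain ⟨f, -, hf⟩ := (SmoothBumpFunction.nhds_basis_tsupport (I := 𝓘(ℝ, E)) p).mem_iff.1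
      (oU.mem_nhds pU)
    refine ⟨fun q => ((f q : ℝ) : ℂ), ?_, fun q => Complex.ofReal_im _, ?_, ?_⟩
    · rw [K.dalg_Sm]
      exact Complex.ofRealCLM.contDiff.comp_contMDiff f.contMDiff
    · simp [f.eq_one]
    · have h1 : tsupport (fun q => ((f q : ℝ) : ℂ)) ⊆ tsupport f := by
        refine closure_mono ?_
        intro q hq
        simp only [Function.mem_support] at hq ⊢
        intro h
        exact hq (by rw [h]; simp)
      exact h1.trans hf
  coord := by
    intro p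
    obtain ⟨i, hi⟩ := K.cov p
    refine ⟨K.co b i, K.V i, fun a => K.co_contMDiff b i a, fun a q => Complex.ofReal_im _,
      K.opn i, hi, ?_, ?_⟩
    · refine ⟨fun a j => if j = (i, a) then 1 else 0, fun a k => ?_⟩
      have h1 : ∀ j : Fin K.n × Fin 2, (((if j = (i, a) then (1 : ℝ) else 0 : ℝ) : ℂ) *
          (K.dalg b).D j (K.co b i k) p) = if j = (i, a) then K.Dv b j (K.co b i k) p else 0 := by
        intro j
        split_ifs <;> simp [K.dalg_D]
      rw [Finset.sum_congr rfl fun j _ => h1 j, Finset.sum_ite_eq' Finset.univ,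
        if_pos (Finset.mem_univ _), K.Dv_co b hi]
    · intro q hq u hu
      refine ⟨fun a => K.Dv b (i, a) u q, fun j => ?_⟩
      rw [K.dalg_D, K.Dv_dec b hq hu]
      refine Finset.sum_congr rfl fun a _ => ?_
      rw [K.dalg_D, mul_comm]
  brk := by
    intro j k p
    obtain ⟨i, hi⟩ := K.cov p
    refine ⟨fun l => ∑ a, if l = (i, a) then (K.Dv b j (K.Dv b k (K.co b i a)) p -
      K.Dv b k (K.Dv b j (K.co b i a)) p) else 0, fun u hu => ?_⟩
    have hu' : ContMDiff 𝓘(ℝ, E) 𝓘(ℝ, ℂ) ∞ u := hu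
    have sx := fun a => K.co_contMDiff b i a
    -- second derivatives in the chart
    have h1 : ∀ j k : Fin K.n × Fin 2, K.Dv b j (K.Dv b k u) p =
        ∑ a, (K.Dv b j (K.Dv b k (K.co b i a)) p * K.Dv b (i, a) u p +
          K.Dv b k (K.co b i a) p * ∑ a', K.Dv b j (K.co b i a') p *
            K.Dv b (i, a') (K.Dv b (i, a) u) p) := by
      intro j k
      have e1 : K.Dv b j (K.Dv b k u) p =
          K.Dv b j (∑ a, K.Dv b k (K.co b i a) * K.Dv b (i, a) u) p := by
        refine K.Dv_congr b (K.opn i) (fun q hq => ?_) j hi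
        rw [K.Dv_dec b hq hu', Finset.sum_apply]
        rfl
      have e2 := (K.dalg b).D_sum_apply (A := Finset.univ)
        (u := fun a : Fin 2 => K.Dv b k (K.co b i a) * K.Dv b (i, a) u) j
        (fun a _ => (K.dalg b).sm_mul (K.Dv_contMDiff b (sx a) k)
          (K.Dv_contMDiff b hu' (i, a))) p
      have e3 : (fun p => ∑ a, (K.Dv b k (K.co b i a) * K.Dv b (i, a) u) p) =
          ∑ a, K.Dv b k (K.co b i a) * K.Dv b (i, a) u := by
        funext q
        rw [Finset.sum_apply]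
      rw [e3, K.dalg_D] at e2
      rw [e1, e2]
      refine Finset.sum_congr rfl fun a _ => ?_
      rw [K.dalg_D, K.Dv_mul b (K.Dv_contMDiff b (sx a) k) (K.Dv_contMDiff b hu' (i, a)),
        Pi.add_apply, Pi.mul_apply, Pi.mul_apply,
        K.Dv_dec b hi (K.Dv_contMDiff b hu' (i, a)) j]
    show K.Dv b j (K.Dv b k u) p - K.Dv b k (K.Dv b j u) p = _
    rw [h1 j k, h1 k j]
    have h2 : ∑ l, (∑ a, if l = (i, a) then (K.Dv b j (K.Dv b k (K.co b i a)) p -
        K.Dv b k (K.Dv b j (K.co b i a)) p) else 0) * (K.dalg b).D l u p =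
        ∑ a, (K.Dv b j (K.Dv b k (K.co b i a)) p -
        K.Dv b k (K.Dv b j (K.co b i a)) p) * K.Dv b (i, a) u p := by
      simp only [Finset.sum_mul]
      rw [Finset.sum_comm]
      refine Finset.sum_congr rfl fun a _ => ?_
      have h3 : ∀ l : Fin K.n × Fin 2, (if l = (i, a) then (K.Dv b j (K.Dv b k (K.co b i a)) p -
          K.Dv b k (K.Dv b j (K.co b i a)) p) else 0) * (K.dalg b).D l u p =
          if l = (i, a) then (K.Dv b j (K.Dv b k (K.co b i a)) p -
          K.Dv b k (K.Dv b j (K.co b i a)) p) * (K.dalg b).D l u p else 0 := by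
        intro l
        split_ifs <;> simp
      rw [Finset.sum_congr rfl fun l _ => h3 l, Finset.sum_ite_eq' Finset.univ,
        if_pos (Finset.mem_univ _), K.dalg_D]
    rw [h2]
    simp only [Fin.sum_univ_two]
    have h4 := K.Dv_comm b hu' hi 0 1
    rw [h4]
    ring

/-! ### the tensor of a Riemannian metric -/

theorem sec_eq {p q : M} (h : q = p) (w : E) :
    (⟨q, w⟩ : TangentBundle 𝓘(ℝ, E) M) = ⟨p, w⟩ := by
  subst h
  rfl

/-- the chart fields are smooth sections -/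
theorem X_contMDiff (j : Fin K.n × Fin 2) :
    ContMDiff 𝓘(ℝ, E) 𝓘(ℝ, E).tangent ∞
      (fun p => (⟨p, K.X b j p⟩ : TangentBundle 𝓘(ℝ, E) M)) := by
  haveI : IsManifold 𝓘(ℝ, E) 1 M := IsManifold.of_le (n := ∞) (by
    have h7 : ((1 : ℕ∞) : WithTop ℕ∞) ≤ ((⊤ : ℕ∞) : WithTop ℕ∞) := WithTop.coe_le_coe.2 le_top
    exact h7)
  let s : (p : M) → TangentSpace 𝓘(ℝ, E) p :=
    fun p => (mfderiv 𝓘(ℝ, E) 𝓘(ℝ, E) (K.ph j.1).symm (K.ph j.1 p) (b j.2) : E)
  have hs : ContMDiffOn 𝓘(ℝ, E) 𝓘(ℝ, E).tangent ∞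
      (fun p => (⟨p, s p⟩ : TangentBundle 𝓘(ℝ, E) M)) (K.ph j.1).source := by
    have h1 : ContMDiffOn 𝓘(ℝ, E) 𝓘(ℝ, E) ∞ (K.ph j.1).symm (K.ph j.1).target :=
      contMDiffOn_extChartAt_symm (K.c j.1)
    have h2 := h1.contMDiffOn_tangentMapWithin (m := ∞) (by simp)
      (K.isOpen_target j.1).uniqueMDiffOn
    have h3 : ContMDiff 𝓘(ℝ, E) 𝓘(ℝ, E).tangent ∞
        (fun y : E => (⟨y, b j.2⟩ : TangentBundle 𝓘(ℝ, E) E)) :=
      contMDiff_vectorSpace_iff_contDiff.2 contDiff_const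
    have h4 : ContMDiffOn 𝓘(ℝ, E) 𝓘(ℝ, E) ∞ (K.ph j.1) (K.ph j.1).source := by
      rw [extChartAt_source]
      exact contMDiffOn_extChartAt
    have h5 := h2.comp (h3.comp_contMDiffOn h4) (fun p hp => (K.ph j.1).map_source hp)
    refine h5.congr fun p hp => ?_
    have h6 := (K.ph j.1).left_inv hp
    simp only [Function.comp_apply, tangentMapWithin]
    rw [mfderivWithin_of_isOpen (K.isOpen_target j.1) ((K.ph j.1).map_source hp)]
    exact (sec_eq h6 _).symm
  have h7 := ContMDiffOn.smul_section_of_tsupport (V := fun x : M => TangentSpace 𝓘(ℝ, E) x)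
    (ψ := K.χ j.1) (s := s) (K.sm j.1).contMDiffOn (K.isOpen_source j.1) (K.tsupport_sub j.1) hs
  exact h7

variable (g : Bundle.ContMDiffRiemannianMetric 𝓘(ℝ, E) ∞ E
    (fun x : M => TangentSpace 𝓘(ℝ, E) x))

/-- the components of a Riemannian metric -/
def G (j k : Fin K.n × Fin 2) (p : M) : ℂ := ((g.inner p (K.X b j p) (K.X b k p) : ℝ) : ℂ)

theorem G_contMDiff (j k : Fin K.n × Fin 2) :
    ContMDiff 𝓘(ℝ, E) 𝓘(ℝ, ℂ) ∞ (K.G b g j k) := by
  have h1 := ContMDiff.clm_bundle_apply₂ (F₁ := E) (F₂ := E) (F₃ := ℝ)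
    (E₃ := Bundle.Trivial M ℝ) (g.contMDiff) (K.X_contMDiff b j) (K.X_contMDiff b k)
  have h2 : ContMDiff 𝓘(ℝ, E) 𝓘(ℝ, ℝ) ∞ (fun p => g.inner p (K.X b j p) (K.X b k p)) := by
    intro p
    have h3 := h1 p
    rw [Bundle.contMDiffAt_totalSpace] at h3
    exact h3.2
  exact Complex.ofRealCLM.contDiff.comp_contMDiff h2

theorem clm_exp {ι : Type*} [Fintype ι] {F' : Type*} [NormedAddCommGroup F'] [NormedSpace ℝ F']
    (T : E →L[ℝ] F') {v : E} {c : ι → ℝ} {w : ι → E} (h : v = ∑ a, c a • w a) :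
    T v = ∑ a, c a • T (w a) := by
  rw [h, map_sum]
  exact Finset.sum_congr rfl fun a _ => map_smul _ _ _

theorem bil_sum {ι : Type*} [Fintype ι] (B : E →L[ℝ] E →L[ℝ] ℝ) {u : E} {c : ι → ℝ} {v : ι → E}
    (h : u = ∑ a, c a • v a) :
    B u u = ∑ j, ∑ k, c j * c k * B (v j) (v k) := by
  have h1 : B u u = ∑ j, c j • B (v j) u := clm_exp (B.flip u) h
  rw [h1]
  refine Finset.sum_congr rfl fun j _ => ?_
  rw [clm_exp (B (v j)) h, Finset.smul_sum]
  refine Finset.sum_congr rfl fun k _ => ?_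
  rw [smul_eq_mul, smul_eq_mul]
  ring

/-- the chart fields as vectors of `E` -/
def XE (j : Fin K.n × Fin 2) (p : M) : E := K.X b j p

/-- the differential as a map on `E` -/
def dfE (u : M → F) (p : M) : E →L[ℝ] F := mfderiv 𝓘(ℝ, E) 𝓘(ℝ, F) u p

theorem Dv_eqE {u : M → F} (hu : ContMDiff 𝓘(ℝ, E) 𝓘(ℝ, F) ∞ u) (j : Fin K.n × Fin 2) (p : M) :
    K.Dv b j u p = dfE u p (K.XE b j p) := K.Dv_eq b hu j p

/-- the metric as a bilinear form on `E` -/
def gE (p : M) : E →L[ℝ] E →L[ℝ] ℝ := g.inner p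

theorem G_eqE (j k : Fin K.n × Fin 2) (p : M) :
    K.G b g j k p = ((gE g p (K.XE b j p) (K.XE b k p) : ℝ) : ℂ) := rfl

/-- expansion of the chart fields -/
theorem X_exp {i : Fin K.n} {p : M} (hp : p ∈ K.V i) (j : Fin K.n × Fin 2) :
    ∃ e : Fin 2 → ℝ, K.XE b j p = ∑ a, e a • K.XE b (i, a) p ∧
      ∀ a, K.Dv b j (K.co b i a) p = (e a : ℂ) := by
  obtain ⟨c, hc⟩ : ∃ c : Fin 2 → ℝ, c = fun a => b.repr (mfderiv 𝓘(ℝ, E) 𝓘(ℝ, E) (K.ph i) p
    (K.X b j p) : E) a := ⟨_, rfl⟩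
  have h1 := K.X_span b (K.V_sub i hp) (K.X b j p)
  rw [K.one i p hp, one_smul] at h1
  have h1' : K.XE b j p = ∑ a, c a • K.XE b (i, a) p := by
    rw [hc]; exact h1
  refine ⟨c, h1', fun a => ?_⟩
  rw [K.Dv_eqE b (K.co_contMDiff b i a)]
  have h3 := clm_exp (dfE (K.co b i a) p) h1'
  have h4 : ∀ a', dfE (K.co b i a) p (K.XE b (i, a') p) = if a' = a then 1 else 0 := by
    intro a'
    rw [← K.Dv_co b hp a a', K.Dv_eqE b (K.co_contMDiff b i a)]
  rw [Fin.sum_univ_two, h4, h4] at h3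
  refine h3.trans ?_
  fin_cases a
  · simp
  · simp

theorem G_isT [CompactSpace M] : (K.dalg b).IsT (K.G b g) := by
  refine ⟨fun j k => ?_, fun p c hc k => ?_⟩
  · funext p
    simp only [G]
    rw [g.symm]
  · obtain ⟨i, hi⟩ := K.cov p
    choose e he he' using fun j => K.X_exp b hi j
    have h1 : ∀ j, K.G b g j k p = ∑ a, (e j a : ℂ) * K.G b g (i, a) k p := by
      intro j
      have h3 := clm_exp ((gE g p).flip (K.XE b k p)) (he j)
      simp only [K.G_eqE b g]
      have h4 : gE g p (K.XE b j p) (K.XE b k p) =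
          ∑ a, e j a • gE g p (K.XE b (i, a) p) (K.XE b k p) := h3
      rw [h4]
      simp only [smul_eq_mul]
      push_cast
      rfl
    have h2 : ∀ a, ∑ j, c j * (e j a : ℂ) = 0 := by
      intro a
      have h3 := hc (K.co b i a) (K.co_contMDiff b i a)
      simp only [K.dalg_D, he'] at h3
      exact h3
    have h3 : ∀ j, c j * K.G b g j k p =
        ∑ a, (c j * (e j a : ℂ)) * K.G b g (i, a) k p := fun j => by
      rw [h1 j, Finset.mul_sum]
      exact Finset.sum_congr rfl fun a _ => by ring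
    rw [Finset.sum_congr rfl fun j _ => h3 j, Finset.sum_comm]
    refine Finset.sum_eq_zero fun a _ => ?_
    rw [← Finset.sum_mul, h2, zero_mul]

theorem G_rl (j k : Fin K.n × Fin 2) : Rl (K.G b g j k) := fun p => Complex.ofReal_im _

theorem G_quad (p : M) (c : Fin K.n × Fin 2 → ℝ) :
    ∑ j, ∑ k, (c j : ℂ) * (c k : ℂ) * K.G b g j k p =
      ((gE g p (∑ j, c j • K.XE b j p) (∑ j, c j • K.XE b j p) : ℝ) : ℂ) := by
  rw [bil_sum (gE g p) (c := c) (v := fun j => K.XE b j p) rfl]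
  push_cast
  rfl

theorem G_posT [CompactSpace M] : (K.dalg b).PosT (K.G b g) := by
  rintro p c ⟨u, hu, hne⟩
  rw [K.G_quad b g, Complex.ofReal_re]
  refine g.pos p (∑ j, c j • K.XE b j p : E) ?_
  intro h0
  apply hne
  have h3 : ∀ j, (c j : ℂ) * (K.dalg b).D j u p = c j • dfE u p (K.XE b j p) := by
    intro j
    rw [K.dalg_D, K.Dv_eqE b hu, Complex.real_smul]
  simp only [h3]
  rw [← clm_exp (dfE u p) (c := c) (w := fun j => K.XE b j p) rfl]
  have h4 : (∑ j, c j • K.XE b j p : E) = 0 := h0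
  rw [h4, map_zero]

/-- **(BOXES)** for a compact surface with a Riemannian metric -/
theorem exists_boxes [T2Space M] [CompactSpace M] [Nonempty M] {κ0 : ℝ} (hκ : 0 < κ0) :
    ∃ n : ℕ, Nonempty (Boxes (K.dalg b) (Fin n) (K.G b g) κ0) :=
  (K.loc b).exists_boxes (K.G_isT b g) (K.G_rl b g) (K.G_contMDiff b g) (K.G_posT b g) hκ

end Cov

end Vale.Agent.P205.F
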