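import Vale.Agent.P205.F.Calc1

/-!
Compositions `F ∘ u` with `F : ℝ → ℂ` smooth and `u` real valued: bounds for all derivatives
(P205, full question).

`DAlg.Bd.comp`: the basic estimate.  `DAlg.FO.comp`, `DAlg.FO.comp'`, `DAlg.FO.compB`: families.
`DAlg.FO.osc`: oscillating factors.  `pw r`: a smooth function equal to `x ^ r` for `x ≥ 1`.
`DAlg.FO.inv`, `DAlg.FO.sqrt`: reciprocals and square roots.
-/

open scoped ContDiff

noncomputable section

namespace Vale.Agent.P205.F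

variable {P κ : Type*}

/-- the constant of `DAlg.Bd.comp` -/
def compC (A : ℝ) : ℕ → ℝ
  | 0 => 1
  | k + 1 => compC A k * (1 + 2 ^ k * A)

theorem compC_nonneg {A : ℝ} (hA : 0 ≤ A) (k : ℕ) : 0 ≤ compC A k := by
  induction k with
  | zero => exact zero_le_one
  | succ k ih => exact mul_nonneg ih (by positivity)

theorem one_le_compC {A : ℝ} (hA : 0 ≤ A) (k : ℕ) : 1 ≤ compC A k := by
  induction k with
  | zero => exact le_rfl
  | succ k ih =>
    have h2 : (0 : ℝ) ≤ 2 ^ k * A := by positivity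
    change 1 ≤ compC A k * (1 + 2 ^ k * A)
    nlinarith [mul_nonneg (zero_le_one.trans ih) h2]

theorem compC_mono {A A' : ℝ} (hA : 0 ≤ A) (h : A ≤ A') (k : ℕ) : compC A k ≤ compC A' k := by
  induction k with
  | zero => exact le_rfl
  | succ k ih =>
    exact mul_le_mul ih (by gcongr) (by positivity) (compC_nonneg (hA.trans h) k)

/-- the basic estimate for compositions -/
theorem DAlg.Bd.comp {S : DAlg P κ} {F : ℝ → ℂ} {u : P → ℂ} {μ A B : ℝ} {k : ℕ}
    (hF : ContDiff ℝ ∞ F) (hu : S.Sm u) (hr : Rl u) (hμ : 0 ≤ μ) (hA : 0 ≤ A)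
    (hD : ∀ j, S.Bd μ k (A * μ) (S.D j u))
    (hB : ∀ n, n ≤ k → ∀ p, ‖iteratedDeriv n F (u p).re‖ ≤ B) :
    S.Bd μ k (compC A k * B) (fun p => F (u p).re) := by
  induction k generalizing F with
  | zero =>
    intro w hw p
    have hw0 : w = [] := List.length_eq_zero_iff.1 (Nat.le_zero.1 hw)
    subst hw0
    have := hB 0 le_rfl p
    simpa [compC] using this
  | succ k ih =>
    intro w hw p
    have hB0 : 0 ≤ B := (norm_nonneg _).trans (hB 0 (Nat.zero_le _) p)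
    rcases List.eq_nil_or_concat w with rfl | ⟨w', j, rfl⟩
    · have h0 := hB 0 (Nat.zero_le _) p
      simp only [iteratedDeriv_zero] at h0
      simp only [S.wd_nil, List.length_nil, pow_zero, mul_one]
      calc ‖F (u p).re‖ ≤ 1 * B := by rwa [one_mul]
        _ ≤ compC A (k + 1) * B := mul_le_mul_of_nonneg_right (one_le_compC hA _) hB0
    · rw [List.concat_eq_append] at hw ⊢
      have hw' : w'.length ≤ k := by simpa using hw
      have hF' : ContDiff ℝ ∞ (deriv F) :=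
        ((contDiff_infty_iff_deriv (𝕜 := ℝ)).1 hF).2
      have h1 := ih hF' (fun j => (hD j).mono_k (Nat.le_succ k)) (fun n hn p => by
        have := hB (n + 1) (Nat.succ_le_succ hn) p
        rwa [iteratedDeriv_succ'] at this)
      have h2 := h1.mul (S.sm_comp hF' hu hr) (S.sm_D j hu) ((hD j).mono_k (Nat.le_succ k))
      have e : S.D j (fun p => F (u p).re) = (fun p => deriv F (u p).re) * S.D j u := by
        rw [S.D_comp j hF hu hr]
        rfl
      rw [S.wd_snoc, e, List.length_append, List.length_singleton]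
      refine (h2 w' hw' p).trans ?_
      have hc := compC_nonneg hA k
      have e2 : 2 ^ k * (compC A k * B * (A * μ)) * μ ^ w'.length =
          (compC A k * (2 ^ k * A)) * B * μ ^ (w'.length + 1) := by ring
      rw [e2]
      refine mul_le_mul_of_nonneg_right (mul_le_mul_of_nonneg_right ?_ hB0) (pow_nonneg hμ _)
      change _ ≤ compC A k * (1 + 2 ^ k * A)
      nlinarith

section FO

variable {S : DAlg P κ} {ι : Type*} {μ s b : ι → ℝ} {u : ι → P → ℂ}

/-- compositions, general family form; `F` may depend on the index -/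
theorem DAlg.FO.compB [Finite κ] {F : ι → ℝ → ℂ} (hF : ∀ i, ContDiff ℝ ∞ (F i))
    (hμ : ∀ i, 0 ≤ μ i) (hu : ∀ i, S.Sm (u i)) (hr : ∀ i, Rl (u i))
    (hD : ∀ j, S.FO μ μ (fun i => S.D j (u i)))
    (hB : ∀ n, ∃ C : ℝ, ∀ i p, ‖iteratedDeriv n (F i) (u i p).re‖ ≤ C * b i)
    (hb : ∀ i, 0 ≤ b i) :
    S.FO μ b (fun i p => F i (u i p).re) := by
  classical
  refine ⟨fun i => S.sm_comp (hF i) (hu i) (hr i), fun k => ?_⟩
  have : Fintype κ := Fintype.ofFinite κ
  choose A hA0 hA using fun j => (hD j).2 k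
  choose C hC using hB
  set A' : ℝ := ∑ j, A j with hA'
  set C' : ℝ := ∑ n ∈ Finset.range (k + 1), |C n| with hC'
  have hA'0 : 0 ≤ A' := Finset.sum_nonneg fun j _ => hA0 j
  have hC'0 : 0 ≤ C' := Finset.sum_nonneg fun n _ => abs_nonneg _
  refine ⟨compC A' k * C', mul_nonneg (compC_nonneg hA'0 k) hC'0, fun i => ?_⟩
  rw [mul_assoc]
  refine DAlg.Bd.comp (hF i) (hu i) (hr i) (hμ i) hA'0 (fun j => (hA j i).mono (hμ i) ?_)
    fun n hn p => (hC n i p).trans ?_
  · exact mul_le_mul_of_nonneg_right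
      (Finset.single_le_sum (f := A) (fun j _ => hA0 j) (Finset.mem_univ j)) (hμ i)
  · refine mul_le_mul_of_nonneg_right ((le_abs_self _).trans ?_) (hb i)
    exact Finset.single_le_sum (f := fun n => |C n|) (fun n _ => abs_nonneg _)
      (Finset.mem_range.2 (Nat.lt_succ_of_le hn))

/-- `F` with all derivatives bounded on the line -/
theorem DAlg.FO.comp' [Finite κ] {F : ℝ → ℂ} (hF : ContDiff ℝ ∞ F)
    (hB : ∀ n, ∃ C : ℝ, ∀ x, ‖iteratedDeriv n F x‖ ≤ C) (hμ : ∀ i, 0 ≤ μ i)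
    (hu : ∀ i, S.Sm (u i)) (hr : ∀ i, Rl (u i))
    (hD : ∀ j, S.FO μ μ (fun i => S.D j (u i))) :
    S.FO μ (fun _ => 1) (fun i p => F (u i p).re) :=
  DAlg.FO.compB (b := fun _ => 1) (F := fun _ => F) (fun _ => hF) hμ hu hr hD
    (fun n => by
      obtain ⟨C, hC⟩ := hB n
      exact ⟨C, fun i p => by simpa using hC _⟩) fun _ => zero_le_one

/-- `F` arbitrary, `u` bounded -/
theorem DAlg.FO.comp {F : ℝ → ℂ} (hF : ContDiff ℝ ∞ F) (hμ : ∀ i, 0 ≤ μ i)
    (hr : ∀ i, Rl (u i)) (hu : S.FO μ (fun _ => 1) u) :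
    S.FO μ (fun _ => 1) (fun i p => F (u i p).re) := by
  refine ⟨fun i => S.sm_comp hF (hu.1 i) (hr i), fun k => ?_⟩
  obtain ⟨C, hC0, hC⟩ := hu.2 (k + 1)
  have hcont : ∀ n : ℕ, ∃ B : ℝ, ∀ x ∈ Set.Icc (-C) C, ‖iteratedDeriv n F x‖ ≤ B := fun n =>
    (isCompact_Icc (a := -C) (b := C)).exists_bound_of_continuousOn
      (hF.continuous_iteratedDeriv n (by exact_mod_cast le_top)).continuousOn
  choose B hB using hcont
  set B' : ℝ := ∑ n ∈ Finset.range (k + 1), |B n| with hB'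
  have hB'0 : 0 ≤ B' := Finset.sum_nonneg fun n _ => abs_nonneg _
  refine ⟨compC C k * B', mul_nonneg (compC_nonneg hC0 k) hB'0, fun i => ?_⟩
  rw [mul_one]
  refine DAlg.Bd.comp hF (hu.1 i) (hr i) (hμ i) hC0 (fun j => ?_) fun n hn p => ?_
  · have := (hC i).D j
    rwa [mul_one] at this
  · have h1 : ‖u i p‖ ≤ C := by simpa using (hC i).apply p
    have h2 : |(u i p).re| ≤ C := (Complex.abs_re_le_norm _).trans h1
    refine (hB n _ ⟨by linarith [neg_abs_le (u i p).re], (le_abs_self _).trans h2⟩).trans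
      ((le_abs_self _).trans ?_)
    exact Finset.single_le_sum (f := fun n => |B n|) (fun n _ => abs_nonneg _)
      (Finset.mem_range.2 (Nat.lt_succ_of_le hn))

/-- composition with a smooth real function of a bounded family, real version of the result -/
theorem Rl.compR (G : ℝ → ℝ) (u : P → ℂ) : Rl (fun p => ((G (u p).re : ℝ) : ℂ)) :=
  fun _ => Complex.ofReal_im _

end FO

/-! ### oscillating factors -/

section Osc

theorem contDiff_cexpI : ContDiff ℝ ∞ (fun x : ℝ => Complex.exp (Complex.I * x)) := by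
  have h : ContDiff ℝ ∞ (fun x : ℝ => Complex.I * (x : ℂ)) :=
    contDiff_const.mul Complex.ofRealCLM.contDiff
  exact h.cexp

theorem hasDerivAt_cexpI (x : ℝ) :
    HasDerivAt (fun x : ℝ => Complex.exp (Complex.I * x))
      (Complex.I * Complex.exp (Complex.I * x)) x := by
  have h : HasDerivAt (fun x : ℝ => Complex.I * (x : ℂ)) (Complex.I * 1) x :=
    (Complex.ofRealCLM.hasDerivAt (x := x)).const_mul Complex.I
  have h2 := h.cexp
  convert h2 using 1
  ring

theorem iteratedDeriv_cexpI (n : ℕ) (x : ℝ) :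
    iteratedDeriv n (fun x : ℝ => Complex.exp (Complex.I * x)) x =
      Complex.I ^ n * Complex.exp (Complex.I * x) := by
  induction n generalizing x with
  | zero => simp
  | succ n ih =>
    rw [iteratedDeriv_succ]
    have e : iteratedDeriv n (fun x : ℝ => Complex.exp (Complex.I * x)) =
        fun x : ℝ => Complex.I ^ n * Complex.exp (Complex.I * x) := funext ih
    rw [e]
    have := ((hasDerivAt_cexpI x).const_mul (Complex.I ^ n)).deriv
    rw [this, pow_succ, mul_assoc]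

theorem norm_iteratedDeriv_cexpI (n : ℕ) (x : ℝ) :
    ‖iteratedDeriv n (fun x : ℝ => Complex.exp (Complex.I * x)) x‖ ≤ 1 := by
  rw [iteratedDeriv_cexpI, norm_mul, norm_pow, Complex.norm_I, one_pow, one_mul, mul_comm,
    Complex.norm_exp_ofReal_mul_I]

variable {S : DAlg P κ}

theorem osc_eq {ψ : P → ℂ} (hr : Rl ψ) (c : ℝ) (p : P) :
    Complex.exp (Complex.I * c * ψ p) =
      (fun x : ℝ => Complex.exp (Complex.I * x)) ((fun p => (c : ℂ) * ψ p) p).re := by
  have h : ((c : ℂ) * ψ p).re = c * (ψ p).re := by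
    rw [Complex.re_ofReal_mul]
  simp only [h]
  congr 1
  have h2 := Rl.ofReal_re hr p
  rw [mul_assoc]
  congr 1
  rw [Complex.ofReal_mul, h2]

theorem DAlg.sm_osc {ψ : P → ℂ} (hψ : S.Sm ψ) (hr : Rl ψ) (c : ℝ) :
    S.Sm (fun p => Complex.exp (Complex.I * c * ψ p)) := by
  have h := S.sm_comp contDiff_cexpI (S.sm_smul (c : ℂ) hψ)
    (Rl.smul (Complex.ofReal_im c) hr)
  have e : (fun p => Complex.exp (Complex.I * c * ψ p)) = fun p =>
      (fun x : ℝ => Complex.exp (Complex.I * x)) ((fun p => (c : ℂ) * ψ p) p).re :=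
    funext fun p => osc_eq hr c p
  rw [e]
  exact h

/-- the derivative of an oscillating factor -/
theorem DAlg.D_osc {ψ : P → ℂ} (j : κ) (hψ : S.Sm ψ) (hr : Rl ψ) (c : ℝ) :
    S.D j (fun p => Complex.exp (Complex.I * c * ψ p)) =
      fun p => Complex.I * c * S.D j ψ p * Complex.exp (Complex.I * c * ψ p) := by
  have h := S.D_comp j contDiff_cexpI (S.sm_smul (c : ℂ) hψ)
    (Rl.smul (Complex.ofReal_im c) hr)
  have e : (fun p => Complex.exp (Complex.I * c * ψ p)) = fun p =>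
      (fun x : ℝ => Complex.exp (Complex.I * x)) ((fun p => (c : ℂ) * ψ p) p).re :=
    funext fun p => osc_eq hr c p
  rw [e]
  refine h.trans ?_
  funext p
  rw [(hasDerivAt_cexpI _).deriv, S.D_smul_apply j (c : ℂ) hψ p]
  have := osc_eq hr c p
  simp only at this ⊢
  rw [this]
  ring

theorem norm_osc {ψ : P → ℂ} (hr : Rl ψ) (c : ℝ) (p : P) :
    ‖Complex.exp (Complex.I * c * ψ p)‖ = 1 := by
  rw [osc_eq hr c p]
  simp only
  rw [mul_comm Complex.I, Complex.norm_exp_ofReal_mul_I]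

/-- oscillating factors: `exp (i c ψ) = O(1)` at every scale above `c |Dψ|` -/
theorem DAlg.FO.osc [Finite κ] {ι : Type*} {μ s : ι → ℝ} {ψ : ι → P → ℂ} {c : ι → ℝ}
    (hμ : ∀ i, 0 ≤ μ i) (hψ : ∀ i, S.Sm (ψ i)) (hr : ∀ i, Rl (ψ i))
    (hD : ∀ j, S.FO μ s (fun i => S.D j (ψ i))) (hc : ∀ i, |c i| * s i ≤ μ i) :
    S.FO μ (fun _ => 1) (fun i p => Complex.exp (Complex.I * c i * ψ i p)) := by
  have h := DAlg.FO.comp' (S := S) (μ := μ) (u := fun i p => (c i : ℂ) * ψ i p)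
    contDiff_cexpI (fun n => ⟨1, fun x => norm_iteratedDeriv_cexpI n x⟩) hμ
    (fun i => S.sm_smul (c i : ℂ) (hψ i))
    (fun i => Rl.smul (Complex.ofReal_im (c i)) (hr i)) (fun j => ?_)
  · exact h.congr fun i p => (osc_eq (hr i) (c i) p).symm
  · have h1 := DAlg.FO.smul (S := S) (c := fun i => (c i : ℂ)) (r := fun i => |c i|) (C := 1)
      (fun i => by rw [Complex.norm_real, Real.norm_eq_abs, one_mul])
      (fun i => abs_nonneg (c i)) (hD j)
    refine (h1.congr fun i p => ?_).mono_s' hc hμ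
    exact (S.D_smul_apply j (c i : ℂ) (hψ i) p).symm

end Osc

/-! ### powers -/

section Pw

/-- a smooth function equal to `x ^ r` for `x ≥ 1` and to `0` for `x ≤ 1 / 2` -/
def pw (r x : ℝ) : ℝ := Real.smoothTransition (2 * x - 1) * x ^ r

theorem pw_of_one_le (r : ℝ) {x : ℝ} (hx : 1 ≤ x) : pw r x = x ^ r := by
  rw [pw, Real.smoothTransition.one_of_one_le (by linarith), one_mul]

theorem pw_of_le (r : ℝ) {x : ℝ} (hx : x ≤ 1 / 2) : pw r x = 0 := by
  rw [pw, Real.smoothTransition.zero_of_nonpos (by linarith), zero_mul]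

theorem contDiff_pw (r : ℝ) : ContDiff ℝ ∞ (pw r) := by
  rw [contDiff_iff_contDiffAt]
  intro x
  rcases lt_or_ge x (1 / 2) with hx | hx
  · have h : pw r =ᶠ[nhds x] fun _ => 0 := by
      filter_upwards [Iio_mem_nhds hx] with y hy
      exact pw_of_le r (le_of_lt hy)
    exact contDiffAt_const.congr_of_eventuallyEq h
  · have h1 : ContDiff ℝ ∞ (fun x : ℝ => Real.smoothTransition (2 * x - 1)) :=
      Real.smoothTransition.contDiff.comp (by fun_prop)
    have h2 : ContDiffAt ℝ ∞ (fun x : ℝ => x ^ r) x :=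
      Real.contDiffAt_rpow_const_of_ne (by linarith)
    exact h1.contDiffAt.mul h2

theorem iteratedDeriv_pw_of_lt (r : ℝ) (n : ℕ) {x : ℝ} (hx : x < 1 / 2) :
    iteratedDeriv n (pw r) x = 0 := by
  have h : pw r =ᶠ[nhds x] fun _ => 0 := by
    filter_upwards [Iio_mem_nhds hx] with y hy
    exact pw_of_le r (le_of_lt hy)
  rw [h.iteratedDeriv_eq n, iteratedDeriv_const]
  split_ifs <;> rfl

theorem iteratedDeriv_pw_of_gt (r : ℝ) (n : ℕ) {x : ℝ} (hx : 1 < x) :
    iteratedDeriv n (pw r) x = (descPochhammer ℝ n).eval r * x ^ (r - n) := by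
  have h : pw r =ᶠ[nhds x] fun y => y ^ r := by
    filter_upwards [Ioi_mem_nhds hx] with y hy
    exact pw_of_one_le r (le_of_lt hy)
  rw [h.iteratedDeriv_eq n, iteratedDeriv_eq_iterate, Real.iter_deriv_rpow_const]

/-- derivatives of order at least `r` are bounded -/
theorem bdd_iteratedDeriv_pw (r : ℝ) (n : ℕ) (hn : r ≤ n) :
    ∃ C : ℝ, ∀ x, ‖iteratedDeriv n (pw r) x‖ ≤ C := by
  obtain ⟨C, hC⟩ := (isCompact_Icc (a := (1 / 2 : ℝ)) (b := 1)).exists_bound_of_continuousOn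
    ((contDiff_pw r).continuous_iteratedDeriv n (by exact_mod_cast le_top)).continuousOn
  refine ⟨max |C| |(descPochhammer ℝ n).eval r|, fun x => ?_⟩
  rcases lt_or_ge x (1 / 2) with hx | hx
  · rw [iteratedDeriv_pw_of_lt r n hx, norm_zero]
    exact (abs_nonneg _).trans (le_max_left _ _)
  · rcases le_or_gt x 1 with hx1 | hx1
    · exact (hC x ⟨hx, hx1⟩).trans ((le_abs_self _).trans (le_max_left _ _))
    · rw [iteratedDeriv_pw_of_gt r n hx1, norm_mul, Real.norm_eq_abs, Real.norm_eq_abs]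
      have h0 : 0 < x := by linarith
      have h1 : |x ^ (r - n)| ≤ 1 := by
        rw [abs_of_nonneg (Real.rpow_nonneg h0.le _)]
        exact Real.rpow_le_one_of_one_le_of_nonpos hx1.le (by linarith)
      calc |(descPochhammer ℝ n).eval r| * |x ^ (r - n)|
          ≤ |(descPochhammer ℝ n).eval r| * 1 := by gcongr
        _ ≤ _ := by rw [mul_one]; exact le_max_right _ _

/-- growth of `pw r` for `r ≥ 0` -/
theorem abs_pw_le {r : ℝ} (x : ℝ) : |pw r x| ≤ |x| ^ r := by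
  rcases le_or_gt x (1 / 2) with hx | hx
  · rw [pw_of_le r hx, abs_zero]
    exact Real.rpow_nonneg (abs_nonneg _) _
  · have h0 : 0 < x := by linarith
    rw [pw, abs_mul, abs_of_nonneg (Real.smoothTransition.nonneg _),
      abs_of_nonneg (Real.rpow_nonneg h0.le _), abs_of_pos h0]
    calc Real.smoothTransition (2 * x - 1) * x ^ r ≤ 1 * x ^ r :=
          mul_le_mul_of_nonneg_right (Real.smoothTransition.le_one _)
            (Real.rpow_nonneg h0.le _)
      _ = x ^ r := one_mul _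

theorem iteratedDeriv_ofReal {G : ℝ → ℝ} (hG : ContDiff ℝ ∞ G) (n : ℕ) (x : ℝ) :
    iteratedDeriv n (fun x => ((G x : ℝ) : ℂ)) x = ((iteratedDeriv n G x : ℝ) : ℂ) := by
  induction n generalizing x with
  | zero => simp
  | succ n ih =>
    rw [iteratedDeriv_succ, iteratedDeriv_succ]
    have e : iteratedDeriv n (fun x => ((G x : ℝ) : ℂ)) =
        fun x => ((iteratedDeriv n G x : ℝ) : ℂ) := funext ih
    rw [e]
    have hd : DifferentiableAt ℝ (iteratedDeriv n G) x :=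
      (hG.differentiable_iteratedDeriv n (by exact_mod_cast ENat.natCast_lt_top n)) x
    exact hd.hasDerivAt.ofReal_comp.deriv

theorem norm_iteratedDeriv_ofReal {G : ℝ → ℝ} (hG : ContDiff ℝ ∞ G) (n : ℕ) (x : ℝ) :
    ‖iteratedDeriv n (fun x => ((G x : ℝ) : ℂ)) x‖ = ‖iteratedDeriv n G x‖ := by
  rw [iteratedDeriv_ofReal hG, Complex.norm_real]

theorem contDiff_ofReal {G : ℝ → ℝ} (hG : ContDiff ℝ ∞ G) :
    ContDiff ℝ ∞ (fun x => ((G x : ℝ) : ℂ)) :=
  Complex.ofRealCLM.contDiff.comp hG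

/-- the reciprocal function `1 / x`, `x ≥ 1`, continued smoothly to the line -/
def F0 (x : ℝ) : ℝ := pw (-1) x

/-- the square root `√x`, `x ≥ 1`, continued smoothly to the line -/
def F1 (x : ℝ) : ℝ := pw (1 / 2) x

theorem F0_eq {x : ℝ} (hx : 1 ≤ x) : F0 x = x⁻¹ := by
  rw [F0, pw_of_one_le _ hx, Real.rpow_neg_one]

theorem F1_eq {x : ℝ} (hx : 1 ≤ x) : F1 x = √x := by
  rw [F1, pw_of_one_le _ hx, Real.sqrt_eq_rpow]

theorem contDiff_F0 : ContDiff ℝ ∞ F0 := contDiff_pw _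

theorem contDiff_F1 : ContDiff ℝ ∞ F1 := contDiff_pw _

theorem bdd_F0 (n : ℕ) : ∃ C : ℝ, ∀ x, ‖iteratedDeriv n F0 x‖ ≤ C :=
  bdd_iteratedDeriv_pw (-1) n (by linarith [(Nat.cast_nonneg n : (0 : ℝ) ≤ n)])

theorem bdd_F1 (n : ℕ) (hn : 1 ≤ n) : ∃ C : ℝ, ∀ x, ‖iteratedDeriv n F1 x‖ ≤ C :=
  bdd_iteratedDeriv_pw (1 / 2) n (by
    have : (1 : ℝ) ≤ n := by exact_mod_cast hn
    linarith)

theorem abs_F1_le (x : ℝ) : |F1 x| ≤ √|x| := by
  rw [Real.sqrt_eq_rpow]
  exact abs_pw_le x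

end Pw

/-! ### reciprocals and square roots -/

section Inv

variable {S : DAlg P κ} {ι : Type*} {μ b : ι → ℝ} {u : ι → P → ℂ}

/-- `u` is `O(b)` at the scale `μ`: then `b u` varies by `O(1)` at the scale `μ b²` -/
theorem DAlg.FO.scaleD (hμ : ∀ i, 0 ≤ μ i) (hb : ∀ i, 1 ≤ b i) (hu : S.FO μ b u) (j : κ) :
    S.FO (fun i => μ i * b i ^ 2) (fun i => μ i * b i ^ 2)
      (fun i => S.D j (fun p => (b i : ℂ) * u i p)) := by
  have hb0 : ∀ i, 0 ≤ b i := fun i => zero_le_one.trans (hb i)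
  have h1 := (DAlg.FO.real_mul hb0 hu).D j
  refine (h1.congr_s fun i => ?_).mono_mu (fun i => ?_) hμ fun i => ?_
  · ring
  · exact le_mul_of_one_le_right (hμ i) (one_le_pow₀ (hb i))
  · exact mul_nonneg (hμ i) (sq_nonneg _)

/-- reciprocals -/
theorem DAlg.FO.inv [Finite κ] (hμ : ∀ i, 0 ≤ μ i) (hb : ∀ i, 1 ≤ b i) (hr : ∀ i, Rl (u i))
    (hu : S.FO μ b u) :
    S.FO (fun i => μ i * b i ^ 2) b
      (fun i p => (b i : ℂ) * ((F0 (b i * (u i p).re) : ℝ) : ℂ)) := by
  have hb0 : ∀ i, 0 ≤ b i := fun i => zero_le_one.trans (hb i)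
  have hr' : ∀ i, Rl (fun p => (b i : ℂ) * u i p) := fun i =>
    Rl.smul (Complex.ofReal_im _) (hr i)
  have h := DAlg.FO.comp' (S := S) (μ := fun i => μ i * b i ^ 2)
    (u := fun i p => (b i : ℂ) * u i p) (contDiff_ofReal contDiff_F0)
    (fun n => by
      obtain ⟨C, hC⟩ := bdd_F0 n
      exact ⟨C, fun x => by
        rw [norm_iteratedDeriv_ofReal contDiff_F0]
        exact hC x⟩)
    (fun i => mul_nonneg (hμ i) (sq_nonneg _)) (fun i => S.sm_smul _ (hu.1 i)) hr'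
    (fun j => DAlg.FO.scaleD hμ hb hu j)
  refine ((DAlg.FO.real_mul hb0 h).congr_s fun i => mul_one _).congr fun i p => ?_
  rw [Complex.re_ofReal_mul]

theorem inv_mul_eq {b : ℝ} (hb : 0 < b) {u : P → ℂ} (hr : Rl u) {p : P}
    (h : 1 / b ≤ (u p).re) :
    (b : ℂ) * ((F0 (b * (u p).re) : ℝ) : ℂ) * u p = 1 := by
  have h1 : 1 ≤ b * (u p).re := by
    rw [div_le_iff₀ hb] at h
    linarith
  have h2 : (u p).re ≠ 0 := by
    intro h0
    rw [h0, mul_zero] at h1
    linarith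
  rw [F0_eq h1, ← Rl.ofReal_re hr p, Complex.ofReal_re, ← Complex.ofReal_mul,
    ← Complex.ofReal_mul, ← Complex.ofReal_one]
  congr 1
  field_simp

theorem inv_eq {b : ℝ} (hb : 0 < b) {u : P → ℂ} (hr : Rl u) {p : P}
    (h : 1 / b ≤ (u p).re) :
    (b : ℂ) * ((F0 (b * (u p).re) : ℝ) : ℂ) = (u p)⁻¹ :=
  eq_inv_of_mul_eq_one_left (inv_mul_eq hb hr h)

/-- reciprocals, packaged: `v = O(b)` at the scale `μ b²`, and `v u = 1` where `u ≥ 1 / b` -/
theorem DAlg.FO.exists_inv [Finite κ] (hμ : ∀ i, 0 ≤ μ i) (hb : ∀ i, 1 ≤ b i)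
    (hr : ∀ i, Rl (u i)) (hu : S.FO μ b u) :
    ∃ v : ι → P → ℂ, S.FO (fun i => μ i * b i ^ 2) b v ∧ (∀ i, Rl (v i)) ∧
      ∀ i p, 1 / b i ≤ (u i p).re → v i p * u i p = 1 :=
  ⟨_, DAlg.FO.inv hμ hb hr hu,
    fun _ => Rl.smul (Complex.ofReal_im _) (Rl.ofReal _),
    fun i _ h => inv_mul_eq (zero_lt_one.trans_le (hb i)) (hr i) h⟩

/-- square roots -/
theorem DAlg.FO.sqrt [Finite κ] (hμ : ∀ i, 0 ≤ μ i) (hb : ∀ i, 1 ≤ b i) (hr : ∀ i, Rl (u i))
    (hu : S.FO μ b u) :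
    S.FO (fun i => μ i * b i ^ 2) b
      (fun i p => (((√(b i))⁻¹ : ℝ) : ℂ) * ((F1 (b i * (u i p).re) : ℝ) : ℂ)) := by
  have hb0 : ∀ i, 0 ≤ b i := fun i => zero_le_one.trans (hb i)
  have hr' : ∀ i, Rl (fun p => (b i : ℂ) * u i p) := fun i =>
    Rl.smul (Complex.ofReal_im _) (hr i)
  obtain ⟨C0, hC0, hC0'⟩ := hu.apply
  have h := DAlg.FO.compB (S := S) (μ := fun i => μ i * b i ^ 2) (b := b)
    (F := fun _ x => ((F1 x : ℝ) : ℂ))
    (u := fun i p => (b i : ℂ) * u i p) (fun _ => contDiff_ofReal contDiff_F1)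
    (fun i => mul_nonneg (hμ i) (sq_nonneg _)) (fun i => S.sm_smul _ (hu.1 i)) hr'
    (fun j => DAlg.FO.scaleD hμ hb hu j)
    (fun n => by
      rcases Nat.eq_zero_or_pos n with rfl | hn
      · refine ⟨√C0, fun i p => ?_⟩
        rw [iteratedDeriv_zero, Complex.norm_real, Real.norm_eq_abs, Complex.re_ofReal_mul]
        refine (abs_F1_le _).trans ?_
        have h1 : |b i * (u i p).re| ≤ C0 * b i ^ 2 := by
          rw [abs_mul, abs_of_nonneg (hb0 i)]
          calc b i * |(u i p).re| ≤ b i * (C0 * b i) := by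
                refine mul_le_mul_of_nonneg_left ?_ (hb0 i)
                exact (Complex.abs_re_le_norm _).trans (hC0' i p)
            _ = C0 * b i ^ 2 := by ring
        calc √|b i * (u i p).re| ≤ √(C0 * b i ^ 2) := Real.sqrt_le_sqrt h1
          _ = √C0 * b i := by
            rw [Real.sqrt_mul hC0, Real.sqrt_sq (hb0 i)]
      · obtain ⟨C, hC⟩ := bdd_F1 n hn
        refine ⟨|C|, fun i p => ?_⟩
        rw [norm_iteratedDeriv_ofReal contDiff_F1]
        calc ‖iteratedDeriv n F1 _‖ ≤ |C| := (hC _).trans (le_abs_self _)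
          _ ≤ |C| * b i := le_mul_of_one_le_right (abs_nonneg _) (hb i))
    hb0
  have h2 := DAlg.FO.smul (S := S) (c := fun i => (((√(b i))⁻¹ : ℝ) : ℂ)) (r := fun _ => 1)
    (C := 1) (fun i => by
      rw [Complex.norm_real, Real.norm_eq_abs, one_mul, abs_of_nonneg (by positivity)]
      exact inv_le_one_of_one_le₀ (Real.one_le_sqrt.2 (hb i)))
    (fun _ => zero_le_one) h
  refine (h2.congr_s fun i => one_mul _).congr fun i p => ?_
  rw [Complex.re_ofReal_mul]

theorem sqrt_sq_eq {b : ℝ} (hb : 0 < b) {u : P → ℂ} (hr : Rl u) {p : P}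
    (h : 1 / b ≤ (u p).re) :
    ((((√b)⁻¹ : ℝ) : ℂ) * ((F1 (b * (u p).re) : ℝ) : ℂ)) ^ 2 = u p := by
  have h1 : 1 ≤ b * (u p).re := by
    rw [div_le_iff₀ hb] at h
    linarith
  have h2 : 0 ≤ (u p).re := by
    have : 0 < 1 / b := by positivity
    linarith
  rw [F1_eq h1, ← Rl.ofReal_re hr p, Complex.ofReal_re, ← Complex.ofReal_mul,
    ← Complex.ofReal_pow]
  congr 1
  rw [mul_pow, Real.sq_sqrt (by linarith), inv_pow, Real.sq_sqrt hb.le]
  field_simp

/-- square roots, packaged -/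
theorem DAlg.FO.exists_sqrt [Finite κ] (hμ : ∀ i, 0 ≤ μ i) (hb : ∀ i, 1 ≤ b i)
    (hr : ∀ i, Rl (u i)) (hu : S.FO μ b u) :
    ∃ v : ι → P → ℂ, S.FO (fun i => μ i * b i ^ 2) b v ∧ (∀ i, Rl (v i)) ∧
      (∀ i p, 1 / b i ≤ (u i p).re → v i p ^ 2 = u i p) ∧
      ∀ i p, 1 / b i ≤ (u i p).re → v i p = ((√(u i p).re : ℝ) : ℂ) := by
  refine ⟨_, DAlg.FO.sqrt hμ hb hr hu,
    fun i => Rl.smul (Complex.ofReal_im _) (Rl.ofReal _),
    fun i _ h => sqrt_sq_eq (zero_lt_one.trans_le (hb i)) (hr i) h, fun i p h => ?_⟩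
  have hb0 : 0 < b i := zero_lt_one.trans_le (hb i)
  have h1 : 1 ≤ b i * (u i p).re := by
    rw [div_le_iff₀ hb0] at h
    linarith
  rw [F1_eq h1, ← Complex.ofReal_mul]
  congr 1
  rw [Real.sqrt_mul hb0.le, ← mul_assoc, inv_mul_cancel₀ (Real.sqrt_ne_zero'.2 hb0), one_mul]

end Inv

end Vale.Agent.P205.F
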