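import Vale.Agent.P205.F.Calc1

/-!
Composition of families with a fixed smooth function all of whose derivatives are bounded, and
the inverse square root.
-/

noncomputable section

open scoped ContDiff

namespace Vale.Agent.P205.F

/-- all derivatives of order at most `k` are bounded by `B` -/
def BFn (k : ℕ) (B : ℝ) (F : ℝ → ℂ) : Prop := ∀ j ≤ k, ∀ x, ‖iteratedDeriv j F x‖ ≤ B

theorem BFn.nonneg {k : ℕ} {B : ℝ} {F : ℝ → ℂ} (h : BFn k B F) : 0 ≤ B :=
  (norm_nonneg _).trans (h 0 (Nat.zero_le _) 0)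

theorem BFn.deriv {k : ℕ} {B : ℝ} {F : ℝ → ℂ} (h : BFn (k + 1) B F) : BFn k B (deriv F) := by
  intro j hj x
  rw [← iteratedDeriv_succ']
  exact h (j + 1) (by omega) x

theorem BFn.mono_k {k k' : ℕ} {B : ℝ} {F : ℝ → ℂ} (h : BFn k B F) (hk : k' ≤ k) :
    BFn k' B F := fun j hj x => h j (hj.trans hk) x

/-- all derivatives are bounded -/
def BF (F : ℝ → ℂ) : Prop := ∀ k, ∃ B, BFn k B F

variable {P κ : Type*} {S : DAlg P κ}

theorem DAlg.Bd.comp (k : ℕ) : ∃ c : ℝ, 0 ≤ c ∧ ∀ (F : ℝ → ℂ) (B μ s : ℝ) (u : P → ℂ),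
    ContDiff ℝ ∞ F → BFn k B F → 0 ≤ μ → 1 ≤ s → S.Sm u → (∀ p, (u p).im = 0) →
    S.Bd μ k s u → S.Bd (μ * s) k (c * B) (fun p => F (u p).re) := by
  induction k with
  | zero =>
    refine ⟨1, zero_le_one, fun F B μ s u hF hB hμ hs hu hr hb w hw p => ?_⟩
    have h0 : w = [] := List.length_eq_zero_iff.1 (Nat.le_zero.1 hw)
    subst h0
    rw [S.wd_nil]
    have := hB 0 le_rfl (u p).re
    simpa using this
  | succ k ih =>
    obtain ⟨c, hc, ih⟩ := ih
    refine ⟨max 1 (2 ^ k * c), le_max_of_le_left zero_le_one,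
      fun F B μ s u hF hB hμ hs hu hr hb w hw p => ?_⟩
    have hB0 := hB.nonneg
    have hms : 0 ≤ μ * s := mul_nonneg hμ (zero_le_one.trans hs)
    rcases List.eq_nil_or_concat' w with rfl | ⟨w', j, rfl⟩
    · rw [S.wd_nil]
      have h1 := hB 0 (Nat.zero_le _) (u p).re
      simp only [iteratedDeriv_zero] at h1
      simp only [List.length_nil, pow_zero, mul_one]
      exact h1.trans (le_mul_of_one_le_left hB0 (le_max_left _ _))
    · rw [S.wd_snoc, S.D_comp j hF hu hr]
      have hF' : ContDiff ℝ ∞ (deriv F) := by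
        have h2 := hF
        rw [show (∞ : WithTop ℕ∞) = ∞ + 1 from rfl] at h2
        exact (contDiff_succ_iff_deriv.1 h2).2.2
      have e1 := ih (deriv F) B μ s u hF' hB.deriv hμ hs hu hr (hb.mono_k (Nat.le_succ k))
      have hD : S.Bd (μ * s) k (s * μ) (S.D j u) :=
        (hb.D j).mono_mu hμ (le_mul_of_one_le_right hμ hs) (by positivity)
      have e2 := e1.mul (S.sm_comp hF' hu hr) (S.sm_D j hu) hD
      have hw' : w'.length ≤ k := by
        rw [List.length_append, List.length_singleton] at hw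
        omega
      have e3 := e2 w' hw' p
      have e4 : (fun p => deriv F (u p).re * S.D j u p)
          = (fun p => deriv F (u p).re) * S.D j u := rfl
      rw [e4]
      refine e3.trans ?_
      rw [List.length_append, List.length_singleton, pow_succ]
      have e5 : 2 ^ k * (c * B * (s * μ)) * (μ * s) ^ w'.length
          = (2 ^ k * c) * (B * ((μ * s) ^ w'.length * (μ * s))) := by ring
      have e6 : max 1 (2 ^ k * c) * B * ((μ * s) ^ w'.length * (μ * s))
          = max 1 (2 ^ k * c) * (B * ((μ * s) ^ w'.length * (μ * s))) := by ring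
      rw [e5, e6]
      exact mul_le_mul_of_nonneg_right (le_max_right _ _) (by positivity)

variable {ι : Type*} {μ s : ι → ℝ} {u : ι → P → ℂ}

/-- composition with a fixed smooth function with bounded derivatives -/
theorem DAlg.FO.comp {F : ℝ → ℂ} (hF : ContDiff ℝ ∞ F) (hB : BF F) (hu : S.FO μ s u)
    (hμ : ∀ i, 0 ≤ μ i) (hs : ∀ i, 1 ≤ s i) (hr : ∀ i, Rl (u i)) :
    S.FO (fun i => μ i * s i) (fun _ => 1) (fun i p => F (u i p).re) := by
  refine ⟨fun i => S.sm_comp hF (hu.1 i) (hr i), fun k => ?_⟩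
  obtain ⟨B, hB⟩ := hB k
  obtain ⟨C, hC, h⟩ := hu.2 k
  obtain ⟨c, hc, hcomp⟩ := DAlg.Bd.comp (S := S) k
  set C1 : ℝ := max C 1 with hC1
  have hC1' : 1 ≤ C1 := le_max_right _ _
  have hB0 := hB.nonneg
  refine ⟨c * B * C1 ^ k, by positivity, fun i w hw p => ?_⟩
  have hsi := hs i
  have h1 : S.Bd (μ i) k (C1 * s i) (u i) :=
    (h i).mono (hμ i) (mul_le_mul_of_nonneg_right (le_max_left _ _) (by linarith))
  have h2 := hcomp F B (μ i) (C1 * s i) (u i) hF hB (hμ i)
    (one_le_mul_of_one_le_of_one_le hC1' hsi) (hu.1 i) (hr i) h1 w hw p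
  refine h2.trans ?_
  have e : μ i * (C1 * s i) = C1 * (μ i * s i) := by ring
  rw [e, mul_pow, mul_one, ← mul_assoc]
  have hms : 0 ≤ (μ i * s i) ^ w.length :=
    pow_nonneg (mul_nonneg (hμ i) (by linarith)) _
  refine mul_le_mul_of_nonneg_right ?_ hms
  exact mul_le_mul_of_nonneg_left (pow_le_pow_right₀ hC1' hw) (by positivity)

/-! ### bounded derivatives: closure -/

theorem BFn.mul {k : ℕ} {B C : ℝ} {F G : ℝ → ℂ} (hF : ContDiff ℝ ∞ F) (hG : ContDiff ℝ ∞ G)
    (h : BFn k B F) (h' : BFn k C G) : ∃ A, BFn k A (fun x => F x * G x) := by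
  refine ⟨2 ^ k * (B * C), fun j hj x => ?_⟩
  have hB := h.nonneg
  have hC := h'.nonneg
  rw [← norm_iteratedFDeriv_eq_norm_iteratedDeriv]
  have h1 := norm_iteratedFDeriv_mul_le (n := j) (N := ∞) hF hG x (by exact_mod_cast le_top)
  refine h1.trans ?_
  have h2 : ∀ i ∈ Finset.range (j + 1), (j.choose i : ℝ) * ‖iteratedFDeriv ℝ i F x‖
      * ‖iteratedFDeriv ℝ (j - i) G x‖ ≤ (j.choose i : ℝ) * (B * C) := by
    intro i hi
    rw [norm_iteratedFDeriv_eq_norm_iteratedDeriv, norm_iteratedFDeriv_eq_norm_iteratedDeriv,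
      mul_assoc]
    have hi' : i ≤ j := Nat.lt_succ_iff.1 (Finset.mem_range.1 hi)
    refine mul_le_mul_of_nonneg_left ?_ (Nat.cast_nonneg _)
    exact mul_le_mul (h i (hi'.trans hj) x) (h' (j - i) ((Nat.sub_le _ _).trans hj) x)
      (norm_nonneg _) hB
  refine (Finset.sum_le_sum h2).trans ?_
  rw [← Finset.sum_mul]
  have h3 : ∑ i ∈ Finset.range (j + 1), (j.choose i : ℝ) = 2 ^ j := by
    rw [← Nat.cast_sum, Nat.sum_range_choose]
    push_cast
    rfl
  rw [h3]
  exact mul_le_mul_of_nonneg_right (pow_le_pow_right₀ (by norm_num) hj) (by positivity)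

/-- sufficient: bounded and the derivative is fine -/
theorem BFn.of_deriv {k : ℕ} {B C : ℝ} {F : ℝ → ℂ} (h0 : ∀ x, ‖F x‖ ≤ B)
    (h : BFn k C (_root_.deriv F)) : BFn (k + 1) (max B C) F := by
  intro j hj x
  rcases j with _ | j
  · rw [iteratedDeriv_zero]
    exact (h0 x).trans (le_max_left _ _)
  · rw [iteratedDeriv_succ']
    exact (h j (by omega) x).trans (le_max_right _ _)

theorem BFn.add {k : ℕ} {B C : ℝ} {F G : ℝ → ℂ} (hF : ContDiff ℝ ∞ F) (hG : ContDiff ℝ ∞ G)
    (h : BFn k B F) (h' : BFn k C G) : BFn k (B + C) (fun x => F x + G x) := by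
  intro j hj x
  have e : iteratedDeriv j (fun x => F x + G x) x
      = iteratedDeriv j F x + iteratedDeriv j G x := by
    rw [← iteratedDeriv_add (hF.contDiffAt.of_le (by exact_mod_cast le_top))
      (hG.contDiffAt.of_le (by exact_mod_cast le_top))]
    rfl
  rw [e]
  exact (norm_add_le _ _).trans (add_le_add (h j hj x) (h' j hj x))

theorem BF.mul {F G : ℝ → ℂ} (hF : ContDiff ℝ ∞ F) (hG : ContDiff ℝ ∞ G) (h : BF F)
    (h' : BF G) : BF (fun x => F x * G x) := fun k => by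
  obtain ⟨B, h⟩ := h k
  obtain ⟨C, h'⟩ := h' k
  exact h.mul hF hG h'

theorem BF.add {F G : ℝ → ℂ} (hF : ContDiff ℝ ∞ F) (hG : ContDiff ℝ ∞ G) (h : BF F)
    (h' : BF G) : BF (fun x => F x + G x) := fun k => by
  obtain ⟨B, h⟩ := h k
  obtain ⟨C, h'⟩ := h' k
  exact ⟨_, h.add hF hG h'⟩

theorem BF.const (c : ℂ) : BF (fun _ => c) := fun k => by
  refine ⟨‖c‖, fun j _ x => ?_⟩
  rcases j with _ | j
  · simp
  · rw [iteratedDeriv_const]
    simp

/-- smooth functions with compact support -/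
theorem BF.of_compact {F : ℝ → ℂ} (hF : ContDiff ℝ ∞ F) (hc : HasCompactSupport F) : BF F := by
  intro k
  have h : ∀ j, ∃ C, ∀ x, ‖iteratedDeriv j F x‖ ≤ C := by
    intro j
    have h1 : Continuous (iteratedFDeriv ℝ j F) := hF.continuous_iteratedFDeriv
      (by exact_mod_cast le_top)
    have h2 : HasCompactSupport (iteratedFDeriv ℝ j F) := hc.iteratedFDeriv j
    obtain ⟨C, hC⟩ := h2.exists_bound_of_continuous h1
    exact ⟨C, fun x => by
      rw [← norm_iteratedFDeriv_eq_norm_iteratedDeriv]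
      exact hC x⟩
  choose C hC using h
  refine ⟨∑ j ∈ Finset.range (k + 1), |C j|, fun j hj x => (hC j x).trans ?_⟩
  refine (le_abs_self _).trans ?_
  exact Finset.single_le_sum (f := fun j => |C j|) (fun _ _ => abs_nonneg _)
    (Finset.mem_range.2 (Nat.lt_succ_of_le hj))

/-- eventually constant smooth functions -/
theorem BF.of_deriv_compact {F : ℝ → ℂ} (hF : ContDiff ℝ ∞ F) (hc : HasCompactSupport (deriv F))
    {B : ℝ} (h0 : ∀ x, ‖F x‖ ≤ B) : BF F := by
  intro k
  have hF' : ContDiff ℝ ∞ (deriv F) := by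
    have h2 := hF
    rw [show (∞ : WithTop ℕ∞) = ∞ + 1 from rfl] at h2
    exact (contDiff_succ_iff_deriv.1 h2).2.2
  obtain ⟨C, hC⟩ := BF.of_compact hF' hc k
  exact ⟨_, (BFn.of_deriv h0 hC).mono_k (Nat.le_succ k)⟩

end Vale.Agent.P205.F
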