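import Mathlib

/-!
Differential function spaces and families (P205, full question).

`DAlg P κ`: points `P`, smooth complex functions on `P`, derivations `D j`, `j : κ`.
`wd w u`: iterated derivative along the word `w`.
`Bd μ k C u`: all words of length at most `k`, `‖wd w u p‖ ≤ C μ^|w|`.
`FO μ s u`: for a family `u i`: for every `k` there is `C` with `Bd (μ i) k (C s i) (u i)` for
all `i`.
-/

open scoped ContDiff

namespace Vale.Agent.P205.F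

/-- A differential function space. -/
structure DAlg (P κ : Type*) where
  /-- smooth functions -/
  Sm : (P → ℂ) → Prop
  /-- the derivations -/
  D : κ → (P → ℂ) → (P → ℂ)
  sm_const : ∀ c : ℂ, Sm (fun _ => c)
  sm_add : ∀ {u v}, Sm u → Sm v → Sm (u + v)
  sm_mul : ∀ {u v}, Sm u → Sm v → Sm (u * v)
  sm_conj : ∀ {u}, Sm u → Sm (fun p => (starRingEnd ℂ) (u p))
  sm_D : ∀ {u} (j : κ), Sm u → Sm (D j u)
  D_const : ∀ (j : κ) (c : ℂ), D j (fun _ => c) = 0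
  D_add : ∀ {u v} (j : κ), Sm u → Sm v → D j (u + v) = D j u + D j v
  D_mul : ∀ {u v} (j : κ), Sm u → Sm v → D j (u * v) = D j u * v + u * D j v
  D_conj : ∀ {u} (j : κ), Sm u →
    D j (fun p => (starRingEnd ℂ) (u p)) = fun p => (starRingEnd ℂ) (D j u p)
  sm_comp : ∀ {F : ℝ → ℂ} {u : P → ℂ}, ContDiff ℝ ∞ F → Sm u → (∀ p, (u p).im = 0) →
    Sm (fun p => F (u p).re)
  D_comp : ∀ {F : ℝ → ℂ} {u : P → ℂ} (j : κ), ContDiff ℝ ∞ F → Sm u → (∀ p, (u p).im = 0) →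
    D j (fun p => F (u p).re) = fun p => deriv F (u p).re * D j u p
  bdd : ∀ {u}, Sm u → ∃ C : ℝ, ∀ p, ‖u p‖ ≤ C

variable {P κ : Type*} (S : DAlg P κ)

/-- iterated derivative along a word: `wd (j :: w) u = D j (wd w u)` -/
def DAlg.wd : List κ → (P → ℂ) → (P → ℂ)
  | [], u => u
  | j :: w, u => S.D j (DAlg.wd w u)

/-- scale invariant bounds for all derivatives of order at most `k` -/
def DAlg.Bd (μ : ℝ) (k : ℕ) (C : ℝ) (u : P → ℂ) : Prop :=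
  ∀ w : List κ, w.length ≤ k → ∀ p, ‖S.wd w u p‖ ≤ C * μ ^ w.length

/-- unweighted bounds for all derivatives of order at most `k` -/
def DAlg.Nb (k : ℕ) (C : ℝ) (u : P → ℂ) : Prop :=
  ∀ w : List κ, w.length ≤ k → ∀ p, ‖S.wd w u p‖ ≤ C

/-- families: `u i = O(s i)` at scale `μ i`, together with all derivatives -/
def DAlg.FO {ι : Type*} (μ s : ι → ℝ) (u : ι → P → ℂ) : Prop :=
  (∀ i, S.Sm (u i)) ∧ ∀ k, ∃ C : ℝ, 0 ≤ C ∧ ∀ i, S.Bd (μ i) k (C * s i) (u i)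

/-- `u` and all its derivatives vanish outside `K` -/
def DAlg.Zs (K : Set P) (u : P → ℂ) : Prop :=
  ∀ w : List κ, ∀ p, p ∉ K → S.wd w u p = 0

/-- real valued -/
def Rl (u : P → ℂ) : Prop := ∀ p, (u p).im = 0

/-- derivative along the field with coefficients `c` -/
def DAlg.dir [Fintype κ] (c : κ → P → ℂ) (u : P → ℂ) : P → ℂ :=
  fun p => ∑ j, c j p * S.D j u p

/-- Euclidean (bilinear) product of maps into `ℂ⁴` -/
def dot (X Y : Fin 4 → P → ℂ) : P → ℂ := fun p => ∑ i, X i p * Y i p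

/-- a ray: phase, two fields, coefficients, region -/
structure Ray (P κ : Type*) where
  /-- phase -/
  Ψ : P → ℂ
  /-- the field with `t Ψ = 1` -/
  t : κ → P → ℂ
  /-- the field with `w Ψ = 0` -/
  w : κ → P → ℂ
  /-- `D j = (D j Ψ) t + β j w` on `K` -/
  β : κ → P → ℂ
  /-- the region -/
  K : Set P

/-- validity of a ray -/
structure Ray.Ok [Fintype κ] (r : Ray P κ) : Prop where
  smΨ : S.Sm r.Ψ
  smt : ∀ j, S.Sm (r.t j)
  smw : ∀ j, S.Sm (r.w j)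
  smβ : ∀ j, S.Sm (r.β j)
  rΨ : Rl r.Ψ
  rt : ∀ j, Rl (r.t j)
  rw' : ∀ j, Rl (r.w j)
  rβ : ∀ j, Rl (r.β j)
  tΨ : ∀ p ∈ r.K, S.dir r.t r.Ψ p = 1
  wΨ : ∀ p ∈ r.K, S.dir r.w r.Ψ p = 0
  dec : ∀ u, S.Sm u → ∀ j, ∀ p ∈ r.K,
    S.D j u p = S.D j r.Ψ p * S.dir r.t u p + r.β j p * S.dir r.w u p

/-- completeness in the seminorms -/
def DAlg.Complete : Prop :=
  ∀ u : ℕ → P → ℂ, (∀ q, S.Sm (u q)) →
    (∀ k, ∃ c : ℕ → ℝ, Summable c ∧ ∃ q0, ∀ q, q0 ≤ q → S.Nb k (c q) (u (q + 1) - u q)) →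
    ∃ v, S.Sm v ∧ ∀ w : List κ, ∀ p,
      Filter.Tendsto (fun q => S.wd w (u q) p) Filter.atTop (nhds (S.wd w v p))

/-- smoothing operators of order `m` -/
structure DAlg.Smoothing (m : ℕ) where
  /-- the operators, `θ ≥ 1` is the frequency -/
  T : ℝ → (P → ℂ) → (P → ℂ)
  /-- constants -/
  C : ℕ → ℝ
  sm : ∀ {θ u}, 1 ≤ θ → S.Sm u → S.Sm (T θ u)
  real : ∀ {θ u}, 1 ≤ θ → S.Sm u → Rl u → Rl (T θ u)
  gain : ∀ {k l : ℕ} {θ B : ℝ} {u : P → ℂ}, k ≤ l → 1 ≤ θ → S.Sm u → S.Nb k B u →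
    S.Nb l (C l * θ ^ (l - k) * B) (T θ u)
  appr : ∀ {k : ℕ} {θ B : ℝ} {u : P → ℂ}, 1 ≤ θ → S.Sm u → S.Nb (k + m) B u →
    S.Nb k (C k * (θ ^ m)⁻¹ * B) (u - T θ u)

end Vale.Agent.P205.F
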