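import Vale.Agent.P255.Ode

/-!
# Flow boxes in dimension two

Every smooth vector field which does not vanish at a point of a plane is the first coordinate
field of a smooth chart near this point.
-/

open Set Filter Topology Metric
open scoped ContDiff

noncomputable section

namespace Vale.Agent.P205.F

variable {E : Type} [NormedAddCommGroup E] [NormedSpace ℝ E] [FiniteDimensional ℝ E]

/-- the linear map `(s,t) ↦ s a + t b` is an isomorphism when `a`, `b` form a basis -/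
lemma exists_equiv_of_two (hE : Module.finrank ℝ E = 2) (a : E) (ha : a ≠ 0) :
    ∃ b : E, ∃ L : (ℝ × ℝ) ≃L[ℝ] E, ∀ v : ℝ × ℝ, L v = v.1 • a + v.2 • b := by
  have h1 : Module.finrank ℝ (Submodule.span ℝ ({a} : Set E)) = 1 := finrank_span_singleton ha
  obtain ⟨b, hb⟩ : ∃ b : E, b ∉ Submodule.span ℝ ({a} : Set E) := by
    by_contra hcon
    push Not at hcon
    have : Submodule.span ℝ ({a} : Set E) = ⊤ := by
      rw [eq_top_iff]
      intro x _
      exact hcon x
    rw [this, finrank_top, hE] at h1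
    norm_num at h1
  have hli : LinearIndependent ℝ ![a, b] := by
    rw [LinearIndependent.pair_iff]
    intro s t hst
    have ht : t = 0 := by
      by_contra ht
      apply hb
      rw [Submodule.mem_span_singleton]
      refine ⟨-(s / t), ?_⟩
      have h2 : t • b = -(s • a) := by
        rw [eq_neg_iff_add_eq_zero, add_comm]
        exact hst
      have h3 : b = t⁻¹ • (t • b) := by
        rw [smul_smul, inv_mul_cancel₀ ht, one_smul]
      rw [h3, h2, smul_neg, smul_smul, ← neg_smul]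
      congr 1
      field_simp
    refine ⟨?_, ht⟩
    rw [ht, zero_smul, add_zero] at hst
    exact (smul_eq_zero.1 hst).resolve_right ha
  let f : (ℝ × ℝ) →ₗ[ℝ] E :=
    { toFun := fun v => v.1 • a + v.2 • b
      map_add' := by
        intro v w
        simp only [Prod.fst_add, Prod.snd_add, add_smul]
        abel
      map_smul' := by
        intro c v
        simp only [Prod.smul_fst, Prod.smul_snd, smul_eq_mul, mul_smul, RingHom.id_apply,
          smul_add] }
  have hinj : Function.Injective f := by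
    rw [← LinearMap.ker_eq_bot, LinearMap.ker_eq_bot']
    intro v hv
    have := (LinearIndependent.pair_iff.1 hli) v.1 v.2 hv
    exact Prod.ext this.1 this.2
  have hfin : Module.finrank ℝ (ℝ × ℝ) = Module.finrank ℝ E := by
    rw [hE, Module.finrank_prod, Module.finrank_self]
  let e : (ℝ × ℝ) ≃ₗ[ℝ] E := LinearEquiv.ofInjectiveOfFinrankEq f hinj hfin
  refine ⟨b, e.toContinuousLinearEquiv, ?_⟩
  intro v
  rfl

/-- Flow box theorem in dimension two. -/
theorem exists_flowbox (hE : Module.finrank ℝ E = 2) (V : E → E) (U : Set E) (hU : IsOpen U)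
    (hV : ContDiffOn ℝ ∞ V U) (p : E) (hpU : p ∈ U) (hp : V p ≠ 0) :
    ∃ e : OpenPartialHomeomorph E (ℝ × ℝ), p ∈ e.source ∧ e.source ⊆ U ∧ e p = 0 ∧
      ContDiffOn ℝ ∞ e e.source ∧ ContDiffOn ℝ ∞ e.symm e.target ∧
      (∀ q ∈ e.source, HasFDerivAt e (fderiv ℝ e q) q) ∧
      ∀ q ∈ e.source, fderiv ℝ e q (V q) = (1, 0) := by
  have : CompleteSpace E := FiniteDimensional.complete ℝ E
  obtain ⟨b, L, hL⟩ := exists_equiv_of_two hE (V p) hp
  obtain ⟨ε, hε, W, hWo, hpW, Φ, hΦ0, hΦ, hΦs⟩ := P255.exists_flow_smooth V U hU hV p hpU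
  -- the domain
  set j : ℝ × ℝ → ℝ × E := fun v => (v.1, p + v.2 • b) with hj
  have hjs : ContDiff ℝ ∞ j := by
    apply contDiff_fst.prodMk
    exact contDiff_const.add (contDiff_snd.smul contDiff_const)
  set Ω : Set (ℝ × ℝ) := j ⁻¹' (Ioo (-ε) ε ×ˢ W) with hΩ
  have hΩo : IsOpen Ω := (isOpen_Ioo.prod hWo).preimage hjs.continuous
  have h0 : (0 : ℝ × ℝ) ∈ Ω := by
    simp only [hΩ, hj, mem_preimage, mem_prod, Prod.fst_zero, Prod.snd_zero, zero_smul, add_zero,
      mem_Ioo]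
    exact ⟨⟨by linarith, hε⟩, hpW⟩
  set G : ℝ × ℝ → E := fun v => Φ v.1 (p + v.2 • b) with hG
  have hGs : ContDiffOn ℝ ∞ G Ω := hΦs.comp hjs.contDiffOn (fun v hv => hv)
  have hG0 : G 0 = p := by
    simp only [hG, Prod.fst_zero, Prod.snd_zero, zero_smul, add_zero]
    exact hΦ0 p hpW
  have hGd : ∀ v ∈ Ω, HasFDerivAt G (fderiv ℝ G v) v := fun v hv =>
    ((hGs.contDiffAt (hΩo.mem_nhds hv)).differentiableAt (by simp)).hasFDerivAt
  -- derivative along the first coordinate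
  have hGt : ∀ v ∈ Ω, fderiv ℝ G v (1, 0) = V (G v) := by
    intro v hv
    have h1 : HasDerivAt (fun s => Φ s (p + v.2 • b)) (V (Φ v.1 (p + v.2 • b))) v.1 :=
      (hΦ _ hv.2 v.1 hv.1).2
    have h2 : HasDerivAt (fun s : ℝ => ((s, v.2) : ℝ × ℝ)) ((1, 0) : ℝ × ℝ) v.1 :=
      (hasDerivAt_id v.1).prodMk (hasDerivAt_const v.1 v.2)
    have h3 : HasDerivAt (fun s : ℝ => G (s, v.2)) (fderiv ℝ G v (1, 0)) v.1 :=
      HasFDerivAt.comp_hasDerivAt (x := v.1) (f := fun s : ℝ => ((s, v.2) : ℝ × ℝ))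
        (hGd v hv) h2
    exact h3.unique h1
  have hGb : fderiv ℝ G 0 (0, 1) = b := by
    have h2 : HasDerivAt (fun s : ℝ => ((0, s) : ℝ × ℝ)) ((0, 1) : ℝ × ℝ) 0 :=
      (hasDerivAt_const (0 : ℝ) (0 : ℝ)).prodMk (hasDerivAt_id (0 : ℝ))
    have h3 : HasDerivAt (fun s : ℝ => G (0, s)) (fderiv ℝ G 0 (0, 1)) 0 :=
      (hGd 0 h0).comp_hasDerivAt (0 : ℝ) h2
    have h4 : HasDerivAt (fun s : ℝ => p + s • b) b 0 := by
      have := ((hasDerivAt_id (0 : ℝ)).smul_const b).const_add p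
      simpa using this
    have h5 : (fun s : ℝ => G (0, s)) =ᶠ[𝓝 0] fun s : ℝ => p + s • b := by
      have : ∀ᶠ s : ℝ in 𝓝 0, p + s • b ∈ W := by
        have hc : Continuous fun s : ℝ => p + s • b := by fun_prop
        exact hc.continuousAt.preimage_mem_nhds (hWo.mem_nhds (by simpa using hpW))
      filter_upwards [this] with s hs
      exact hΦ0 _ hs
    exact h3.unique (h4.congr_of_eventuallyEq h5)
  have hGL : fderiv ℝ G 0 = (L : (ℝ × ℝ) →L[ℝ] E) := by
    ext
    · have := hGt 0 h0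
      rw [hG0] at this
      simpa [hL] using this
    · simpa [hL] using hGb
  have hstrict : HasStrictFDerivAt G (L : (ℝ × ℝ) →L[ℝ] E) 0 := by
    rw [← hGL]
    exact (hGs.contDiffAt (hΩo.mem_nhds h0)).hasStrictFDerivAt (by simp)
  -- the inverse function theorem
  set g := hstrict.toOpenPartialHomeomorph G with hg
  have hgc : ∀ v, g v = G v := fun v => rfl
  have h0g : (0 : ℝ × ℝ) ∈ g.source := hstrict.mem_toOpenPartialHomeomorph_source
  -- restrict to the points where the derivative is invertible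
  set Ω' : Set (ℝ × ℝ) := Ω ∩ {v | IsUnit ((L.symm : E →L[ℝ] (ℝ × ℝ)).comp (fderiv ℝ G v))}
    with hΩ'
  have hΩ'o : IsOpen Ω' := by
    have hc : ContinuousOn (fun v => (L.symm : E →L[ℝ] (ℝ × ℝ)).comp (fderiv ℝ G v)) Ω := by
      have h1 : ContinuousOn (fderiv ℝ G) Ω := hGs.continuousOn_fderiv_of_isOpen hΩo (by simp)
      exact (continuousOn_const).clm_comp h1
    exact hc.isOpen_inter_preimage hΩo Units.isOpen
  have h0' : (0 : ℝ × ℝ) ∈ Ω' := by
    refine ⟨h0, ?_⟩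
    change IsUnit ((L.symm : E →L[ℝ] (ℝ × ℝ)).comp (fderiv ℝ G 0))
    rw [hGL, ContinuousLinearEquiv.coe_symm_comp_coe]
    exact isUnit_one
  set g' := g.restrOpen Ω' hΩ'o with hg'
  have hsrc : g'.source = g.source ∩ Ω' := rfl
  have hgc' : ∀ v, g' v = G v := fun v => rfl
  have hsm : ∀ v ∈ g'.source, ContDiffAt ℝ ∞ g' v := fun v hv =>
    hGs.contDiffAt (hΩo.mem_nhds (hsrc ▸ hv).2.1)
  have heq : ∀ v ∈ g'.source, ∃ M : (ℝ × ℝ) ≃L[ℝ] E,
      HasFDerivAt g' (M : (ℝ × ℝ) →L[ℝ] E) v ∧ (M : (ℝ × ℝ) →L[ℝ] E) = fderiv ℝ G v := by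
    intro v hv
    have hv' : v ∈ Ω' := (hsrc ▸ hv).2
    obtain ⟨u, hu⟩ := hv'.2
    have h1 : ((ContinuousLinearEquiv.unitsEquiv ℝ (ℝ × ℝ) u : (ℝ × ℝ) ≃L[ℝ] (ℝ × ℝ)) :
        (ℝ × ℝ) →L[ℝ] (ℝ × ℝ)) = (L.symm : E →L[ℝ] (ℝ × ℝ)).comp (fderiv ℝ G v) := hu
    have h2 : (((ContinuousLinearEquiv.unitsEquiv ℝ (ℝ × ℝ) u).trans L : (ℝ × ℝ) ≃L[ℝ] E) :
        (ℝ × ℝ) →L[ℝ] E) = fderiv ℝ G v := by
      ext
      · have := congrArg (fun A : (ℝ × ℝ) →L[ℝ] (ℝ × ℝ) => L (A (1, 0))) h1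
        simpa using this
      · have := congrArg (fun A : (ℝ × ℝ) →L[ℝ] (ℝ × ℝ) => L (A (0, 1))) h1
        simpa using this
    refine ⟨(ContinuousLinearEquiv.unitsEquiv ℝ (ℝ × ℝ) u).trans L, ?_, h2⟩
    rw [h2]
    exact hGd v hv'.1
  have h0s : (0 : ℝ × ℝ) ∈ g'.source := ⟨h0g, h0'⟩
  have hinv : ∀ q ∈ g'.target, ContDiffAt ℝ ∞ g'.symm q := by
    intro q hq
    obtain ⟨M, hM, -⟩ := heq _ (g'.map_target hq)
    exact g'.contDiffAt_symm hq hM (hsm _ (g'.map_target hq))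
  refine ⟨g'.symm, ?_, ?_, ?_, ?_, ?_, ?_, ?_⟩
  · have := g'.map_source h0s
    rw [hgc', hG0] at this
    exact this
  · intro q hq
    have h1 : g'.symm q ∈ g'.source := g'.map_target hq
    have h2 : g' (g'.symm q) = q := g'.right_inv hq
    have h3 : g'.symm q ∈ Ω := (hsrc ▸ h1).2.1
    rw [← h2, hgc']
    exact (hΦ _ h3.2 _ h3.1).1
  · have := g'.left_inv h0s
    rw [hgc', hG0] at this
    exact this
  · intro q hq
    exact (hinv q hq).contDiffWithinAt
  · intro v hv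
    exact (hsm v hv).contDiffWithinAt
  · intro q hq
    exact ((hinv q hq).differentiableAt (by simp)).hasFDerivAt
  · intro q hq
    have hv : g'.symm q ∈ g'.source := g'.map_target hq
    have hq2 : g' (g'.symm q) = q := g'.right_inv hq
    obtain ⟨M, hM, hM2⟩ := heq _ hv
    have h1 : HasFDerivAt g'.symm (M.symm : E →L[ℝ] (ℝ × ℝ)) q :=
      g'.hasFDerivAt_symm hq hM
    rw [h1.fderiv]
    have h2 : V q = M (1, 0) := by
      have := hGt _ (hsrc ▸ hv).2.1
      rw [← hM2] at this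
      rw [← hgc', hq2] at this
      exact this.symm
    rw [h2]
    exact M.symm_apply_apply _

end Vale.Agent.P205.F
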