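import Vale.Agent.P205.F.WkbDef

/-!
Kernel solutions, pieces, the quadratic step, the stage: definitions and statements.
-/

noncomputable section

namespace Vale.Agent.P205.F

universe u

variable {P : Type u} {κ : Type} [Fintype κ] (S : DAlg P κ)

/-- `linearised metric` of the leading kernel term `(iλ)⁻¹ α E` -/
def DAlg.ksrc (lam : ℝ) (r : Ray P κ) (F : Frm P) (X : Fin 4 → P → ℂ) (α : P → ℂ) :
    Fin 3 → P → ℂ :=
  ![fun q => -2 * α q * dot (S.dirv r.t (S.dirv r.t X)) F.E q / (Complex.I * lam),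
    fun q => - α q * (dot (S.dirv r.w (S.dirv r.t X)) F.E q
      + dot (S.dirv r.t (S.dirv r.w X)) F.E q) / (Complex.I * lam),
    fun _ => 0]

/-- the kernel solution with amplitude `α` -/
def DAlg.ker (lam : ℝ) (r : Ray P κ) (F : Frm P) (X : Fin 4 → P → ℂ) (m : ℕ) (α : P → ℂ) :
    Fin 4 → P → ℂ :=
  fun a q => α q * F.E a q / (Complex.I * lam) - S.wkb lam r F X m (S.ksrc lam r F X α) a q

/-- `D j (osc · ker) = osc · kerB j` -/
def DAlg.kerB (lam : ℝ) (r : Ray P κ) (F : Frm P) (X : Fin 4 → P → ℂ) (m : ℕ) (α : P → ℂ)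
    (j : κ) : Fin 4 → P → ℂ :=
  fun a q => S.D j (S.ker lam r F X m α a) q
    + Complex.I * lam * S.D j r.Ψ q * S.ker lam r F X m α a q

/-- **(K1)** algebra of the kernel solution -/
def DAlg.KerAlg : Prop := ∀ (lam : ℝ) (r : Ray P κ) (F : Frm P) (X : Fin 4 → P → ℂ) (m : ℕ)
    (α : P → ℂ), lam ≠ 0 → r.Ok S → (∀ a, S.Sm (X a)) → (∀ a, Rl (X a)) → F.Ok S r X →
    S.Sm α → S.Zs r.K α →
    (∀ a, S.Sm (S.ker lam r F X m α a)) ∧ (∀ a, S.Zs r.K (S.ker lam r F X m α a)) ∧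
    (∀ j a, S.Sm (S.kerB lam r F X m α j a)) ∧ (∀ j a, S.Zs r.K (S.kerB lam r F X m α j a)) ∧
    (∀ j a q, S.D j (osc lam r.Ψ * S.ker lam r F X m α a) q =
      osc lam r.Ψ q * S.kerB lam r F X m α j a q) ∧
    ∀ j k q, S.lin X (fun a => osc lam r.Ψ * S.ker lam r F X m α a) j k q =
      - (osc lam r.Ψ q * r.ten S (S.wres lam r F X m (S.ksrc lam r F X α)) j k q)

/-- **(K2)** bounds for the kernel solution; `L³θ ≤ λ` -/
def DAlg.KerBd : Prop := ∀ (ι : Type u) (L θ lam s : ι → ℝ) (r : ι → Ray P κ) (F : ι → Frm P)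
    (X : ι → Fin 4 → P → ℂ) (m : ℕ) (α : ι → P → ℂ),
    (∀ i, 1 ≤ L i) → (∀ i, 1 ≤ θ i) → (∀ i, L i ^ 3 * θ i ≤ lam i) → (∀ i, 0 ≤ s i) →
    (∀ j, S.FO θ L (fun i => (r i).t j)) → (∀ j, S.FO θ L (fun i => (r i).w j)) →
    (∀ j, S.FO θ L (fun i => S.D j (r i).Ψ)) →
    (∀ a, S.FO θ L (fun i => (F i).E a)) →
    (∀ a, S.FO θ L (fun i => (F i).N a)) → (∀ a, S.FO θ L (fun i => (F i).P1 a)) →
    (∀ a, S.FO θ L (fun i => (F i).P2 a)) →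
    (∀ a, S.FO θ L (fun i => S.dirv (r i).t (S.dirv (r i).t (X i)) a)) →
    (∀ a, S.FO θ L (fun i => S.dirv (r i).w (S.dirv (r i).t (X i)) a)) →
    (∀ a, S.FO θ L (fun i => S.dirv (r i).t (S.dirv (r i).w (X i)) a)) →
    S.FO θ s α →
    (∀ a, S.FO θ (fun i => s i * L i ^ 3 / lam i)
      (fun i => S.ker (lam i) (r i) (F i) (X i) m (α i) a)) ∧
    (∀ j a, S.FO θ (fun i => s i * L i ^ 7 * (θ i / lam i))
      (fun i q => S.kerB (lam i) (r i) (F i) (X i) m (α i) j a q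
        - α i q * S.D j (r i).Ψ q * (F i).E a q)) ∧
    (∀ c, S.FO θ (fun i => s i * L i ^ 4 / lam i * (L i ^ 3 * θ i / lam i) ^ m)
      (fun i => S.wres (lam i) (r i) (F i) (X i) m (S.ksrc (lam i) (r i) (F i) (X i) (α i)) c))

/-- **(K2')** (USE THIS ONE) bounds for the kernel solution, `1 ≤ b ≤ θ ≤ λ` -/
def DAlg.KerB : Prop := ∀ (ι : Type u) (θ b lam s : ι → ℝ) (r : ι → Ray P κ) (F : ι → Frm P)
    (X : ι → Fin 4 → P → ℂ) (m : ℕ) (α : ι → P → ℂ),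
    (∀ i, 1 ≤ b i) → (∀ i, b i ≤ θ i) → (∀ i, θ i ≤ lam i) → (∀ i, 0 ≤ s i) →
    (∀ j, S.FO θ (fun _ => 1) (fun i => (r i).t j)) →
    (∀ j, S.FO θ (fun _ => 1) (fun i => (r i).w j)) →
    (∀ j, S.FO θ (fun _ => 1) (fun i => S.D j (r i).Ψ)) →
    (∀ a, S.FO θ (fun _ => 1) (fun i => (F i).E a)) →
    (∀ a, S.FO θ (fun i => 1 / b i) (fun i => (F i).N a)) →
    (∀ a, S.FO θ (fun _ => 1) (fun i => (F i).P1 a)) →
    (∀ a, S.FO θ (fun _ => 1) (fun i => (F i).P2 a)) →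
    (∀ a, S.FO θ b (fun i => S.dirv (r i).t (S.dirv (r i).t (X i)) a)) →
    (∀ a, S.FO θ b (fun i => S.dirv (r i).w (S.dirv (r i).t (X i)) a)) →
    (∀ a, S.FO θ b (fun i => S.dirv (r i).t (S.dirv (r i).w (X i)) a)) →
    S.FO θ s α →
    (∀ a, S.FO θ (fun i => s i / lam i)
      (fun i => S.ker (lam i) (r i) (F i) (X i) m (α i) a)) ∧
    (∀ j a, S.FO θ (fun i => s i * (θ i / lam i))
      (fun i q => S.kerB (lam i) (r i) (F i) (X i) m (α i) j a q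
        - α i q * S.D j (r i).Ψ q * (F i).E a q)) ∧
    (∀ c, S.FO θ (fun i => s i * (θ i / lam i) ^ m)
      (fun i => S.wres (lam i) (r i) (F i) (X i) m (S.ksrc (lam i) (r i) (F i) (X i) (α i)) c))

/-- **(K3)** linearity in the amplitude -/
def DAlg.KerLin : Prop := ∀ (lam : ℝ) (r : Ray P κ) (F : Frm P) (X : Fin 4 → P → ℂ) (m : ℕ)
    (α α' : P → ℂ) (c : ℂ), r.Ok S → (∀ a, S.Sm (X a)) →
    F.Ok S r X → S.Sm α → S.Sm α' →
    ∀ a q, S.ker lam r F X m (fun q => α q + c * α' q) a q =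
      S.ker lam r F X m α a q + c * S.ker lam r F X m α' a q

/-- symmetric tensors (pointwise compatible with the linear relations between the `D j`) -/
def DAlg.IsT (T : κ → κ → P → ℂ) : Prop :=
  (∀ j k, T j k = T k j) ∧ ∀ (p : P) (c : κ → ℂ),
    (∀ u, S.Sm u → ∑ j, c j * S.D j u p = 0) → ∀ k, ∑ j, c j * T j k p = 0

/-- the induced metric -/
def DAlg.met (X : Fin 4 → P → ℂ) (j k : κ) : P → ℂ := dot (S.Dv j X) (S.Dv k X)

/-- the pieces of T1 -/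
structure PData (P κ Q : Type*) where
  /-- rays of the pieces -/
  ray : Q → Ray P κ
  /-- rays of the pairs: phase `ψ a + ψ b` (`true`), `ψ a - ψ b` (`false`) -/
  pr : Q → Q → Bool → Ray P κ
  /-- cut-offs -/
  χ : Q → P → ℂ
  /-- coefficient functionals -/
  ℓ : Q → κ → κ → P → ℂ

/-- coefficient of the piece `a` in the tensor `T` -/
def PData.ell {Q : Type*} (d : PData P κ Q) (a : Q) (T : κ → κ → P → ℂ) : P → ℂ :=
  fun p => ∑ j, ∑ k, d.ℓ a j k p * T j k p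

/-- validity of the pieces -/
structure PData.Ok {Q : Type*} [Fintype Q] (d : PData P κ Q) : Prop where
  ray : ∀ a, (d.ray a).Ok S
  pr : ∀ a b σ, (σ = true ∨ a ≠ b) → (d.pr a b σ).Ok S
  prΨ : ∀ a b, (d.pr a b true).Ψ = (d.ray a).Ψ + (d.ray b).Ψ
  prΨ' : ∀ a b, a ≠ b → (d.pr a b false).Ψ = (d.ray a).Ψ - (d.ray b).Ψ
  prK : ∀ a b σ, (d.pr a b σ).K = (d.ray a).K ∩ (d.ray b).K
  smχ : ∀ a, S.Sm (d.χ a)
  rχ : ∀ a, Rl (d.χ a)
  zχ : ∀ a, S.Zs (d.ray a).K (d.χ a)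
  smℓ : ∀ a j k, S.Sm (d.ℓ a j k)
  rℓ : ∀ a j k, Rl (d.ℓ a j k)
  dec : ∀ T, S.IsT T → ∀ j k p, T j k p =
    ∑ a, d.χ a p ^ 2 * d.ell a T p * (S.D j (d.ray a).Ψ p * S.D k (d.ray a).Ψ p)

/-- all rays of the pieces, `none` is used for the diagonal difference -/
def PData.rays {Q : Type*} (d : PData P κ Q) : Q ⊕ (Q × Q × Bool) → Ray P κ
  | Sum.inl a => d.ray a
  | Sum.inr (a, b, σ) => d.pr a b σ

/-- the rays in use -/
def usedRay {Q : Type*} : Q ⊕ (Q × Q × Bool) → Prop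
  | Sum.inl _ => True
  | Sum.inr (a, b, σ) => σ = true ∨ a ≠ b

/-- Gram determinant of three vectors -/
def gram3 (x y z : Fin 4 → P → ℂ) : P → ℂ := fun p =>
  dot x x p * (dot y y p * dot z z p - dot y z p * dot y z p)
    - dot x y p * (dot x y p * dot z z p - dot y z p * dot x z p)
    + dot x z p * (dot x y p * dot y z p - dot y y p * dot x z p)

/-- nondegeneracy of `X` along the rays in use: Gram determinant of `X_t, X_w, X_ww` at least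
`c0 b²` on `K` -/
def PData.Nondeg {Q : Type*} (d : PData P κ Q) (c0 b : ℝ) (X : Fin 4 → P → ℂ) : Prop :=
  ∀ x, usedRay x → ∀ p ∈ (d.rays x).K, c0 * b ^ 2 ≤
    (gram3 (S.dirv (d.rays x).t X) (S.dirv (d.rays x).w X)
      (S.dirv (d.rays x).w (S.dirv (d.rays x).w X)) p).re

/-- the bounds on the pieces: everything is slow (`O(1)` at scale `1`), the cut-offs are `O(1)` at
scale `θ` -/
structure PData.FBd {Q ι : Type*} (d : ι → PData P κ Q) (θ : ι → ℝ) : Prop where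
  Ψ : ∀ x, usedRay x → ∀ j, S.FO (fun _ => 1) (fun _ => 1) (fun i => S.D j ((d i).rays x).Ψ)
  t : ∀ x, usedRay x → ∀ j, S.FO (fun _ => 1) (fun _ => 1) (fun i => ((d i).rays x).t j)
  w : ∀ x, usedRay x → ∀ j, S.FO (fun _ => 1) (fun _ => 1) (fun i => ((d i).rays x).w j)
  β : ∀ x, usedRay x → ∀ j, S.FO (fun _ => 1) (fun _ => 1) (fun i => ((d i).rays x).β j)
  χ : ∀ a, S.FO θ (fun _ => 1) (fun i => (d i).χ a)
  ℓ : ∀ a j k, S.FO (fun _ => 1) (fun _ => 1) (fun i => (d i).ℓ a j k)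

/-- **(ST)** the stage without smoothing, `1 ≤ b ≤ θ ≤ λ` -/
def DAlg.StageF (Q : Type) [Fintype Q] : Prop :=
  ∀ (m : ℕ) (ι : Type u) (θ b lam ε : ι → ℝ) (c0 : ℝ) (d : ι → PData P κ Q)
    (X : ι → Fin 4 → P → ℂ) (T : ι → κ → κ → P → ℂ),
    0 < c0 → (∀ i, 1 ≤ b i) → (∀ i, b i ≤ θ i) → (∀ i, θ i ≤ lam i) → (∀ i, 0 ≤ ε i) →
    (∀ i, ε i ≤ 1) →
    (∀ i, (d i).Ok S) → PData.FBd S d θ → (∀ i, (d i).Nondeg S c0 (b i) (X i)) →
    (∀ i a, S.Sm (X i a)) → (∀ i a, Rl (X i a)) →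
    (∀ j a, S.FO θ (fun _ => 1) (fun i => S.D j (X i a))) →
    (∀ j k a, S.FO θ b (fun i => S.D j (S.D k (X i a)))) →
    (∀ i, S.IsT (T i)) → (∀ i j k, Rl (T i j k)) →
    (∀ j k, S.FO θ (fun _ => 1) (fun i => T i j k)) →
    (∀ i a p, p ∈ ((d i).ray a).K → c0 ≤ ((d i).ell a (T i) p).re) →
    ∃ η : ℝ, 0 < η ∧ ∃ y : ι → Fin 4 → P → ℂ, (∀ i a, S.Sm (y i a)) ∧ (∀ i a, Rl (y i a)) ∧
      (∀ a, S.FO (ι := {i // θ i / lam i ≤ η}) (fun i => lam i)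
        (fun i => ε i / b i) (fun i => y i a)) ∧
      (∀ j k, S.FO (ι := {i // θ i / lam i ≤ η}) (fun i => lam i)
        (fun i => ε i * (θ i / lam i) ^ m + ε i ^ 3 * (lam i / b i) ^ 2)
        (fun i p => S.met (fun a => X i a + y i a) j k p - S.met (X i) j k p
          - ε i ^ 2 * T i j k p))

/-- finitely many coordinate boxes in which the tensor `G` is within `κ0` of the Euclidean one -/
structure Boxes (C : Type) [Fintype C] (G : κ → κ → P → ℂ) (κ0 : ℝ) where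
  /-- coordinates -/
  x : C → Fin 2 → P → ℂ
  /-- coordinate fields -/
  Y : C → Fin 2 → κ → P → ℂ
  /-- regions -/
  K : C → Set P
  /-- cut-offs -/
  ρ : C → P → ℂ
  smx : ∀ c i, S.Sm (x c i)
  rx : ∀ c i, Rl (x c i)
  smY : ∀ c i j, S.Sm (Y c i j)
  rY : ∀ c i j, Rl (Y c i j)
  smρ : ∀ c, S.Sm (ρ c)
  rρ : ∀ c, Rl (ρ c)
  zρ : ∀ c, S.Zs (K c) (ρ c)
  sum : ∀ p, ∑ c, ρ c p ^ 2 = 1
  Yx : ∀ c, ∀ p ∈ K c, ∀ i j, S.dir (Y c i) (x c j) p = if i = j then 1 else 0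
  dec : ∀ c u, S.Sm u → ∀ j, ∀ p ∈ K c, S.D j u p = ∑ i, S.D j (x c i) p * S.dir (Y c i) u p
  near : ∀ c, ∀ p ∈ K c, ∀ i j,
    ‖(∑ j', ∑ k', Y c i j' p * Y c j k' p * G j' k' p) - (if i = j then 1 else 0)‖ ≤ κ0
  /-- the coordinate fields commute -/
  comm : ∀ c u, S.Sm u → ∀ p ∈ K c,
    S.dir (Y c 0) (S.dir (Y c 1) u) p = S.dir (Y c 1) (S.dir (Y c 0) u) p
  /-- `K c` is open: derivatives are local -/
  loc : ∀ c u, S.Sm u → (∀ p ∈ K c, u p = 0) → ∀ j, ∀ p ∈ K c, S.D j u p = 0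

/-- **(PC)** the pieces exist: `|II| ≥ c b` for all maps of the family; `G` fixed; the coefficients
of all tensors `κ1`-close to `G` are positive -/
def DAlg.Pieces : Prop :=
  ∃ κ0 : ℝ, 0 < κ0 ∧ ∀ (C : Type) [Fintype C] (G : κ → κ → P → ℂ), S.IsT G →
    (∀ j k, Rl (G j k)) → (∀ j k, S.Sm (G j k)) → Boxes S C G κ0 →
    ∃ κ1 : ℝ, 0 < κ1 ∧
    ∀ (ι : Type u) (θ b : ι → ℝ) (f : ι → Fin 4 → P → ℂ) (c0 : ℝ), 0 < c0 →
      (∀ i, 1 ≤ b i) → (∀ i, b i ≤ θ i) → (∀ i a, S.Sm (f i a)) → (∀ i a, Rl (f i a)) →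
      (∀ j a, S.FO θ (fun _ => 1) (fun i => S.D j (f i a))) →
      (∀ j k a, S.FO θ b (fun i => S.D j (S.D k (f i a)))) →
      (∀ i p, ∃ j1 j2 j k, c0 * b i ^ 2 ≤
        (gram3 (S.Dv j1 (f i)) (S.Dv j2 (f i)) (S.Dv j (S.Dv k (f i))) p).re) →
      ∃ (Q : Type) (_ : Fintype Q) (d : ι → PData P κ Q) (c1 : ℝ), 0 < c1 ∧
        (∀ i, (d i).Ok S) ∧ PData.FBd S d θ ∧ (∀ i, (d i).Nondeg S c1 (b i) (f i)) ∧
        ∀ i a (T : κ → κ → P → ℂ), (∀ j k p, ‖T j k p - G j k p‖ ≤ κ1) →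
          ∀ p ∈ ((d i).ray a).K, c1 ≤ ((d i).ell a T p).re

/-- **T1U**, the scale invariant perturbation theorem, family version (all orders).  For a
diagonal family indexed by `ℕ` the hypotheses `FO` follow from bounds for the orders `k ≤ i`. -/
def DAlg.T1U : Prop :=
  ∃ κ0 : ℝ, 0 < κ0 ∧ ∀ (C : Type) [Fintype C] (G : κ → κ → P → ℂ), S.IsT G →
    (∀ j k, Rl (G j k)) → (∀ j k, S.Sm (G j k)) → Boxes S C G κ0 →
    ∃ κ1 : ℝ, 0 < κ1 ∧ ∀ (ι : Type u) (Lam δ : ι → ℝ) (f : ι → Fin 4 → P → ℂ) (c0 : ℝ),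
      0 < c0 → (∀ i, 1 ≤ Lam i) → (∀ i, 0 < δ i) → (∀ i, δ i ≤ 1) →
      (∀ i a, S.Sm (f i a)) → (∀ i a, Rl (f i a)) →
      (∀ a, S.FO Lam (fun _ => 1) (fun i => f i a)) →
      (∀ j a, S.FO Lam (fun _ => 1) (fun i => S.D j (f i a))) →
      (∀ i p, ∃ j1 j2 j k, c0 * Lam i ^ 2 ≤
        (gram3 (S.Dv j1 (f i)) (S.Dv j2 (f i)) (S.Dv j (S.Dv k (f i))) p).re) →
      (∀ i j k p, ‖G j k p - S.met (f i) j k p - δ i * G j k p‖ ≤ κ1 * δ i) →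
      (∀ j k, S.FO Lam δ (fun i p => G j k p - S.met (f i) j k p)) →
      ∃ δ0 : ℝ, 0 < δ0 ∧ ∀ i, δ i ≤ δ0 →
        ∃ F : Fin 4 → P → ℂ, (∀ a, S.Sm (F a)) ∧ (∀ a, Rl (F a)) ∧
          ∀ j k p, S.met F j k p = G j k p

/-- **(IT)** the iteration -/
def DAlg.Iter : Prop :=
  (∀ (Q : Type) [Fintype Q], S.StageF Q) → S.Pieces → S.Complete →
    (∀ m, Nonempty (S.Smoothing m)) → S.T1U

end Vale.Agent.P205.F
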