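import Vale.Agent.P205.F.FrameAlg
import Vale.Agent.P205.F.StageDef
import Vale.Agent.P205.F.InvSqrt

/-!
The moving frame with bounds (P205).
-/

set_option linter.all false

namespace Vale.Agent.P205.F

universe u

variable {P : Type u} {κ : Type} (S : DAlg P κ)

namespace DAlg



/-- polynomial bounds: `u = O(Λ ^ d)` at scale `μ` -/
def PO {ι : Type*} (μ Λ : ι → ℝ) (d : ℕ) (u : ι → P → ℂ) : Prop :=
  S.FO μ (fun i => Λ i ^ d) u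

section
variable {ι : Type*} {μ Λ : ι → ℝ} (hμ : ∀ i, 1 ≤ μ i) (hΛ : ∀ i, 1 ≤ Λ i)
include hμ hΛ

theorem PO.mono {d d' : ℕ} {u : ι → P → ℂ} (hd : d ≤ d') (h : S.PO μ Λ d u) :
    S.PO μ Λ d' u :=
  DAlg.FO.mono_s' h (fun i => pow_le_pow_right₀ (hΛ i) hd)
    (fun i => zero_le_one.trans (hμ i))

theorem PO.mul {d d' : ℕ} {u v : ι → P → ℂ} (h : S.PO μ Λ d u) (h' : S.PO μ Λ d' v) :
    S.PO μ Λ (d + d') (fun i => u i * v i) := by
  have := DAlg.FO.mul h h'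
  simpa only [PO, pow_add] using this

end

section
variable {ι : Type*} {μ Λ : ι → ℝ}

theorem PO.add {d : ℕ} {u v : ι → P → ℂ} (h : S.PO μ Λ d u) (h' : S.PO μ Λ d v) :
    S.PO μ Λ d (fun i => u i + v i) := DAlg.FO.add h h'

theorem PO.sub {d : ℕ} {u v : ι → P → ℂ} (h : S.PO μ Λ d u) (h' : S.PO μ Λ d v) :
    S.PO μ Λ d (fun i => u i - v i) := DAlg.FO.sub h h'

theorem PO.neg {d : ℕ} {u : ι → P → ℂ} (h : S.PO μ Λ d u) :
    S.PO μ Λ d (fun i => - u i) := DAlg.FO.neg h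

end

section
variable {ι : Type*} {μ Λ : ι → ℝ} (hμ : ∀ i, 1 ≤ μ i) (hΛ : ∀ i, 1 ≤ Λ i)
include hμ hΛ

theorem PO.dot {d d' : ℕ} {X Y : ι → Fin 4 → P → ℂ} (hX : ∀ a, S.PO μ Λ d (fun i => X i a))
    (hY : ∀ a, S.PO μ Λ d' (fun i => Y i a)) :
    S.PO μ Λ (d + d') (fun i => dot (X i) (Y i)) := by
  simp only [dot_eq]
  exact PO.add S (PO.add S (PO.add S (PO.mul S hμ hΛ (hX 0) (hY 0))
    (PO.mul S hμ hΛ (hX 1) (hY 1))) (PO.mul S hμ hΛ (hX 2) (hY 2)))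
    (PO.mul S hμ hΛ (hX 3) (hY 3))

variable {X Y Z : ι → Fin 4 → P → ℂ} (hX : ∀ a, S.PO μ Λ 1 (fun i => X i a))
  (hY : ∀ a, S.PO μ Λ 1 (fun i => Y i a)) (hZ : ∀ a, S.PO μ Λ 1 (fun i => Z i a))
include hX hY hZ

theorem PO.gr : S.PO μ Λ 6 (fun i => gr (X i) (Y i) (Z i)) := by
  have dXX := PO.dot S hμ hΛ hX hX
  have dYY := PO.dot S hμ hΛ hY hY
  have dZZ := PO.dot S hμ hΛ hZ hZ
  have dXY := PO.dot S hμ hΛ hX hY
  have dXZ := PO.dot S hμ hΛ hX hZ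
  have dYZ := PO.dot S hμ hΛ hY hZ
  simp only [F.gr, two_mul]
  have m3 := fun {u v w : ι → P → ℂ} (h1 : S.PO μ Λ 2 u) (h2 : S.PO μ Λ 2 v)
    (h3 : S.PO μ Λ 2 w) => PO.mul S hμ hΛ h1 (PO.mul S hμ hΛ h2 h3)
  have m3' := fun {u v w : ι → P → ℂ} (h1 : S.PO μ Λ 2 u) (h2 : S.PO μ Λ 2 v)
    (h3 : S.PO μ Λ 2 w) => PO.mul S hμ hΛ (PO.mul S hμ hΛ h1 h2) h3
  exact PO.sub S (PO.sub S (PO.sub S (PO.add S (m3' dXX dYY dZZ)
    (PO.add S (m3' dXY dYZ dXZ) (m3' dXY dYZ dXZ))) (m3 dXX dYZ dYZ)) (m3 dYY dXZ dXZ))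
    (m3 dZZ dXY dXY)

theorem PO.cr4 (a : Fin 4) : S.PO μ Λ 3 (fun i => cr4 (X i) (Y i) (Z i) a) := by
  have m1 := fun (a b c : Fin 4) => PO.mul S hμ hΛ (hX a)
    (PO.sub S (PO.mul S hμ hΛ (hY b) (hZ c)) (PO.mul S hμ hΛ (hY c) (hZ b)))
  fin_cases a
  · exact PO.add S (PO.sub S (m1 1 2 3) (m1 2 1 3)) (m1 3 1 2)
  · exact PO.neg S (PO.add S (PO.sub S (m1 0 2 3) (m1 2 0 3)) (m1 3 0 2))
  · exact PO.add S (PO.sub S (m1 0 1 3) (m1 1 0 3)) (m1 3 0 1)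
  · exact PO.neg S (PO.add S (PO.sub S (m1 0 1 2) (m1 1 0 2)) (m1 2 0 1))

omit hX hY hZ in
theorem PO.lc3 {d : ℕ} {A B C : ι → P → ℂ} (hA : S.PO μ Λ d A) (hB : S.PO μ Λ d B)
    (hC : S.PO μ Λ d C) (hX : ∀ a, S.PO μ Λ 1 (fun i => X i a))
    (hY : ∀ a, S.PO μ Λ 1 (fun i => Y i a)) (hZ : ∀ a, S.PO μ Λ 1 (fun i => Z i a))
    (a : Fin 4) :
    S.PO μ Λ (d + 1) (fun i => lc3 (A i) (B i) (C i) (X i) (Y i) (Z i) a) :=
  PO.add S (PO.add S (PO.mul S hμ hΛ hA (hX a)) (PO.mul S hμ hΛ hB (hY a)))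
    (PO.mul S hμ hΛ hC (hZ a))

omit hX hY hZ in
theorem PO.dd {X1 X2 X3 X4 Y1 Y2 Y3 Y4 : ι → Fin 4 → P → ℂ}
    (h1 : ∀ a, S.PO μ Λ 1 (fun i => X1 i a)) (h2 : ∀ a, S.PO μ Λ 1 (fun i => X2 i a))
    (h3 : ∀ a, S.PO μ Λ 1 (fun i => X3 i a)) (h4 : ∀ a, S.PO μ Λ 1 (fun i => X4 i a))
    (h5 : ∀ a, S.PO μ Λ 1 (fun i => Y1 i a)) (h6 : ∀ a, S.PO μ Λ 1 (fun i => Y2 i a))
    (h7 : ∀ a, S.PO μ Λ 1 (fun i => Y3 i a)) (h8 : ∀ a, S.PO μ Λ 1 (fun i => Y4 i a)) :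
    S.PO μ Λ 4 (fun i => F.dot (X1 i) (X2 i) * F.dot (X3 i) (X4 i)
      - F.dot (Y1 i) (Y2 i) * F.dot (Y3 i) (Y4 i)) :=
  PO.sub S (PO.mul S hμ hΛ (PO.dot S hμ hΛ h1 h2) (PO.dot S hμ hΛ h3 h4))
    (PO.mul S hμ hΛ (PO.dot S hμ hΛ h5 h6) (PO.dot S hμ hΛ h7 h8))

theorem PO.cf1 (a : Fin 4) : S.PO μ Λ 5 (fun i => cf1 (X i) (Y i) (Z i) a) :=
  PO.lc3 S hμ hΛ (PO.dd S hμ hΛ hY hY hZ hZ hY hZ hY hZ)
    (PO.dd S hμ hΛ hX hZ hY hZ hX hY hZ hZ) (PO.dd S hμ hΛ hX hY hY hZ hX hZ hY hY)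
    hX hY hZ a

theorem PO.cf2 (a : Fin 4) : S.PO μ Λ 5 (fun i => cf2 (X i) (Y i) (Z i) a) :=
  PO.lc3 S hμ hΛ (PO.dd S hμ hΛ hX hZ hY hZ hX hY hZ hZ)
    (PO.dd S hμ hΛ hX hX hZ hZ hX hZ hX hZ) (PO.dd S hμ hΛ hX hZ hX hY hX hX hY hZ)
    hX hY hZ a

theorem PO.cf3 (a : Fin 4) : S.PO μ Λ 5 (fun i => cf3 (X i) (Y i) (Z i) a) :=
  PO.lc3 S hμ hΛ (PO.dd S hμ hΛ hX hY hY hZ hX hZ hY hY)
    (PO.dd S hμ hΛ hX hZ hX hY hX hX hY hZ) (PO.dd S hμ hΛ hX hX hY hY hX hY hX hY)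
    hX hY hZ a

end

/-- the moving frame along `K` -/
structure FrameOn (K : Set P) (X Y Z E N P1 P2 : Fin 4 → P → ℂ) : Prop where
  EE : ∀ p ∈ K, dot E E p = 1
  EX : ∀ p, dot E X p = 0
  EY : ∀ p, dot E Y p = 0
  EZ : ∀ p, dot E Z p = 0
  PX : ∀ p ∈ K, dot P1 X p = 1
  PY : ∀ p, dot P1 Y p = 0
  PZ : ∀ p, dot P1 Z p = 0
  QX : ∀ p, dot P2 X p = 0
  QY : ∀ p ∈ K, dot P2 Y p = 1
  QZ : ∀ p, dot P2 Z p = 0
  NX : ∀ p, dot N X p = 0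
  NY : ∀ p, dot N Y p = 0
  NZ : ∀ p ∈ K, dot N Z p = 1
  PE : ∀ p, dot P1 E p = 0
  QE : ∀ p, dot P2 E p = 0
  NE : ∀ p, dot N E p = 0

theorem frame {ι : Type*} {μ Λ : ι → ℝ} (hμ : ∀ i, 1 ≤ μ i) (hΛ : ∀ i, 1 ≤ Λ i)
    {X Y Z : ι → Fin 4 → P → ℂ} (hX : ∀ a, S.FO μ Λ (fun i => X i a))
    (hY : ∀ a, S.FO μ Λ (fun i => Y i a)) (hZ : ∀ a, S.FO μ Λ (fun i => Z i a))
    (rX : ∀ i a, Rl (X i a)) (rY : ∀ i a, Rl (Y i a)) (rZ : ∀ i a, Rl (Z i a))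
    (K : ι → Set P) (hK : ∀ i, ∀ p ∈ K i, 1 / Λ i ≤ (gr (X i) (Y i) (Z i) p).re) :
    ∃ E N P1 P2 : ι → Fin 4 → P → ℂ,
      (∀ a, S.FO (fun i => μ i * Λ i ^ 12) (fun i => Λ i ^ 17) (fun i => E i a)) ∧
      (∀ a, S.FO (fun i => μ i * Λ i ^ 12) (fun i => Λ i ^ 17) (fun i => N i a)) ∧
      (∀ a, S.FO (fun i => μ i * Λ i ^ 12) (fun i => Λ i ^ 17) (fun i => P1 i a)) ∧
      (∀ a, S.FO (fun i => μ i * Λ i ^ 12) (fun i => Λ i ^ 17) (fun i => P2 i a)) ∧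
      (∀ i a, Rl (E i a) ∧ Rl (N i a) ∧ Rl (P1 i a) ∧ Rl (P2 i a)) ∧
      ∀ i, FrameOn (K i) (X i) (Y i) (Z i) (E i) (N i) (P1 i) (P2 i) := by
  have hX' : ∀ a, S.PO μ Λ 1 (fun i => X i a) := fun a => by
    simpa only [PO, pow_one] using hX a
  have hY' : ∀ a, S.PO μ Λ 1 (fun i => Y i a) := fun a => by
    simpa only [PO, pow_one] using hY a
  have hZ' : ∀ a, S.PO μ Λ 1 (fun i => Z i a) := fun a => by
    simpa only [PO, pow_one] using hZ a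
  have rmul : ∀ {u v : P → ℂ}, Rl u → Rl v → Rl (u * v) := fun {u v} h h' p => by
    simp [Complex.mul_im, h p, h' p]
  have radd : ∀ {u v : P → ℂ}, Rl u → Rl v → Rl (u + v) := fun {u v} h h' p => by
    simp [h p, h' p]
  have rsub : ∀ {u v : P → ℂ}, Rl u → Rl v → Rl (u - v) := fun {u v} h h' p => by
    simp [h p, h' p]
  have rneg : ∀ {u : P → ℂ}, Rl u → Rl (-u) := fun {u} h p => by
    simp [h p]
  have rdot : ∀ {V W : Fin 4 → P → ℂ}, (∀ a, Rl (V a)) → (∀ a, Rl (W a)) →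
      Rl (dot V W) := fun {V W} h h' => by
    rw [dot_eq]
    exact radd (radd (radd (rmul (h 0) (h' 0)) (rmul (h 1) (h' 1))) (rmul (h 2) (h' 2)))
      (rmul (h 3) (h' 3))
  have rgr : ∀ i, Rl (F.gr (X i) (Y i) (Z i)) := fun i => by
    have a1 := rdot (rX i) (rX i)
    have a2 := rdot (rY i) (rY i)
    have a3 := rdot (rZ i) (rZ i)
    have a4 := rdot (rX i) (rY i)
    have a5 := rdot (rX i) (rZ i)
    have a6 := rdot (rY i) (rZ i)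
    have h2 : Rl (2 : P → ℂ) := fun p => by simp
    exact rsub (rsub (rsub (radd (rmul (rmul a1 a2) a3) (rmul h2 (rmul (rmul a4 a6) a5)))
      (rmul a1 (rmul a6 a6))) (rmul a2 (rmul a5 a5))) (rmul a3 (rmul a4 a4))
  have hb : ∀ i, 1 ≤ Λ i ^ 6 := fun i => one_le_pow₀ (hΛ i)
  have hK' : ∀ i, ∀ p ∈ K i, 1 / Λ i ^ 6 ≤ (F.gr (X i) (Y i) (Z i) p).re := by
    intro i p hp
    refine le_trans ?_ (hK i p hp)
    exact one_div_le_one_div_of_le (zero_lt_one.trans_le (hΛ i))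
      (le_self_pow₀ (hΛ i) (by norm_num))
  obtain ⟨q, rq, fq, eq⟩ := DAlg.FO.exists_invSqrt (PO.gr S hμ hΛ hX' hY' hZ')
    (fun i => zero_le_one.trans (hμ i)) hb hb rgr K hK'
  have hμ' : ∀ i, 1 ≤ μ i * Λ i ^ 12 := fun i =>
    one_le_mul_of_one_le_of_one_le (hμ i) (one_le_pow₀ (hΛ i))
  have hle : ∀ i, μ i ≤ μ i * Λ i ^ 12 := fun i =>
    le_mul_of_one_le_right (zero_le_one.trans (hμ i)) (one_le_pow₀ (hΛ i))
  have hup : ∀ {d : ℕ} {u : ι → P → ℂ}, S.PO μ Λ d u →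
      S.PO (fun i => μ i * Λ i ^ 12) Λ d u := fun {d u} h =>
    DAlg.FO.mono_mu h hle (fun i => zero_le_one.trans (hμ i))
      (fun i => pow_nonneg (zero_le_one.trans (hΛ i)) d)
  have fq' : S.PO (fun i => μ i * Λ i ^ 12) Λ 6 q := by
    have : (fun i => μ i * (Λ i ^ 6 * Λ i ^ 6)) = fun i => μ i * Λ i ^ 12 := by
      funext i; ring
    rw [this] at fq
    exact fq
  have fv' : S.PO (fun i => μ i * Λ i ^ 12) Λ 12 (fun i => q i * q i) :=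
    PO.mul S hμ' hΛ fq' fq'
  have hcf : ∀ {V : ι → Fin 4 → P → ℂ}, (∀ a, S.PO μ Λ 5 (fun i => V i a)) →
      ∀ a, S.FO (fun i => μ i * Λ i ^ 12) (fun i => Λ i ^ 17) (fun i => (q i * q i) * V i a) :=
    fun {V} h a => PO.mono S hμ' hΛ (by norm_num) (PO.mul S hμ' hΛ fv' (hup (h a)))
  have rlc : ∀ i {A B C : P → ℂ}, Rl A → Rl B → Rl C → ∀ a,
      Rl (lc3 A B C (X i) (Y i) (Z i) a) := fun i {A B C} hA hB hC a =>
    radd (radd (rmul hA (rX i a)) (rmul hB (rY i a))) (rmul hC (rZ i a))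
  have rcr : ∀ i a, Rl (F.cr4 (X i) (Y i) (Z i) a) := by
    intro i a
    have m1 := fun (a b c : Fin 4) => rmul (rX i a)
      (rsub (rmul (rY i b) (rZ i c)) (rmul (rY i c) (rZ i b)))
    fin_cases a
    · exact radd (rsub (m1 1 2 3) (m1 2 1 3)) (m1 3 1 2)
    · exact rneg (radd (rsub (m1 0 2 3) (m1 2 0 3)) (m1 3 0 2))
    · exact radd (rsub (m1 0 1 3) (m1 1 0 3)) (m1 3 0 1)
    · exact rneg (radd (rsub (m1 0 1 2) (m1 1 0 2)) (m1 2 0 1))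
  have rd : ∀ {X1 X2 X3 X4 Y1 Y2 Y3 Y4 : Fin 4 → P → ℂ}, (∀ a, Rl (X1 a)) →
      (∀ a, Rl (X2 a)) → (∀ a, Rl (X3 a)) → (∀ a, Rl (X4 a)) → (∀ a, Rl (Y1 a)) →
      (∀ a, Rl (Y2 a)) → (∀ a, Rl (Y3 a)) → (∀ a, Rl (Y4 a)) →
      Rl (dot X1 X2 * dot X3 X4 - dot Y1 Y2 * dot Y3 Y4) :=
    fun {_ _ _ _ _ _ _ _} h1 h2 h3 h4 h5 h6 h7 h8 =>
      rsub (rmul (rdot h1 h2) (rdot h3 h4)) (rmul (rdot h5 h6) (rdot h7 h8))
  have rv : ∀ i, Rl (q i * q i) := fun i => rmul (rq i) (rq i)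
  have ev : ∀ i, ∀ p ∈ K i, q i p * q i p * F.gr (X i) (Y i) (Z i) p = 1 := fun i p hp => by
    rw [← eq i p hp]; ring
  refine ⟨fun i a => q i * F.cr4 (X i) (Y i) (Z i) a,
    fun i a => (q i * q i) * F.cf3 (X i) (Y i) (Z i) a,
    fun i a => (q i * q i) * F.cf1 (X i) (Y i) (Z i) a,
    fun i a => (q i * q i) * F.cf2 (X i) (Y i) (Z i) a, ?_, ?_, ?_, ?_, ?_, ?_⟩
  · intro a
    exact PO.mono S hμ' hΛ (by norm_num)
      (PO.mul S hμ' hΛ fq' (hup (PO.cr4 S hμ hΛ hX' hY' hZ' a)))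
  · exact hcf (PO.cf3 S hμ hΛ hX' hY' hZ')
  · exact hcf (PO.cf1 S hμ hΛ hX' hY' hZ')
  · exact hcf (PO.cf2 S hμ hΛ hX' hY' hZ')
  · intro i a
    refine ⟨rmul (rq i) (rcr i a), rmul (rv i) ?_, rmul (rv i) ?_,
      rmul (rv i) ?_⟩
    · exact rlc i (rd (rX i) (rY i) (rY i) (rZ i) (rX i) (rZ i) (rY i) (rY i))
        (rd (rX i) (rZ i) (rX i) (rY i) (rX i) (rX i) (rY i) (rZ i))
        (rd (rX i) (rX i) (rY i) (rY i) (rX i) (rY i) (rX i) (rY i)) a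
    · exact rlc i (rd (rY i) (rY i) (rZ i) (rZ i) (rY i) (rZ i) (rY i) (rZ i))
        (rd (rX i) (rZ i) (rY i) (rZ i) (rX i) (rY i) (rZ i) (rZ i))
        (rd (rX i) (rY i) (rY i) (rZ i) (rX i) (rZ i) (rY i) (rY i)) a
    · exact rlc i (rd (rX i) (rZ i) (rY i) (rZ i) (rX i) (rY i) (rZ i) (rZ i))
        (rd (rX i) (rX i) (rZ i) (rZ i) (rX i) (rZ i) (rX i) (rZ i))
        (rd (rX i) (rZ i) (rX i) (rY i) (rX i) (rX i) (rY i) (rZ i)) a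
  · intro i
    have zero : ∀ {u : P → ℂ}, u = 0 → ∀ p, u p = 0 := fun h p => by rw [h]; rfl
    have cfE : ∀ A B C : P → ℂ, dot (lc3 A B C (X i) (Y i) (Z i))
        (F.cr4 (X i) (Y i) (Z i)) = 0 := fun A B C => by
      rw [dot_lc3, dot_comm (X i), dot_comm (Y i), dot_comm (Z i), cr4_X, cr4_Y, cr4_Z]
      ring
    refine ⟨?_, ?_, ?_, ?_, ?_, ?_, ?_, ?_, ?_, ?_, ?_, ?_, ?_, ?_, ?_, ?_⟩
    · intro p hp
      rw [dot_smul_left, dot_smul_right, cr4_sq]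
      have e1 := ev i p hp
      simp only [Pi.mul_apply]
      rw [← e1]; ring
    · exact zero (by rw [dot_smul_left, cr4_X, mul_zero])
    · exact zero (by rw [dot_smul_left, cr4_Y, mul_zero])
    · exact zero (by rw [dot_smul_left, cr4_Z, mul_zero])
    · intro p hp
      rw [dot_smul_left, cf1_X]; exact ev i p hp
    · exact zero (by rw [dot_smul_left, cf1_Y, mul_zero])
    · exact zero (by rw [dot_smul_left, cf1_Z, mul_zero])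
    · exact zero (by rw [dot_smul_left, cf2_X, mul_zero])
    · intro p hp
      rw [dot_smul_left, cf2_Y]; exact ev i p hp
    · exact zero (by rw [dot_smul_left, cf2_Z, mul_zero])
    · exact zero (by rw [dot_smul_left, cf3_X, mul_zero])
    · exact zero (by rw [dot_smul_left, cf3_Y, mul_zero])
    · intro p hp
      rw [dot_smul_left, cf3_Z]; exact ev i p hp
    · exact zero (by rw [dot_smul_left, dot_smul_right, F.cf1, cfE, mul_zero, mul_zero])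
    · exact zero (by rw [dot_smul_left, dot_smul_right, F.cf2, cfE, mul_zero, mul_zero])
    · exact zero (by rw [dot_smul_left, dot_smul_right, F.cf3, cfE, mul_zero, mul_zero])

theorem gram3_eq (X Y Z : Fin 4 → P → ℂ) : gram3 X Y Z = F.gr X Y Z := by
  funext p
  simp only [gram3, F.gr, Pi.sub_apply, Pi.add_apply, Pi.mul_apply, Pi.ofNat_apply]
  ring

/-- the frame along rays, in the form used by the WKB solve -/
theorem frame_ray [Fintype κ] {ι : Type*} {μ Λ : ι → ℝ} (hμ : ∀ i, 1 ≤ μ i)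
    (hΛ : ∀ i, 1 ≤ Λ i) {r : ι → Ray P κ} {X : ι → Fin 4 → P → ℂ}
    (hX : ∀ a, S.FO μ Λ (fun i => S.dirv (r i).t (X i) a))
    (hY : ∀ a, S.FO μ Λ (fun i => S.dirv (r i).w (X i) a))
    (hZ : ∀ a, S.FO μ Λ (fun i => S.dirv (r i).w (S.dirv (r i).w (X i)) a))
    (rX : ∀ i a, Rl (S.dirv (r i).t (X i) a)) (rY : ∀ i a, Rl (S.dirv (r i).w (X i) a))
    (rZ : ∀ i a, Rl (S.dirv (r i).w (S.dirv (r i).w (X i)) a))
    (hK : ∀ i, ∀ p ∈ (r i).K, 1 / Λ i ≤ (gram3 (S.dirv (r i).t (X i)) (S.dirv (r i).w (X i))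
      (S.dirv (r i).w (S.dirv (r i).w (X i))) p).re) :
    ∃ F : ι → Frm P, (∀ i, (F i).Ok S (r i) (X i)) ∧
      (∀ a, S.FO (fun i => μ i * Λ i ^ 12) (fun i => Λ i ^ 17) (fun i => (F i).E a)) ∧
      (∀ a, S.FO (fun i => μ i * Λ i ^ 12) (fun i => Λ i ^ 17) (fun i => (F i).N a)) ∧
      (∀ a, S.FO (fun i => μ i * Λ i ^ 12) (fun i => Λ i ^ 17) (fun i => (F i).P1 a)) ∧
      (∀ a, S.FO (fun i => μ i * Λ i ^ 12) (fun i => Λ i ^ 17) (fun i => (F i).P2 a)) ∧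
      (∀ i p, dot (F i).P1 (F i).E p = 0) ∧ (∀ i p, dot (F i).P2 (F i).E p = 0) ∧
      (∀ i p, dot (F i).N (F i).E p = 0) ∧
      ∀ i, FrameOn (r i).K (S.dirv (r i).t (X i)) (S.dirv (r i).w (X i))
        (S.dirv (r i).w (S.dirv (r i).w (X i))) (F i).E (F i).N (F i).P1 (F i).P2 := by
  obtain ⟨E, N, P1, P2, hE, hN, hP1, hP2, hr, hF⟩ :=
    S.frame hμ hΛ hX hY hZ rX rY rZ (fun i => (r i).K)
      (fun i p hp => by rw [← gram3_eq]; exact hK i p hp)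
  refine ⟨fun i => ⟨E i, N i, P1 i, P2 i⟩, fun i => ?_, hE, hN, hP1, hP2,
    fun i => (hF i).PE, fun i => (hF i).QE, fun i => (hF i).NE, hF⟩
  have h := hF i
  exact
    { smE := fun a => (hE a).1 i
      smN := fun a => (hN a).1 i
      smP1 := fun a => (hP1 a).1 i
      smP2 := fun a => (hP2 a).1 i
      rE := fun a => (hr i a).1
      rN := fun a => (hr i a).2.1
      rP1 := fun a => (hr i a).2.2.1
      rP2 := fun a => (hr i a).2.2.2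
      EE := h.EE
      Et := fun p _ => h.EX p
      Ew := fun p _ => h.EY p
      Eww := fun p _ => h.EZ p
      Nt := fun p _ => h.NX p
      Nw := fun p _ => h.NY p
      Nww := h.NZ
      P1t := h.PX
      P1w := fun p _ => h.PY p
      P1ww := fun p _ => h.PZ p
      P2t := fun p _ => h.QX p
      P2w := h.QY
      P2ww := fun p _ => h.QZ p }

/-- a constant factor in the frequency does not matter -/
theorem FO.mu_const {ι : Type*} {μ s : ι → ℝ} {A : ℝ} (hA : 1 ≤ A) {u : ι → P → ℂ}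
    (hμ : ∀ i, 0 ≤ μ i) (hs : ∀ i, 0 ≤ s i) (h : S.FO (fun i => μ i * A) s u) :
    S.FO μ s u := by
  refine ⟨h.1, fun k => ?_⟩
  obtain ⟨C, hC, hb⟩ := h.2 k
  have hA0 : 0 ≤ A := zero_le_one.trans hA
  refine ⟨C * A ^ k, mul_nonneg hC (pow_nonneg hA0 k), fun i w hw p => ?_⟩
  refine (hb i w hw p).trans ?_
  have h1 : A ^ w.length ≤ A ^ k := pow_le_pow_right₀ hA hw
  have h2 : 0 ≤ C * s i * μ i ^ w.length :=
    mul_nonneg (mul_nonneg hC (hs i)) (pow_nonneg (hμ i) _)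
  calc C * s i * (μ i * A) ^ w.length = (C * s i * μ i ^ w.length) * A ^ w.length := by
        rw [mul_pow]; ring
    _ ≤ (C * s i * μ i ^ w.length) * A ^ k := mul_le_mul_of_nonneg_left h1 h2
    _ = C * A ^ k * s i * μ i ^ w.length := by ring

/-- a constant factor in the size does not matter -/
theorem FO.s_const {ι : Type*} {μ : ι → ℝ} {A : ℝ} {u : ι → P → ℂ} (hA : 0 ≤ A)
    (h : S.FO μ (fun _ => A) u) : S.FO μ (fun _ => 1) u := by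
  refine ⟨h.1, fun k => ?_⟩
  obtain ⟨C, hC, hb⟩ := h.2 k
  exact ⟨C * A, mul_nonneg hC hA, fun i => by rw [mul_one]; exact hb i⟩

/-- the frame for three vectors of size one with Gram determinant bounded below -/
theorem frameU {ι : Type*} {μ : ι → ℝ} {c0 : ℝ} (hμ : ∀ i, 1 ≤ μ i) (hc : 0 < c0)
    {X Y Z : ι → Fin 4 → P → ℂ} (hX : ∀ a, S.FO μ (fun _ => 1) (fun i => X i a))
    (hY : ∀ a, S.FO μ (fun _ => 1) (fun i => Y i a))
    (hZ : ∀ a, S.FO μ (fun _ => 1) (fun i => Z i a))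
    (rX : ∀ i a, Rl (X i a)) (rY : ∀ i a, Rl (Y i a)) (rZ : ∀ i a, Rl (Z i a))
    (K : ι → Set P) (hK : ∀ i, ∀ p ∈ K i, c0 ≤ (gr (X i) (Y i) (Z i) p).re) :
    ∃ E N P1 P2 : ι → Fin 4 → P → ℂ,
      (∀ a, S.FO μ (fun _ => 1) (fun i => E i a)) ∧
      (∀ a, S.FO μ (fun _ => 1) (fun i => N i a)) ∧
      (∀ a, S.FO μ (fun _ => 1) (fun i => P1 i a)) ∧
      (∀ a, S.FO μ (fun _ => 1) (fun i => P2 i a)) ∧
      (∀ i a, Rl (E i a) ∧ Rl (N i a) ∧ Rl (P1 i a) ∧ Rl (P2 i a)) ∧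
      ∀ i, FrameOn (K i) (X i) (Y i) (Z i) (E i) (N i) (P1 i) (P2 i) := by
  set A : ℝ := max 1 (1 / c0) with hA
  have hA1 : 1 ≤ A := le_max_left _ _
  have hA0 : 0 < A := zero_lt_one.trans_le hA1
  have hμ0 : ∀ i, 0 ≤ μ i := fun i => zero_le_one.trans (hμ i)
  have up : ∀ {u : ι → P → ℂ}, S.FO μ (fun _ => 1) u → S.FO μ (fun _ => A) u := fun {u} h =>
    h.mono_s' (fun _ => hA1) hμ0
  have hA2 : 1 / A ≤ c0 := by
    rw [div_le_iff₀ hA0]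
    have h1 : 1 / c0 ≤ A := le_max_right _ _
    rw [div_le_iff₀ hc] at h1
    linarith
  obtain ⟨E, N, P1, P2, hE, hN, hP1, hP2, hr, hF⟩ :=
    S.frame (μ := μ) (Λ := fun _ => A) hμ (fun _ => hA1) (fun a => up (hX a))
      (fun a => up (hY a)) (fun a => up (hZ a)) rX rY rZ K
      (fun i p hp => hA2.trans (hK i p hp))
  have dn : ∀ {u : ι → P → ℂ}, S.FO (fun i => μ i * A ^ 12) (fun _ => A ^ 17) u →
      S.FO μ (fun _ => 1) u := fun {u} h =>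
    FO.mu_const S (one_le_pow₀ hA1) hμ0 (fun _ => zero_le_one)
      (FO.s_const S (pow_nonneg hA0.le _) h)
  exact ⟨E, N, P1, P2, fun a => dn (hE a), fun a => dn (hN a), fun a => dn (hP1 a),
    fun a => dn (hP2 a), hr, hF⟩

theorem gr_smul (a : P → ℂ) (X Y Z : Fin 4 → P → ℂ) :
    gr X Y (fun i => a * Z i) = a * a * gr X Y Z := by
  simp only [F.gr, dot_eq]; ring

/-- the frame along rays, scale invariant form: `X_ww = O(b)`, Gram determinant `≥ c0 b²` -/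
theorem frame_rayU [Fintype κ] {ι : Type*} {μ b : ι → ℝ} {c0 : ℝ} (hμ : ∀ i, 1 ≤ μ i)
    (hb : ∀ i, 1 ≤ b i) (hc : 0 < c0) {r : ι → Ray P κ} {X : ι → Fin 4 → P → ℂ}
    (hX : ∀ a, S.FO μ (fun _ => 1) (fun i => S.dirv (r i).t (X i) a))
    (hY : ∀ a, S.FO μ (fun _ => 1) (fun i => S.dirv (r i).w (X i) a))
    (hZ : ∀ a, S.FO μ b (fun i => S.dirv (r i).w (S.dirv (r i).w (X i)) a))
    (rX : ∀ i a, Rl (S.dirv (r i).t (X i) a)) (rY : ∀ i a, Rl (S.dirv (r i).w (X i) a))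
    (rZ : ∀ i a, Rl (S.dirv (r i).w (S.dirv (r i).w (X i)) a))
    (hK : ∀ i, ∀ p ∈ (r i).K, c0 * b i ^ 2 ≤ (gram3 (S.dirv (r i).t (X i))
      (S.dirv (r i).w (X i)) (S.dirv (r i).w (S.dirv (r i).w (X i))) p).re) :
    ∃ F : ι → Frm P, (∀ i, (F i).Ok S (r i) (X i)) ∧
      (∀ a, S.FO μ (fun _ => 1) (fun i => (F i).E a)) ∧
      (∀ a, S.FO μ (fun i => 1 / b i) (fun i => (F i).N a)) ∧
      (∀ a, S.FO μ (fun _ => 1) (fun i => (F i).P1 a)) ∧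
      (∀ a, S.FO μ (fun _ => 1) (fun i => (F i).P2 a)) ∧
      (∀ i p, dot (F i).P1 (F i).E p = 0) ∧ (∀ i p, dot (F i).P2 (F i).E p = 0) ∧
      (∀ i p, dot (F i).N (F i).E p = 0) := by
  have hb0 : ∀ i, 0 < b i := fun i => zero_lt_one.trans_le (hb i)
  have hib : ∀ i, ‖(((b i)⁻¹ : ℝ) : ℂ)‖ ≤ 1 * (1 / b i) := fun i => by
    rw [Complex.norm_real, Real.norm_eq_abs, abs_of_pos (inv_pos.2 (hb0 i)), one_mul,
      one_div]
  have hib0 : ∀ i, 0 ≤ 1 / b i := fun i => (one_div_pos.2 (hb0 i)).le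
  have hZ' : ∀ a, S.FO μ (fun _ => 1) (fun i => (fun _ => (((b i)⁻¹ : ℝ) : ℂ))
      * S.dirv (r i).w (S.dirv (r i).w (X i)) a) := fun a => by
    refine (DAlg.FO.smul (S := S) hib hib0 (hZ a)).congr_s fun i => ?_
    exact one_div_mul_cancel (hb0 i).ne'
  obtain ⟨E, N, P1, P2, hE, hN, hP1, hP2, hr, hF⟩ :=
    S.frameU (Z := fun i a => (fun _ => (((b i)⁻¹ : ℝ) : ℂ))
      * S.dirv (r i).w (S.dirv (r i).w (X i)) a) hμ hc hX hY hZ' rX rY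
      (fun i a => Rl.mul (fun _ => Complex.ofReal_im _) (rZ i a)) (fun i => (r i).K)
      (fun i p hp => by
        rw [gr_smul]
        have h1 := hK i p hp
        rw [gram3_eq] at h1
        simp only [Pi.mul_apply]
        rw [← Complex.ofReal_mul, Complex.re_ofReal_mul]
        have h2 : 0 < (b i)⁻¹ * (b i)⁻¹ := mul_pos (inv_pos.2 (hb0 i)) (inv_pos.2 (hb0 i))
        calc c0 = (b i)⁻¹ * (b i)⁻¹ * (c0 * b i ^ 2) := by
              have := (hb0 i).ne'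
              field_simp
          _ ≤ _ := mul_le_mul_of_nonneg_left h1 h2.le)
  have hbc : ∀ i, (((b i)⁻¹ : ℝ) : ℂ) ≠ 0 := fun i => by
    exact_mod_cast (inv_pos.2 (hb0 i)).ne'
  have z3 : ∀ i (V : Fin 4 → P → ℂ) p,
      dot V (fun a => (fun _ => (((b i)⁻¹ : ℝ) : ℂ))
        * S.dirv (r i).w (S.dirv (r i).w (X i)) a) p
      = (((b i)⁻¹ : ℝ) : ℂ) * dot V (S.dirv (r i).w (S.dirv (r i).w (X i))) p := by
    intro i V p
    rw [dot_smul_right]; rfl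
  have n3 : ∀ i (V : Fin 4 → P → ℂ) p,
      dot (fun a => (fun _ => (((b i)⁻¹ : ℝ) : ℂ)) * N i a) V p
      = (((b i)⁻¹ : ℝ) : ℂ) * dot (N i) V p := by
    intro i V p
    rw [dot_smul_left]; rfl
  refine ⟨fun i => ⟨E i, fun a => (fun _ => (((b i)⁻¹ : ℝ) : ℂ)) * N i a, P1 i, P2 i⟩,
    fun i => ?_, hE, ?_, hP1, hP2, fun i => (hF i).PE, fun i => (hF i).QE, ?_⟩
  · have h := hF i
    have zz : ∀ (V : Fin 4 → P → ℂ) p, dot V (fun a => (fun _ => (((b i)⁻¹ : ℝ) : ℂ))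
        * S.dirv (r i).w (S.dirv (r i).w (X i)) a) p = 0 →
        dot V (S.dirv (r i).w (S.dirv (r i).w (X i))) p = 0 := fun V p h0 => by
      rw [z3] at h0
      exact (mul_eq_zero.1 h0).resolve_left (hbc i)
    exact
      { smE := fun a => (hE a).1 i
        smN := fun a => S.sm_mul (S.sm_const _) ((hN a).1 i)
        smP1 := fun a => (hP1 a).1 i
        smP2 := fun a => (hP2 a).1 i
        rE := fun a => (hr i a).1
        rN := fun a => Rl.mul (fun _ => Complex.ofReal_im _) (hr i a).2.1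
        rP1 := fun a => (hr i a).2.2.1
        rP2 := fun a => (hr i a).2.2.2
        EE := h.EE
        Et := fun p _ => h.EX p
        Ew := fun p _ => h.EY p
        Eww := fun p _ => zz _ p (h.EZ p)
        Nt := fun p _ => by rw [n3, h.NX p, mul_zero]
        Nw := fun p _ => by rw [n3, h.NY p, mul_zero]
        Nww := fun p hp => by rw [n3, ← z3]; exact h.NZ p hp
        P1t := h.PX
        P1w := fun p _ => h.PY p
        P1ww := fun p _ => zz _ p (h.PZ p)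
        P2t := fun p _ => h.QX p
        P2w := h.QY
        P2ww := fun p _ => zz _ p (h.QZ p) }
  · intro a
    refine (DAlg.FO.smul (S := S) hib hib0 (hN a)).congr_s fun i => ?_
    exact mul_one _
  · intro i p
    show dot (fun a => (fun _ => (((b i)⁻¹ : ℝ) : ℂ)) * N i a) (E i) p = 0
    rw [n3, (hF i).NE p, mul_zero]

end DAlg

end Vale.Agent.P205.F
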