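import Vale.Agent.P205.F.DAlg

/-!
Algebra of the moving frame in dimension four (P205).

For three vectors `X Y Z` in `ℂ⁴` (functions on `P`): the cross product `cr4 X Y Z`, the Gram
determinant `gr X Y Z`, and the cofactor vectors `cf1`, `cf2`, `cf3`, which are dual to
`X, Y, Z` up to the factor `gr X Y Z`.
-/

namespace Vale.Agent.P205.F

variable {P κ : Type*}

theorem dot_eq (X Y : Fin 4 → P → ℂ) :
    dot X Y = X 0 * Y 0 + X 1 * Y 1 + X 2 * Y 2 + X 3 * Y 3 := by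
  funext p
  simp [dot, Fin.sum_univ_four]

theorem dot_comm (X Y : Fin 4 → P → ℂ) : dot X Y = dot Y X := by
  rw [dot_eq, dot_eq]; ring

/-- cross product of three vectors in dimension four -/
def cr4 (X Y Z : Fin 4 → P → ℂ) : Fin 4 → P → ℂ := ![
  X 1 * (Y 2 * Z 3 - Y 3 * Z 2) - X 2 * (Y 1 * Z 3 - Y 3 * Z 1) + X 3 * (Y 1 * Z 2 - Y 2 * Z 1),
  -(X 0 * (Y 2 * Z 3 - Y 3 * Z 2) - X 2 * (Y 0 * Z 3 - Y 3 * Z 0)
    + X 3 * (Y 0 * Z 2 - Y 2 * Z 0)),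
  X 0 * (Y 1 * Z 3 - Y 3 * Z 1) - X 1 * (Y 0 * Z 3 - Y 3 * Z 0) + X 3 * (Y 0 * Z 1 - Y 1 * Z 0),
  -(X 0 * (Y 1 * Z 2 - Y 2 * Z 1) - X 1 * (Y 0 * Z 2 - Y 2 * Z 0)
    + X 2 * (Y 0 * Z 1 - Y 1 * Z 0))]

/-- Gram determinant -/
def gr (X Y Z : Fin 4 → P → ℂ) : P → ℂ :=
  dot X X * dot Y Y * dot Z Z + 2 * (dot X Y * dot Y Z * dot X Z)
    - dot X X * (dot Y Z * dot Y Z) - dot Y Y * (dot X Z * dot X Z)
    - dot Z Z * (dot X Y * dot X Y)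

/-- linear combination of three vectors -/
def lc3 (a b c : P → ℂ) (X Y Z : Fin 4 → P → ℂ) : Fin 4 → P → ℂ :=
  fun i => a * X i + b * Y i + c * Z i

/-- first cofactor vector -/
def cf1 (X Y Z : Fin 4 → P → ℂ) : Fin 4 → P → ℂ :=
  lc3 (dot Y Y * dot Z Z - dot Y Z * dot Y Z) (dot X Z * dot Y Z - dot X Y * dot Z Z)
    (dot X Y * dot Y Z - dot X Z * dot Y Y) X Y Z

/-- second cofactor vector -/
def cf2 (X Y Z : Fin 4 → P → ℂ) : Fin 4 → P → ℂ :=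
  lc3 (dot X Z * dot Y Z - dot X Y * dot Z Z) (dot X X * dot Z Z - dot X Z * dot X Z)
    (dot X Z * dot X Y - dot X X * dot Y Z) X Y Z

/-- third cofactor vector -/
def cf3 (X Y Z : Fin 4 → P → ℂ) : Fin 4 → P → ℂ :=
  lc3 (dot X Y * dot Y Z - dot X Z * dot Y Y) (dot X Z * dot X Y - dot X X * dot Y Z)
    (dot X X * dot Y Y - dot X Y * dot X Y) X Y Z

theorem dot_lc3 (a b c : P → ℂ) (X Y Z V : Fin 4 → P → ℂ) :
    dot (lc3 a b c X Y Z) V = a * dot X V + b * dot Y V + c * dot Z V := by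
  simp only [dot_eq, lc3]; ring

theorem cf1_X (X Y Z : Fin 4 → P → ℂ) : dot (cf1 X Y Z) X = gr X Y Z := by
  rw [cf1, dot_lc3, gr, dot_comm Y X, dot_comm Z X]; ring

theorem cf1_Y (X Y Z : Fin 4 → P → ℂ) : dot (cf1 X Y Z) Y = 0 := by
  rw [cf1, dot_lc3, dot_comm Z Y]; ring

theorem cf1_Z (X Y Z : Fin 4 → P → ℂ) : dot (cf1 X Y Z) Z = 0 := by
  rw [cf1, dot_lc3]; ring

theorem cf2_X (X Y Z : Fin 4 → P → ℂ) : dot (cf2 X Y Z) X = 0 := by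
  rw [cf2, dot_lc3, dot_comm Y X, dot_comm Z X]; ring

theorem cf2_Y (X Y Z : Fin 4 → P → ℂ) : dot (cf2 X Y Z) Y = gr X Y Z := by
  rw [cf2, dot_lc3, gr, dot_comm Z Y]; ring

theorem cf2_Z (X Y Z : Fin 4 → P → ℂ) : dot (cf2 X Y Z) Z = 0 := by
  rw [cf2, dot_lc3]; ring

theorem cf3_X (X Y Z : Fin 4 → P → ℂ) : dot (cf3 X Y Z) X = 0 := by
  rw [cf3, dot_lc3, dot_comm Y X, dot_comm Z X]; ring

theorem cf3_Y (X Y Z : Fin 4 → P → ℂ) : dot (cf3 X Y Z) Y = 0 := by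
  rw [cf3, dot_lc3, dot_comm Z Y]; ring

theorem cf3_Z (X Y Z : Fin 4 → P → ℂ) : dot (cf3 X Y Z) Z = gr X Y Z := by
  rw [cf3, dot_lc3, gr]; ring

theorem cr4_X (X Y Z : Fin 4 → P → ℂ) : dot (cr4 X Y Z) X = 0 := by
  rw [dot_eq]
  simp only [cr4, Matrix.cons_val]
  ring

theorem cr4_Y (X Y Z : Fin 4 → P → ℂ) : dot (cr4 X Y Z) Y = 0 := by
  rw [dot_eq]
  simp only [cr4, Matrix.cons_val]
  ring

theorem cr4_Z (X Y Z : Fin 4 → P → ℂ) : dot (cr4 X Y Z) Z = 0 := by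
  rw [dot_eq]
  simp only [cr4, Matrix.cons_val]
  ring

theorem cr4_sq (X Y Z : Fin 4 → P → ℂ) : dot (cr4 X Y Z) (cr4 X Y Z) = gr X Y Z := by
  rw [gr]
  simp only [dot_eq, cr4, Matrix.cons_val]
  ring

theorem dot_smul_left (a : P → ℂ) (X Y : Fin 4 → P → ℂ) :
    dot (fun i => a * X i) Y = a * dot X Y := by
  simp only [dot_eq]; ring

theorem dot_smul_right (a : P → ℂ) (X Y : Fin 4 → P → ℂ) :
    dot X (fun i => a * Y i) = a * dot X Y := by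
  simp only [dot_eq]; ring

end Vale.Agent.P205.F
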