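import Vale.Agent.P205.F.Inst1

/-!
Every compact smooth surface has a smooth immersion into `ℝ⁴` (P205, block TOP): projection of an
embedding along directions which are not tangent.
-/

set_option linter.all false

noncomputable section

open scoped Manifold ContDiff Topology
open Set Filter Module

namespace Vale.Agent.P205.ImmR4

open Vale.Agent.P205.F

variable {E : Type*} [NormedAddCommGroup E] [NormedSpace ℝ E]
  {M : Type*} [TopologicalSpace M] [ChartedSpace E M]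
  {W : Type*} [NormedAddCommGroup W] [NormedSpace ℝ W]
  {W' : Type*} [NormedAddCommGroup W'] [NormedSpace ℝ W']

variable (E) in
/-- smooth immersion -/
def Imm (F : M → W) : Prop :=
  ContMDiff 𝓘(ℝ, E) 𝓘(ℝ, W) ∞ F ∧ ∀ p, Function.Injective (mfderiv 𝓘(ℝ, E) 𝓘(ℝ, W) F p)

variable (E) in
/-- all tangent vectors of the image -/
def tvec (F : M → W) : Set W :=
  {w | ∃ (p : M) (v : TangentSpace 𝓘(ℝ, E) p), (mfderiv 𝓘(ℝ, E) 𝓘(ℝ, W) F p v : W) = w}

section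

variable [IsManifold 𝓘(ℝ, E) ∞ M] [FiniteDimensional ℝ E] [T2Space M] [CompactSpace M]

theorem tvec_dimH {F : M → W} (hF : ContMDiff 𝓘(ℝ, E) 𝓘(ℝ, W) ∞ F) :
    dimH (tvec E F) ≤ ((2 * finrank ℝ E : ℕ) : ENNReal) := by
  obtain ⟨K⟩ := Cov.exists (E := E) (M := M)
  obtain ⟨b⟩ : Nonempty (Module.Basis (Fin (finrank ℝ E)) ℝ E) := ⟨Module.finBasis ℝ E⟩
  have h1 : tvec E F ⊆ ⋃ i : Fin K.n, (fun z : E × E =>
      fderiv ℝ (F ∘ (K.ph i).symm) z.1 z.2) '' ((K.ph i).target ×ˢ univ) := by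
    rintro w ⟨p, v, rfl⟩
    obtain ⟨i, hi⟩ := K.cov p
    obtain ⟨c, hc⟩ := K.Dv_span b (F := W) hi v
    refine mem_iUnion.2 ⟨i, (K.ph i p, ∑ a, c a • b a),
      ⟨(K.ph i).map_source (K.V_sub i hi), mem_univ _⟩, ?_⟩
    refine Eq.trans ?_ (hc hF).symm
    simp only [map_sum, map_smul]
    refine Finset.sum_congr rfl fun a _ => ?_
    rw [K.Dv_V b hi]
  refine (dimH_mono h1).trans ?_
  rw [dimH_iUnion]
  refine iSup_le fun i => ?_
  have h2 : ContDiffOn ℝ ∞ (fun z : E × E => fderiv ℝ (F ∘ (K.ph i).symm) z.1 z.2)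
      ((K.ph i).target ×ˢ univ) := by
    have h3 : ContDiffOn ℝ ∞ (fderiv ℝ (F ∘ (K.ph i).symm)) (K.ph i).target :=
      (K.contDiffOn_symm hF i).fderiv_of_isOpen (K.isOpen_target i) (by simp)
    exact (h3.comp contDiffOn_fst fun z hz => hz.1).clm_apply contDiffOn_snd
  refine (dimH_image_le_of_locally_lipschitzOn ?_).trans ?_
  · intro z hz
    have ho : IsOpen ((K.ph i).target ×ˢ (univ : Set E)) := (K.isOpen_target i).prod isOpen_univ
    have h4 : ContDiffAt ℝ 1 (fun z : E × E => fderiv ℝ (F ∘ (K.ph i).symm) z.1 z.2) z :=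
      (h2.contDiffAt (ho.mem_nhds hz)).of_le (by simp)
    obtain ⟨C, t, ht, hC⟩ := h4.exists_lipschitzOnWith
    exact ⟨C, t, mem_nhdsWithin_of_mem_nhds ht, hC⟩
  · refine (dimH_mono (subset_univ _)).trans ?_
    rw [Real.dimH_univ_eq_finrank]
    have : finrank ℝ (E × E) = 2 * finrank ℝ E := by
      rw [Module.finrank_prod]; ring
    rw [this]

/-- a direction which is not tangent -/
theorem exists_not_tvec [FiniteDimensional ℝ W] {F : M → W} (hF : ContMDiff 𝓘(ℝ, E) 𝓘(ℝ, W) ∞ F)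
    (h : 2 * finrank ℝ E < finrank ℝ W) : ∃ w : W, w ≠ 0 ∧ w ∉ tvec E F := by
  have h1 : dimH (tvec E F) < finrank ℝ W :=
    (tvec_dimH hF).trans_lt (by exact_mod_cast h)
  have h2 := dense_compl_of_dimH_lt_finrank h1
  haveI : Nontrivial W := Module.nontrivial_of_finrank_pos (R := ℝ) (by omega)
  obtain ⟨w0, hw0⟩ := exists_ne (0 : W)
  obtain ⟨w, hw, hw'⟩ := h2.inter_open_nonempty {0}ᶜ isOpen_compl_singleton ⟨w0, hw0⟩
  exact ⟨w, hw, hw'⟩

omit [FiniteDimensional ℝ E] in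
theorem inj_of_ker (T : E →L[ℝ] W') (h : ∀ v, T v = 0 → v = 0) : Function.Injective T := by
  intro x y hxy
  have := h (x - y) (by rw [map_sub, hxy, sub_self])
  exact sub_eq_zero.1 this

omit [IsManifold 𝓘(ℝ, E) ∞ M] [FiniteDimensional ℝ E] [T2Space M] [CompactSpace M] in
/-- composition with a linear map which is injective on the tangent vectors -/
theorem Imm.comp_clm {F : M → W} (hF : Imm E F) (L : W →L[ℝ] W')
    (hL : ∀ x ∈ tvec E F, L x = 0 → x = 0) : Imm E (fun p => L (F p)) := by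
  have hd : ∀ p, MDifferentiableAt 𝓘(ℝ, E) 𝓘(ℝ, W) F p := fun p =>
    hF.1.contMDiffAt.mdifferentiableAt (by simp)
  refine ⟨L.contMDiff.comp hF.1, fun p => ?_⟩
  have h1 : ∀ v : E, (mfderiv 𝓘(ℝ, E) 𝓘(ℝ, W') (fun p => L (F p)) p : E →L[ℝ] W') v =
      L ((mfderiv 𝓘(ℝ, E) 𝓘(ℝ, W) F p : E →L[ℝ] W) v) := by
    intro v
    have h2 := mfderiv_comp p (L.mdifferentiableAt (x := F p)) (hd p)
    have h3 : mfderiv 𝓘(ℝ, E) 𝓘(ℝ, W') (fun p => L (F p)) p =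
        (mfderiv 𝓘(ℝ, W) 𝓘(ℝ, W') L (F p)).comp (mfderiv 𝓘(ℝ, E) 𝓘(ℝ, W) F p) := h2
    rw [h3, ContinuousLinearMap.mfderiv_eq]
    rfl
  have h4 : ∀ v : E, (mfderiv 𝓘(ℝ, E) 𝓘(ℝ, W') (fun p => L (F p)) p : E →L[ℝ] W') v = 0 →
      v = 0 := by
    intro v hv
    rw [h1] at hv
    have h5 := hL _ ⟨p, v, rfl⟩ hv
    apply hF.2 p
    exact h5.trans (map_zero (mfderiv 𝓘(ℝ, E) 𝓘(ℝ, W) F p : E →L[ℝ] W)).symm
  have h6 := inj_of_ker (E := E) (W' := W')
    (mfderiv 𝓘(ℝ, E) 𝓘(ℝ, W') (fun p => L (F p)) p : E →L[ℝ] W') h4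
  exact h6

omit [IsManifold 𝓘(ℝ, E) ∞ M] [FiniteDimensional ℝ E] [T2Space M] [CompactSpace M] in
theorem tvec_smul {F : M → W} {w : W} {t : ℝ} (h : w ∈ tvec E F) : t • w ∈ tvec E F := by
  obtain ⟨p, v, rfl⟩ := h
  refine ⟨p, (t • v : E), ?_⟩
  exact map_smul (mfderiv 𝓘(ℝ, E) 𝓘(ℝ, W) F p : E →L[ℝ] W) t v

omit [IsManifold 𝓘(ℝ, E) ∞ M] [FiniteDimensional ℝ E] [T2Space M] [CompactSpace M] in
/-- projection -/
theorem Imm.proj {F : M → W} (hF : Imm E F) {w : W} (hw : w ∉ tvec E F) (L : W →L[ℝ] W')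
    (hL : ∀ x, L x = 0 → ∃ t : ℝ, x = t • w) : Imm E (fun p => L (F p)) := by
  refine hF.comp_clm L fun x hx h0 => ?_
  obtain ⟨t, ht⟩ := hL x h0
  by_cases h5 : t = 0
  · rw [ht, h5, zero_smul]
  · exfalso
    apply hw
    have h6 := tvec_smul (t := t⁻¹) hx
    rwa [ht, smul_smul, inv_mul_cancel₀ h5, one_smul] at h6

/-- one step down -/
theorem Imm.down {n : ℕ} (hn : 2 * finrank ℝ E < n + 1) {F : M → EuclideanSpace ℝ (Fin (n + 1))}
    (hF : Imm E F) : ∃ F' : M → EuclideanSpace ℝ (Fin n), Imm E F' := by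
  obtain ⟨w, hw0, hw⟩ := exists_not_tvec hF.1 (by simpa using hn)
  haveI : Fact (finrank ℝ (EuclideanSpace ℝ (Fin (n + 1))) = n + 1) := ⟨by simp⟩
  have h1 : finrank ℝ (ℝ ∙ w)ᗮ = n :=
    Submodule.finrank_orthogonal_span_singleton (𝕜 := ℝ) (n := n) hw0
  let e : (ℝ ∙ w)ᗮ ≃L[ℝ] EuclideanSpace ℝ (Fin n) :=
    ContinuousLinearEquiv.ofFinrankEq (by rw [h1]; simp)
  let L : EuclideanSpace ℝ (Fin (n + 1)) →L[ℝ] EuclideanSpace ℝ (Fin n) :=
    (e : (ℝ ∙ w)ᗮ →L[ℝ] EuclideanSpace ℝ (Fin n)).comp ((ℝ ∙ w)ᗮ.orthogonalProjection)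
  refine ⟨fun p => L (F p), hF.proj hw L ?_⟩
  intro x hx
  have h2 : e ((ℝ ∙ w)ᗮ.orthogonalProjection x) = 0 := hx
  have h3 : (ℝ ∙ w)ᗮ.orthogonalProjection x = 0 := by
    rwa [map_eq_zero_iff _ e.injective] at h2
  rw [Submodule.orthogonalProjection_eq_zero_iff, Submodule.orthogonal_orthogonal] at h3
  obtain ⟨t, ht⟩ := Submodule.mem_span_singleton.1 h3
  exact ⟨t, ht.symm⟩

/-- going up -/
theorem Imm.up {n : ℕ} {F : M → EuclideanSpace ℝ (Fin n)} (hF : Imm E F) {m : ℕ} (h : n ≤ m) :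
    ∃ F' : M → EuclideanSpace ℝ (Fin m), Imm E F' := by
  obtain ⟨L, hL⟩ : ∃ L : EuclideanSpace ℝ (Fin n) →ₗ[ℝ] EuclideanSpace ℝ (Fin m),
      Function.Injective L := by
    have h1 : finrank ℝ (EuclideanSpace ℝ (Fin n)) ≤ finrank ℝ (EuclideanSpace ℝ (Fin m)) := by
      simpa using h
    have h2 : Module.rank ℝ (EuclideanSpace ℝ (Fin n)) ≤
        Module.rank ℝ (EuclideanSpace ℝ (Fin m)) := by
      rw [← finrank_eq_rank, ← finrank_eq_rank]
      exact_mod_cast h1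
    exact rank_le_iff_exists_linearMap.1 h2
  refine ⟨fun p => L.toContinuousLinearMap (F p), hF.comp_clm _ fun x _ hx => ?_⟩
  exact hL (hx.trans (map_zero L).symm)

/-- going down -/
theorem Imm.down' {n : ℕ} (hn : 2 * finrank ℝ E ≤ n) (k : ℕ)
    {F : M → EuclideanSpace ℝ (Fin (n + k))} (hF : Imm E F) :
    ∃ F' : M → EuclideanSpace ℝ (Fin n), Imm E F' := by
  induction k with
  | zero => exact ⟨F, hF⟩
  | succ k ih =>
    obtain ⟨F', hF'⟩ := Imm.down (n := n + k) (by omega) hF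
    exact ih hF'

/-- **every compact smooth `n`-manifold has a smooth immersion into `ℝ^{2n}`** -/
theorem exists_imm {m : ℕ} (hm : 2 * finrank ℝ E ≤ m) :
    ∃ F : M → EuclideanSpace ℝ (Fin m), Imm E F := by
  obtain ⟨n, e, h1, -, h3⟩ := exists_embedding_euclidean_of_compact (I := 𝓘(ℝ, E)) (M := M)
  have he : Imm E e := ⟨h1, h3⟩
  obtain ⟨F, hF⟩ := he.up (m := m + n) (by omega)
  exact Imm.down' hm n hF

end

end Vale.Agent.P205.ImmR4
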