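import Vale.Agent.P205.F.DAlg

/-!
The differential function space of a compact manifold: cut-off chart fields.

`Cov E M`: a finite atlas `chartAt E (K.c i)` with smooth cut-offs `K.χ i` supported in the chart
domains, `K.χ i = 1` on the open set `K.V i`, the `K.V i` cover `M`.
`K.X b (i, a) p = χ i p • ∂_a` is the field of the `i`-th chart in the direction `b a`,
`K.Dv b (i, a) u p = χ i p • fderiv ℝ (u ∘ ϕ_i⁻¹) (ϕ_i p) (b a)` the derivative of `u` along it
(`= mfderiv u p (K.X b (i, a) p)` for differentiable `u`, see `Cov.Dv_eq`).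
`K.dalg b : DAlg M (Fin K.n × A)` is the differential function space.
-/

noncomputable section

set_option linter.unusedSectionVars false
set_option linter.deprecated false

open scoped Manifold ContDiff Topology
open Set Filter

namespace Vale.Agent.P205.F

variable {E : Type*} [NormedAddCommGroup E] [NormedSpace ℝ E]
  {M : Type*} [TopologicalSpace M] [ChartedSpace E M]

/-- finite atlas with cut-off functions -/
structure Cov (E : Type*) [NormedAddCommGroup E] [NormedSpace ℝ E]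
    (M : Type*) [TopologicalSpace M] [ChartedSpace E M] where
  /-- number of charts -/
  n : ℕ
  /-- centres of the charts -/
  c : Fin n → M
  /-- cut-offs -/
  χ : Fin n → M → ℝ
  /-- regions where the cut-offs are one -/
  V : Fin n → Set M
  sm : ∀ i, ContMDiff 𝓘(ℝ, E) 𝓘(ℝ, ℝ) ∞ (χ i)
  sup : ∀ i, tsupport (χ i) ⊆ (chartAt E (c i)).source
  opn : ∀ i, IsOpen (V i)
  one : ∀ i, ∀ p ∈ V i, χ i p = 1
  cov : ∀ p, ∃ i, p ∈ V i

/-- existence of the atlas -/
theorem Cov.exists [FiniteDimensional ℝ E] [T2Space M] [CompactSpace M]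
    [IsManifold 𝓘(ℝ, E) ∞ M] : Nonempty (Cov E M) := by
  classical
  let f : ∀ p : M, SmoothBumpFunction 𝓘(ℝ, E) p := fun p => Classical.arbitrary _
  let U : M → Set M := fun p => interior {x | f p x = 1}
  have hU : ∀ p, U p ∈ 𝓝 p := fun p => interior_mem_nhds.2 (f p).eventuallyEq_one
  obtain ⟨t, -, ht⟩ := (isCompact_univ (X := M)).elim_nhds_subcover U fun p _ => hU p
  let e := t.equivFin
  refine ⟨⟨t.card, fun i => (e.symm i : M), fun i => f (e.symm i), fun i => U (e.symm i),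
    fun i => (f _).contMDiff, fun i => (f _).tsupport_subset_chartAt_source,
    fun i => isOpen_interior, fun i p hp => ?_, fun p => ?_⟩⟩
  · have h2 : p ∈ {x | f (e.symm i) x = 1} := interior_subset hp
    exact h2
  · have h1 := ht (mem_univ p)
    simp only [mem_iUnion] at h1
    obtain ⟨x, hx, hp⟩ := h1
    refine ⟨e ⟨x, hx⟩, ?_⟩
    simpa using hp

namespace Cov

variable (K : Cov E M) {A : Type*} (b : A → E)

/-- the chart -/
abbrev ph (i : Fin K.n) : PartialEquiv M E := extChartAt 𝓘(ℝ, E) (K.c i)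

/-- the cut-off chart fields -/
def X (j : Fin K.n × A) (p : M) : TangentSpace 𝓘(ℝ, E) p :=
  K.χ j.1 p • (mfderiv 𝓘(ℝ, E) 𝓘(ℝ, E) (K.ph j.1).symm (K.ph j.1 p) (b j.2) : E)

/-- derivatives along the cut-off chart fields -/
def Dv {F : Type*} [NormedAddCommGroup F] [NormedSpace ℝ F] (j : Fin K.n × A) (u : M → F) :
    M → F :=
  fun p => K.χ j.1 p • fderiv ℝ (u ∘ (K.ph j.1).symm) (K.ph j.1 p) (b j.2)

variable {F : Type*} [NormedAddCommGroup F] [NormedSpace ℝ F]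

theorem isOpen_target (i : Fin K.n) : IsOpen (K.ph i).target := isOpen_extChartAt_target (K.c i)

theorem isOpen_source (i : Fin K.n) : IsOpen (K.ph i).source := isOpen_extChartAt_source (K.c i)

theorem mem_source {i : Fin K.n} {p : M} (h : K.χ i p ≠ 0) : p ∈ (K.ph i).source := by
  rw [extChartAt_source]
  exact K.sup i (subset_tsupport _ h)

theorem tsupport_sub (i : Fin K.n) : tsupport (K.χ i) ⊆ (K.ph i).source := by
  rw [extChartAt_source]
  exact K.sup i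

theorem V_sub (i : Fin K.n) : K.V i ⊆ (K.ph i).source := fun p hp => K.mem_source (by
  rw [K.one i p hp]
  exact one_ne_zero)

theorem Dv_eq_zero (j : Fin K.n × A) (u : M → F) {p : M} (h : p ∉ (K.ph j.1).source) :
    K.Dv b j u p = 0 := by
  have h1 : K.χ j.1 p = 0 := by
    by_contra h2
    exact h (K.mem_source h2)
  rw [Dv, h1, zero_smul]

section man

variable [IsManifold 𝓘(ℝ, E) ∞ M]

theorem contDiffOn_symm {u : M → F} (hu : ContMDiff 𝓘(ℝ, E) 𝓘(ℝ, F) ∞ u) (i : Fin K.n) :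
    ContDiffOn ℝ ∞ (u ∘ (K.ph i).symm) (K.ph i).target := by
  rw [← contMDiffOn_iff_contDiffOn]
  exact hu.comp_contMDiffOn (contMDiffOn_extChartAt_symm (K.c i))

theorem differentiableAt_symm {u : M → F} (hu : ContMDiff 𝓘(ℝ, E) 𝓘(ℝ, F) ∞ u) {i : Fin K.n}
    {p : M} (hp : p ∈ (K.ph i).source) :
    DifferentiableAt ℝ (u ∘ (K.ph i).symm) (K.ph i p) :=
  ((K.contDiffOn_symm hu i).contDiffAt
    ((K.isOpen_target i).mem_nhds ((K.ph i).map_source hp))).differentiableAt (by simp)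

/-- the derivative in the chart is smooth -/
theorem contMDiffOn_fderiv {u : M → F} (hu : ContMDiff 𝓘(ℝ, E) 𝓘(ℝ, F) ∞ u) (i : Fin K.n)
    (v : E) : ContMDiffOn 𝓘(ℝ, E) 𝓘(ℝ, F) ∞
      (fun p => fderiv ℝ (u ∘ (K.ph i).symm) (K.ph i p) v) (K.ph i).source := by
  have h1 : ContDiffOn ℝ ∞ (fun y => fderiv ℝ (u ∘ (K.ph i).symm) y v) (K.ph i).target :=
    ((K.contDiffOn_symm hu i).fderiv_of_isOpen (K.isOpen_target i) (by simp)).clm_apply
      contDiffOn_const
  rw [extChartAt_source]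
  refine (contMDiffOn_iff_contDiffOn.2 h1).comp (contMDiffOn_extChartAt (x := K.c i)) ?_
  intro p hp
  rw [← extChartAt_source 𝓘(ℝ, E)] at hp
  exact (K.ph i).map_source hp

theorem Dv_contMDiff {u : M → F} (hu : ContMDiff 𝓘(ℝ, E) 𝓘(ℝ, F) ∞ u) (j : Fin K.n × A) :
    ContMDiff 𝓘(ℝ, E) 𝓘(ℝ, F) ∞ (K.Dv b j u) := by
  refine contMDiff_of_tsupport fun p hp => ?_
  have h1 : p ∈ (K.ph j.1).source := K.tsupport_sub j.1 (tsupport_smul_subset_left _ _ hp)
  exact (K.sm j.1).contMDiffAt.smul ((K.contMDiffOn_fderiv hu j.1 (b j.2)).contMDiffAt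
    ((K.isOpen_source j.1).mem_nhds h1))

theorem Dv_const (j : Fin K.n × A) (c : F) : K.Dv b j (fun _ : M => c) = 0 := by
  funext p
  have h1 : (fun _ : M => c) ∘ (K.ph j.1).symm = fun _ => c := rfl
  rw [Dv, h1, fderiv_const_apply]
  simp

theorem Dv_add {u v : M → F} (hu : ContMDiff 𝓘(ℝ, E) 𝓘(ℝ, F) ∞ u)
    (hv : ContMDiff 𝓘(ℝ, E) 𝓘(ℝ, F) ∞ v) (j : Fin K.n × A) :
    K.Dv b j (u + v) = K.Dv b j u + K.Dv b j v := by
  funext p
  by_cases hp : p ∈ (K.ph j.1).source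
  · have h1 : (u + v) ∘ (K.ph j.1).symm = u ∘ (K.ph j.1).symm + v ∘ (K.ph j.1).symm := rfl
    rw [Dv, h1, fderiv_add (K.differentiableAt_symm hu hp) (K.differentiableAt_symm hv hp),
      Pi.add_apply, Dv, Dv, ContinuousLinearMap.add_apply, smul_add]
  · rw [Pi.add_apply, K.Dv_eq_zero b j _ hp, K.Dv_eq_zero b j _ hp, K.Dv_eq_zero b j _ hp,
      add_zero]

theorem Dv_mul {u v : M → ℂ} (hu : ContMDiff 𝓘(ℝ, E) 𝓘(ℝ, ℂ) ∞ u)
    (hv : ContMDiff 𝓘(ℝ, E) 𝓘(ℝ, ℂ) ∞ v) (j : Fin K.n × A) :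
    K.Dv b j (u * v) = K.Dv b j u * v + u * K.Dv b j v := by
  funext p
  by_cases hp : p ∈ (K.ph j.1).source
  · have h1 : (u * v) ∘ (K.ph j.1).symm = u ∘ (K.ph j.1).symm * v ∘ (K.ph j.1).symm := rfl
    rw [Dv, h1, fderiv_mul (K.differentiableAt_symm hu hp) (K.differentiableAt_symm hv hp),
      Pi.add_apply, Pi.mul_apply, Pi.mul_apply, Dv, Dv, ContinuousLinearMap.add_apply,
      ContinuousLinearMap.smul_apply, ContinuousLinearMap.smul_apply, Function.comp_apply,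
      Function.comp_apply, (K.ph j.1).left_inv hp]
    simp only [smul_eq_mul, Complex.real_smul]
    ring
  · rw [Pi.add_apply, Pi.mul_apply, Pi.mul_apply, K.Dv_eq_zero b j _ hp, K.Dv_eq_zero b j _ hp,
      K.Dv_eq_zero b j _ hp]
    ring

/-- continuous linear maps -/
theorem Dv_clm {F' : Type*} [NormedAddCommGroup F'] [NormedSpace ℝ F'] (L : F →L[ℝ] F')
    {u : M → F} (hu : ContMDiff 𝓘(ℝ, E) 𝓘(ℝ, F) ∞ u) (j : Fin K.n × A) :
    K.Dv b j (fun p => L (u p)) = fun p => L (K.Dv b j u p) := by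
  funext p
  by_cases hp : p ∈ (K.ph j.1).source
  · have h1 : (fun p => L (u p)) ∘ (K.ph j.1).symm = fun y => L ((u ∘ (K.ph j.1).symm) y) := rfl
    rw [Dv, h1, Dv, map_smul]
    congr 1
    have h2 := (L.hasFDerivAt.comp (K.ph j.1 p)
      (K.differentiableAt_symm hu hp).hasFDerivAt).fderiv
    have h3 : fderiv ℝ (fun y => L ((u ∘ (K.ph j.1).symm) y)) (K.ph j.1 p) =
      L.comp (fderiv ℝ (u ∘ (K.ph j.1).symm) (K.ph j.1 p)) := h2
    rw [h3]
    rfl
  · rw [K.Dv_eq_zero b j _ hp, K.Dv_eq_zero b j _ hp, map_zero]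

/-- composition with a function of one variable -/
theorem Dv_comp {G : ℝ → ℂ} (hG : ContDiff ℝ ∞ G) {u : M → ℝ}
    (hu : ContMDiff 𝓘(ℝ, E) 𝓘(ℝ, ℝ) ∞ u) (j : Fin K.n × A) :
    K.Dv b j (fun p => G (u p)) = fun p => deriv G (u p) * ((K.Dv b j u p : ℝ) : ℂ) := by
  funext p
  by_cases hp : p ∈ (K.ph j.1).source
  · have hG1 : HasFDerivAt G (fderiv ℝ G ((u ∘ (K.ph j.1).symm) (K.ph j.1 p)))
        ((u ∘ (K.ph j.1).symm) (K.ph j.1 p)) :=
      (hG.differentiable (by simp)).differentiableAt.hasFDerivAt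
    have h2 := (hG1.comp (K.ph j.1 p) (K.differentiableAt_symm hu hp).hasFDerivAt).fderiv
    have h3 : fderiv ℝ ((fun p => G (u p)) ∘ (K.ph j.1).symm) (K.ph j.1 p) =
      (fderiv ℝ G ((u ∘ (K.ph j.1).symm) (K.ph j.1 p))).comp
        (fderiv ℝ (u ∘ (K.ph j.1).symm) (K.ph j.1 p)) := h2
    rw [Dv, h3, Function.comp_apply, (K.ph j.1).left_inv hp, ContinuousLinearMap.comp_apply,
      fderiv_eq_smul_deriv, Dv]
    rw [Complex.real_smul, Complex.real_smul, smul_eq_mul, Complex.ofReal_mul]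
    ring
  · rw [K.Dv_eq_zero b j _ hp, K.Dv_eq_zero b j _ hp]
    simp

/-- `K.Dv` is the derivative along the field `K.X` -/
theorem Dv_eq {u : M → F} (hu : ContMDiff 𝓘(ℝ, E) 𝓘(ℝ, F) ∞ u) (j : Fin K.n × A) (p : M) :
    K.Dv b j u p = mfderiv 𝓘(ℝ, E) 𝓘(ℝ, F) u p (K.X b j p) := by
  by_cases hp : p ∈ (K.ph j.1).source
  · have h1 : MDifferentiableAt 𝓘(ℝ, E) 𝓘(ℝ, E) (K.ph j.1).symm (K.ph j.1 p) :=
      ((contMDiffOn_extChartAt_symm (n := ∞) (K.c j.1)).contMDiffAt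
        ((K.isOpen_target j.1).mem_nhds ((K.ph j.1).map_source hp))).mdifferentiableAt (by simp)
    have h2 : MDifferentiableAt 𝓘(ℝ, E) 𝓘(ℝ, F) u ((K.ph j.1).symm (K.ph j.1 p)) :=
      hu.contMDiffAt.mdifferentiableAt (by simp)
    have h3 := mfderiv_comp (K.ph j.1 p) h2 h1
    rw [mfderiv_eq_fderiv] at h3
    have h4 : (K.ph j.1).symm (K.ph j.1 p) = p := (K.ph j.1).left_inv hp
    have h5 : fderiv ℝ (u ∘ (K.ph j.1).symm) (K.ph j.1 p) =
        (mfderiv 𝓘(ℝ, E) 𝓘(ℝ, F) u ((K.ph j.1).symm (K.ph j.1 p)) : E →L[ℝ] F).comp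
          (mfderiv 𝓘(ℝ, E) 𝓘(ℝ, E) (K.ph j.1).symm (K.ph j.1 p) : E →L[ℝ] E) := h3
    rw [h4] at h5
    have key : ∀ (T : E →L[ℝ] F) (S : E →L[ℝ] E) (r : ℝ) (v : E),
        r • (T.comp S) v = T (r • S v) := by
      intro T S r v
      rw [map_smul]
      rfl
    rw [Dv, h5]
    exact key _ _ _ _
  · have h1 : K.χ j.1 p = 0 := by
      by_contra h2
      exact hp (K.mem_source h2)
    rw [K.Dv_eq_zero b j _ hp, X, h1, zero_smul]
    exact (map_zero _).symm

end man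

variable [IsManifold 𝓘(ℝ, E) ∞ M] [CompactSpace M]

/-- the differential function space of a compact manifold -/
def dalg : DAlg M (Fin K.n × A) where
  Sm u := ContMDiff 𝓘(ℝ, E) 𝓘(ℝ, ℂ) ∞ u
  D j u := K.Dv b j u
  sm_const c := contMDiff_const
  sm_add hu hv := hu.add hv
  sm_mul hu hv := (contDiff_mul (𝕜 := ℝ) (𝔸 := ℂ)).comp_contMDiff (hu.prodMk_space hv)
  sm_conj hu := Complex.conjCLE.contDiff.comp_contMDiff hu
  sm_D j hu := K.Dv_contMDiff b hu j
  D_const j c := K.Dv_const b j c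
  D_add j hu hv := K.Dv_add b hu hv j
  D_mul j hu hv := K.Dv_mul b hu hv j
  D_conj j hu := K.Dv_clm b (Complex.conjCLE : ℂ →L[ℝ] ℂ) hu j
  sm_comp hG hu _ := (hG.comp Complex.reCLM.contDiff).comp_contMDiff hu
  D_comp := by
    intro G u j hG hu hr
    have h1 : ContMDiff 𝓘(ℝ, E) 𝓘(ℝ, ℝ) ∞ (fun p => (u p).re) :=
      Complex.reCLM.contDiff.comp_contMDiff hu
    have h2 := K.Dv_comp b hG h1 j
    have h3 := K.Dv_clm b Complex.ofRealCLM h1 j
    have h4 : (fun p => Complex.ofRealCLM (u p).re) = u := by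
      funext p
      exact Complex.ext rfl (hr p).symm
    rw [h4] at h3
    rw [h2, h3]
    rfl
  bdd := by
    intro u hu
    obtain ⟨C, hC⟩ := (isCompact_univ (X := M)).exists_bound_of_continuousOn
      hu.continuous.continuousOn
    exact ⟨C, fun p => hC p (mem_univ p)⟩

theorem dalg_Sm {u : M → ℂ} : (K.dalg b).Sm u ↔ ContMDiff 𝓘(ℝ, E) 𝓘(ℝ, ℂ) ∞ u := Iff.rfl

theorem dalg_D (j : Fin K.n × A) (u : M → ℂ) : (K.dalg b).D j u = K.Dv b j u := rfl

end Cov

end Vale.Agent.P205.F
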