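import Vale.Agent.P205.F.Inst1

/-!
Completeness of the differential function space of a compact manifold.
-/

noncomputable section

set_option linter.unusedSectionVars false
set_option linter.deprecated false

open scoped Manifold ContDiff Topology
open Set Filter

namespace Vale.Agent.P205.F

section asm

variable {E : Type*} [NormedAddCommGroup E] [NormedSpace ℝ E] [FiniteDimensional ℝ E]
  {A : Type*} [Fintype A] (b : Module.Basis A ℝ E)

/-- assembling a covector from its values on a basis -/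
def asm : (A → ℂ) →L[ℝ] (E →L[ℝ] ℂ) :=
  ∑ a, ((ContinuousLinearMap.smulRightL ℝ E ℂ)
    (LinearMap.toContinuousLinearMap (b.coord a))).comp (ContinuousLinearMap.proj a)

theorem asm_apply (z : A → ℂ) (v : E) : asm b z v = ∑ a, b.coord a v • z a := by
  unfold asm
  rw [ContinuousLinearMap.sum_apply, ContinuousLinearMap.sum_apply]
  rfl

theorem asm_basis (z : A → ℂ) (a : A) : asm b z (b a) = z a := by
  classical
  rw [asm_apply, Finset.sum_eq_single a]
  · simp
  · intro a' _ h
    rw [Module.Basis.coord_apply, b.repr_self, Finsupp.single_eq_of_ne h, zero_smul]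
  · intro h
    exact absurd (Finset.mem_univ a) h

theorem asm_eq (T : E →L[ℝ] ℂ) : asm b (fun a => T (b a)) = T := by
  apply ContinuousLinearMap.coe_injective
  refine b.ext fun a => ?_
  exact asm_basis b _ a

end asm

namespace Cov

variable {E : Type*} [NormedAddCommGroup E] [NormedSpace ℝ E] [FiniteDimensional ℝ E]
  {M : Type*} [TopologicalSpace M] [ChartedSpace E M] [IsManifold 𝓘(ℝ, E) ∞ M]
  (K : Cov E M) {A : Type*} [Fintype A] (b : Module.Basis A ℝ E)

/-- the image of `V i` in the chart -/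
def O (i : Fin K.n) : Set E := (K.ph i).target ∩ (K.ph i).symm ⁻¹' K.V i

theorem isOpen_O (i : Fin K.n) : IsOpen (K.O i) :=
  (continuousOn_extChartAt_symm (K.c i)).isOpen_inter_preimage (K.isOpen_target i) (K.opn i)

theorem fderiv_O {u : M → ℂ} (hu : ContMDiff 𝓘(ℝ, E) 𝓘(ℝ, ℂ) ∞ u) {i : Fin K.n} {y : E}
    (hy : y ∈ K.O i) : HasFDerivAt (u ∘ (K.ph i).symm)
      (asm b fun a => K.Dv b (i, a) u ((K.ph i).symm y)) y := by
  have h1 : (K.ph i).symm y ∈ (K.ph i).source := (K.ph i).map_target hy.1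
  have h2 := K.differentiableAt_symm hu h1
  have h3 : (fun a => K.Dv b (i, a) u ((K.ph i).symm y)) =
      fun a => fderiv ℝ (u ∘ (K.ph i).symm) y (b a) := by
    funext a
    rw [K.Dv_V b hy.2, (K.ph i).right_inv hy.1]
  rw [(K.ph i).right_inv hy.1] at h2
  rw [h3, asm_eq]
  exact h2.hasFDerivAt

variable {g : List (Fin K.n × A) → M → ℂ} {f : List (Fin K.n × A) → ℕ → M → ℂ}

/-- the limit of the derivatives is the derivative of the limit -/
theorem hasFDerivAt_lim (hf : ∀ w q, ContMDiff 𝓘(ℝ, E) 𝓘(ℝ, ℂ) ∞ (f w q))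
    (hD : ∀ w q j, f (j :: w) q = K.Dv b j (f w q))
    (hg : ∀ w, TendstoUniformly (f w) (g w) atTop) (w : List (Fin K.n × A)) {i : Fin K.n} {y : E}
    (hy : y ∈ K.O i) : HasFDerivAt (g w ∘ (K.ph i).symm)
      (asm b fun a => g ((i, a) :: w) ((K.ph i).symm y)) y := by
  have h1 : TendstoUniformly (fun q p => (fun a => f ((i, a) :: w) q p))
      (fun p a => g ((i, a) :: w) p) atTop := by
    rw [Metric.tendstoUniformly_iff]
    intro ε hε
    have h2 : ∀ a, ∀ᶠ q in atTop, ∀ p, dist (g ((i, a) :: w) p) (f ((i, a) :: w) q p) < ε :=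
      fun a => Metric.tendstoUniformly_iff.1 (hg ((i, a) :: w)) ε hε
    filter_upwards [eventually_all.2 h2] with q hq p
    rw [dist_pi_lt_iff hε]
    exact fun a => hq a p
  have h3 := ((asm b).uniformContinuous.comp_tendstoUniformly h1).comp (K.ph i).symm
  refine hasFDerivAt_of_tendstoUniformlyOn (K.isOpen_O i) (f := fun q => f w q ∘ (K.ph i).symm)
    (f' := fun q y => asm b fun a => f ((i, a) :: w) q ((K.ph i).symm y))
    (g' := fun y => asm b fun a => g ((i, a) :: w) ((K.ph i).symm y))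
    h3.tendstoUniformlyOn ?_ ?_ hy
  · intro q x hx
    have h4 := K.fderiv_O b (hf w q) hx
    simp only [hD]
    exact h4
  · intro x _
    exact (hg w).tendsto_at _

theorem contMDiff_lim (hf : ∀ w q, ContMDiff 𝓘(ℝ, E) 𝓘(ℝ, ℂ) ∞ (f w q))
    (hD : ∀ w q j, f (j :: w) q = K.Dv b j (f w q))
    (hg : ∀ w, TendstoUniformly (f w) (g w) atTop) (n : ℕ) :
    ∀ w, ContMDiff 𝓘(ℝ, E) 𝓘(ℝ, ℂ) n (g w) := by
  induction n with
  | zero =>
    intro w
    rw [Nat.cast_zero, contMDiff_zero_iff]
    exact (hg w).continuous (Frequently.of_forall fun q => (hf w q).continuous)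
  | succ n ih =>
    intro w p
    obtain ⟨i, hi⟩ := K.cov p
    have hpo : K.ph i p ∈ K.O i := by
      refine ⟨(K.ph i).map_source (K.V_sub i hi), ?_⟩
      rw [mem_preimage, (K.ph i).left_inv (K.V_sub i hi)]
      exact hi
    have h1 : ContDiffOn ℝ (n + 1) (g w ∘ (K.ph i).symm) (K.O i) := by
      rw [contDiffOn_succ_iff_fderiv_of_isOpen (K.isOpen_O i)]
      refine ⟨fun y hy => (K.hasFDerivAt_lim b hf hD hg w hy).differentiableAt.differentiableWithinAt,
        by simp, ?_⟩
      have h2 : ContDiffOn ℝ n (fun y => asm b fun a => g ((i, a) :: w) ((K.ph i).symm y))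
          (K.O i) := by
        refine (asm b).contDiff.comp_contDiffOn (contDiffOn_pi.2 fun a => ?_)
        rw [← contMDiffOn_iff_contDiffOn]
        refine (ih ((i, a) :: w)).comp_contMDiffOn ((contMDiffOn_extChartAt_symm (K.c i)).mono ?_)
        exact inter_subset_left
      exact h2.congr fun y hy => (K.hasFDerivAt_lim b hf hD hg w hy).fderiv
    have h2 : ContDiffAt ℝ (n + 1) (g w ∘ (K.ph i).symm) (K.ph i p) :=
      h1.contDiffAt ((K.isOpen_O i).mem_nhds hpo)
    have h3 : ContMDiffAt 𝓘(ℝ, E) 𝓘(ℝ, ℂ) (n + 1) ((g w ∘ (K.ph i).symm) ∘ K.ph i) p := by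
      refine h2.contMDiffAt.comp p ?_
      have hp : p ∈ (chartAt E (K.c i)).source := by
        rw [← extChartAt_source 𝓘(ℝ, E)]
        exact K.V_sub i hi
      exact (contMDiffAt_extChartAt' (n := ∞) hp).of_le (by
        exact_mod_cast le_top)
    push_cast
    refine h3.congr_of_eventuallyEq ?_
    filter_upwards [(K.isOpen_source i).mem_nhds (K.V_sub i hi)] with x hx
    simp only [Function.comp_apply, (K.ph i).left_inv hx]

theorem complete [CompactSpace M] : (K.dalg b).Complete := by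
  intro u hu hk
  have h1 : ∀ w : List (Fin K.n × A), ∃ g : M → ℂ,
      TendstoUniformly (fun q => (K.dalg b).wd w (u q)) g atTop := by
    intro w
    obtain ⟨c, hc, q0, hq⟩ := hk w.length
    refine inst_unif hc (q0 := q0) fun q hq0 p => ?_
    have h2 := hq q hq0 w le_rfl p
    rw [(K.dalg b).wd_sub w (hu _) (hu _)] at h2
    exact h2
  choose g hg using h1
  have hf : ∀ w q, ContMDiff 𝓘(ℝ, E) 𝓘(ℝ, ℂ) ∞ ((K.dalg b).wd w (u q)) := fun w q =>
    (K.dalg b).sm_wd w (hu q)
  have hD : ∀ w q j, (K.dalg b).wd (j :: w) (u q) = K.Dv b j ((K.dalg b).wd w (u q)) :=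
    fun w q j => rfl
  have hsm : ∀ w, ContMDiff 𝓘(ℝ, E) 𝓘(ℝ, ℂ) ∞ (g w) := fun w =>
    contMDiff_infty.2 fun n => K.contMDiff_lim b hf hD hg n w
  have hgD : ∀ w j, K.Dv b j (g w) = g (j :: w) := by
    intro w j
    funext p
    obtain ⟨i, hi⟩ := K.cov p
    obtain ⟨c, hc⟩ := K.Dv_span (F := ℂ) b hi (K.X b j p)
    have h3 : ∀ a, K.Dv b (i, a) (g w) p = g ((i, a) :: w) p := by
      intro a
      have hps := K.V_sub i hi
      have hpo : K.ph i p ∈ K.O i := by
        refine ⟨(K.ph i).map_source hps, ?_⟩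
        rw [mem_preimage, (K.ph i).left_inv hps]
        exact hi
      rw [K.Dv_V b hi, (K.hasFDerivAt_lim b hf hD hg w hpo).fderiv, asm_basis,
        (K.ph i).left_inv hps]
    have h4 : K.Dv b j (g w) p = ∑ a, c a • g ((i, a) :: w) p := by
      rw [K.Dv_eq b (hsm w), hc (hsm w)]
      exact Finset.sum_congr rfl fun a _ => by rw [h3]
    have h5 : Tendsto (fun q => (K.dalg b).wd (j :: w) (u q) p) atTop
        (𝓝 (∑ a, c a • g ((i, a) :: w) p)) := by
      have h6 : (fun q => (K.dalg b).wd (j :: w) (u q) p) =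
          fun q => ∑ a, c a • (K.dalg b).wd ((i, a) :: w) (u q) p := by
        funext q
        rw [hD, K.Dv_eq b (hf w q), hc (hf w q)]
        rfl
      rw [h6]
      exact tendsto_finsetSum _ fun a _ => ((hg ((i, a) :: w)).tendsto_at p).const_smul _
    rw [h4]
    exact tendsto_nhds_unique h5 ((hg (j :: w)).tendsto_at p)
  have hwd : ∀ w, (K.dalg b).wd w (g []) = g w := by
    intro w
    induction w with
    | nil => rfl
    | cons j w ih =>
      change K.Dv b j ((K.dalg b).wd w (g [])) = _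
      rw [ih, hgD]
  refine ⟨g [], hsm [], fun w p => ?_⟩
  rw [hwd]
  exact (hg w).tendsto_at p

end Cov

end Vale.Agent.P205.F
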