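import Vale.Agent.P205.F.DAlg

/-!
The equations of `DAlg.wd` (generated here once, so that no other module has to generate them).
-/

namespace Vale.Agent.P205.F

theorem DAlg.wd_eqs {P κ : Type*} (S : DAlg P κ) (j : κ) (w : List κ) (u : P → ℂ) :
    S.wd [] u = u ∧ S.wd (j :: w) u = S.D j (S.wd w u) := by
  constructor
  · simp only [DAlg.wd]
  · simp only [DAlg.wd]

end Vale.Agent.P205.F
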