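import Vale.Agent.P205.F.StageDef
import Vale.Agent.P205.F.WdEq

/-!
# P205, T1: basic calculus of `DAlg` used in the iteration
-/

open scoped ContDiff

noncomputable section

namespace Vale.Agent.P205.F

namespace It

universe u

variable {P : Type u} {κ : Type} {S : DAlg P κ}

/-! ### smooth functions -/

lemma sm_smul (c : ℂ) {u : P → ℂ} (hu : S.Sm u) : S.Sm (fun p => c * u p) :=
  S.sm_mul (S.sm_const c) hu

lemma sm_sub {u v : P → ℂ} (hu : S.Sm u) (hv : S.Sm v) : S.Sm (fun p => u p - v p) := by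
  have h := S.sm_add hu (sm_smul (-1) hv)
  have e : (u + fun p => (-1) * v p) = fun p => u p - v p := by
    funext p; simp [sub_eq_add_neg]
  rwa [e] at h

lemma D_smul (j : κ) (c : ℂ) {u : P → ℂ} (hu : S.Sm u) :
    S.D j (fun p => c * u p) = fun p => c * S.D j u p := by
  have h := S.D_mul j (S.sm_const c) hu
  rw [S.D_const] at h
  have e : ((fun _ => c) * u) = fun p => c * u p := rfl
  rw [e] at h
  rw [h]; funext p; simp

lemma D_sub (j : κ) {u v : P → ℂ} (hu : S.Sm u) (hv : S.Sm v) :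
    S.D j (fun p => u p - v p) = fun p => S.D j u p - S.D j v p := by
  have h := S.D_add j hu (sm_smul (-1) hv)
  have e : (u + fun p => (-1) * v p) = fun p => u p - v p := by
    funext p; simp [sub_eq_add_neg]
  rw [e, D_smul j _ hv] at h
  rw [h]; funext p; simp [sub_eq_add_neg]

lemma sm_sum {ι : Type*} (s : Finset ι) {f : ι → P → ℂ} (hf : ∀ i ∈ s, S.Sm (f i)) :
    S.Sm (fun p => ∑ i ∈ s, f i p) := by
  classical
  induction s using Finset.induction_on with
  | empty => simpa using S.sm_const 0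
  | insert a s ha ih =>
    have h := S.sm_add (hf a (Finset.mem_insert_self a s))
      (ih fun i hi => hf i (Finset.mem_insert_of_mem hi))
    have e : (f a + fun p => ∑ i ∈ s, f i p) = fun p => ∑ i ∈ insert a s, f i p := by
      funext p; simp [Finset.sum_insert ha]
    rwa [e] at h

lemma D_sum {ι : Type*} (j : κ) (s : Finset ι) {f : ι → P → ℂ} (hf : ∀ i ∈ s, S.Sm (f i)) :
    S.D j (fun p => ∑ i ∈ s, f i p) = fun p => ∑ i ∈ s, S.D j (f i) p := by
  classical
  induction s using Finset.induction_on with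
  | empty =>
    have h := S.D_const j 0
    have e : (fun p : P => ∑ i ∈ (∅ : Finset ι), f i p) = fun _ => (0 : ℂ) := by
      funext p; simp
    rw [e, h]; funext p; simp
  | insert a s ha ih =>
    have h := S.D_add j (hf a (Finset.mem_insert_self a s))
      (sm_sum s fun i hi => hf i (Finset.mem_insert_of_mem hi))
    have e : (f a + fun p => ∑ i ∈ s, f i p) = fun p => ∑ i ∈ insert a s, f i p := by
      funext p; simp [Finset.sum_insert ha]
    rw [e, ih fun i hi => hf i (Finset.mem_insert_of_mem hi)] at h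
    rw [h]; funext p; simp [Finset.sum_insert ha]

lemma sm_dot {X Y : Fin 4 → P → ℂ} (hX : ∀ a, S.Sm (X a)) (hY : ∀ a, S.Sm (Y a)) :
    S.Sm (dot X Y) :=
  sm_sum Finset.univ fun a _ => S.sm_mul (hX a) (hY a)

lemma sm_met {X : Fin 4 → P → ℂ} (hX : ∀ a, S.Sm (X a)) (j k : κ) : S.Sm (S.met X j k) :=
  sm_dot (fun a => S.sm_D j (hX a)) (fun a => S.sm_D k (hX a))

/-! ### words -/

lemma wd_append (w w' : List κ) (u : P → ℂ) : S.wd (w ++ w') u = S.wd w (S.wd w' u) := by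
  induction w with
  | nil => rfl
  | cons j w ih => simp only [List.cons_append, DAlg.wd, ih]

lemma wd_snoc (w : List κ) (j : κ) (u : P → ℂ) : S.wd (w ++ [j]) u = S.wd w (S.D j u) :=
  wd_append w [j] u

lemma sm_wd (w : List κ) {u : P → ℂ} (hu : S.Sm u) : S.Sm (S.wd w u) := by
  induction w with
  | nil => exact hu
  | cons j w ih => exact S.sm_D j ih

lemma wd_add (w : List κ) {u v : P → ℂ} (hu : S.Sm u) (hv : S.Sm v) :
    S.wd w (u + v) = S.wd w u + S.wd w v := by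
  induction w with
  | nil => rfl
  | cons j w ih => simp only [DAlg.wd, ih]; exact S.D_add j (sm_wd w hu) (sm_wd w hv)

lemma wd_smul (w : List κ) (c : ℂ) {u : P → ℂ} (hu : S.Sm u) :
    S.wd w (fun p => c * u p) = fun p => c * S.wd w u p := by
  induction w with
  | nil => rfl
  | cons j w ih => simp only [DAlg.wd, ih]; exact D_smul j c (sm_wd w hu)

lemma wd_sub (w : List κ) {u v : P → ℂ} (hu : S.Sm u) (hv : S.Sm v) :
    S.wd w (fun p => u p - v p) = fun p => S.wd w u p - S.wd w v p := by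
  induction w with
  | nil => rfl
  | cons j w ih => simp only [DAlg.wd, ih]; exact D_sub j (sm_wd w hu) (sm_wd w hv)

/-! ### bounds -/

lemma Bd.mono {μ μ' C C' : ℝ} {k k' : ℕ} {u : P → ℂ} (h : S.Bd μ k C u) (hk : k' ≤ k)
    (hμ0 : 0 ≤ μ) (hμ : μ ≤ μ') (hC0 : 0 ≤ C) (hC : C ≤ C') : S.Bd μ' k' C' u := by
  intro w hw p
  refine (h w (hw.trans hk) p).trans ?_
  have h1 : μ ^ w.length ≤ μ' ^ w.length := pow_le_pow_left₀ hμ0 hμ _
  have h2 : 0 ≤ μ ^ w.length := pow_nonneg hμ0 _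
  calc C * μ ^ w.length ≤ C' * μ ^ w.length := by gcongr
    _ ≤ C' * μ' ^ w.length := by gcongr; exact hC0.trans hC

lemma Bd.monoC {μ C C' : ℝ} {k : ℕ} {u : P → ℂ} (h : S.Bd μ k C u)
    (hμ0 : 0 ≤ μ) (hC : C ≤ C') : S.Bd μ k C' u := by
  intro w hw p
  refine (h w hw p).trans ?_
  have h2 : 0 ≤ μ ^ w.length := pow_nonneg hμ0 _
  gcongr

lemma Bd.add {μ C C' : ℝ} {k : ℕ} {u v : P → ℂ} (hu : S.Sm u) (hv : S.Sm v)
    (h : S.Bd μ k C u) (h' : S.Bd μ k C' v) : S.Bd μ k (C + C') (fun p => u p + v p) := by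
  intro w hw p
  have e : S.wd w (fun p => u p + v p) = S.wd w u + S.wd w v := wd_add w hu hv
  rw [e]
  calc ‖(S.wd w u + S.wd w v) p‖ ≤ ‖S.wd w u p‖ + ‖S.wd w v p‖ := norm_add_le _ _
    _ ≤ C * μ ^ w.length + C' * μ ^ w.length := add_le_add (h w hw p) (h' w hw p)
    _ = _ := by ring

lemma Bd.sub {μ C C' : ℝ} {k : ℕ} {u v : P → ℂ} (hu : S.Sm u) (hv : S.Sm v)
    (h : S.Bd μ k C u) (h' : S.Bd μ k C' v) : S.Bd μ k (C + C') (fun p => u p - v p) := by
  intro w hw p
  rw [wd_sub w hu hv]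
  calc ‖S.wd w u p - S.wd w v p‖ ≤ ‖S.wd w u p‖ + ‖S.wd w v p‖ := norm_sub_le _ _
    _ ≤ C * μ ^ w.length + C' * μ ^ w.length := add_le_add (h w hw p) (h' w hw p)
    _ = _ := by ring

lemma Bd.smul {μ C : ℝ} {k : ℕ} {u : P → ℂ} (c : ℂ) (hu : S.Sm u)
    (h : S.Bd μ k C u) : S.Bd μ k (‖c‖ * C) (fun p => c * u p) := by
  intro w hw p
  rw [wd_smul w c hu, norm_mul, mul_assoc]
  exact mul_le_mul_of_nonneg_left (h w hw p) (norm_nonneg c)

lemma Bd.neg {μ C : ℝ} {k : ℕ} {u : P → ℂ} (hu : S.Sm u)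
    (h : S.Bd μ k C u) : S.Bd μ k C (fun p => - u p) := by
  have := Bd.smul (-1) hu h
  simpa using this

lemma Bd.D {μ C : ℝ} {k : ℕ} {u : P → ℂ} (j : κ) (h : S.Bd μ (k + 1) C u) :
    S.Bd μ k (C * μ) (S.D j u) := by
  intro w hw p
  rw [← wd_snoc]
  refine (h (w ++ [j]) (by simpa using hw) p).trans (le_of_eq ?_)
  simp [pow_succ]; ring

lemma Bd.mul {μ : ℝ} (hμ : 0 ≤ μ) : ∀ {k : ℕ} {C C' : ℝ} {u v : P → ℂ}, 0 ≤ C → 0 ≤ C' →
    S.Sm u → S.Sm v → S.Bd μ k C u → S.Bd μ k C' v →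
    S.Bd μ k (2 ^ k * (C * C')) (fun p => u p * v p) := by
  intro k
  induction k with
  | zero =>
    intro C C' u v hC hC' hu hv h h' w hw p
    obtain rfl : w = [] := List.eq_nil_of_length_eq_zero (by omega)
    have h1 := h [] (by simp) p
    have h2 := h' [] (by simp) p
    simp only [DAlg.wd, List.length_nil, pow_zero, mul_one] at h1 h2 ⊢
    rw [norm_mul, one_mul]
    exact mul_le_mul h1 h2 (norm_nonneg _) hC
  | succ k ih =>
    intro C C' u v hC hC' hu hv h h' w hw p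
    rcases List.eq_nil_or_concat w with rfl | ⟨w', j, rfl⟩
    · have h1 := h [] (by simp) p
      have h2 := h' [] (by simp) p
      simp only [DAlg.wd, List.length_nil, pow_zero, mul_one] at h1 h2 ⊢
      rw [norm_mul]
      calc ‖u p‖ * ‖v p‖ ≤ C * C' := mul_le_mul h1 h2 (norm_nonneg _) hC
        _ ≤ 2 ^ (k + 1) * (C * C') := by
          have : (1 : ℝ) ≤ 2 ^ (k + 1) := one_le_pow₀ (by norm_num)
          nlinarith [mul_nonneg hC hC']
    · have hw' : w'.length ≤ k := by simpa using hw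
      rw [List.concat_eq_append, wd_snoc]
      have e : S.D j (fun p => u p * v p)
          = (fun p => S.D j u p * v p) + fun p => u p * S.D j v p := S.D_mul j hu hv
      have s1 : S.Sm (fun p => S.D j u p * v p) := S.sm_mul (S.sm_D j hu) hv
      have s2 : S.Sm (fun p => u p * S.D j v p) := S.sm_mul hu (S.sm_D j hv)
      rw [e, wd_add w' s1 s2]
      have b1 := ih (mul_nonneg hC hμ) hC' (S.sm_D j hu) hv (Bd.D j h)
        (Bd.mono h' (Nat.le_succ k) hμ le_rfl hC' le_rfl) w' hw' p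
      have b2 := ih hC (mul_nonneg hC' hμ) hu (S.sm_D j hv)
        (Bd.mono h (Nat.le_succ k) hμ le_rfl hC le_rfl) (Bd.D j h') w' hw' p
      calc ‖(S.wd w' (fun p => S.D j u p * v p) + S.wd w' fun p => u p * S.D j v p) p‖
          ≤ _ := norm_add_le _ _
        _ ≤ _ := add_le_add b1 b2
        _ = _ := by simp [pow_succ]; ring

lemma Bd.sum {ι : Type*} {μ C : ℝ} {k : ℕ} (s : Finset ι) {f : ι → P → ℂ}
    (hs : ∀ i ∈ s, S.Sm (f i)) (hf : ∀ i ∈ s, S.Bd μ k C (f i)) :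
    S.Bd μ k (s.card * C) (fun p => ∑ i ∈ s, f i p) := by
  classical
  induction s using Finset.induction_on with
  | empty =>
    intro w hw p
    have e : (fun p : P => ∑ i ∈ (∅ : Finset ι), f i p) = fun p => (0 : ℂ) * (0 : ℂ) := by
      funext p; simp
    rw [e, wd_smul w 0 (S.sm_const 0)]
    simp
  | insert a s ha ih =>
    have h := Bd.add (hs a (Finset.mem_insert_self a s))
      (sm_sum s fun i hi => hs i (Finset.mem_insert_of_mem hi))
      (hf a (Finset.mem_insert_self a s))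
      (ih (fun i hi => hs i (Finset.mem_insert_of_mem hi))
        fun i hi => hf i (Finset.mem_insert_of_mem hi))
    have e : (fun p => f a p + ∑ i ∈ s, f i p) = fun p => ∑ i ∈ insert a s, f i p := by
      funext p; simp [Finset.sum_insert ha]
    rw [e] at h
    intro w hw p
    refine (h w hw p).trans (le_of_eq ?_)
    rw [Finset.card_insert_of_notMem ha]; push_cast; ring

lemma Bd.dot {μ C C' : ℝ} {k : ℕ} (hμ : 0 ≤ μ) (hC : 0 ≤ C) (hC' : 0 ≤ C')
    {X Y : Fin 4 → P → ℂ} (hX : ∀ a, S.Sm (X a)) (hY : ∀ a, S.Sm (Y a))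
    (bX : ∀ a, S.Bd μ k C (X a)) (bY : ∀ a, S.Bd μ k C' (Y a)) :
    S.Bd μ k (4 * (2 ^ k * (C * C'))) (dot X Y) := by
  have h := Bd.sum (S := S) (Finset.univ : Finset (Fin 4)) (f := fun a p => X a p * Y a p)
    (fun a _ => S.sm_mul (hX a) (hY a))
    (fun a _ => Bd.mul hμ hC hC' (hX a) (hY a) (bX a) (bY a))
  rw [Finset.card_univ, Fintype.card_fin] at h
  exact_mod_cast h

/-- unweighted bounds are weighted bounds with scale one -/
lemma nb_iff {k : ℕ} {C : ℝ} {u : P → ℂ} : S.Nb k C u ↔ S.Bd 1 k C u := by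
  unfold DAlg.Nb DAlg.Bd
  simp

lemma nb_of_bd {μ C : ℝ} {k : ℕ} {u : P → ℂ} (hμ : 1 ≤ μ) (hC : 0 ≤ C)
    (h : S.Bd μ k C u) : S.Nb k (C * μ ^ k) u := by
  intro w hw p
  refine (h w hw p).trans ?_
  gcongr

lemma Nb.mono {k k' : ℕ} {C C' : ℝ} {u : P → ℂ} (h : S.Nb k C u) (hk : k' ≤ k) (hC : C ≤ C') :
    S.Nb k' C' u := fun w hw p => (h w (hw.trans hk) p).trans hC

end It

end Vale.Agent.P205.F
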