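import Vale.Agent.P205.F.ItNum

/-!
# P205, T1U iteration: nondegeneracy is stable
-/

open scoped ContDiff

noncomputable section

namespace Vale.Agent.P205.F

namespace It

universe u

variable {P : Type u} {κ : Type} {S : DAlg P κ}

lemma g3_scale (x y z : Fin 4 → ℂ) (b : ℂ) :
    g3 x y (fun a => b * z a) = b ^ 2 * g3 x y z := by
  have h1 : ∀ v : Fin 4 → ℂ, dt v (fun a => b * z a) = b * dt v z := by
    intro v
    unfold dt
    rw [Finset.mul_sum]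
    exact Finset.sum_congr rfl fun a _ => by ring
  have h2 : dt (fun a => b * z a) (fun a => b * z a) = b ^ 2 * dt z z := by
    unfold dt
    rw [Finset.mul_sum]
    exact Finset.sum_congr rfl fun a _ => by ring
  unfold g3
  rw [h2, h1 x, h1 y]
  ring

lemma rays_ok [Fintype κ] {Q : Type} [Fintype Q] {d : PData P κ Q} (hd : d.Ok S)
    (x : Q ⊕ (Q × Q × Bool)) (hx : usedRay x) : (d.rays x).Ok S := by
  rcases x with a | ⟨a, b, σ⟩
  · exact hd.ray a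
  · exact hd.pr a b σ hx

/-- second derivative along a field -/
lemma dirv2 [Fintype κ] {w : κ → P → ℂ} (hw : ∀ j, S.Sm (w j)) {X : Fin 4 → P → ℂ}
    (hX : ∀ a, S.Sm (X a)) (a : Fin 4) (p : P) :
    S.dirv w (S.dirv w X) a p =
      ∑ j, w j p * ∑ k, (S.D j (w k) p * S.D k (X a) p + w k p * S.D j (S.D k (X a)) p) := by
  have e : S.dir w (X a) = fun p => ∑ k, w k p * S.D k (X a) p := rfl
  change ∑ j, w j p * S.D j (S.dir w (X a)) p = _
  refine Finset.sum_congr rfl fun j _ => ?_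
  congr 1
  rw [e, D_sum j Finset.univ (f := fun k p => w k p * S.D k (X a) p)
    fun k _ => S.sm_mul (hw k) (S.sm_D k (hX a))]
  refine Finset.sum_congr rfl fun k _ => ?_
  have := congrFun (S.D_mul j (hw k) (S.sm_D k (hX a))) p
  exact this

lemma sum_bd [Fintype κ] {c v : κ → ℂ} {M e : ℝ} (hM : 0 ≤ M) (hc : ∀ j, ‖c j‖ ≤ M)
    (hv : ∀ j, ‖v j‖ ≤ e) : ‖∑ j, c j * v j‖ ≤ Fintype.card κ * (M * e) := by
  refine (norm_sum_le _ _).trans ?_
  have : ∀ j ∈ (Finset.univ : Finset κ), ‖c j * v j‖ ≤ M * e := fun j _ => by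
    rw [norm_mul]
    exact mul_le_mul (hc j) (hv j) (norm_nonneg _) hM
  refine (Finset.sum_le_sum this).trans (le_of_eq ?_)
  simp

lemma dir_bd [Fintype κ] {c : κ → P → ℂ} {v : P → ℂ} {p : P} {M e : ℝ} (hM : 0 ≤ M)
    (hc : ∀ j, ‖c j p‖ ≤ M) (hv : ∀ j, ‖S.D j v p‖ ≤ e) :
    ‖S.dir c v p‖ ≤ Fintype.card κ * (M * e) := sum_bd hM hc hv

/-- the Gram determinant along a ray depends continuously on the map -/
lemma gram_near [Fintype κ] {t w : κ → P → ℂ} (hw : ∀ j, S.Sm (w j)) {X f : Fin 4 → P → ℂ}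
    (hX : ∀ a, S.Sm (X a)) (hf : ∀ a, S.Sm (f a)) {M A b e : ℝ} (hM : 0 ≤ M) (hA : 0 ≤ A)
    (hb : 1 ≤ b) (he : 0 ≤ e) (he1 : e ≤ 1) {p : P} (mt : ∀ j, ‖t j p‖ ≤ M)
    (mw : ∀ j, ‖w j p‖ ≤ M)
    (mdw : ∀ j k, ‖S.D j (w k) p‖ ≤ M) (f1 : ∀ j a, ‖S.D j (f a) p‖ ≤ A)
    (f2 : ∀ j k a, ‖S.D j (S.D k (f a)) p‖ ≤ A * b)
    (x1 : ∀ j a, ‖S.D j (X a) p - S.D j (f a) p‖ ≤ e)
    (x2 : ∀ j k a, ‖S.D j (S.D k (X a)) p - S.D j (S.D k (f a)) p‖ ≤ e * b) :
    ‖gram3 (S.dirv t X) (S.dirv w X) (S.dirv w (S.dirv w X)) p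
      - gram3 (S.dirv t f) (S.dirv w f) (S.dirv w (S.dirv w f)) p‖ ≤
      2304 * ((2 * ((Fintype.card κ + 1) ^ 2 * (M + 1) ^ 2) * (A + 1)) ^ 5 *
        (2 * ((Fintype.card κ + 1) ^ 2 * (M + 1) ^ 2) * e)) * b ^ 2 := by
  set n : ℝ := (Fintype.card κ : ℝ) with hn
  have hn0 : 0 ≤ n := Nat.cast_nonneg _
  set H : ℝ := 2 * ((n + 1) ^ 2 * (M + 1) ^ 2) with hH
  have hb0 : 0 < b := by linarith
  have hbc : (b : ℂ) ≠ 0 := by exact_mod_cast hb0.ne'
  -- sizes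
  have hnM : n * M ≤ H := by rw [hH]; nlinarith [mul_nonneg hn0 hM, sq_nonneg (n + 1), sq_nonneg (M + 1), sq_nonneg (n*M)]
  have hnM2 : 2 * (n * (M * (n * M))) ≤ H := by
    rw [hH]
    have h1 : n * M ≤ (n + 1) * (M + 1) := by nlinarith
    have h2 : 0 ≤ n * M := mul_nonneg hn0 hM
    have h3 : (n * M) * (n * M) ≤ ((n + 1) * (M + 1)) * ((n + 1) * (M + 1)) :=
      mul_le_mul h1 h1 h2 (h2.trans h1)
    nlinarith
  have hH0 : 0 ≤ H := (mul_nonneg hn0 hM).trans hnM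
  -- first derivatives
  have gen1 : ∀ (v : κ → ℂ) (e' : ℝ) (c : κ → P → ℂ), 0 ≤ e' → (∀ j, ‖c j p‖ ≤ M) →
      (∀ j, ‖v j‖ ≤ e') → ‖∑ j, c j p * v j‖ ≤ H * e' := by
    intro v e' c he' hc hv
    refine (sum_bd hM hc hv).trans ?_
    calc n * (M * e') = (n * M) * e' := by ring
      _ ≤ H * e' := by gcongr
  have X1 : ∀ j a, ‖S.D j (X a) p‖ ≤ A + 1 := by
    intro j a
    have h1 := x1 j a
    have h2 := f1 j a
    have h3 : S.D j (X a) p = (S.D j (X a) p - S.D j (f a) p) + S.D j (f a) p := by ring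
    rw [h3]
    exact (norm_add_le _ _).trans (by linarith)
  have X2 : ∀ j k a, ‖S.D j (S.D k (X a)) p‖ ≤ (A + 1) * b := by
    intro j k a
    have h1 := x2 j k a
    have h2 := f2 j k a
    have h3 : S.D j (S.D k (X a)) p =
      (S.D j (S.D k (X a)) p - S.D j (S.D k (f a)) p) + S.D j (S.D k (f a)) p := by ring
    rw [h3]
    refine (norm_add_le _ _).trans ?_
    nlinarith
  have tX : ∀ a, ‖S.dirv t X a p‖ ≤ H * (A + 1) := fun a =>
    gen1 _ _ t (by linarith) mt (fun j => X1 j a)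
  have wX : ∀ a, ‖S.dirv w X a p‖ ≤ H * (A + 1) := fun a =>
    gen1 _ _ w (by linarith) mw (fun j => X1 j a)
  have tf : ∀ a, ‖S.dirv t f a p‖ ≤ H * (A + 1) := fun a =>
    gen1 _ _ t (by linarith) mt (fun j => (f1 j a).trans (by linarith))
  have wf : ∀ a, ‖S.dirv w f a p‖ ≤ H * (A + 1) := fun a =>
    gen1 _ _ w (by linarith) mw (fun j => (f1 j a).trans (by linarith))
  have td : ∀ a, ‖S.dirv t X a p - S.dirv t f a p‖ ≤ H * e := by
    intro a
    have e1 : S.dirv t X a p - S.dirv t f a p =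
        ∑ j, t j p * (S.D j (X a) p - S.D j (f a) p) := by
      simp only [DAlg.dirv, DAlg.dir, ← Finset.sum_sub_distrib, mul_sub]
    rw [e1]
    exact gen1 _ _ t he mt (fun j => x1 j a)
  have wd' : ∀ a, ‖S.dirv w X a p - S.dirv w f a p‖ ≤ H * e := by
    intro a
    have e1 : S.dirv w X a p - S.dirv w f a p =
        ∑ j, w j p * (S.D j (X a) p - S.D j (f a) p) := by
      simp only [DAlg.dirv, DAlg.dir, ← Finset.sum_sub_distrib, mul_sub]
    rw [e1]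
    exact gen1 _ _ w he mw (fun j => x1 j a)
  -- second derivatives
  have gen2 : ∀ (v1 : κ → ℂ) (v2 : κ → κ → ℂ) (e' : ℝ), 0 ≤ e' → (∀ k, ‖v1 k‖ ≤ e') →
      (∀ j k, ‖v2 j k‖ ≤ e' * b) →
      ‖∑ j, w j p * ∑ k, (S.D j (w k) p * v1 k + w k p * v2 j k)‖ ≤ H * e' * b := by
    intro v1 v2 e' he' h1 h2
    have h3 : ∀ j, ‖∑ k, (S.D j (w k) p * v1 k + w k p * v2 j k)‖ ≤ 2 * (n * M * (e' * b)) := by
      intro j
      rw [Finset.sum_add_distrib]
      refine (norm_add_le _ _).trans ?_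
      have a1 := sum_bd (v := v1) hM (mdw j) h1
      have a2 := sum_bd (v := v2 j) hM mw (h2 j)
      have a3 : n * (M * e') ≤ n * M * (e' * b) := by
        have : 0 ≤ n * M * e' := by positivity
        nlinarith
      have a4 : n * (M * (e' * b)) = n * M * (e' * b) := by ring
      linarith
    refine (sum_bd hM mw h3).trans ?_
    calc n * (M * (2 * (n * M * (e' * b)))) = 2 * (n * (M * (n * M))) * (e' * b) := by ring
      _ ≤ H * (e' * b) := by gcongr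
      _ = H * e' * b := by ring
  set zX : Fin 4 → ℂ := fun a => (b : ℂ)⁻¹ * S.dirv w (S.dirv w X) a p with hzX
  set zf : Fin 4 → ℂ := fun a => (b : ℂ)⁻¹ * S.dirv w (S.dirv w f) a p with hzf
  have nb : ∀ v : ℂ, ‖(b : ℂ)⁻¹ * v‖ = b⁻¹ * ‖v‖ := by
    intro v
    rw [norm_mul, norm_inv, Complex.norm_real, Real.norm_of_nonneg hb0.le]
  have nzX : ∀ a, ‖zX a‖ ≤ H * (A + 1) := by
    intro a
    rw [hzX]
    simp only []
    rw [nb, dirv2 hw hX, inv_mul_le_iff₀ hb0]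
    refine (gen2 (fun k => S.D k (X a) p) (fun j k => S.D j (S.D k (X a)) p) (A + 1)
      (by linarith) (fun k => X1 k a) (fun j k => X2 j k a)).trans (le_of_eq (by ring))
  have nzf : ∀ a, ‖zf a‖ ≤ H * (A + 1) := by
    intro a
    rw [hzf]
    simp only []
    rw [nb, dirv2 hw hf, inv_mul_le_iff₀ hb0]
    refine (gen2 (fun k => S.D k (f a) p) (fun j k => S.D j (S.D k (f a)) p) (A + 1)
      (by linarith) (fun k => (f1 k a).trans (by linarith))
      (fun j k => (f2 j k a).trans (by nlinarith))).trans (le_of_eq (by ring))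
  have ndz : ∀ a, ‖zX a - zf a‖ ≤ H * e := by
    intro a
    rw [hzX, hzf]
    simp only []
    rw [← mul_sub, nb, dirv2 hw hX, dirv2 hw hf, ← Finset.sum_sub_distrib,
      inv_mul_le_iff₀ hb0]
    have e1 : ∑ j, (w j p * ∑ k, (S.D j (w k) p * S.D k (X a) p + w k p * S.D j (S.D k (X a)) p)
        - w j p * ∑ k, (S.D j (w k) p * S.D k (f a) p + w k p * S.D j (S.D k (f a)) p)) =
        ∑ j, w j p * ∑ k, (S.D j (w k) p * (S.D k (X a) p - S.D k (f a) p) +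
          w k p * (S.D j (S.D k (X a)) p - S.D j (S.D k (f a)) p)) := by
      refine Finset.sum_congr rfl fun j _ => ?_
      rw [← mul_sub, ← Finset.sum_sub_distrib]
      congr 1
      exact Finset.sum_congr rfl fun k _ => by ring
    rw [e1]
    refine (gen2 (fun k => S.D k (X a) p - S.D k (f a) p)
      (fun j k => S.D j (S.D k (X a)) p - S.D j (S.D k (f a)) p) e
      he (fun k => x1 k a) (fun j k => x2 j k a)).trans (le_of_eq (by ring))
  have key := g3_sub (by positivity : 0 ≤ H * (A + 1)) (by positivity : 0 ≤ H * e)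
    tX wX nzX tf wf nzf td wd' ndz
  have sX : (fun a => S.dirv w (S.dirv w X) a p) = fun a => (b : ℂ) * zX a := by
    funext a; rw [hzX]; field_simp
  have sf : (fun a => S.dirv w (S.dirv w f) a p) = fun a => (b : ℂ) * zf a := by
    funext a; rw [hzf]; field_simp
  rw [gram3_eq, gram3_eq, sX, sf, g3_scale _ _ zX, g3_scale _ _ zf, ← mul_sub, norm_mul]
  have nb2 : ‖(b : ℂ) ^ 2‖ = b ^ 2 := by
    rw [norm_pow, Complex.norm_real, Real.norm_of_nonneg hb0.le]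
  rw [nb2, mul_comm]
  exact mul_le_mul_of_nonneg_right key (by positivity)

/-- nondegeneracy is stable -/
lemma nondeg_near [Fintype κ] {Q : Type} [Fintype Q] {d : PData P κ Q} (hd : d.Ok S)
    {X f : Fin 4 → P → ℂ}
    (hX : ∀ a, S.Sm (X a)) (hf : ∀ a, S.Sm (f a)) {M A b e c1 : ℝ} (hM : 0 ≤ M) (hA : 0 ≤ A)
    (hb : 1 ≤ b) (he : 0 ≤ e) (he1 : e ≤ 1)
    (mt : ∀ x, usedRay x → ∀ j p, ‖(d.rays x).t j p‖ ≤ M)
    (mw : ∀ x, usedRay x → ∀ j p, ‖(d.rays x).w j p‖ ≤ M)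
    (mdw : ∀ x, usedRay x → ∀ j k p, ‖S.D j ((d.rays x).w k) p‖ ≤ M)
    (f1 : ∀ j a p, ‖S.D j (f a) p‖ ≤ A)
    (f2 : ∀ j k a p, ‖S.D j (S.D k (f a)) p‖ ≤ A * b)
    (x1 : ∀ j a p, ‖S.D j (X a) p - S.D j (f a) p‖ ≤ e)
    (x2 : ∀ j k a p, ‖S.D j (S.D k (X a)) p - S.D j (S.D k (f a)) p‖ ≤ e * b)
    (hc : 2304 * ((2 * ((Fintype.card κ + 1) ^ 2 * (M + 1) ^ 2) * (A + 1)) ^ 5 *
        (2 * ((Fintype.card κ + 1) ^ 2 * (M + 1) ^ 2) * e)) ≤ c1 / 2)
    (hn : d.Nondeg S c1 b f) : d.Nondeg S (c1 / 2) b X := by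
  intro x hx p hp
  have h1 := hn x hx p hp
  have hok := rays_ok hd x hx
  have h2 := gram_near (t := (d.rays x).t) (w := (d.rays x).w) hok.smw hX hf hM hA hb he he1
    (p := p) (fun j => mt x hx j p) (fun j => mw x hx j p) (fun j k => mdw x hx j k p)
    (fun j a => f1 j a p) (fun j k a => f2 j k a p) (fun j a => x1 j a p)
    (fun j k a => x2 j k a p)
  have h3 : ‖gram3 (S.dirv (d.rays x).t X) (S.dirv (d.rays x).w X)
      (S.dirv (d.rays x).w (S.dirv (d.rays x).w X)) p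
      - gram3 (S.dirv (d.rays x).t f) (S.dirv (d.rays x).w f)
        (S.dirv (d.rays x).w (S.dirv (d.rays x).w f)) p‖ ≤ c1 / 2 * b ^ 2 :=
    h2.trans (mul_le_mul_of_nonneg_right hc (by positivity))
  have h4 := (Complex.abs_re_le_norm _).trans h3
  rw [Complex.sub_re, abs_le] at h4
  have h5 := h4.1
  have h6 : c1 * b ^ 2 - c1 / 2 * b ^ 2 = c1 / 2 * b ^ 2 := by ring
  linarith

end It

end Vale.Agent.P205.F
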