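import Vale.Agent.P205.F.ItTen
import Vale.Agent.P205.F.ItNondeg

/-!
# P205, T1U iteration: the stage applied to a family of smooth maps
-/

open scoped ContDiff

noncomputable section

namespace Vale.Agent.P205.F

namespace It

universe u

variable {P : Type u} {κ : Type} {S : DAlg P κ}

/-- One stage for a family of smooth maps. -/
theorem core [Fintype κ] {Q : Type} [Fintype Q] (hSt : S.StageF Q) {t : ℕ} (ht : 3 ≤ t)
    {J : Type u} {G : κ → κ → P → ℂ} (hGs : ∀ j k, S.Sm (G j k))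
    (z b θ : J → ℝ) (d : J → PData P κ Q) (X : J → Fin 4 → P → ℂ) (c : ℝ) (hc : 0 < c)
    (hz : ∀ x, 1 ≤ z x) (hb : ∀ x, 1 ≤ b x) (hbθ : ∀ x, b x ≤ θ x)
    (hθ : ∀ x, θ x ≤ b x * z x ^ 34)
    (hd : ∀ x, (d x).Ok S) (hF : PData.FBd S d θ) (hn : ∀ x, (d x).Nondeg S c (b x) (X x))
    (hX : ∀ x a, S.Sm (X x a)) (hr : ∀ x a, Rl (X x a))
    (h1 : ∀ j a, S.FO θ (fun _ => 1) (fun x => S.D j (X x a)))
    (h2 : ∀ j k a, S.FO θ b (fun x => S.D j (S.D k (X x a))))
    (hT : ∀ x, S.IsT (ten S G ((z x ^ (400 * t))⁻¹) ((z x ^ (500 * t))⁻¹) (X x)))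
    (hTr : ∀ x j k, Rl (ten S G ((z x ^ (400 * t))⁻¹) ((z x ^ (500 * t))⁻¹) (X x) j k))
    (hTf : ∀ j k, S.FO θ (fun _ => 1)
      (fun x => ten S G ((z x ^ (400 * t))⁻¹) ((z x ^ (500 * t))⁻¹) (X x) j k))
    (hell : ∀ x a p, p ∈ ((d x).ray a).K →
      c ≤ ((d x).ell a (ten S G ((z x ^ (400 * t))⁻¹) ((z x ^ (500 * t))⁻¹) (X x)) p).re)
    (N : ℕ) :
    ∃ z0 : ℝ, 1 ≤ z0 ∧ ∀ x, z0 ≤ z x → ∃ y : Fin 4 → P → ℂ, (∀ a, S.Sm (y a)) ∧ (∀ a, Rl (y a)) ∧
      (∀ a, S.Bd (θ x * z x ^ 2) N ((z x ^ (170 * t))⁻¹) (y a)) ∧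
      (∀ j a, S.Bd (θ x * z x ^ 2) N ((z x ^ (170 * t))⁻¹) (S.D j (y a))) ∧
      (∀ j k a, S.Bd (θ x * z x ^ 2) N ((z x ^ (170 * t))⁻¹ * b x) (S.D j (S.D k (y a)))) ∧
      (∀ j k, S.Bd (θ x * z x ^ 2) N ((z x ^ (505 * t))⁻¹)
        (fun p => G j k p - S.met (fun a p => X x a p + y a p) j k p
          - ((z x ^ (500 * t))⁻¹ : ℝ) * G j k p)) := by
  have hz0 : ∀ x, 0 < z x := fun x => by linarith [hz x]
  have hb0 : ∀ x, 0 < b x := fun x => by linarith [hb x]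
  have hθ0 : ∀ x, 0 < θ x := fun x => (hb0 x).trans_le (hbθ x)
  obtain ⟨η, hη, y, ys, yr, yb, yE⟩ := hSt (400 * t) J θ b (fun x => θ x * z x)
    (fun x => (z x ^ (200 * t))⁻¹) c d X
    (fun x => ten S G ((z x ^ (400 * t))⁻¹) ((z x ^ (500 * t))⁻¹) (X x)) hc hb hbθ
    (fun x => by nlinarith [hz x, hθ0 x]) (fun x => by have := hz0 x; positivity)
    (fun x => inv_pow_le_one (hz x) _) hd hF hn hX hr h1 h2 hT hTr hTf hell
  obtain ⟨C, hC1, hC⟩ := unif (α := Fin 4)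
    (p := fun a C => ∀ i : {i // θ i / (θ i * z i) ≤ η},
      S.Bd (θ i.1 * z i.1) (N + 2) (C * ((z i.1 ^ (200 * t))⁻¹ / b i.1)) (y i.1 a))
    (fun a C C' h h' i => Bd.monoC (h' i) (by have := hθ0 i.1; have := hz0 i.1; positivity)
      (mul_le_mul_of_nonneg_right h (by have := hb0 i.1; have := hz0 i.1; positivity)))
    (fun a => by
      obtain ⟨C, -, h⟩ := (yb a).2 (N + 2)
      exact ⟨C, h⟩)
  obtain ⟨C', hC'1, hC'⟩ := unif (α := κ × κ)
    (p := fun x C => ∀ i : {i // θ i / (θ i * z i) ≤ η},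
      S.Bd (θ i.1 * z i.1) N (C * ((z i.1 ^ (200 * t))⁻¹ * (θ i.1 / (θ i.1 * z i.1)) ^ (400 * t)
        + ((z i.1 ^ (200 * t))⁻¹) ^ 3 * (θ i.1 * z i.1 / b i.1) ^ 2))
        (fun p => S.met (fun a => X i.1 a + y i.1 a) x.1 x.2 p - S.met (X i.1) x.1 x.2 p
          - (((z i.1 ^ (200 * t))⁻¹ : ℝ) : ℂ) ^ 2 *
            ten S G ((z i.1 ^ (400 * t))⁻¹) ((z i.1 ^ (500 * t))⁻¹) (X i.1) x.1 x.2 p))
    (fun a C C' h h' i => Bd.monoC (h' i) (by have := hθ0 i.1; have := hz0 i.1; positivity)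
      (mul_le_mul_of_nonneg_right h
        (by have := hb0 i.1; have := hz0 i.1; have := hθ0 i.1; positivity)))
    (fun x => by
      obtain ⟨C, -, h⟩ := (yE x.1 x.2).2 N
      exact ⟨C, h⟩)
  refine ⟨2 + C + C' + η⁻¹, by have := inv_pos.2 hη; linarith, fun x hx => ?_⟩
  have hηi := inv_pos.2 hη
  have hzx := hz x
  have hzx0 := hz0 x
  have hbx := hb0 x
  have hb1 := hb x
  have hθx := hθ0 x
  have hmem : θ x / (θ x * z x) ≤ η := by
    have e : θ x / (θ x * z x) = (z x)⁻¹ := by field_simp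
    rw [e]
    exact inv_le_of_inv_le₀ hη (by linarith)
  have hzC : C ≤ z x := by linarith
  have hzC' : C' ≤ z x := by linarith
  have hz2 : 2 ≤ z x := by linarith
  have hC0 : 0 ≤ C := by linarith
  have hC'0 : 0 ≤ C' := by linarith
  set lam := θ x * z x with hlam
  have hlam0 : 0 < lam := by positivity
  have hlamθ : lam ≤ θ x * z x ^ 2 := by
    rw [hlam, pow_two, ← mul_assoc]
    have : 0 < θ x * z x := by positivity
    nlinarith
  have hlb : lam ≤ b x * z x ^ 35 := by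
    calc lam ≤ (b x * z x ^ 34) * z x := by
          rw [hlam]; exact mul_le_mul_of_nonneg_right (hθ x) hzx0.le
      _ = _ := by ring
  set ε := (z x ^ (200 * t))⁻¹ with hε
  have hε0 : 0 < ε := by positivity
  have hy := fun a => hC a ⟨x, hmem⟩
  have hE := fun j k => hC' (j, k) ⟨x, hmem⟩
  simp only at hy hE
  refine ⟨y x, ys x, yr x, fun a => ?_, fun j a => ?_, fun j k a => ?_, fun j k => ?_⟩
  · refine Bd.mono (hy a) (by omega) hlam0.le hlamθ (by positivity) ?_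
    have h3 : ε / b x ≤ ε := div_le_self hε0.le hb1
    calc C * (ε / b x) ≤ z x ^ 1 * ε := by
          rw [pow_one]; exact mul_le_mul hzC h3 (by positivity) hzx0.le
      _ ≤ _ := pow_mul_inv_le hzx (by omega)
  · refine Bd.mono (Bd.D j (Bd.mono (hy a) (by omega : N + 1 ≤ N + 2) hlam0.le le_rfl
      (by positivity) le_rfl)) le_rfl hlam0.le hlamθ (by positivity) ?_
    have h3 : ε / b x * lam ≤ ε * z x ^ 35 := by
      rw [div_mul_eq_mul_div, div_le_iff₀ hbx]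
      calc ε * lam ≤ ε * (b x * z x ^ 35) := by gcongr
        _ = _ := by ring
    calc C * (ε / b x) * lam = C * (ε / b x * lam) := by ring
      _ ≤ z x * (ε * z x ^ 35) := mul_le_mul hzC h3 (by positivity) hzx0.le
      _ = z x ^ 36 * ε := by ring
      _ ≤ _ := pow_mul_inv_le hzx (by omega)
  · refine Bd.mono (Bd.D j (Bd.D k (hy a))) le_rfl hlam0.le hlamθ (by positivity) ?_
    have h3 : ε / b x * lam * lam ≤ ε * z x ^ 70 * b x := by
      have h4 : lam * lam ≤ (b x * z x ^ 35) * (b x * z x ^ 35) :=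
        mul_le_mul hlb hlb hlam0.le (by positivity)
      rw [mul_assoc, div_mul_eq_mul_div, div_le_iff₀ hbx]
      calc ε * (lam * lam) ≤ ε * ((b x * z x ^ 35) * (b x * z x ^ 35)) := by gcongr
        _ = _ := by ring
    calc C * (ε / b x) * lam * lam = C * (ε / b x * lam * lam) := by ring
      _ ≤ z x * (ε * z x ^ 70 * b x) := mul_le_mul hzC h3 (by positivity) hzx0.le
      _ = z x ^ 71 * ε * b x := by ring
      _ ≤ _ := by
        gcongr
        exact pow_mul_inv_le hzx (by omega)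
  · have h3 := hE j k
    have hn' := Bd.neg (S := S) (sm_sub (sm_sub (sm_met (fun a => S.sm_add (hX x a) (ys x a)) j k)
      (sm_met (hX x) j k)) (sm_smul ((ε : ℂ) ^ 2)
        (ten_sm hGs (hX x) ((z x ^ (400 * t))⁻¹) ((z x ^ (500 * t))⁻¹) j k))) h3
    have e : (fun p => -(S.met (fun a => X x a + y x a) j k p - S.met (X x) j k p
          - (ε : ℂ) ^ 2 * ten S G ((z x ^ (400 * t))⁻¹) ((z x ^ (500 * t))⁻¹) (X x) j k p)) =
        fun p => G j k p - S.met (fun a p => X x a p + y x a p) j k p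
          - ((z x ^ (500 * t))⁻¹ : ℝ) * G j k p := by
      funext p
      have hd : (ε : ℂ) ^ 2 * ((((z x ^ (400 * t))⁻¹)⁻¹ : ℝ) : ℂ) = 1 := by
        rw [← Complex.ofReal_pow, ← Complex.ofReal_mul, hε]
        have : ((z x ^ (200 * t))⁻¹) ^ 2 * ((z x ^ (400 * t))⁻¹)⁻¹ = 1 := by
          rw [inv_inv, inv_pow, ← pow_mul]
          have h5 : 200 * t * 2 = 400 * t := by omega
          rw [h5]
          exact inv_mul_cancel₀ (by positivity)
        rw [this, Complex.ofReal_one]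
      have hmet : S.met (fun a => X x a + y x a) j k p =
        S.met (fun a p => X x a p + y x a p) j k p := rfl
      rw [hmet]
      simp only [ten]
      linear_combination (G j k p - S.met (X x) j k p - ((z x ^ (500 * t))⁻¹ : ℝ) * G j k p) * hd
    rw [e] at hn'
    refine Bd.mono hn' le_rfl hlam0.le hlamθ (by positivity) ?_
    have q1 : (θ x / lam) ^ (400 * t) = (z x ^ (400 * t))⁻¹ := by
      have : θ x / lam = (z x)⁻¹ := by rw [hlam]; field_simp
      rw [this, inv_pow]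
    have q2 : ε * (z x ^ (400 * t))⁻¹ ≤ (z x ^ (600 * t))⁻¹ := by
      rw [hε, ← mul_inv, ← pow_add]
      exact inv_pow_le hzx (by omega)
    have q3 : ε ^ 3 = (z x ^ (600 * t))⁻¹ := by
      rw [hε, inv_pow, ← pow_mul]
      congr 2
      omega
    have q4 : (lam / b x) ^ 2 ≤ z x ^ 70 := by
      have h6 : lam / b x ≤ z x ^ 35 := by
        rw [div_le_iff₀ hbx]; linarith [hlb, mul_comm (b x) (z x ^ 35)]
      calc (lam / b x) ^ 2 ≤ (z x ^ 35) ^ 2 := pow_le_pow_left₀ (by positivity) h6 2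
        _ = _ := by ring
    have q5 : 1 ≤ z x ^ 70 := one_le_pow₀ hzx
    have q6 : 0 ≤ (z x ^ (600 * t))⁻¹ := by positivity
    calc C' * (ε * (θ x / lam) ^ (400 * t) + ε ^ 3 * (lam / b x) ^ 2)
        ≤ z x * ((z x ^ (600 * t))⁻¹ + (z x ^ (600 * t))⁻¹ * z x ^ 70) := by
          refine mul_le_mul hzC' (add_le_add ?_ ?_) (by positivity) hzx0.le
          · rw [q1]; exact q2
          · rw [q3]; exact mul_le_mul_of_nonneg_left q4 q6
      _ ≤ z x * (2 * (z x ^ 70 * (z x ^ (600 * t))⁻¹)) := by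
          gcongr
          nlinarith
      _ ≤ z x * (z x * (z x ^ 70 * (z x ^ (600 * t))⁻¹)) := by gcongr
      _ = z x ^ 72 * (z x ^ (600 * t))⁻¹ := by ring
      _ ≤ _ := pow_mul_inv_le hzx (by omega)

end It

end Vale.Agent.P205.F
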