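import Vale.Agent.P205.F.ItInv

/-!
# P205, T1U iteration: bounds for the smoothed map and for the tensor to be added
-/

open scoped ContDiff

noncomputable section

namespace Vale.Agent.P205.F

namespace It

universe u

variable {P : Type u} {κ : Type} {S : DAlg P κ}

/-! ### smoothing -/

lemma sm_gain {m : ℕ} (Sm : S.Smoothing m) (r k : ℕ) : ∃ C, 1 ≤ C ∧ ∀ (θ B : ℝ) (u : P → ℂ),
    1 ≤ θ → 0 ≤ B → S.Sm u → S.Nb r B u → ∀ w : List κ, w.length ≤ k → ∀ p,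
      ‖S.wd w (Sm.T θ u) p‖ ≤ C * B * θ ^ (w.length - r) := by
  obtain ⟨C, hC1, hC⟩ := seq_bound Sm.C (k + r)
  refine ⟨C, hC1, fun θ B u hθ hB hu hN w hw p => ?_⟩
  have h := Sm.gain (k := r) (l := max w.length r) (le_max_right _ _) hθ hu hN w
    (le_max_left _ _) p
  refine h.trans ?_
  have h1 : Sm.C (max w.length r) ≤ C := hC _ (by omega)
  have h2 : max w.length r - r = w.length - r := by omega
  rw [h2]
  have h3 : 0 ≤ θ ^ (w.length - r) * B := by positivity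
  calc Sm.C (max w.length r) * θ ^ (w.length - r) * B
      = Sm.C (max w.length r) * (θ ^ (w.length - r) * B) := by ring
    _ ≤ C * (θ ^ (w.length - r) * B) := by gcongr
    _ = _ := by ring

/-! ### metrics -/

/-- difference of two metrics -/
lemma bd_met_sub {θ C C' c : ℝ} {k : ℕ} {X Y : Fin 4 → P → ℂ} (hθ : 0 ≤ θ) (hC : 0 ≤ C)
    (hC' : 0 ≤ C') (hc : 0 ≤ c)
    (hX : ∀ a, S.Sm (X a)) (hY : ∀ a, S.Sm (Y a)) (h : ∀ j a, S.Bd θ k C (S.D j (X a)))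
    (h' : ∀ j a, S.Bd θ k C' (S.D j (Y a)))
    (hd : ∀ j a, S.Bd θ k c (S.D j (fun p => X a p - Y a p))) (j l : κ) :
    S.Bd θ k (4 * (2 ^ k * (c * C)) + 4 * (2 ^ k * (C' * c)))
      (fun p => S.met X j l p - S.met Y j l p) := by
  have b1 : S.Bd θ k (4 * (2 ^ k * (c * C)))
      (dot (fun a => S.D j (fun p => X a p - Y a p)) (fun a => S.D l (X a))) :=
    Bd.dot hθ hc hC (fun a => S.sm_D j (sm_sub (hX a) (hY a))) (fun a => S.sm_D l (hX a))
      (fun a => hd j a) (fun a => h l a)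
  have b2 : S.Bd θ k (4 * (2 ^ k * (C' * c)))
      (dot (fun a => S.D j (Y a)) (fun a => S.D l (fun p => X a p - Y a p))) :=
    Bd.dot hθ hC' hc (fun a => S.sm_D j (hY a)) (fun a => S.sm_D l (sm_sub (hX a) (hY a)))
      (fun a => h' j a) (fun a => hd l a)
  have b3 := Bd.add (sm_dot (fun a => S.sm_D j (sm_sub (hX a) (hY a)))
    (fun a => S.sm_D l (hX a)))
    (sm_dot (fun a => S.sm_D j (hY a)) (fun a => S.sm_D l (sm_sub (hX a) (hY a)))) b1 b2
  have e : (fun p => dot (fun a => S.D j (fun p => X a p - Y a p)) (fun a => S.D l (X a)) p +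
      dot (fun a => S.D j (Y a)) (fun a => S.D l (fun p => X a p - Y a p)) p) =
      fun p => S.met X j l p - S.met Y j l p := by
    funext p
    simp only [DAlg.met, DAlg.Dv, dot, ← Finset.sum_add_distrib, ← Finset.sum_sub_distrib]
    refine Finset.sum_congr rfl fun a _ => ?_
    rw [D_sub j (hX a) (hY a), D_sub l (hX a) (hY a)]
    ring
  rwa [e] at b3

lemma bd_met {θ C : ℝ} {k : ℕ} {X : Fin 4 → P → ℂ} (hθ : 0 ≤ θ) (hC : 0 ≤ C)
    (hX : ∀ a, S.Sm (X a)) (h : ∀ j a, S.Bd θ k C (S.D j (X a))) (j l : κ) :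
    S.Bd θ k (4 * (2 ^ k * (C * C))) (S.met X j l) :=
  Bd.dot hθ hC hC (fun a => S.sm_D j (hX a)) (fun a => S.sm_D l (hX a)) (fun a => h j a)
    (fun a => h l a)

/-- smooth functions have bounded derivatives -/
lemma sm_nb [Fintype κ] {u : P → ℂ} (hu : S.Sm u) (k : ℕ) : ∃ C, 1 ≤ C ∧ S.Nb k C u := by
  classical
  have hf : {w : List κ | w.length ≤ k}.Finite := List.finite_length_le κ k
  have : Finite {w : List κ // w.length ≤ k} := hf.to_subtype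
  obtain ⟨C, hC, h⟩ := unif (α := {w : List κ // w.length ≤ k})
    (p := fun w C => ∀ p, ‖S.wd w.1 u p‖ ≤ C)
    (fun a C C' h h' p => (h' p).trans h) (fun w => S.bdd (sm_wd w.1 hu))
  exact ⟨C, hC, fun w hw p => h ⟨w, hw⟩ p⟩

lemma sm_bd [Fintype κ] {u : P → ℂ} (hu : S.Sm u) (k : ℕ) : ∃ C, 1 ≤ C ∧ ∀ μ : ℝ, 1 ≤ μ →
    S.Bd μ k C u := by
  obtain ⟨C, hC, h⟩ := sm_nb hu k
  refine ⟨C, hC, fun μ hμ w hw p => (h w hw p).trans ?_⟩
  have : (1 : ℝ) ≤ μ ^ w.length := one_le_pow₀ hμ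
  nlinarith

/-! ### admissible states -/

/-- admissible states at level `t` -/
structure Adm (S : DAlg P κ) {ι : Type u} (G : κ → κ → P → ℂ) (f : ι → Fin 4 → P → ℂ)
    (b : ι → ℝ) (A e0 : ℝ) (t : ℕ) (i : ι) (z μ : ℝ) (X : Fin 4 → P → ℂ) : Prop where
  hb : 1 ≤ b i
  hz : 1 ≤ z
  hμb : b i ≤ μ
  hμ : μ ≤ b i * z ^ 32
  inv : Inv S G (f i) (b i) A (1600 * t + 2) ((z ^ (400 * t))⁻¹) ((z ^ (404 * t))⁻¹) μ e0 X
  /-- bounds for the map itself -/
  b0 : ∀ a p, ‖X a p‖ ≤ A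

section Fam

variable {ι : Type u} {G : κ → κ → P → ℂ} {f : ι → Fin 4 → P → ℂ} {b : ι → ℝ} {A e0 : ℝ}
  {t : ℕ} {i : ι} {z μ : ℝ} {X : Fin 4 → P → ℂ}

/-- the smoothed map -/
def xt {m : ℕ} (Sm : S.Smoothing m) (z μ : ℝ) (X : Fin 4 → P → ℂ) : Fin 4 → P → ℂ :=
  fun a => Sm.T (μ * z) (X a)

lemma Adm.hμ1 (x : Adm S G f b A e0 t i z μ X) : 1 ≤ μ := x.hb.trans x.hμb

lemma Adm.hθ (x : Adm S G f b A e0 t i z μ X) : 1 ≤ μ * z := by
  have h1 := x.hμ1
  have h2 := x.hz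
  nlinarith

lemma Adm.sm (x : Adm S G f b A e0 t i z μ X) {m : ℕ} (Sm : S.Smoothing m) (a : Fin 4) :
    S.Sm (xt Sm z μ X a) := Sm.sm x.hθ (x.inv.sm a)

lemma Adm.rl (x : Adm S G f b A e0 t i z μ X) {m : ℕ} (Sm : S.Smoothing m) (a : Fin 4) :
    Rl (xt Sm z μ X a) := Sm.real x.hθ (x.inv.sm a) (x.inv.rl a)

/-- unweighted bounds of order `K + 2` -/
lemma Adm.nb (x : Adm S G f b A e0 t i z μ X) (hA : 1 ≤ A) {K : ℕ} (hK : K ≤ 1600 * t + 2)
    (a : Fin 4) : S.Nb (K + 2) (A * b i * μ ^ K) (X a) := by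
  intro w hw p
  have hμ1 := x.hμ1
  have hb := x.hb
  have h1 : A ≤ A * b i * μ ^ K := by
    have h2 : 1 ≤ μ ^ K := one_le_pow₀ hμ1
    have h3 : A ≤ A * b i := by nlinarith
    have h4 : 0 ≤ A * b i := by nlinarith
    nlinarith
  rcases List.eq_nil_or_concat w with rfl | ⟨w', l, rfl⟩
  · exact (x.b0 a p).trans h1
  · rw [List.concat_eq_append, wd_snoc]
    rcases List.eq_nil_or_concat w' with rfl | ⟨w'', j, rfl⟩
    · have := x.inv.b1 l a [] (by simp) p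
      simp only [DAlg.wd, List.length_nil, pow_zero, mul_one] at this ⊢
      exact this.trans h1
    · rw [List.concat_eq_append, wd_snoc]
      have hl : w''.length ≤ K := by simpa using hw
      refine (x.inv.b2 j l a w'' (by omega) p).trans ?_
      have h4 : 0 ≤ A * b i := by nlinarith
      exact mul_le_mul_of_nonneg_left (pow_le_pow_right₀ hμ1 hl) h4

/-- unweighted bounds of order one -/
lemma Adm.nb1 (x : Adm S G f b A e0 t i z μ X) (a : Fin 4) : S.Nb 1 A (X a) := by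
  intro w hw p
  rcases List.eq_nil_or_concat w with rfl | ⟨w', l, rfl⟩
  · exact x.b0 a p
  · rw [List.concat_eq_append, wd_snoc]
    have hl : w'.length = 0 := by
      have : w'.length + 1 ≤ 1 := by simpa using hw
      omega
    obtain rfl := List.eq_nil_of_length_eq_zero hl
    simpa [DAlg.wd] using x.inv.b1 l a [] (by simp) p

/-- bounds for the smoothed map, all orders -/
lemma xt_bd {m : ℕ} (Sm : S.Smoothing m) (hA : 1 ≤ A) (k : ℕ) : ∃ C, 1 ≤ C ∧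
    ∀ (i : ι) (z μ : ℝ) (X : Fin 4 → P → ℂ), Adm S G f b A e0 t i z μ X →
      (∀ a, S.Bd (μ * z) k C (xt Sm z μ X a)) ∧
      (∀ j a, S.Bd (μ * z) k C (S.D j (xt Sm z μ X a))) ∧
      (∀ j l a, S.Bd (μ * z) k (C * b i) (S.D j (S.D l (xt Sm z μ X a)))) := by
  obtain ⟨C1, hC1, h1⟩ := sm_gain Sm 1 (k + 2)
  obtain ⟨C2, hC2, h2⟩ := sm_gain Sm 2 (k + 2)
  refine ⟨(C1 + C2) * A, by nlinarith, fun i z μ X x => ?_⟩
  have hθ := x.hθ
  have hb := x.hb
  have hA0 : 0 ≤ A := by linarith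
  have hB : 0 ≤ A * b i * μ ^ 0 := by
    rw [pow_zero, mul_one]; exact mul_nonneg hA0 (by linarith)
  have hC : C1 * A ≤ (C1 + C2) * A := by nlinarith
  have hC0 : 0 ≤ C1 * A := mul_nonneg (by linarith) hA0
  have hCC : 0 ≤ (C1 + C2) * A := mul_nonneg (by linarith) hA0
  refine ⟨fun a w hw p => ?_, fun j a w hw p => ?_, fun j l a w hw p => ?_⟩
  · refine (h1 _ _ _ hθ hA0 (x.inv.sm a) (x.nb1 a) w (by omega) p).trans ?_
    have e1 : (μ * z) ^ (w.length - 1) ≤ (μ * z) ^ w.length := pow_le_pow_right₀ hθ (by omega)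
    exact mul_le_mul hC e1 (by positivity) hCC
  · rw [← wd_snoc]
    refine (h1 _ _ _ hθ hA0 (x.inv.sm a) (x.nb1 a) (w ++ [j]) (by simp; omega) p).trans ?_
    have e1 : (w ++ [j]).length - 1 = w.length := by simp
    rw [e1]
    exact mul_le_mul_of_nonneg_right hC (by positivity)
  · rw [← wd_snoc, ← wd_snoc]
    refine (h2 _ _ _ hθ hB (x.inv.sm a) (x.nb hA (by omega) a) (w ++ [j] ++ [l])
      (by simp; omega) p).trans ?_
    have e1 : (w ++ [j] ++ [l]).length - 2 = w.length := by simp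
    rw [e1]
    refine mul_le_mul_of_nonneg_right ?_ (by positivity)
    rw [pow_zero, mul_one]
    have : 0 ≤ A * b i := mul_nonneg hA0 (by linarith)
    nlinarith

/-- the smoothed map is close to the map -/
lemma xt_appr (ht : 1 ≤ t) (Sm : S.Smoothing (1200 * t)) (hA : 1 ≤ A) : ∃ C, 1 ≤ C ∧
    ∀ (i : ι) (z μ : ℝ) (X : Fin 4 → P → ℂ), Adm S G f b A e0 t i z μ X → ∀ a,
      S.Bd μ (400 * t + 2) (C * (b i * (z ^ (1200 * t))⁻¹) / μ ^ 2)
        (fun p => X a p - xt Sm z μ X a p) := by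
  obtain ⟨C, hC1, hC⟩ := seq_bound Sm.C (400 * t + 2)
  refine ⟨C * A, by nlinarith, fun i z μ X x a w hw p => ?_⟩
  have hμ1 := x.hμ1
  have hμ0 : 0 < μ := by linarith
  have hz := x.hz
  have hz0 : 0 < z := by linarith
  have hb := x.hb
  have hb0 : 0 < b i := by linarith
  have hA0 : 0 ≤ A := by linarith
  obtain ⟨K, hK⟩ : ∃ K, w.length + 1200 * t = K + 2 := ⟨w.length + 1200 * t - 2, by omega⟩
  have hN := x.nb hA (K := K) (by omega) a
  rw [← hK] at hN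
  have h := Sm.appr x.hθ (x.inv.sm a) hN w le_rfl p
  refine h.trans ?_
  have h1 : Sm.C w.length ≤ C := hC _ hw
  have h3 : (0 : ℝ) ≤ ((μ * z) ^ (1200 * t))⁻¹ * (A * b i * μ ^ K) := by positivity
  calc Sm.C w.length * ((μ * z) ^ (1200 * t))⁻¹ * (A * b i * μ ^ K)
      = Sm.C w.length * (((μ * z) ^ (1200 * t))⁻¹ * (A * b i * μ ^ K)) := by ring
    _ ≤ C * (((μ * z) ^ (1200 * t))⁻¹ * (A * b i * μ ^ K)) := by gcongr
    _ = C * A * (b i * (z ^ (1200 * t))⁻¹) / μ ^ 2 * μ ^ w.length := by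
      have e1 : μ ^ w.length * μ ^ (1200 * t) = μ ^ K * μ ^ 2 := by
        rw [← pow_add, ← pow_add, hK]
      rw [mul_pow]
      field_simp
      linear_combination (-1 : ℝ) * e1

lemma xt_appr' (ht : 1 ≤ t) (Sm : S.Smoothing (1200 * t)) (hA : 1 ≤ A) : ∃ C, 1 ≤ C ∧
    ∀ (i : ι) (z μ : ℝ) (X : Fin 4 → P → ℂ), Adm S G f b A e0 t i z μ X →
      (∀ a, S.Bd μ (400 * t) (C * (z ^ (1200 * t))⁻¹) (fun p => X a p - xt Sm z μ X a p)) ∧
      (∀ j a, S.Bd μ (400 * t) (C * (z ^ (1200 * t))⁻¹)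
        (S.D j (fun p => X a p - xt Sm z μ X a p))) ∧
      (∀ j l a, S.Bd μ (400 * t) (C * (z ^ (1200 * t))⁻¹ * b i)
        (S.D j (S.D l (fun p => X a p - xt Sm z μ X a p)))) := by
  obtain ⟨C, hC1, hC⟩ := xt_appr (G := G) (f := f) (b := b) (e0 := e0) ht Sm hA
  refine ⟨C, hC1, fun i z μ X x => ?_⟩
  have hμ1 := x.hμ1
  have hμ0 : 0 < μ := by linarith
  have hz := x.hz
  have hz0 : 0 < z := by linarith
  have hb := x.hb
  have hb0 : 0 < b i := by linarith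
  have hbμ := x.hμb
  have hc0 : 0 ≤ C * (b i * (z ^ (1200 * t))⁻¹) / μ ^ 2 := by positivity
  have h0 := hC i z μ X x
  have e2 : C * (b i * (z ^ (1200 * t))⁻¹) / μ ^ 2 * μ * μ = C * (z ^ (1200 * t))⁻¹ * b i := by
    field_simp
  have e1 : C * (b i * (z ^ (1200 * t))⁻¹) / μ ^ 2 * μ ≤ C * (z ^ (1200 * t))⁻¹ := by
    have : C * (b i * (z ^ (1200 * t))⁻¹) / μ ^ 2 * μ = C * (z ^ (1200 * t))⁻¹ * (b i / μ) := by
      field_simp
    rw [this]
    have h1 : b i / μ ≤ 1 := by rw [div_le_one hμ0]; exact hbμ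
    have h2 : 0 ≤ C * (z ^ (1200 * t))⁻¹ := by positivity
    nlinarith
  have e0 : C * (b i * (z ^ (1200 * t))⁻¹) / μ ^ 2 ≤ C * (z ^ (1200 * t))⁻¹ := by
    refine le_trans ?_ e1
    nlinarith
  refine ⟨fun a => Bd.mono (h0 a) (by omega) hμ0.le le_rfl hc0 e0, fun j a => ?_,
    fun j l a => ?_⟩
  · exact Bd.mono (Bd.D j (h0 a)) (by omega) hμ0.le le_rfl (by positivity) e1
  · exact Bd.mono (Bd.D j (Bd.D l (h0 a))) (by omega) hμ0.le le_rfl (by positivity) e2.le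

end Fam

end It

end Vale.Agent.P205.F
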