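import Vale.Agent.P205.F.ItNum

/-!
# P205, T1U iteration: the invariants of the iteration, the statements of the two steps

Level `t` (`t = 5(n+2)`), `z ^ (400 t) = 1/δ`, `δ' = (z ^ (500 t))⁻¹`.
-/

open scoped ContDiff

noncomputable section

namespace Vale.Agent.P205.F

namespace It

universe u

variable {P : Type u} {κ : Type} (S : DAlg P κ)

/-- the invariants of one state `X` of the iteration: scale `μ`, orders at most `N`, size `b` of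
the second derivatives, defect `E` relative to `δ G`, distance `e` to the initial map `f` -/
structure Inv (G : κ → κ → P → ℂ) (f : Fin 4 → P → ℂ) (b A : ℝ) (N : ℕ) (δ E μ e : ℝ)
    (X : Fin 4 → P → ℂ) : Prop where
  sm : ∀ a, S.Sm (X a)
  rl : ∀ a, Rl (X a)
  b1 : ∀ j a, S.Bd μ N A (S.D j (X a))
  b2 : ∀ j k a, S.Bd μ N (A * b) (S.D j (S.D k (X a)))
  bE : ∀ j k, S.Bd μ N E (fun p => G j k p - S.met X j k p - δ * G j k p)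
  c0 : ∀ a p, ‖X a p - f a p‖ ≤ e
  c1 : ∀ j a p, ‖S.D j (X a) p - S.D j (f a) p‖ ≤ e
  c2 : ∀ j k a p, ‖S.D j (S.D k (X a)) p - S.D j (S.D k (f a)) p‖ ≤ e * b

/-- the first step, level `t = 10` -/
def First {ι : Type u} (G : κ → κ → P → ℂ) (f : ι → Fin 4 → P → ℂ) (b δ : ι → ℝ) (A : ℝ) :
    Prop :=
  ∀ N : ℕ, ∃ z0 : ℝ, 1 ≤ z0 ∧ ∀ (i : ι) (z : ℝ), z0 ≤ z → δ i * z ^ (400 * 10) = 1 →
    ∃ X' : Fin 4 → P → ℂ, Inv S G (f i) (b i) A N ((z ^ (500 * 10))⁻¹) ((z ^ (505 * 10))⁻¹)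
      (b i * z ^ 4) ((z ^ (100 * 10))⁻¹) X'

/-- the general step at level `t` -/
def Step {ι : Type u} (G : κ → κ → P → ℂ) (f : ι → Fin 4 → P → ℂ) (b : ι → ℝ) (A e0 : ℝ)
    (t : ℕ) : Prop :=
  ∀ N : ℕ, ∃ z0 : ℝ, 1 ≤ z0 ∧ ∀ (i : ι) (z μ e : ℝ) (X : Fin 4 → P → ℂ), z0 ≤ z → b i ≤ μ →
    μ ≤ b i * z ^ 32 → 0 ≤ e → e + (z ^ (100 * t))⁻¹ ≤ e0 →
    Inv S G (f i) (b i) A (1600 * t + 2) ((z ^ (400 * t))⁻¹) ((z ^ (404 * t))⁻¹) μ e X →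
    ∃ X' : Fin 4 → P → ℂ, Inv S G (f i) (b i) A N ((z ^ (500 * t))⁻¹) ((z ^ (505 * t))⁻¹)
      (μ * z ^ 4) (e + (z ^ (100 * t))⁻¹) X' ∧
      ∀ a, S.Bd (μ * z ^ 4) (400 * t) ((z ^ (160 * t))⁻¹) (fun p => X' a p - X a p)

variable {S}

lemma Inv.mono {G : κ → κ → P → ℂ} {f : Fin 4 → P → ℂ} {b A : ℝ} {N N' : ℕ} {δ E E' μ e e' : ℝ}
    {X : Fin 4 → P → ℂ} (h : Inv S G f b A N δ E μ e X) (hN : N' ≤ N) (hE0 : 0 ≤ E)
    (hE : E ≤ E') (he : e ≤ e') (hb : 0 ≤ b) (hA : 0 ≤ A) (hμ : 0 ≤ μ) :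
    Inv S G f b A N' δ E' μ e' X where
  sm := h.sm
  rl := h.rl
  b1 := fun j a => Bd.mono (h.b1 j a) hN hμ le_rfl hA le_rfl
  b2 := fun j k a => Bd.mono (h.b2 j k a) hN hμ le_rfl (mul_nonneg hA hb) le_rfl
  bE := fun j k => Bd.mono (h.bE j k) hN hμ le_rfl hE0 hE
  c0 := fun a p => (h.c0 a p).trans he
  c1 := fun j a p => (h.c1 j a p).trans he
  c2 := fun j k a p => (h.c2 j k a p).trans (mul_le_mul_of_nonneg_right he hb)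

end It

end Vale.Agent.P205.F
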