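import Mathlib

/-!
# The numeric sequences of the iteration of T1
-/

open Filter Topology

noncomputable section

namespace Vale.Agent.P205.F.It

/-- number of derivatives per stage -/
def t (n : ℕ) : ℕ := 5 * (n + 2)

/-- `400 t n` as a real number -/
def kk (n : ℕ) : ℝ := 400 * (5 * ((n : ℝ) + 2))

lemma kk_eq (n : ℕ) : kk n = ((400 * t n : ℕ) : ℝ) := by
  unfold kk t
  push_cast
  ring

lemma kk_pos (n : ℕ) : 0 < kk n := by
  unfold kk
  positivity

lemma kk_succ (n : ℕ) : kk (n + 1) = kk n + 2000 := by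
  unfold kk
  push_cast
  ring

lemma kk_ge (n : ℕ) : 4000 ≤ kk n := by
  unfold kk
  have : (0 : ℝ) ≤ n := Nat.cast_nonneg n
  linarith

/-- logarithm of `1/d` at stage `q` -/
def DD (D0 : ℝ) (q : ℕ) : ℝ := (5 / 4) ^ q * D0

lemma DD_succ (D0 : ℝ) (q : ℕ) : DD D0 (q + 1) = 5 / 4 * DD D0 q := by
  unfold DD
  rw [pow_succ]
  ring

lemma DD_pos {D0 : ℝ} (h : 0 < D0) (q : ℕ) : 0 < DD D0 q := by
  unfold DD
  positivity

/-- the condition for increasing the order -/
def Inc (zz : ℕ → ℝ) (c D0 : ℝ) (q n : ℕ) (M : ℝ) : Prop :=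
  zz n ≤ Real.exp (DD D0 q / kk n) ∧ c ≤ DD D0 q / kk n ∧ M ≤ 32 * (DD D0 q / kk n)

open Classical in
/-- the state: order and logarithm of the frequency -/
def st (zz : ℕ → ℝ) (c D0 M0 : ℝ) : ℕ → ℕ × ℝ
  | 0 => (0, M0)
  | q + 1 =>
    let s := st zz c D0 M0 q
    let M' := s.2 + 4 * (DD D0 q / kk s.1)
    (if Inc zz c D0 (q + 1) (s.1 + 1) M' then s.1 + 1 else s.1, M')

section

variable {zz : ℕ → ℝ} {c D0 M0 : ℝ}

lemma st_snd (q : ℕ) : (st zz c D0 M0 (q + 1)).2 =
    (st zz c D0 M0 q).2 + 4 * (DD D0 q / kk (st zz c D0 M0 q).1) := rfl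

open Classical in
lemma st_fst (q : ℕ) : (st zz c D0 M0 (q + 1)).1 =
    if Inc zz c D0 (q + 1) ((st zz c D0 M0 q).1 + 1) (st zz c D0 M0 (q + 1)).2
      then (st zz c D0 M0 q).1 + 1 else (st zz c D0 M0 q).1 := rfl

lemma st_fst_le (q : ℕ) : (st zz c D0 M0 q).1 ≤ (st zz c D0 M0 (q + 1)).1 ∧
    (st zz c D0 M0 (q + 1)).1 ≤ (st zz c D0 M0 q).1 + 1 := by
  rw [st_fst]
  split_ifs
  · exact ⟨Nat.le_succ _, le_rfl⟩
  · exact ⟨le_rfl, Nat.le_succ _⟩

/-- the invariant -/
lemma st_inc (hD : 0 < D0) (h0 : Inc zz c D0 0 0 M0) (q : ℕ) :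
    Inc zz c D0 q (st zz c D0 M0 q).1 (st zz c D0 M0 q).2 := by
  induction q with
  | zero => exact h0
  | succ q ih =>
    by_cases h : Inc zz c D0 (q + 1) ((st zz c D0 M0 q).1 + 1) (st zz c D0 M0 (q + 1)).2
    · rw [st_fst, if_pos h]
      exact h
    · rw [st_fst, if_neg h]
      obtain ⟨h1, h2, h3⟩ := ih
      have hk := kk_pos (st zz c D0 M0 q).1
      have hDq := DD_pos hD q
      have hle : DD D0 q / kk (st zz c D0 M0 q).1 ≤ DD D0 (q + 1) / kk (st zz c D0 M0 q).1 := by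
        rw [DD_succ]
        apply div_le_div_of_nonneg_right _ hk.le
        linarith
      refine ⟨h1.trans (Real.exp_le_exp.2 hle), h2.trans hle, ?_⟩
      rw [st_snd, DD_succ]
      have : 5 / 4 * DD D0 q / kk (st zz c D0 M0 q).1 =
          5 / 4 * (DD D0 q / kk (st zz c D0 M0 q).1) := by ring
      rw [this]
      have hpos : 0 < DD D0 q / kk (st zz c D0 M0 q).1 := div_pos hDq hk
      linarith

lemma st_snd_nonneg (hD : 0 < D0) (hM : 0 ≤ M0) (q : ℕ) : 0 ≤ (st zz c D0 M0 q).2 := by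
  induction q with
  | zero => exact hM
  | succ q ih =>
    rw [st_snd]
    have := div_pos (DD_pos hD q) (kk_pos (st zz c D0 M0 q).1)
    linarith

lemma tendsto_DD (hD : 0 < D0) : Tendsto (DD D0) atTop atTop := by
  unfold DD
  exact (tendsto_pow_atTop_atTop_of_one_lt (by norm_num)).atTop_mul_const hD

/-- if the order is constant from `q0` on then the ratio tends to 16 -/
lemma ratio_bound (hD : 0 < D0) {q0 n : ℕ} (hc : ∀ q, q0 ≤ q → (st zz c D0 M0 q).1 = n) (m : ℕ) :
    (st zz c D0 M0 (q0 + m)).2 ≤ (st zz c D0 M0 q0).2 + 16 * (DD D0 (q0 + m) / kk n) := by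
  induction m with
  | zero =>
    have := div_pos (DD_pos hD (q0 + 0)) (kk_pos n)
    simp only [add_zero] at this ⊢
    linarith
  | succ m ih =>
    rw [← add_assoc, st_snd, hc (q0 + m) (by omega), DD_succ]
    have : 5 / 4 * DD D0 (q0 + m) / kk n = 5 / 4 * (DD D0 (q0 + m) / kk n) := by ring
    rw [this]
    linarith

lemma tendsto_st (hD : 0 < D0) : Tendsto (fun q => (st zz c D0 M0 q).1) atTop atTop := by
  have hmono : Monotone fun q => (st zz c D0 M0 q).1 :=
    monotone_nat_of_le_succ fun q => (st_fst_le q).1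
  rcases tendsto_atTop_of_monotone hmono with h | ⟨l, hl⟩
  · exact h
  · exfalso
    have hev : ∀ᶠ q in atTop, (st zz c D0 M0 q).1 = l := by
      have := hl.eventually (eventually_of_mem (by simp : ({l} : Set ℕ) ∈ 𝓝 l)
        (fun x hx => hx))
      filter_upwards [this] with q hq using hq
    obtain ⟨q0, hq0⟩ := eventually_atTop.1 hev
    have hc : ∀ q, q0 ≤ q → (st zz c D0 M0 q).1 = l := hq0
    have hT := tendsto_DD hD
    have hk := kk_pos l
    have hk1 := kk_pos (l + 1)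
    -- the three conditions hold eventually
    have e1 : ∀ᶠ q in atTop, zz (l + 1) ≤ Real.exp (DD D0 (q0 + q + 1) / kk (l + 1)) := by
      have : Tendsto (fun q : ℕ => Real.exp (DD D0 (q0 + q + 1) / kk (l + 1))) atTop atTop := by
        apply Real.tendsto_exp_atTop.comp
        apply Tendsto.atTop_div_const hk1
        apply hT.comp
        have : Tendsto (fun q : ℕ => q + (q0 + 1)) atTop atTop := tendsto_add_atTop_nat (q0 + 1)
        refine this.congr fun q => by omega
      exact this.eventually_ge_atTop _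
    have e2 : ∀ᶠ q in atTop, c ≤ DD D0 (q0 + q + 1) / kk (l + 1) := by
      have : Tendsto (fun q : ℕ => DD D0 (q0 + q + 1) / kk (l + 1)) atTop atTop := by
        apply Tendsto.atTop_div_const hk1
        apply hT.comp
        have : Tendsto (fun q : ℕ => q + (q0 + 1)) atTop atTop := tendsto_add_atTop_nat (q0 + 1)
        refine this.congr fun q => by omega
      exact this.eventually_ge_atTop _
    have hgap : 0 < 32 / kk (l + 1) - 16 / kk l := by
      rw [kk_succ, sub_pos, div_lt_div_iff₀ hk (by linarith)]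
      have := kk_ge l
      linarith
    have e3 : ∀ᶠ q in atTop,
        (st zz c D0 M0 q0).2 ≤ (32 / kk (l + 1) - 16 / kk l) * DD D0 (q0 + q + 1) := by
      have : Tendsto (fun q : ℕ => (32 / kk (l + 1) - 16 / kk l) * DD D0 (q0 + q + 1))
          atTop atTop := by
        apply Tendsto.const_mul_atTop hgap
        apply hT.comp
        have : Tendsto (fun q : ℕ => q + (q0 + 1)) atTop atTop := tendsto_add_atTop_nat (q0 + 1)
        refine this.congr fun q => by omega
      exact this.eventually_ge_atTop _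
    obtain ⟨q, h1, h2, h3⟩ := (e1.and (e2.and e3)).exists
    have hI : Inc zz c D0 (q0 + q + 1) ((st zz c D0 M0 (q0 + q)).1 + 1)
        (st zz c D0 M0 (q0 + q + 1)).2 := by
      rw [hc (q0 + q) (by omega)]
      refine ⟨h1, h2, ?_⟩
      have hr := ratio_bound (zz := zz) (c := c) (M0 := M0) hD hc (q + 1)
      rw [← add_assoc] at hr
      have h4 : (32 / kk (l + 1) - 16 / kk l) * DD D0 (q0 + q + 1) =
          32 * (DD D0 (q0 + q + 1) / kk (l + 1)) - 16 * (DD D0 (q0 + q + 1) / kk l) := by ring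
      rw [h4] at h3
      linarith
    have h5 := hc (q0 + q + 1) (by omega)
    rw [st_fst, if_pos hI, hc (q0 + q) (by omega)] at h5
    omega

end

lemma DD_ge {D0 : ℝ} (hD : 0 < D0) (q : ℕ) : (1 + (q : ℝ) / 4) * D0 ≤ DD D0 q := by
  unfold DD
  apply mul_le_mul_of_nonneg_right _ hD.le
  have h := one_add_mul_le_pow (a := (1 / 4 : ℝ)) (by norm_num) q
  have h2 : (1 + 1 / 4 : ℝ) = 5 / 4 := by norm_num
  rw [h2] at h
  linarith

lemma rpow_exp (x a : ℝ) : Real.exp x ^ a = Real.exp (x * a) := (Real.exp_mul x a).symm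

lemma exp_le_geom {D0 : ℝ} (hD : 0 < D0) {a : ℝ} (ha : 0 < a) (q : ℕ) :
    Real.exp (-DD D0 q) ^ a ≤ Real.exp (-(D0 * a)) * Real.exp (-(D0 * a / 4)) ^ q := by
  rw [rpow_exp, ← Real.exp_nat_mul, ← Real.exp_add]
  apply Real.exp_le_exp.2
  have := mul_le_mul_of_nonneg_right (DD_ge hD q) ha.le
  nlinarith

lemma summable_exp {D0 : ℝ} (hD : 0 < D0) {a : ℝ} (ha : 0 < a) :
    Summable fun q => Real.exp (-DD D0 q) ^ a := by
  refine Summable.of_nonneg_of_le (fun q => Real.rpow_nonneg (Real.exp_pos _).le _)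
    (exp_le_geom hD ha) ?_
  apply Summable.mul_left
  apply summable_geometric_of_lt_one (Real.exp_pos _).le
  rw [Real.exp_lt_one_iff]
  have : 0 < D0 * a / 4 := by positivity
  linarith

/-- The numeric sequences of the iteration. -/
theorem exists_seq (Pw : ℕ) : ∃ Kw : ℕ, ∀ zz : ℕ → ℝ, ∃ d0 : ℝ, 0 < d0 ∧
    ∀ L mu0 de : ℝ, 1 ≤ L → 1 ≤ mu0 → 0 < de → de ≤ d0 → de * L ^ Kw ≤ 1 → de * mu0 ^ Kw ≤ 1 →
    ∃ (n : ℕ → ℕ) (z mu d : ℕ → ℝ), n 0 = 0 ∧ mu 0 = mu0 ∧ d 0 = de ∧
      (∀ q, n q ≤ n (q + 1) ∧ n (q + 1) ≤ n q + 1) ∧ Tendsto n atTop atTop ∧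
      (∀ q, 1 ≤ z q ∧ zz (n q) ≤ z q ∧ L ^ Pw ≤ z q ∧ 1 ≤ mu q ∧ mu q ≤ z q ^ 32 ∧
        d q * z q ^ (400 * t (n q)) = 1 ∧ d (q + 1) * z q ^ (500 * t (n q)) = 1 ∧
        mu (q + 1) = mu q * z q ^ 4) ∧
      (∀ q, 0 < d q) ∧ Summable (fun q => d q ^ (1 / 10 : ℝ)) ∧
      Summable (fun q => d q ^ (1 / 4 : ℝ)) ∧
      ∑' q, d q ^ (1 / 4 : ℝ) ≤ 2 * de ^ (1 / 4 : ℝ) ∧
      ∀ k : ℕ, ∀ᶠ q in atTop, mu (q + 1) ^ k * d q ^ (2 / 5 : ℝ) ≤ d q ^ (1 / 5 : ℝ) := by
  refine ⟨4000 * (Pw + 1), fun zz => ?_⟩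
  set Z : ℝ := max 1 (zz 0) with hZ
  have hZ1 : 1 ≤ Z := le_max_left _ _
  have hZp : 0 < Z := by linarith
  refine ⟨min (Real.exp (-(16 * Real.log 2))) (Real.exp (-(4000 * Real.log Z))),
    lt_min (Real.exp_pos _) (Real.exp_pos _), ?_⟩
  intro L mu0 de hL hmu hde hd0 hdL hdm
  set D0 : ℝ := -Real.log de with hD0
  have hdeD : de = Real.exp (-D0) := by
    rw [hD0, neg_neg, Real.exp_log hde]
  have hA : 16 * Real.log 2 ≤ D0 := by
    have h1 : Real.log de ≤ -(16 * Real.log 2) := by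
      have := Real.log_le_log hde (hd0.trans (min_le_left _ _))
      rwa [Real.log_exp] at this
    linarith
  have hB : 4000 * Real.log Z ≤ D0 := by
    have h1 : Real.log de ≤ -(4000 * Real.log Z) := by
      have := Real.log_le_log hde (hd0.trans (min_le_right _ _))
      rwa [Real.log_exp] at this
    linarith
  have hl2 : 0 < Real.log 2 := Real.log_pos (by norm_num)
  have hD : 0 < D0 := by linarith
  have hLp : 0 < L := by linarith
  have hmp : 0 < mu0 := by linarith
  have hlL : 0 ≤ Real.log L := Real.log_nonneg hL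
  have hlm : 0 ≤ Real.log mu0 := Real.log_nonneg hmu
  have hC : (4000 * ((Pw : ℝ) + 1)) * Real.log L ≤ D0 := by
    have h1 := Real.log_le_log (by positivity) hdL
    rw [Real.log_one, Real.log_mul hde.ne' (by positivity), Real.log_pow] at h1
    push_cast at h1
    linarith
  have hE : (4000 * ((Pw : ℝ) + 1)) * Real.log mu0 ≤ D0 := by
    have h1 := Real.log_le_log (by positivity) hdm
    rw [Real.log_one, Real.log_mul hde.ne' (by positivity), Real.log_pow] at h1
    push_cast at h1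
    linarith
  have hPw : (0 : ℝ) ≤ Pw := Nat.cast_nonneg Pw
  set c : ℝ := Pw * Real.log L with hc
  have hk0 : kk 0 = 4000 := by unfold kk; norm_num
  have h0 : Inc zz c D0 0 0 (Real.log mu0) := by
    have hDD0 : DD D0 0 = D0 := by unfold DD; simp
    refine ⟨?_, ?_, ?_⟩
    · rw [hDD0, hk0]
      have h1 : Real.log Z ≤ D0 / 4000 := by linarith
      calc zz 0 ≤ Z := le_max_right _ _
        _ = Real.exp (Real.log Z) := (Real.exp_log hZp).symm
        _ ≤ Real.exp (D0 / 4000) := Real.exp_le_exp.2 h1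
    · rw [hDD0, hk0, hc]
      have h1 : Pw * Real.log L ≤ (Pw + 1) * Real.log L := by nlinarith
      linarith
    · rw [hDD0, hk0]
      have h1 : 1 * Real.log mu0 ≤ (Pw + 1) * Real.log mu0 := by
        apply mul_le_mul_of_nonneg_right _ hlm
        linarith
      linarith
  set n : ℕ → ℕ := fun q => (st zz c D0 (Real.log mu0) q).1 with hn
  set M : ℕ → ℝ := fun q => (st zz c D0 (Real.log mu0) q).2 with hM
  have hinc : ∀ q, Inc zz c D0 q (n q) (M q) := st_inc hD h0
  have hMn : ∀ q, 0 ≤ M q := st_snd_nonneg hD hlm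
  have hMs : ∀ q, M (q + 1) = M q + 4 * (DD D0 q / kk (n q)) := fun q => st_snd q
  have hx : ∀ q, 0 < DD D0 q / kk (n q) := fun q => div_pos (DD_pos hD q) (kk_pos _)
  have hten : Tendsto n atTop atTop := tendsto_st hD
  refine ⟨n, fun q => Real.exp (DD D0 q / kk (n q)), fun q => Real.exp (M q),
    fun q => Real.exp (-DD D0 q), rfl, ?_, ?_, fun q => st_fst_le q, hten, ?_, ?_, ?_, ?_, ?_, ?_⟩
  · change Real.exp (Real.log mu0) = mu0
    exact Real.exp_log hmp
  · change Real.exp (-DD D0 0) = de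
    rw [hdeD]
    unfold DD
    simp
  · intro q
    obtain ⟨h1, h2, h3⟩ := hinc q
    have hk := kk_pos (n q)
    have hmul : kk (n q) * (DD D0 q / kk (n q)) = DD D0 q := by field_simp
    refine ⟨Real.one_le_exp (hx q).le, h1, ?_, Real.one_le_exp (hMn q), ?_, ?_, ?_, ?_⟩
    · have : L ^ Pw = Real.exp c := by
        rw [hc, Real.exp_nat_mul, Real.exp_log hLp]
      rw [this]
      exact Real.exp_le_exp.2 h2
    · rw [← Real.exp_nat_mul]
      apply Real.exp_le_exp.2
      push_cast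
      exact h3
    · rw [← Real.exp_nat_mul, ← kk_eq, hmul, ← Real.exp_add]
      simp
    · change Real.exp (-DD D0 (q + 1)) * Real.exp (DD D0 q / kk (n q)) ^ (500 * t (n q)) = 1
      rw [← Real.exp_nat_mul, DD_succ, ← Real.exp_add]
      have h5 : ((500 * t (n q) : ℕ) : ℝ) = 5 / 4 * kk (n q) := by
        rw [kk_eq]
        push_cast
        ring
      rw [h5, mul_assoc, hmul]
      simp
    · change Real.exp (M (q + 1)) = Real.exp (M q) * Real.exp (DD D0 q / kk (n q)) ^ 4
      rw [hMs, Real.exp_add, ← Real.exp_nat_mul]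
      push_cast
      rfl
  · intro q
    exact Real.exp_pos _
  · exact summable_exp hD (by norm_num)
  · exact summable_exp hD (by norm_num)
  · have hs := summable_exp hD (a := 1 / 4) (by norm_num)
    set r : ℝ := Real.exp (-(D0 * (1 / 4) / 4)) with hr
    have hr0 : 0 ≤ r := (Real.exp_pos _).le
    have hr2 : r ≤ 1 / 2 := by
      have h1 : r ≤ Real.exp (-Real.log 2) := by
        rw [hr]
        apply Real.exp_le_exp.2
        linarith
      rw [Real.exp_neg, Real.exp_log (by norm_num)] at h1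
      simpa using h1
    have hr1 : r < 1 := by linarith
    have hg : Summable fun q : ℕ => Real.exp (-(D0 * (1 / 4))) * r ^ q :=
      (summable_geometric_of_lt_one hr0 hr1).mul_left _
    calc ∑' q, Real.exp (-DD D0 q) ^ (1 / 4 : ℝ)
        ≤ ∑' q : ℕ, Real.exp (-(D0 * (1 / 4))) * r ^ q :=
          hs.tsum_le_tsum (exp_le_geom hD (by norm_num)) hg
      _ = Real.exp (-(D0 * (1 / 4))) * (1 - r)⁻¹ := by
          rw [tsum_mul_left, tsum_geometric_of_lt_one hr0 hr1]
      _ ≤ Real.exp (-(D0 * (1 / 4))) * 2 := by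
          apply mul_le_mul_of_nonneg_left _ (Real.exp_pos _).le
          rw [inv_le_comm₀ (by linarith) (by norm_num)]
          linarith
      _ = 2 * de ^ (1 / 4 : ℝ) := by
          rw [hdeD, rpow_exp, mul_comm]
          ring_nf
  · intro k
    filter_upwards [hten.eventually_ge_atTop k] with q hq
    obtain ⟨h1, h2, h3⟩ := hinc q
    rw [rpow_exp, rpow_exp, ← Real.exp_nat_mul, ← Real.exp_add]
    apply Real.exp_le_exp.2
    have hk := kk_pos (n q)
    have hkk : 180 * (k : ℝ) ≤ kk (n q) := by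
      unfold kk
      have : (k : ℝ) ≤ n q := by exact_mod_cast hq
      have : (0 : ℝ) ≤ k := Nat.cast_nonneg k
      linarith
    have h4 : M (q + 1) ≤ 36 * (DD D0 q / kk (n q)) := by
      rw [hMs]
      linarith
    have h5 : (k : ℝ) * M (q + 1) ≤ k * (36 * (DD D0 q / kk (n q))) :=
      mul_le_mul_of_nonneg_left h4 (Nat.cast_nonneg k)
    have h6 : (k : ℝ) * (36 * (DD D0 q / kk (n q))) ≤ 1 / 5 * DD D0 q := by
      have h7 : (k : ℝ) * (36 * (DD D0 q / kk (n q))) =
          1 / 5 * ((180 * (k : ℝ)) * (DD D0 q / kk (n q))) := by ring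
      have h8 : kk (n q) * (DD D0 q / kk (n q)) = DD D0 q := by field_simp
      rw [h7]
      nth_rewrite 2 [← h8]
      have := mul_le_mul_of_nonneg_right hkk (hx q).le
      linarith
    linarith

end Vale.Agent.P205.F.It
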