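import Vale.Agent.P205.F.StageDef
import Vale.Agent.P205.F.Calc1
import Vale.Agent.P205.F.ItSeq

/-!
# Limits of chains of approximate solutions
-/

open Filter Topology

noncomputable section

namespace Vale.Agent.P205.F.It

/-- dependent choice along a chain -/
theorem exists_chain {α : Type*} (H : ℕ → α → Prop) (R : ℕ → α → α → Prop) (a0 : α)
    (h0 : H 0 a0) (step : ∀ q a, H q a → ∃ b, H (q + 1) b ∧ R q a b) :
    ∃ f : ℕ → α, f 0 = a0 ∧ ∀ q, H q (f q) ∧ R q (f q) (f (q + 1)) := by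
  classical
  choose! nx hnx hnr using step
  let f : ℕ → α := fun q => Nat.rec a0 (fun q a => nx q a) q
  have hf0 : f 0 = a0 := rfl
  have hfs : ∀ q, f (q + 1) = nx q (f q) := fun q => rfl
  have hH : ∀ q, H q (f q) := by
    intro q
    induction q with
    | zero => exact h0
    | succ q ih =>
      rw [hfs]
      exact hnx q _ ih
  refine ⟨f, hf0, fun q => ⟨hH q, ?_⟩⟩
  rw [hfs]
  exact hnr q _ (hH q)

universe u

variable {P : Type u} {κ : Type} (S : DAlg P κ)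

/-- the limit of a chain of approximate solutions is an exact solution -/
theorem exists_limit (hC : S.Complete) (G : κ → κ → P → ℂ) (f : ℕ → Fin 4 → P → ℂ)
    (hsm : ∀ q a, S.Sm (f q a)) (hrl : ∀ q a, Rl (f q a))
    (hstep : ∀ a k, ∃ c : ℕ → ℝ, Summable c ∧ ∃ q0, ∀ q, q0 ≤ q →
      S.Nb k (c q) (f (q + 1) a - f q a))
    (hmet : ∀ j k p, Tendsto (fun q => G j k p - S.met (f q) j k p) atTop (𝓝 0)) :
    ∃ F : Fin 4 → P → ℂ, (∀ a, S.Sm (F a)) ∧ (∀ a, Rl (F a)) ∧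
      (∀ (w : List κ) a p, Tendsto (fun q => S.wd w (f q a) p) atTop (𝓝 (S.wd w (F a) p))) ∧
      ∀ j k p, S.met F j k p = G j k p := by
  choose F hF hFt using fun a => hC (fun q => f q a) (fun q => hsm q a) (hstep a)
  refine ⟨F, hF, ?_, fun w a p => hFt a w p, ?_⟩
  · intro a p
    have h1 : Tendsto (fun q => (f q a p).im) atTop (𝓝 (F a p).im) :=
      (Complex.continuous_im.tendsto _).comp (hFt a [] p)
    have h2 : (fun q => (f q a p).im) = fun _ => (0 : ℝ) := by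
      funext q
      exact hrl q a p
    rw [h2] at h1
    exact tendsto_nhds_unique h1 tendsto_const_nhds |>.symm ▸ rfl
  · intro j k p
    have h1 : Tendsto (fun q => S.met (f q) j k p) atTop (𝓝 (S.met F j k p)) := by
      have : ∀ q, S.met (f q) j k p = ∑ a, S.D j (f q a) p * S.D k (f q a) p := fun q => rfl
      simp only [this]
      change Tendsto _ _ (𝓝 (∑ a, S.D j (F a) p * S.D k (F a) p))
      apply tendsto_finsetSum
      intro a _
      exact (hFt a [j] p).mul (hFt a [k] p)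
    have h2 : Tendsto (fun q => G j k p - S.met (f q) j k p) atTop (𝓝 0) := hmet j k p
    have h3 : Tendsto (fun q => S.met (f q) j k p) atTop (𝓝 (G j k p)) := by
      have := (tendsto_const_nhds (x := G j k p)).sub h2
      simpa using this
    exact tendsto_nhds_unique h1 h3

/-- steps along the numeric sequences give an exact solution -/
theorem exists_of_steps (hC : S.Complete) (G : κ → κ → P → ℂ) (Lam C1 : ℝ)
    (C0 : κ → κ → P → ℝ) (hLam : 1 ≤ Lam)
    (hC1 : 0 ≤ C1) (n : ℕ → ℕ) (mu d : ℕ → ℝ) (hn : Tendsto n atTop atTop)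
    (hmu : ∀ q, 1 ≤ mu q) (hd : ∀ q, 0 < d q) (hds : Summable fun q => d q ^ (1 / 10 : ℝ))
    (hdk : ∀ k : ℕ, ∀ᶠ q in atTop, mu (q + 1) ^ k * d q ^ (2 / 5 : ℝ) ≤ d q ^ (1 / 5 : ℝ))
    (H : ℕ → (Fin 4 → P → ℂ) → Prop) (f0 : Fin 4 → P → ℂ) (h0 : H 0 f0)
    (hsm : ∀ q f, H q f → ∀ a, S.Sm (f a)) (hrl : ∀ q f, H q f → ∀ a, Rl (f a))
    (hmet : ∀ q f, H q f → ∀ j k p, ‖G j k p - S.met f j k p‖ ≤ C0 j k p * d q)
    (step : ∀ q f, H q f → ∃ f', H (q + 1) f' ∧ ∀ a, ∀ w : List κ, w.length ≤ n q → ∀ p,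
      ‖S.wd w (f' a - f a) p‖ ≤ C1 * (Lam * mu (q + 1)) ^ w.length * d q ^ (2 / 5 : ℝ)) :
    ∃ F : Fin 4 → P → ℂ, (∀ a, S.Sm (F a)) ∧ (∀ a, Rl (F a)) ∧
      (∀ a p, ‖F a p - f0 a p‖ ≤ C1 * ∑' q, d q ^ (2 / 5 : ℝ)) ∧
      ∀ j k p, S.met F j k p = G j k p := by
  obtain ⟨f, hf0, hf⟩ := exists_chain H (fun q f f' => ∀ a, ∀ w : List κ, w.length ≤ n q → ∀ p,
      ‖S.wd w (f' a - f a) p‖ ≤ C1 * (Lam * mu (q + 1)) ^ w.length * d q ^ (2 / 5 : ℝ)) f0 h0
      step
  have hd0 : Tendsto d atTop (𝓝 0) := by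
    have h1 := hds.tendsto_atTop_zero
    have h2 : Tendsto (fun x : ℝ => x ^ (10 : ℝ)) (𝓝 0) (𝓝 0) := by
      have := (Real.continuous_rpow_const (q := (10 : ℝ)) (by norm_num)).tendsto 0
      rwa [Real.zero_rpow (by norm_num)] at this
    refine (h2.comp h1).congr fun q => ?_
    change (d q ^ (1 / 10 : ℝ)) ^ (10 : ℝ) = d q
    rw [← Real.rpow_mul (hd q).le]
    norm_num
  have hdle : ∀ᶠ q in atTop, d q ≤ 1 := by
    filter_upwards [hd0.eventually (gt_mem_nhds (show (0 : ℝ) < 1 by norm_num))] with q hq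
    exact hq.le
  have h5 : Summable fun q => d q ^ (1 / 5 : ℝ) := by
    obtain ⟨q0, hq0⟩ := eventually_atTop.1 hdle
    rw [← summable_nat_add_iff q0]
    refine Summable.of_nonneg_of_le (fun q => Real.rpow_nonneg (hd _).le _) (fun q => ?_)
      ((summable_nat_add_iff q0).2 hds)
    exact Real.rpow_le_rpow_of_exponent_ge (hd _) (hq0 _ (by omega)) (by norm_num)
  have h25 : Summable fun q => d q ^ (2 / 5 : ℝ) := by
    obtain ⟨q0, hq0⟩ := eventually_atTop.1 hdle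
    rw [← summable_nat_add_iff q0]
    refine Summable.of_nonneg_of_le (fun q => Real.rpow_nonneg (hd _).le _) (fun q => ?_)
      ((summable_nat_add_iff q0).2 hds)
    exact Real.rpow_le_rpow_of_exponent_ge (hd _) (hq0 _ (by omega)) (by norm_num)
  have hLm : ∀ q, 1 ≤ Lam * mu q := fun q => by nlinarith [hmu q]
  have hS : ∀ a k, ∃ c : ℕ → ℝ, Summable c ∧ ∃ q0, ∀ q, q0 ≤ q →
      S.Nb k (c q) (f (q + 1) a - f q a) := by
    intro a k
    refine ⟨fun q => C1 * Lam ^ k * d q ^ (1 / 5 : ℝ), h5.mul_left _, ?_⟩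
    obtain ⟨q1, hq1⟩ := eventually_atTop.1 (hdk k)
    obtain ⟨q2, hq2⟩ := eventually_atTop.1 (hn.eventually_ge_atTop k)
    refine ⟨max q1 q2, fun q hq => ?_⟩
    intro w hw p
    have h1 := (hf q).2 a w (hw.trans (hq2 q (le_of_max_le_right hq))) p
    refine h1.trans ?_
    have h2 : (Lam * mu (q + 1)) ^ w.length ≤ (Lam * mu (q + 1)) ^ k :=
      pow_le_pow_right₀ (hLm (q + 1)) hw
    have h3 := hq1 q (le_of_max_le_left hq)
    have h4 : 0 ≤ d q ^ (2 / 5 : ℝ) := Real.rpow_nonneg (hd q).le _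
    calc C1 * (Lam * mu (q + 1)) ^ w.length * d q ^ (2 / 5 : ℝ)
        ≤ C1 * (Lam * mu (q + 1)) ^ k * d q ^ (2 / 5 : ℝ) := by gcongr
      _ = C1 * Lam ^ k * (mu (q + 1) ^ k * d q ^ (2 / 5 : ℝ)) := by rw [mul_pow]; ring
      _ ≤ C1 * Lam ^ k * d q ^ (1 / 5 : ℝ) := by
          apply mul_le_mul_of_nonneg_left h3
          positivity
  obtain ⟨F, hF, hFr, hFt, hFm⟩ := exists_limit S hC G f (fun q => hsm q _ (hf q).1)
    (fun q => hrl q _ (hf q).1) hS
    (fun j k p => squeeze_zero_norm (fun q => hmet q _ (hf q).1 j k p)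
      (by simpa using hd0.const_mul (C0 j k p)))
  refine ⟨F, hF, hFr, ?_, hFm⟩
  intro a p
  have hstep0 : ∀ q, ‖f (q + 1) a p - f q a p‖ ≤ C1 * d q ^ (2 / 5 : ℝ) := by
    intro q
    have := (hf q).2 a [] (Nat.zero_le _) p
    simpa using this
  have hpart : ∀ q, ‖f q a p - f0 a p‖ ≤ C1 * ∑' q, d q ^ (2 / 5 : ℝ) := by
    intro q
    have h1 : ‖f q a p - f0 a p‖ ≤ ∑ i ∈ Finset.range q, C1 * d i ^ (2 / 5 : ℝ) := by
      induction q with
      | zero => simp [hf0]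
      | succ q ih =>
        rw [Finset.sum_range_succ]
        calc ‖f (q + 1) a p - f0 a p‖ = ‖(f q a p - f0 a p) + (f (q + 1) a p - f q a p)‖ := by
              congr 1; ring
          _ ≤ _ := (norm_add_le _ _).trans (add_le_add ih (hstep0 q))
    refine h1.trans ?_
    rw [← Finset.mul_sum]
    apply mul_le_mul_of_nonneg_left _ hC1
    exact h25.sum_le_tsum _ (fun i _ => Real.rpow_nonneg (hd i).le _)
  have h2 : Tendsto (fun q => ‖f q a p - f0 a p‖) atTop (𝓝 ‖F a p - f0 a p‖) :=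
    ((hFt [] a p).sub tendsto_const_nhds).norm
  exact le_of_tendsto' h2 hpart

end Vale.Agent.P205.F.It
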