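import Vale.Agent.P205.F.ItInv
import Vale.Agent.P205.F.ItLim

/-!
# P205, T1U iteration: assembly

The first step and the general step give exact solutions.
-/

open Filter Topology

noncomputable section

namespace Vale.Agent.P205.F

namespace It

universe u

variable {P : Type u} {κ : Type} (S : DAlg P κ)

lemma ten_le_t (n : ℕ) : 10 ≤ t n := by
  unfold t
  omega

lemma t_mono {m n : ℕ} (h : m ≤ n) : t m ≤ t n := by
  unfold t
  omega

lemma rpow_quarter {x z : ℝ} (hz : 0 < z) {m : ℕ} (h : x * z ^ (400 * m) = 1) :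
    x ^ (1 / 4 : ℝ) = (z ^ (100 * m))⁻¹ := by
  have hx : x = ((z ^ (100 * m))⁻¹) ^ 4 := by
    rw [inv_pow, ← pow_mul, show 100 * m * 4 = 400 * m by ring]
    exact eq_inv_of_mul_eq_one_left h
  rw [hx, ← Real.rpow_natCast, ← Real.rpow_mul (by positivity)]
  norm_num

lemma rpow_two_fifth {x z : ℝ} (hz : 0 < z) {m : ℕ} (h : x * z ^ (400 * m) = 1) :
    x ^ (2 / 5 : ℝ) = (z ^ (160 * m))⁻¹ := by
  have hx : x = (z ^ (400 * m))⁻¹ := eq_inv_of_mul_eq_one_left h
  have hy : (0 : ℝ) < (z ^ (160 * m))⁻¹ := by positivity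
  have h5 : x ^ 2 = ((z ^ (160 * m))⁻¹) ^ 5 := by
    rw [hx, inv_pow, inv_pow, ← pow_mul, ← pow_mul]
    congr 2
    ring
  have hx0 : 0 < x := by rw [hx]; positivity
  have h6 : x ^ (2 / 5 : ℝ) = (x ^ 2) ^ (1 / 5 : ℝ) := by
    rw [← Real.rpow_natCast, ← Real.rpow_mul hx0.le]
    norm_num
  rw [h6, h5, ← Real.rpow_natCast, ← Real.rpow_mul hy.le]
  norm_num

/-- change of level -/
lemma level_eq {z z' : ℝ} (hz : 0 < z) (hz' : 0 < z') {m m' : ℕ}
    (h : z' ^ (400 * m') = z ^ (500 * m)) : z' ^ (404 * m') = z ^ (505 * m) := by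
  have h1 : (z' ^ (404 * m')) ^ 100 = (z ^ (505 * m)) ^ 100 := by
    calc (z' ^ (404 * m')) ^ 100 = (z' ^ (400 * m')) ^ 101 := by
          rw [← pow_mul, ← pow_mul]
          congr 1
          ring
      _ = (z ^ (500 * m)) ^ 101 := by rw [h]
      _ = (z ^ (505 * m)) ^ 100 := by
          rw [← pow_mul, ← pow_mul]
          congr 1
          ring
  exact (pow_left_inj₀ (by positivity) (by positivity) (by norm_num)).1 h1

theorem assemble {ι : Type u} (hC : S.Complete) (G : κ → κ → P → ℂ)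
    (f : ι → Fin 4 → P → ℂ) (b del : ι → ℝ) (A e0 : ℝ) (hb : ∀ i, 1 ≤ b i) (hA : 1 ≤ A)
    (he0 : 0 < e0) (hdel : ∀ i, 0 < del i) (h1 : First S G f b del A)
    (h2 : ∀ t, 10 ≤ t → Step S G f b A e0 t) :
    ∃ d0, 0 < d0 ∧ ∀ i, del i ≤ d0 → ∃ F : Fin 4 → P → ℂ, (∀ a, S.Sm (F a)) ∧
      (∀ a, Rl (F a)) ∧ ∀ j k p, S.met F j k p = G j k p := by
  obtain ⟨zF, hzF1, hzF⟩ := h1 (1600 * t 1 + 2)
  choose zS hzS1 hzS using fun n => h2 (t n) (ten_le_t n) (1600 * t (n + 1) + 2)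
  obtain ⟨Kw, hKw⟩ := exists_seq 0
  obtain ⟨d1, hd1, hseq⟩ := hKw (fun n => max zF (zS n))
  refine ⟨min d1 (min 1 ((e0 / 2) ^ 4)), by positivity, ?_⟩
  intro i hi
  have hi1 : del i ≤ d1 := hi.trans (min_le_left _ _)
  have hi2 : del i ≤ 1 := hi.trans ((min_le_right _ _).trans (min_le_left _ _))
  have hi3 : del i ≤ (e0 / 2) ^ 4 := hi.trans ((min_le_right _ _).trans (min_le_right _ _))
  obtain ⟨n, z, mu, d, hn0, hmu0, hd0, hnst, hnt, hall, hdpos, hds10, hds4, hdsum, hdk⟩ :=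
    hseq 1 1 (del i) le_rfl le_rfl (hdel i) hi1 (by simpa using hi2) (by simpa using hi2)
  have hz1 : ∀ q, 1 ≤ z q := fun q => (hall q).1
  have hz0 : ∀ q, 0 < z q := fun q => by linarith [hz1 q]
  have hbi := hb i
  have hb0 : 0 < b i := by linarith
  have hmu1 : ∀ q, 1 ≤ mu q := fun q => (hall q).2.2.2.1
  have hdz : ∀ q, d q * z q ^ (400 * t (n q)) = 1 := fun q => (hall q).2.2.2.2.2.1
  have hdz' : ∀ q, d (q + 1) * z q ^ (500 * t (n q)) = 1 := fun q => (hall q).2.2.2.2.2.2.1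
  have hdq : ∀ q, d q = (z q ^ (400 * t (n q)))⁻¹ := fun q => eq_inv_of_mul_eq_one_left (hdz q)
  have hdq' : ∀ q, d (q + 1) = (z q ^ (500 * t (n q)))⁻¹ :=
    fun q => eq_inv_of_mul_eq_one_left (hdz' q)
  have hmus : ∀ q, mu (q + 1) = mu q * z q ^ 4 := fun q => (hall q).2.2.2.2.2.2.2
  have hzz : ∀ q, zF ≤ z q ∧ zS (n q) ≤ z q := fun q =>
    ⟨(le_max_left _ _).trans (hall q).2.1, (le_max_right _ _).trans (hall q).2.1⟩
  have hlev : ∀ q, z (q + 1) ^ (404 * t (n (q + 1))) = z q ^ (505 * t (n q)) := by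
    intro q
    apply level_eq (hz0 q) (hz0 (q + 1))
    have := hdq (q + 1)
    rw [hdq' q] at this
    exact (inv_inj.1 this).symm
  -- the distances
  set e : ℕ → ℝ := fun q => ∑ r ∈ Finset.range q, d r ^ (1 / 4 : ℝ) with he
  have hes : ∀ q, e (q + 1) = e q + d q ^ (1 / 4 : ℝ) := fun q => Finset.sum_range_succ _ _
  have hq4 : ∀ q, d q ^ (1 / 4 : ℝ) = (z q ^ (100 * t (n q)))⁻¹ :=
    fun q => rpow_quarter (hz0 q) (hdz q)
  have hen : ∀ q, 0 ≤ e q := fun q =>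
    Finset.sum_nonneg fun r _ => Real.rpow_nonneg (hdpos r).le _
  have hele : ∀ q, e q ≤ e0 := by
    intro q
    have h3 : e q ≤ ∑' q, d q ^ (1 / 4 : ℝ) :=
      hds4.sum_le_tsum _ (fun i _ => Real.rpow_nonneg (hdpos i).le _)
    have h4 : del i ^ (1 / 4 : ℝ) ≤ e0 / 2 := by
      have h5 := Real.rpow_le_rpow (hdel i).le hi3 (show (0 : ℝ) ≤ 1 / 4 by norm_num)
      have h6 : ((e0 / 2) ^ 4) ^ (1 / 4 : ℝ) = e0 / 2 := by
        rw [← Real.rpow_natCast, ← Real.rpow_mul (by positivity)]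
        norm_num
      rwa [h6] at h5
    linarith
  have hN : ∀ q, 1600 * t (n (q + 1)) + 2 ≤ 1600 * t (n q + 1) + 2 := by
    intro q
    have := t_mono (hnst q).2
    omega
  -- the states
  set H : ℕ → (Fin 4 → P → ℂ) → Prop := fun q X =>
    Inv S G (f i) (b i) A (1600 * t (n (q + 1)) + 2) (d (q + 1))
      ((z (q + 1) ^ (404 * t (n (q + 1))))⁻¹) (b i * mu (q + 1)) (e (q + 1)) X with hH
  have ht0 : t 0 = 10 := rfl
  -- the first state
  obtain ⟨X1, hX1⟩ : ∃ X, H 0 X := by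
    have hz : del i * z 0 ^ (400 * 10) = 1 := by
      have := hdz 0
      rwa [hn0, ht0, hd0] at this
    obtain ⟨X, hX⟩ := hzF i (z 0) (hzz 0).1 hz
    refine ⟨X, ?_⟩
    change Inv S G (f i) (b i) A (1600 * t (n 1) + 2) (d 1)
      ((z 1 ^ (404 * t (n 1)))⁻¹) (b i * mu 1) (e 1) X
    have e1 : d 1 = (z 0 ^ (500 * 10))⁻¹ := by
      have := hdq' 0
      rwa [hn0, ht0] at this
    have e2 : z 1 ^ (404 * t (n 1)) = z 0 ^ (505 * 10) := by
      have := hlev 0
      rwa [hn0, ht0] at this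
    have e3 : mu 1 = z 0 ^ 4 := by
      have := hmus 0
      rwa [hmu0, one_mul] at this
    have e4 : e 1 = (z 0 ^ (100 * 10))⁻¹ := by
      have h7 := hq4 0
      rw [hn0, ht0] at h7
      simp only [he, Finset.range_one, Finset.sum_singleton]
      exact h7
    rw [e1, e2, e3, e4]
    have hz00 := hz0 0
    refine hX.mono ?_ (by positivity) le_rfl le_rfl hb0.le (by linarith) (by positivity)
    have := hN 0
    rwa [hn0] at this
  -- the steps
  have hmetG : ∀ q X, H q X → ∀ j k p,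
      ‖G j k p - S.met X j k p‖ ≤ (1 + ‖G j k p‖) * d (q + 1) := by
    intro q X hX j k p
    have h3 := hX.bE j k [] (Nat.zero_le _) p
    simp only [DAlg.wd, List.length_nil, pow_zero, mul_one] at h3
    have hzq := hz1 (q + 1)
    have h4 : (z (q + 1) ^ (404 * t (n (q + 1))))⁻¹ ≤ d (q + 1) := by
      rw [hdq (q + 1)]
      exact inv_pow_le hzq (by omega)
    have h5 : ‖(d (q + 1) : ℂ) * G j k p‖ = d (q + 1) * ‖G j k p‖ := by
      rw [norm_mul, Complex.norm_real, Real.norm_eq_abs, abs_of_pos (hdpos _)]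
    calc ‖G j k p - S.met X j k p‖
        = ‖(G j k p - S.met X j k p - d (q + 1) * G j k p) + d (q + 1) * G j k p‖ := by
          congr 1
          ring
      _ ≤ ‖G j k p - S.met X j k p - d (q + 1) * G j k p‖ + ‖(d (q + 1) : ℂ) * G j k p‖ :=
          norm_add_le _ _
      _ ≤ d (q + 1) + d (q + 1) * ‖G j k p‖ := by
          rw [h5]
          exact add_le_add (h3.trans h4) le_rfl
      _ = (1 + ‖G j k p‖) * d (q + 1) := by ring
  have hst : ∀ q X, H q X → ∃ Y, H (q + 1) Y ∧ ∀ a, ∀ w : List κ, w.length ≤ n (q + 1) → ∀ p,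
      ‖S.wd w (Y a - X a) p‖ ≤
        1 * (b i * mu (q + 1 + 1)) ^ w.length * d (q + 1) ^ (2 / 5 : ℝ) := by
    intro q X hX
    have hzp := hz0 (q + 1)
    have hb1 : b i ≤ b i * mu (q + 1) := by nlinarith [hmu1 (q + 1)]
    have hb2 : b i * mu (q + 1) ≤ b i * z (q + 1) ^ 32 :=
      mul_le_mul_of_nonneg_left (hall (q + 1)).2.2.2.2.1 hb0.le
    have hb3 : e (q + 1) + (z (q + 1) ^ (100 * t (n (q + 1))))⁻¹ ≤ e0 := by
      rw [← hq4 (q + 1), ← hes (q + 1)]
      exact hele _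
    have hX' : Inv S G (f i) (b i) A (1600 * t (n (q + 1)) + 2)
        ((z (q + 1) ^ (400 * t (n (q + 1))))⁻¹) ((z (q + 1) ^ (404 * t (n (q + 1))))⁻¹)
        (b i * mu (q + 1)) (e (q + 1)) X := by
      have := hX
      simp only [hH] at this
      rwa [hdq (q + 1)] at this
    obtain ⟨Y, hY, hY2⟩ := hzS (n (q + 1)) i (z (q + 1)) (b i * mu (q + 1)) (e (q + 1)) X
      (hzz (q + 1)).2 hb1 hb2 (hen _) hb3 hX'
    refine ⟨Y, ?_, ?_⟩
    · change Inv S G (f i) (b i) A (1600 * t (n (q + 1 + 1)) + 2) (d (q + 1 + 1))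
        ((z (q + 1 + 1) ^ (404 * t (n (q + 1 + 1))))⁻¹) (b i * mu (q + 1 + 1))
        (e (q + 1 + 1)) Y
      rw [hdq' (q + 1), hlev (q + 1), hmus (q + 1), hes (q + 1), hq4 (q + 1), ← mul_assoc]
      exact hY.mono (hN (q + 1)) (by positivity) le_rfl le_rfl hb0.le (by linarith)
        (by have := hmu1 (q + 1); positivity)
    · intro a w hw p
      have h3 : w.length ≤ 400 * t (n (q + 1)) := by
        have : n (q + 1) ≤ 400 * t (n (q + 1)) := by
          unfold t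
          omega
        exact hw.trans this
      have h4 := hY2 a w h3 p
      rw [one_mul, rpow_two_fifth (hz0 (q + 1)) (hdz (q + 1)), hmus (q + 1), ← mul_assoc,
        mul_comm (_ ^ _) (_⁻¹)]
      exact h4
  obtain ⟨F, hF1, hF2, -, hF3⟩ := exists_of_steps S hC G (b i) 1
    (fun j k p => 1 + ‖G j k p‖) hbi zero_le_one (fun q => n (q + 1)) (fun q => mu (q + 1))
    (fun q => d (q + 1)) ((tendsto_add_atTop_iff_nat 1).2 hnt) (fun q => hmu1 _)
    (fun q => hdpos _) ((summable_nat_add_iff 1).2 hds10)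
    (fun k => (tendsto_add_atTop_nat 1).eventually (hdk k)) H X1 hX1
    (fun q X hX => hX.sm) (fun q X hX => hX.rl) hmetG hst
  exact ⟨F, hF1, hF2, hF3⟩

end It

end Vale.Agent.P205.F
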