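import Vale.Agent.P205.F.ItStep
import Vale.Agent.P205.F.ItMain

/-!
# P205: the iteration of T1U
-/

open scoped ContDiff

noncomputable section

namespace Vale.Agent.P205.F

universe u

variable {P : Type u} {κ : Type} [Fintype κ] (S : DAlg P κ)

/-- choice of the distance -/
lemma It.exists_e0 (n M A0 c1 : ℝ) (hn : 0 ≤ n) (hM : 0 ≤ M) (hA : 0 ≤ A0) (hc : 0 < c1) :
    ∃ e0 : ℝ, 0 < e0 ∧ 2 * e0 ≤ 1 ∧
      2304 * ((2 * ((n + 1) ^ 2 * (M + 1) ^ 2) * (A0 + 1)) ^ 5 *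
        (2 * ((n + 1) ^ 2 * (M + 1) ^ 2) * (2 * e0))) ≤ c1 / 2 := by
  have hH : 0 ≤ 2 * ((n + 1) ^ 2 * (M + 1) ^ 2) := by positivity
  generalize 2 * ((n + 1) ^ 2 * (M + 1) ^ 2) = H at hH ⊢
  have hR : 0 ≤ (H * (A0 + 1)) ^ 5 := by positivity
  generalize (H * (A0 + 1)) ^ 5 = R at hR ⊢
  have hK : 0 ≤ 2304 * (R * (H * 2)) := by positivity
  refine ⟨min (1 / 2) (c1 / 2 / (2304 * (R * (H * 2)) + 1)), lt_min (by norm_num)
    (by positivity), ?_, ?_⟩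
  · have := min_le_left (1 / 2) (c1 / 2 / (2304 * (R * (H * 2)) + 1))
    linarith
  · have h2 := min_le_right (1 / 2) (c1 / 2 / (2304 * (R * (H * 2)) + 1))
    have h3 : 0 < min (1 / 2) (c1 / 2 / (2304 * (R * (H * 2)) + 1)) :=
      lt_min (by norm_num) (by positivity)
    generalize min (1 / 2) (c1 / 2 / (2304 * (R * (H * 2)) + 1)) = e at h2 h3 ⊢
    rw [le_div_iff₀ (by linarith)] at h2
    have h4 : 2304 * (R * (H * (2 * e))) = e * (2304 * (R * (H * 2)) + 1) - e := by ring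
    rw [h4]
    linarith

open It in
/-- **(IT)** the iteration -/
theorem DAlg.iter : S.Iter := by
  intro hSt hPi hCo hSm
  obtain ⟨κ0, hκ0, hPi⟩ := hPi
  refine ⟨κ0, hκ0, fun C _ G iG rG sG hB => ?_⟩
  obtain ⟨κ1, hκ1, hPi⟩ := hPi C G iG rG sG hB
  refine ⟨κ1 / 2, by linarith, fun ι b δ f c0 hc0 hb hδ _ sf rf F0 F1 hgr hnear hfo => ?_⟩
  have hb0 : ∀ i, 0 ≤ b i := fun i => by linarith [hb i]
  have F2 : ∀ j k a, S.FO b b (fun i => S.D j (S.D k (f i a))) := by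
    intro j k a
    refine ⟨fun i => S.sm_D j (S.sm_D k (sf i a)), fun n => ?_⟩
    obtain ⟨C, hC, h⟩ := (F1 k a).2 (n + 1)
    refine ⟨C, hC, fun i => ?_⟩
    have := Bd.D j (h i)
    simpa using this
  obtain ⟨Q, _, d, c1, hc1, hd, hF, hn, hell⟩ := hPi ι b b f c0 hc0 hb (fun i => le_rfl) sf rf
    F1 F2 hgr
  -- constants
  obtain ⟨A1, hA1, a1⟩ := fo_pt F0
  obtain ⟨A2, hA2, a2⟩ := fo_pt (α := κ × Fin 4) (fun x => F1 x.1 x.2)
  obtain ⟨A3, hA3, a3⟩ := unif (α := κ × κ × Fin 4)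
    (p := fun x C => ∀ i p, ‖S.D x.1 (S.D x.2.1 (f i x.2.2)) p‖ ≤ C * b i)
    (fun a C C' h h' i p => (h' i p).trans (mul_le_mul_of_nonneg_right h (hb0 i)))
    (fun x => by
      obtain ⟨C, -, h⟩ := (F2 x.1 x.2.1 x.2.2).2 0
      refine ⟨C, fun i p => ?_⟩
      have := h i [] (by simp) p
      simpa [DAlg.wd] using this)
  let R := {x : Q ⊕ (Q × Q × Bool) // usedRay x}
  have ex0 : ∀ {u : ι → P → ℂ}, S.FO (fun _ => 1) (fun _ => 1) u → ∃ C, ∀ i p, ‖u i p‖ ≤ C := by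
    intro u h
    obtain ⟨C, -, h⟩ := h.2 0
    refine ⟨C, fun i p => ?_⟩
    have := h i [] (by simp) p
    simpa [DAlg.wd] using this
  have ex1 : ∀ {u : ι → P → ℂ} (l : κ), S.FO (fun _ => 1) (fun _ => 1) u →
      ∃ C, ∀ i p, ‖S.D l (u i) p‖ ≤ C := by
    intro u l h
    obtain ⟨C, -, h⟩ := h.2 1
    refine ⟨C, fun i p => ?_⟩
    have := h i [l] (by simp) p
    simpa [DAlg.wd] using this
  obtain ⟨M1, hM1, m1⟩ := unif (α := R × κ)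
    (p := fun x C => ∀ i p, ‖((d i).rays x.1.1).t x.2 p‖ ≤ C)
    (fun a C C' h h' i p => (h' i p).trans h) (fun x => ex0 (hF.t x.1.1 x.1.2 x.2))
  obtain ⟨M2, hM2, m2⟩ := unif (α := R × κ)
    (p := fun x C => ∀ i p, ‖((d i).rays x.1.1).w x.2 p‖ ≤ C)
    (fun a C C' h h' i p => (h' i p).trans h) (fun x => ex0 (hF.w x.1.1 x.1.2 x.2))
  obtain ⟨M3, hM3, m3⟩ := unif (α := R × κ × κ)
    (p := fun x C => ∀ i p, ‖S.D x.2.1 (((d i).rays x.1.1).w x.2.2) p‖ ≤ C)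
    (fun a C C' h h' i p => (h' i p).trans h)
    (fun x => ex1 x.2.1 (hF.w x.1.1 x.1.2 x.2.2))
  obtain ⟨A0, hA0⟩ : ∃ A0 : ℝ, A0 = A1 + A2 + A3 := ⟨_, rfl⟩
  obtain ⟨M, hM⟩ : ∃ M : ℝ, M = M1 + M2 + M3 := ⟨_, rfl⟩
  have hA00 : 0 ≤ A0 := by linarith
  have hM0 : 0 ≤ M := by linarith
  obtain ⟨e0, he0p, he1, hc⟩ := exists_e0 (Fintype.card κ : ℝ) M A0 c1 (Nat.cast_nonneg _)
    hM0 hA00 hc1
  have f0' : ∀ i a p, ‖f i a p‖ ≤ A0 := fun i a p => (a1 a i p).trans (by linarith)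
  have f1' : ∀ i j a p, ‖S.D j (f i a) p‖ ≤ A0 := fun i j a p =>
    (a2 (j, a) i p).trans (by linarith)
  have f2' : ∀ i j k a p, ‖S.D j (S.D k (f i a)) p‖ ≤ A0 * b i := fun i j k a p =>
    (a3 (j, k, a) i p).trans (mul_le_mul_of_nonneg_right (by linarith) (hb0 i))
  have mt' : ∀ i x, usedRay x → ∀ j p, ‖((d i).rays x).t j p‖ ≤ M := fun i x hx j p =>
    (m1 (⟨x, hx⟩, j) i p).trans (by linarith)
  have mw' : ∀ i x, usedRay x → ∀ j p, ‖((d i).rays x).w j p‖ ≤ M := fun i x hx j p =>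
    (m2 (⟨x, hx⟩, j) i p).trans (by linarith)
  have mdw' : ∀ i x, usedRay x → ∀ j k p, ‖S.D j (((d i).rays x).w k) p‖ ≤ M :=
    fun i x hx j k p => (m3 (⟨x, hx⟩, j, k) i p).trans (by linarith)
  have hctx : Ctx S G f b d A0 M c1 κ1 e0 :=
    ⟨hA00, hM0, hc1, hκ1, he0p, he1, iG, rG, sG, hb, sf, rf, f0', f1', f2', F1, F2, hd, hF, hn,
      mt', mw', mdw', hc, hell⟩
  refine assemble S hCo G f b δ (A0 + 1) e0 hb (by linarith) he0p hδ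
    (first (hSt Q) hctx hδ hnear hfo) (fun t ht => ?_)
  obtain ⟨Sm⟩ := hSm (1200 * t)
  exact step (hSt Q) hctx (by omega) Sm

end Vale.Agent.P205.F
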