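import Vale.Agent.P205.F.ItBase

/-!
# P205, T1 iteration: numeric helper lemmas, Gram determinants, uniform constants
-/

open scoped ContDiff

noncomputable section

namespace Vale.Agent.P205.F

namespace It

/-- powers of a number at least one -/
lemma pow_mul_inv_le {z : ℝ} (hz : 1 ≤ z) {a b c : ℕ} (h : a + c ≤ b) :
    z ^ a * (z ^ b)⁻¹ ≤ (z ^ c)⁻¹ := by
  have hz0 : 0 < z := by linarith
  have h1 : z ^ a * z ^ c ≤ z ^ b := by
    rw [← pow_add]; exact pow_le_pow_right₀ hz h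
  rw [← div_eq_mul_inv, div_le_iff₀ (by positivity), inv_mul_eq_div, le_div_iff₀ (by positivity)]
  exact h1

lemma inv_pow_le {z : ℝ} (hz : 1 ≤ z) {b c : ℕ} (h : c ≤ b) : (z ^ b)⁻¹ ≤ (z ^ c)⁻¹ := by
  have := pow_mul_inv_le hz (a := 0) (b := b) (c := c) (by omega)
  simpa using this

lemma inv_pow_le_one {z : ℝ} (hz : 1 ≤ z) (b : ℕ) : (z ^ b)⁻¹ ≤ 1 := by
  have := inv_pow_le hz (b := b) (c := 0) (by omega)
  simpa using this

/-- uniform constants over a finite type -/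
lemma unif {α : Type*} [Finite α] {p : α → ℝ → Prop}
    (hm : ∀ a C C', C ≤ C' → p a C → p a C') (h : ∀ a, ∃ C, p a C) :
    ∃ C, 1 ≤ C ∧ ∀ a, p a C := by
  classical
  have := Fintype.ofFinite α
  choose F hF using h
  refine ⟨1 + ∑ a, |F a|, ?_, fun a => hm a (F a) _ ?_ (hF a)⟩
  · have : 0 ≤ ∑ a, |F a| := Finset.sum_nonneg fun _ _ => abs_nonneg _
    linarith
  · have h1 : |F a| ≤ ∑ b, |F b| :=
      Finset.single_le_sum (f := fun b => |F b|) (fun _ _ => abs_nonneg _) (Finset.mem_univ a)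
    have h2 := le_abs_self (F a)
    linarith

/-- a bound for the first constants of a sequence -/
lemma seq_bound (C : ℕ → ℝ) (k : ℕ) : ∃ B, 1 ≤ B ∧ ∀ l ≤ k, C l ≤ B := by
  obtain ⟨B, hB, h⟩ := unif (α := Fin (k + 1)) (p := fun l B => C l ≤ B)
    (fun a C C' h h' => h'.trans h) (fun a => ⟨_, le_rfl⟩)
  exact ⟨B, hB, fun l hl => h ⟨l, by omega⟩⟩

/-! ### Gram determinants -/

/-- bilinear product of vectors -/
def dt (x y : Fin 4 → ℂ) : ℂ := ∑ i, x i * y i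

/-- Gram determinant of vectors -/
def g3 (x y z : Fin 4 → ℂ) : ℂ :=
  dt x x * (dt y y * dt z z - dt y z * dt y z)
    - dt x y * (dt x y * dt z z - dt y z * dt x z)
    + dt x z * (dt x y * dt y z - dt y y * dt x z)

lemma gram3_eq {P : Type*} (x y z : Fin 4 → P → ℂ) (p : P) :
    gram3 x y z p = g3 (fun a => x a p) (fun a => y a p) (fun a => z a p) := rfl

lemma dt_norm {x y : Fin 4 → ℂ} {R : ℝ} (hR : 0 ≤ R) (hx : ∀ i, ‖x i‖ ≤ R) (hy : ∀ i, ‖y i‖ ≤ R) :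
    ‖dt x y‖ ≤ 4 * R ^ 2 := by
  unfold dt
  refine (norm_sum_le _ _).trans ?_
  have : ∀ i ∈ (Finset.univ : Finset (Fin 4)), ‖x i * y i‖ ≤ R * R := fun i _ => by
    rw [norm_mul]; exact mul_le_mul (hx i) (hy i) (norm_nonneg _) hR
  refine (Finset.sum_le_sum this).trans (le_of_eq ?_)
  simp; ring

lemma dt_sub {x y x' y' : Fin 4 → ℂ} {R e : ℝ} (hR : 0 ≤ R) (he : 0 ≤ e)
    (hy : ∀ i, ‖y i‖ ≤ R) (hx' : ∀ i, ‖x' i‖ ≤ R)
    (hx : ∀ i, ‖x i - x' i‖ ≤ e) (hyy : ∀ i, ‖y i - y' i‖ ≤ e) :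
    ‖dt x y - dt x' y'‖ ≤ 8 * (R * e) := by
  unfold dt
  rw [← Finset.sum_sub_distrib]
  refine (norm_sum_le _ _).trans ?_
  have : ∀ i ∈ (Finset.univ : Finset (Fin 4)), ‖x i * y i - x' i * y' i‖ ≤ 2 * (R * e) :=
    fun i _ => by
      have e1 : x i * y i - x' i * y' i = (x i - x' i) * y i + x' i * (y i - y' i) := by ring
      rw [e1]
      refine (norm_add_le _ _).trans ?_
      rw [norm_mul, norm_mul]
      have h1 : ‖x i - x' i‖ * ‖y i‖ ≤ e * R := mul_le_mul (hx i) (hy i) (norm_nonneg _) he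
      have h2 : ‖x' i‖ * ‖y i - y' i‖ ≤ R * e := mul_le_mul (hx' i) (hyy i) (norm_nonneg _) hR
      linarith
  refine (Finset.sum_le_sum this).trans (le_of_eq ?_)
  simp; ring

lemma triple_sub {a b c a' b' c' : ℂ} {M e : ℝ} (hM : 0 ≤ M)
    (hb : ‖b‖ ≤ M) (hc : ‖c‖ ≤ M) (ha' : ‖a'‖ ≤ M) (hb' : ‖b'‖ ≤ M)
    (ha : ‖a - a'‖ ≤ e) (hbb : ‖b - b'‖ ≤ e) (hcc : ‖c - c'‖ ≤ e) :
    ‖a * b * c - a' * b' * c'‖ ≤ 3 * (M ^ 2 * e) := by
  have he : 0 ≤ e := (norm_nonneg _).trans ha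
  have e1 : a * b * c - a' * b' * c' =
      (a - a') * b * c + a' * (b - b') * c + a' * b' * (c - c') := by ring
  rw [e1]
  refine (norm_add_le _ _).trans ?_
  refine (add_le_add (norm_add_le _ _) le_rfl).trans ?_
  simp only [norm_mul]
  have h1 : ‖a - a'‖ * ‖b‖ * ‖c‖ ≤ e * M * M := by gcongr
  have h2 : ‖a'‖ * ‖b - b'‖ * ‖c‖ ≤ M * e * M := by gcongr
  have h3 : ‖a'‖ * ‖b'‖ * ‖c - c'‖ ≤ M * M * e := by gcongr
  nlinarith

lemma g3_sub {x y z x' y' z' : Fin 4 → ℂ} {R e : ℝ} (hR : 0 ≤ R) (he : 0 ≤ e)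
    (hx : ∀ i, ‖x i‖ ≤ R) (hy : ∀ i, ‖y i‖ ≤ R) (hz : ∀ i, ‖z i‖ ≤ R)
    (hx' : ∀ i, ‖x' i‖ ≤ R) (hy' : ∀ i, ‖y' i‖ ≤ R) (hz' : ∀ i, ‖z' i‖ ≤ R)
    (ex : ∀ i, ‖x i - x' i‖ ≤ e) (ey : ∀ i, ‖y i - y' i‖ ≤ e) (ez : ∀ i, ‖z i - z' i‖ ≤ e) :
    ‖g3 x y z - g3 x' y' z'‖ ≤ 2304 * (R ^ 5 * e) := by
  set M := 4 * R ^ 2 with hM
  set f := 8 * (R * e) with hf
  have hM0 : 0 ≤ M := by positivity
  have nxx := dt_norm hR hx hx
  have nxy := dt_norm hR hx hy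
  have nxz := dt_norm hR hx hz
  have nyy := dt_norm hR hy hy
  have nyz := dt_norm hR hy hz
  have nzz := dt_norm hR hz hz
  have nxx' := dt_norm hR hx' hx'
  have nxy' := dt_norm hR hx' hy'
  have nxz' := dt_norm hR hx' hz'
  have nyy' := dt_norm hR hy' hy'
  have nyz' := dt_norm hR hy' hz'
  have nzz' := dt_norm hR hz' hz'
  have sxx := dt_sub hR he hx hx' ex ex
  have sxy := dt_sub hR he hy hx' ex ey
  have sxz := dt_sub hR he hz hx' ex ez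
  have syy := dt_sub hR he hy hy' ey ey
  have syz := dt_sub hR he hz hy' ey ez
  have szz := dt_sub hR he hz hz' ez ez
  have t1 := triple_sub hM0 nyy nzz nxx' nyy' sxx syy szz
  have t2 := triple_sub hM0 nyz nyz nxx' nyz' sxx syz syz
  have t3 := triple_sub hM0 nxy nzz nxy' nxy' sxy sxy szz
  have t4 := triple_sub hM0 nyz nxz nxy' nyz' sxy syz sxz
  have t5 := triple_sub hM0 nxy nyz nxz' nxy' sxz sxy syz
  have t6 := triple_sub hM0 nyy nxz nxz' nyy' sxz syy sxz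
  have key : g3 x y z - g3 x' y' z' =
      (dt x x * dt y y * dt z z - dt x' x' * dt y' y' * dt z' z')
      - (dt x x * dt y z * dt y z - dt x' x' * dt y' z' * dt y' z')
      - (dt x y * dt x y * dt z z - dt x' y' * dt x' y' * dt z' z')
      + (dt x y * dt y z * dt x z - dt x' y' * dt y' z' * dt x' z')
      + (dt x z * dt x y * dt y z - dt x' z' * dt x' y' * dt y' z')
      - (dt x z * dt y y * dt x z - dt x' z' * dt y' y' * dt x' z') := by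
    unfold g3; ring
  rw [key]
  have hfin : ∀ a b c d e' f' : ℂ, ‖a - b - c + d + e' - f'‖ ≤
      ‖a‖ + ‖b‖ + ‖c‖ + ‖d‖ + ‖e'‖ + ‖f'‖ := by
    intro a b c d e' f'
    refine (norm_sub_le _ _).trans (add_le_add ?_ le_rfl)
    refine (norm_add_le _ _).trans (add_le_add ?_ le_rfl)
    refine (norm_add_le _ _).trans (add_le_add ?_ le_rfl)
    refine (norm_sub_le _ _).trans (add_le_add ?_ le_rfl)
    exact norm_sub_le _ _
  refine (hfin _ _ _ _ _ _).trans ?_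
  have tot : 3 * (M ^ 2 * f) * 6 = 2304 * (R ^ 5 * e) := by rw [hM, hf]; ring
  linarith

end It

end Vale.Agent.P205.F
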