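import Vale.Agent.P205.F.ItCore

/-!
# P205, T1U iteration: the first step and the general step
-/

open scoped ContDiff

noncomputable section

namespace Vale.Agent.P205.F

namespace It

universe u

variable {P : Type u} {κ : Type} {S : DAlg P κ}

/-! ### families -/

lemma fo_re {ι J : Type*} {μ s : ι → ℝ} {u : ι → P → ℂ} (h : S.FO μ s u) (g : J → ι) :
    S.FO (fun x => μ (g x)) (fun x => s (g x)) (fun x => u (g x)) :=
  ⟨fun x => h.1 (g x), fun k => by
    obtain ⟨C, hC, h'⟩ := h.2 k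
    exact ⟨C, hC, fun x => h' (g x)⟩⟩

lemma fo_mono {ι : Type*} {μ μ' s : ι → ℝ} {u : ι → P → ℂ} (h : S.FO μ s u)
    (h0 : ∀ x, 0 ≤ μ x) (hμ : ∀ x, μ x ≤ μ' x) (hs : ∀ x, 0 ≤ s x) : S.FO μ' s u :=
  ⟨h.1, fun k => by
    obtain ⟨C, hC, h'⟩ := h.2 k
    exact ⟨C, hC, fun x => Bd.mono (h' x) le_rfl (h0 x) (hμ x) (mul_nonneg hC (hs x)) le_rfl⟩⟩

lemma fbd_re {Q : Type} {ι J : Type*} {d : ι → PData P κ Q} {θ : ι → ℝ}
    (h : PData.FBd S d θ) (g : J → ι) {θ' : J → ℝ} (h0 : ∀ x, 0 ≤ θ (g x))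
    (hθ : ∀ x, θ (g x) ≤ θ' x) : PData.FBd S (fun x => d (g x)) θ' where
  Ψ := fun x hx j => fo_re (h.Ψ x hx j) g
  t := fun x hx j => fo_re (h.t x hx j) g
  w := fun x hx j => fo_re (h.w x hx j) g
  β := fun x hx j => fo_re (h.β x hx j) g
  χ := fun a => fo_mono (fo_re (h.χ a) g) h0 hθ (fun _ => zero_le_one)
  ℓ := fun a j k => fo_re (h.ℓ a j k) g

/-- pointwise bounds from `FO` at scale one -/
lemma fo_pt {ι α : Type*} [Finite α] {μ : ι → ℝ} {u : α → ι → P → ℂ}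
    (h : ∀ a, S.FO μ (fun _ => 1) (u a)) :
    ∃ C, 1 ≤ C ∧ ∀ a i p, ‖u a i p‖ ≤ C := by
  refine unif (fun a C C' h h' i p => (h' i p).trans h) fun a => ?_
  obtain ⟨C, -, h'⟩ := (h a).2 0
  refine ⟨C, fun i p => ?_⟩
  have := h' i [] (by simp) p
  simpa [DAlg.wd] using this

/-! ### the new state -/

lemma new_inv {G : κ → κ → P → ℂ} {f X y : Fin 4 → P → ℂ} {A0 b C z θ μ e' s E δ' : ℝ} {N : ℕ}
    (hA0 : 0 ≤ A0) (hb : 1 ≤ b) (hC : 0 ≤ C) (hz : 2 * C + 2 ≤ z) (hθ1 : 1 ≤ θ)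
    (hθμ : θ ≤ μ * z ^ 2) (hs : s ≤ z⁻¹) (he1 : e' + s ≤ 1)
    (hE0 : 0 ≤ E)
    (hX : ∀ a, S.Sm (X a)) (hXr : ∀ a, Rl (X a)) (hy : ∀ a, S.Sm (y a)) (hyr : ∀ a, Rl (y a))
    (f1 : ∀ j a p, ‖S.D j (f a) p‖ ≤ A0) (f2 : ∀ j k a p, ‖S.D j (S.D k (f a)) p‖ ≤ A0 * b)
    (X1 : ∀ j a, S.Bd θ N C (S.D j (X a))) (X2 : ∀ j k a, S.Bd θ N (C * b) (S.D j (S.D k (X a))))
    (y0 : ∀ a, S.Bd (θ * z ^ 2) N s (y a)) (y1 : ∀ j a, S.Bd (θ * z ^ 2) N s (S.D j (y a)))
    (y2 : ∀ j k a, S.Bd (θ * z ^ 2) N (s * b) (S.D j (S.D k (y a))))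
    (c0 : ∀ a p, ‖X a p - f a p‖ ≤ e') (c1 : ∀ j a p, ‖S.D j (X a) p - S.D j (f a) p‖ ≤ e')
    (c2 : ∀ j k a p, ‖S.D j (S.D k (X a)) p - S.D j (S.D k (f a)) p‖ ≤ e' * b)
    (hE : ∀ j k, S.Bd (θ * z ^ 2) N E
        (fun p => G j k p - S.met (fun a p => X a p + y a p) j k p - (δ' : ℂ) * G j k p)) :
    Inv S G f b (A0 + 1) N δ' E (μ * z ^ 4) (e' + s) (fun a p => X a p + y a p) := by
  have hz2 : 2 ≤ z := by linarith
  have hz0 : 0 < z := by linarith
  have hz1 : 1 ≤ z := by linarith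
  have hb0 : 0 < b := by linarith
  have hθ0 : 0 < θ := by linarith
  have hν1 : 1 ≤ θ * z ^ 2 := by
    have : 1 ≤ z ^ 2 := one_le_pow₀ hz1
    nlinarith
  have hν0 : 0 ≤ θ * z ^ 2 := by linarith
  have hνμ : θ * z ^ 2 ≤ μ * z ^ 4 := by
    calc θ * z ^ 2 ≤ μ * z ^ 2 * z ^ 2 := by gcongr
      _ = _ := by ring
  have D1 : ∀ j a, S.D j (fun p => X a p + y a p) = fun p => S.D j (X a) p + S.D j (y a) p :=
    fun j a => S.D_add j (hX a) (hy a)
  have D2 : ∀ j k a, S.D j (S.D k (fun p => X a p + y a p)) =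
      fun p => S.D j (S.D k (X a)) p + S.D j (S.D k (y a)) p := fun j k a => by
    rw [D1]; exact S.D_add j (S.sm_D k (hX a)) (S.sm_D k (hy a))
  have nil : ∀ {μ C : ℝ} {u : P → ℂ}, S.Bd μ N C u → ∀ p, ‖u p‖ ≤ C := by
    intro μ C u h p
    simpa [DAlg.wd] using h [] (by simp) p
  have q1 : ∀ j a p, ‖S.D j (X a) p + S.D j (y a) p - S.D j (f a) p‖ ≤ e' + s := by
    intro j a p
    have : S.D j (X a) p + S.D j (y a) p - S.D j (f a) p =
      (S.D j (X a) p - S.D j (f a) p) + S.D j (y a) p := by ring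
    rw [this]
    exact (norm_add_le _ _).trans (add_le_add (c1 j a p) (nil (y1 j a) p))
  have q2 : ∀ j k a p, ‖S.D j (S.D k (X a)) p + S.D j (S.D k (y a)) p
      - S.D j (S.D k (f a)) p‖ ≤ (e' + s) * b := by
    intro j k a p
    have : S.D j (S.D k (X a)) p + S.D j (S.D k (y a)) p - S.D j (S.D k (f a)) p =
      (S.D j (S.D k (X a)) p - S.D j (S.D k (f a)) p) + S.D j (S.D k (y a)) p := by ring
    rw [this]
    refine (norm_add_le _ _).trans ((add_le_add (c2 j k a p) (nil (y2 j k a) p)).trans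
      (le_of_eq (by ring)))
  -- high orders
  have high : ∀ (B : ℝ) (u v : P → ℂ), 1 ≤ B → S.Sm u → S.Sm v → S.Bd θ N (C * B) u →
      S.Bd (θ * z ^ 2) N (s * B) v → (∀ p, ‖u p + v p‖ ≤ (A0 + 1) * B) →
      S.Bd (μ * z ^ 4) N ((A0 + 1) * B) (fun p => u p + v p) := by
    intro B u v hB su sv bu bv h0 w hw p
    have hB0 : 0 < B := by linarith
    by_cases hw0 : w.length = 0
    · obtain rfl := List.eq_nil_of_length_eq_zero hw0
      simpa [DAlg.wd] using h0 p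
    · have e : S.wd w (fun p => u p + v p) = S.wd w u + S.wd w v := wd_add w su sv
      rw [e]
      have hk : 1 ≤ w.length := by omega
      have r1 : θ ^ w.length ≤ z⁻¹ * (θ * z ^ 2) ^ w.length := by
        rw [mul_pow, ← pow_mul]
        have : z * 1 ≤ z ^ (2 * w.length) := by
          rw [mul_one]
          calc z = z ^ 1 := (pow_one z).symm
            _ ≤ _ := pow_le_pow_right₀ hz1 (by omega)
        calc θ ^ w.length = z⁻¹ * (θ ^ w.length * (z * 1)) := by field_simp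
          _ ≤ _ := by gcongr
      have r2 : C * z⁻¹ ≤ 1 / 2 := by
        rw [← div_eq_mul_inv, div_le_iff₀ hz0]; linarith
      have r3 : s ≤ 1 / 2 := by
        refine hs.trans ?_
        rw [inv_le_comm₀ hz0 (by norm_num)]; linarith
      have r4 : (θ * z ^ 2) ^ w.length ≤ (μ * z ^ 4) ^ w.length :=
        pow_le_pow_left₀ hν0 hνμ _
      have r5 : 0 ≤ (θ * z ^ 2) ^ w.length := by positivity
      calc ‖(S.wd w u + S.wd w v) p‖ ≤ ‖S.wd w u p‖ + ‖S.wd w v p‖ := norm_add_le _ _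
        _ ≤ C * B * θ ^ w.length + s * B * (θ * z ^ 2) ^ w.length :=
          add_le_add (bu w hw p) (bv w hw p)
        _ ≤ C * B * (z⁻¹ * (θ * z ^ 2) ^ w.length) + s * B * (θ * z ^ 2) ^ w.length := by
          gcongr
        _ = (C * z⁻¹ + s) * (B * (θ * z ^ 2) ^ w.length) := by ring
        _ ≤ 1 * (B * (θ * z ^ 2) ^ w.length) := by
          gcongr; linarith
        _ ≤ (A0 + 1) * (B * (μ * z ^ 4) ^ w.length) := by
          gcongr; linarith
        _ = _ := by ring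
  refine ⟨fun a => S.sm_add (hX a) (hy a), fun a p => ?_, fun j a => ?_, fun j k a => ?_,
    fun j k => ?_, fun a p => ?_, fun j a p => ?_, fun j k a p => ?_⟩
  · rw [Complex.add_im, hXr a p, hyr a p, add_zero]
  · rw [D1]
    have := high 1 (S.D j (X a)) (S.D j (y a)) le_rfl (S.sm_D j (hX a)) (S.sm_D j (hy a))
      (by simpa using X1 j a) (by simpa using y1 j a) (fun p => by
        have h1 := q1 j a p
        have h2 := f1 j a p
        have h3 : S.D j (X a) p + S.D j (y a) p =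
          (S.D j (X a) p + S.D j (y a) p - S.D j (f a) p) + S.D j (f a) p := by ring
        rw [h3]
        exact (norm_add_le _ _).trans (by linarith))
    simpa using this
  · rw [D2]
    exact high b (S.D j (S.D k (X a))) (S.D j (S.D k (y a))) hb (S.sm_D j (S.sm_D k (hX a)))
      (S.sm_D j (S.sm_D k (hy a))) (X2 j k a) (y2 j k a) (fun p => by
        have h1 := q2 j k a p
        have h2 := f2 j k a p
        have h3 : S.D j (S.D k (X a)) p + S.D j (S.D k (y a)) p =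
          (S.D j (S.D k (X a)) p + S.D j (S.D k (y a)) p - S.D j (S.D k (f a)) p)
            + S.D j (S.D k (f a)) p := by ring
        rw [h3]
        have h4 : (e' + s) * b ≤ 1 * b := by gcongr
        exact (norm_add_le _ _).trans (by linarith))
  · exact Bd.mono (hE j k) le_rfl hν0 hνμ hE0 le_rfl
  · have h1 := c0 a p
    have h2 := nil (y0 a) p
    have h3 : X a p + y a p - f a p = (X a p - f a p) + y a p := by ring
    rw [h3]
    exact (norm_add_le _ _).trans (add_le_add h1 h2)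
  · rw [D1]; exact q1 j a p
  · rw [D2]; exact q2 j k a p

/-! ### the context of the iteration -/

/-- the fixed data of the iteration -/
structure Ctx (S : DAlg P κ) [Fintype κ] {ι : Type u} {Q : Type} [Fintype Q]
    (G : κ → κ → P → ℂ) (f : ι → Fin 4 → P → ℂ) (b : ι → ℝ) (d : ι → PData P κ Q)
    (A0 M c1 κ1 e0 : ℝ) : Prop where
  hA0 : 0 ≤ A0
  hM : 0 ≤ M
  hc1 : 0 < c1
  hκ1 : 0 < κ1
  he0 : 0 < e0
  he1 : 2 * e0 ≤ 1
  iG : S.IsT G
  rG : ∀ j k, Rl (G j k)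
  sG : ∀ j k, S.Sm (G j k)
  hb : ∀ i, 1 ≤ b i
  sf : ∀ i a, S.Sm (f i a)
  rf : ∀ i a, Rl (f i a)
  f0 : ∀ i a p, ‖f i a p‖ ≤ A0
  f1 : ∀ i j a p, ‖S.D j (f i a) p‖ ≤ A0
  f2 : ∀ i j k a p, ‖S.D j (S.D k (f i a)) p‖ ≤ A0 * b i
  F1 : ∀ j a, S.FO b (fun _ => 1) (fun i => S.D j (f i a))
  F2 : ∀ j k a, S.FO b b (fun i => S.D j (S.D k (f i a)))
  hd : ∀ i, (d i).Ok S
  hF : PData.FBd S d b
  hn : ∀ i, (d i).Nondeg S c1 (b i) (f i)
  mt : ∀ i x, usedRay x → ∀ j p, ‖((d i).rays x).t j p‖ ≤ M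
  mw : ∀ i x, usedRay x → ∀ j p, ‖((d i).rays x).w j p‖ ≤ M
  mdw : ∀ i x, usedRay x → ∀ j k p, ‖S.D j (((d i).rays x).w k) p‖ ≤ M
  hc : 2304 * ((2 * ((Fintype.card κ + 1) ^ 2 * (M + 1) ^ 2) * (A0 + 1)) ^ 5 *
        (2 * ((Fintype.card κ + 1) ^ 2 * (M + 1) ^ 2) * (2 * e0))) ≤ c1 / 2
  hell : ∀ i a (T : κ → κ → P → ℂ), (∀ j k p, ‖T j k p - G j k p‖ ≤ κ1) →
    ∀ p ∈ ((d i).ray a).K, c1 ≤ ((d i).ell a T p).re

section Main

variable [Fintype κ] {ι : Type u} {Q : Type} [Fintype Q] {G : κ → κ → P → ℂ}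
  {f : ι → Fin 4 → P → ℂ} {b : ι → ℝ} {d : ι → PData P κ Q} {A0 M c1 κ1 e0 : ℝ}

/-- **the general step** -/
theorem step (hSt : S.StageF Q) (c : Ctx S G f b d A0 M c1 κ1 e0) {t : ℕ} (ht : 3 ≤ t)
    (Sm : S.Smoothing (1200 * t)) : Step S G f b (A0 + 1) e0 t := by
  intro N
  have hA : 1 ≤ A0 + 1 := by linarith [c.hA0]
  obtain ⟨C1, hC1, H1⟩ := xt_appr' (G := G) (f := f) (b := b) (e0 := e0) (by omega : 1 ≤ t) Sm hA
  obtain ⟨C2, hC2, H2⟩ := ten_near (G := G) (f := f) (b := b) (e0 := e0) (by omega : 1 ≤ t) Sm hA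
    c.sG
  have he0 := c.he0
  have hκ1 := c.hκ1
  set z1 : ℝ := 2 + C1 / e0 + C1 + C2 / κ1 with hz1
  have hz1_1 : 1 ≤ z1 := by
    have h1 : 0 ≤ C1 / e0 := by positivity
    have h2 : 0 ≤ C2 / κ1 := by positivity
    rw [hz1]; linarith
  -- smallness for z ≥ z1
  have small : ∀ z, z1 ≤ z → ∀ n, 1 ≤ n → C1 * (z ^ n)⁻¹ ≤ e0 ∧ C2 * (z ^ n)⁻¹ ≤ κ1 := by
    intro z hz n hn
    have h1 : 0 ≤ C1 / e0 := by positivity
    have h2 : 0 ≤ C2 / κ1 := by positivity
    have hz1' : 1 ≤ z := by linarith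
    have hz0 : 0 < z := by linarith
    have h3 : (z ^ n)⁻¹ ≤ z⁻¹ := by
      have := inv_pow_le hz1' (b := n) (c := 1) hn
      simpa using this
    have h4 : C1 / e0 ≤ z := by linarith
    have h5 : C2 / κ1 ≤ z := by linarith
    rw [div_le_iff₀ he0] at h4
    rw [div_le_iff₀ hκ1] at h5
    constructor
    · calc C1 * (z ^ n)⁻¹ ≤ C1 * z⁻¹ := by gcongr
        _ ≤ e0 := by rw [← div_eq_mul_inv, div_le_iff₀ hz0]; linarith
    · calc C2 * (z ^ n)⁻¹ ≤ C2 * z⁻¹ := by gcongr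
        _ ≤ κ1 := by rw [← div_eq_mul_inv, div_le_iff₀ hz0]; linarith
  let J : Type u := {x : ι × ℝ × ℝ × (Fin 4 → P → ℂ) // z1 ≤ x.2.1 ∧
    Adm S G f b (A0 + 1) e0 t x.1 x.2.1 x.2.2.1 x.2.2.2}
  let zz : J → ℝ := fun x => x.1.2.1
  let μμ : J → ℝ := fun x => x.1.2.2.1
  let XX : J → Fin 4 → P → ℂ := fun x => xt Sm x.1.2.1 x.1.2.2.1 x.1.2.2.2
  have adm : ∀ x : J, Adm S G f b (A0 + 1) e0 t x.1.1 (zz x) (μμ x) x.1.2.2.2 := fun x => x.2.2
  have hzz1 : ∀ x : J, z1 ≤ zz x := fun x => x.2.1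
  have hzz : ∀ x : J, 1 ≤ zz x := fun x => (adm x).hz
  have hμμ : ∀ x : J, 1 ≤ μμ x := fun x => (adm x).hμ1
  have hzz2 : ∀ x : J, 1 ≤ zz x ^ 2 := fun x => one_le_pow₀ (hzz x)
  -- closeness of the smoothed map
  have cl1 : ∀ (x : J) j a p, ‖S.D j (XX x a) p - S.D j (f x.1.1 a) p‖ ≤ 2 * e0 := by
    intro x j a p
    have h1 := (H1 _ _ _ _ (adm x)).2.1 j a [] (by simp) p
    have h2 := (adm x).inv.c1 j a p
    simp only [DAlg.wd, List.length_nil, pow_zero, mul_one] at h1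
    have h3 := h1.trans (small _ (hzz1 x) _ (by omega)).1
    rw [D_sub j ((adm x).inv.sm a) ((adm x).sm Sm a)] at h3
    have h4 : S.D j (XX x a) p - S.D j (f x.1.1 a) p =
      (S.D j (x.1.2.2.2 a) p - S.D j (f x.1.1 a) p) -
        (S.D j (x.1.2.2.2 a) p - S.D j (XX x a) p) := by ring
    rw [h4]
    refine (norm_sub_le _ _).trans ?_
    have h5 : ‖S.D j (x.1.2.2.2 a) p - S.D j (XX x a) p‖ ≤ e0 := h3
    linarith
  have cl2 : ∀ (x : J) j k a p,
      ‖S.D j (S.D k (XX x a)) p - S.D j (S.D k (f x.1.1 a)) p‖ ≤ 2 * e0 * b x.1.1 := by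
    intro x j k a p
    have hb := (adm x).hb
    have h1 := (H1 _ _ _ _ (adm x)).2.2 j k a [] (by simp) p
    have h2 := (adm x).inv.c2 j k a p
    simp only [DAlg.wd, List.length_nil, pow_zero, mul_one] at h1
    have h3 := h1.trans (mul_le_mul_of_nonneg_right (small _ (hzz1 x) _ (by omega)).1
      (by linarith : 0 ≤ b x.1.1))
    rw [D_sub k ((adm x).inv.sm a) ((adm x).sm Sm a),
      D_sub j (S.sm_D k ((adm x).inv.sm a)) (S.sm_D k ((adm x).sm Sm a))] at h3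
    have h4 : S.D j (S.D k (XX x a)) p - S.D j (S.D k (f x.1.1 a)) p =
      (S.D j (S.D k (x.1.2.2.2 a)) p - S.D j (S.D k (f x.1.1 a)) p) -
        (S.D j (S.D k (x.1.2.2.2 a)) p - S.D j (S.D k (XX x a)) p) := by ring
    rw [h4]
    refine (norm_sub_le _ _).trans ?_
    have h5 : ‖S.D j (S.D k (x.1.2.2.2 a)) p - S.D j (S.D k (XX x a)) p‖ ≤ e0 * b x.1.1 := h3
    linarith
  have hcore := core (S := S) hSt ht (J := J) c.sG zz (fun x => b x.1.1)
    (fun x => μμ x * zz x ^ 2) (fun x => d x.1.1) XX (c1 / 2) (by linarith [c.hc1]) hzz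
    (fun x => c.hb _)
    (fun x => by
      have h1 := (adm x).hμb
      have h2 := hzz2 x
      have h3 := hμμ x
      nlinarith)
    (fun x => by
      have h1 := (adm x).hμ
      calc μμ x * zz x ^ 2 ≤ b x.1.1 * zz x ^ 32 * zz x ^ 2 := by
            have := hzz x
            gcongr
        _ = _ := by ring)
    (fun x => c.hd _)
    (fbd_re c.hF (fun x : J => x.1.1) (fun x => by linarith [c.hb x.1.1])
      (fun x => by
        have h1 := (adm x).hμb
        have h2 := hzz2 x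
        have h3 := hμμ x
        nlinarith))
    (fun x => nondeg_near (c.hd _) ((adm x).sm Sm) (c.sf _) c.hM c.hA0 (c.hb _)
      (by linarith : (0 : ℝ) ≤ 2 * e0) c.he1 (c.mt _) (c.mw _) (c.mdw _) (c.f1 _) (c.f2 _)
      (cl1 x) (cl2 x) c.hc (c.hn _))
    (fun x => (adm x).sm Sm) (fun x => (adm x).rl Sm)
    (fun j a => ⟨fun x => S.sm_D j ((adm x).sm Sm a), fun k => by
      obtain ⟨C, hC, h⟩ := xt_bd (G := G) (f := f) (b := b) (e0 := e0) (t := t) Sm hA k
      refine ⟨C, by linarith, fun x => ?_⟩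
      have h1 := hzz x
      have h2 := hμμ x
      exact Bd.mono ((h _ _ _ _ (adm x)).2.1 j a) le_rfl (by positivity)
        (by nlinarith [mul_pos (by linarith : 0 < μμ x) (by linarith : 0 < zz x)])
        (by linarith) (by linarith)⟩)
    (fun j k a => ⟨fun x => S.sm_D j (S.sm_D k ((adm x).sm Sm a)), fun k' => by
      obtain ⟨C, hC, h⟩ := xt_bd (G := G) (f := f) (b := b) (e0 := e0) (t := t) Sm hA k'
      refine ⟨C, by linarith, fun x => ?_⟩
      have h1 := hzz x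
      have h2 := hμμ x
      have h3 := c.hb x.1.1
      exact Bd.mono ((h _ _ _ _ (adm x)).2.2 j k a) le_rfl (by positivity)
        (by nlinarith [mul_pos (by linarith : 0 < μμ x) (by linarith : 0 < zz x)])
        (by positivity) le_rfl⟩)
    (fun x => ten_isT c.iG ((adm x).sm Sm) _ _)
    (fun x => ten_rl c.rG ((adm x).sm Sm) ((adm x).rl Sm) _ _)
    (fun j k => ⟨fun x => ten_sm c.sG ((adm x).sm Sm) _ _ j k, fun k' => by
      obtain ⟨C, hC, h⟩ := ten_fo (G := G) (f := f) (b := b) (e0 := e0) (by omega : 1 ≤ t) Sm hA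
        c.sG k'
      refine ⟨C, by linarith, fun x => ?_⟩
      rw [mul_one]
      exact h _ _ _ _ (adm x) j k⟩)
    (fun x a p hp => by
      have h1 := c.hell x.1.1 a (ten S G ((zz x ^ (400 * t))⁻¹) ((zz x ^ (500 * t))⁻¹) (XX x))
        (fun j k q => by
          have h2 := H2 _ _ _ _ (adm x) j k [] (by simp) q
          simp only [DAlg.wd, List.length_nil, pow_zero, mul_one] at h2
          exact h2.trans (small _ (hzz1 x) _ (by omega)).2) p hp
      linarith [c.hc1]) (N + 400 * t)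
  obtain ⟨z2, hz2, hcore⟩ := hcore
  obtain ⟨C3, hC3, H3⟩ := xt_bd (G := G) (f := f) (b := b) (e0 := e0) (t := t) Sm hA N
  refine ⟨z1 + z2 + 2 * C3 + 2, by linarith, fun i z μ e X hz hbμ hμ he hee hinv => ?_⟩
  have hz_1 : 1 ≤ z := by linarith
  have hz_2 : 2 ≤ z := by linarith
  have hz0 : 0 < z := by linarith
  have hzz1' : z1 ≤ z := by linarith
  have hpos : 0 ≤ (z ^ (100 * t))⁻¹ := by positivity
  have hb := c.hb i
  have hadm : Adm S G f b (A0 + 1) e0 t i z μ X := by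
    refine ⟨hb, hz_1, hbμ, hμ, hinv.mono le_rfl (by positivity) le_rfl (by linarith)
      (by linarith) (by linarith) (by linarith), fun a p => ?_⟩
    have h1 := hinv.c0 a p
    have h2 := c.f0 i a p
    have h3 : X a p = (X a p - f i a p) + f i a p := by ring
    rw [h3]
    have h4 := c.he1
    exact (norm_add_le _ _).trans (by linarith)
  obtain ⟨y, ys, yr, y0, y1, y2, yE⟩ := hcore ⟨(i, z, μ, X), hzz1', hadm⟩ (by
    change z2 ≤ z
    linarith)
  change ∀ a, S.Bd (μ * z ^ 2 * z ^ 2) (N + 400 * t) ((z ^ (170 * t))⁻¹) (y a) at y0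
  change ∀ j a, S.Bd (μ * z ^ 2 * z ^ 2) (N + 400 * t) ((z ^ (170 * t))⁻¹) (S.D j (y a)) at y1
  change ∀ j k a, S.Bd (μ * z ^ 2 * z ^ 2) (N + 400 * t) ((z ^ (170 * t))⁻¹ * b i)
    (S.D j (S.D k (y a))) at y2
  change ∀ j k, S.Bd (μ * z ^ 2 * z ^ 2) (N + 400 * t) ((z ^ (505 * t))⁻¹)
        (fun p => G j k p - S.met (fun a p => xt Sm z μ X a p + y a p) j k p
          - ((z ^ (500 * t))⁻¹ : ℝ) * G j k p) at yE
  have hμ1 := hadm.hμ1
  have hμ0 : 0 < μ := by linarith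
  have hν : 0 ≤ μ * z ^ 2 * z ^ 2 := by positivity
  -- numerical bounds
  have n1 : C1 * (z ^ (1200 * t))⁻¹ ≤ (z ^ (170 * t))⁻¹ := by
    have h1 : C1 ≤ z := by
      have h2 : 0 ≤ C1 / e0 := by positivity
      have h3 : 0 ≤ C2 / κ1 := by positivity
      linarith
    calc C1 * (z ^ (1200 * t))⁻¹ ≤ z ^ 1 * (z ^ (1200 * t))⁻¹ := by
          rw [pow_one]; gcongr
      _ ≤ _ := pow_mul_inv_le hz_1 (by omega)
  have n2 : 2 * (z ^ (170 * t))⁻¹ ≤ (z ^ (160 * t))⁻¹ := by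
    calc 2 * (z ^ (170 * t))⁻¹ ≤ z ^ 1 * (z ^ (170 * t))⁻¹ := by
          rw [pow_one]; gcongr
      _ ≤ _ := pow_mul_inv_le hz_1 (by omega)
  have n3 : (z ^ (160 * t))⁻¹ ≤ (z ^ (100 * t))⁻¹ := inv_pow_le hz_1 (by omega)
  have n4 : (z ^ (170 * t))⁻¹ ≤ z⁻¹ := by
    have := inv_pow_le hz_1 (b := 170 * t) (c := 1) (by omega)
    simpa using this
  have hE1 := H1 _ _ _ _ hadm
  set s := (z ^ (170 * t))⁻¹ with hs
  have hs0 : 0 ≤ s := by positivity
  have nil : ∀ {μ C : ℝ} {M : ℕ} {u : P → ℂ}, S.Bd μ M C u → ∀ p, ‖u p‖ ≤ C := by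
    intro μ C M u h p
    simpa [DAlg.wd] using h [] (by simp) p
  have hmono : ∀ {C : ℝ} {u : P → ℂ}, 0 ≤ C → S.Bd (μ * z ^ 2 * z ^ 2) (N + 400 * t) C u →
      S.Bd (μ * z ^ 2 * z ^ 2) N C u := fun hC h => Bd.mono h (by omega) hν le_rfl hC le_rfl
  have hxt := H3 _ _ _ _ hadm
  have hθ := hadm.hθ
  have hz2' : z ≤ z ^ 2 := by nlinarith
  have hθ2 : μ * z ≤ μ * z ^ 2 := by gcongr
  have hinv' := new_inv (S := S) (G := G) (f := f i) (X := xt Sm z μ X) (y := y) (A0 := A0)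
    (b := b i) (C := C3) (z := z) (θ := μ * z ^ 2) (μ := μ) (e' := e + s) (s := s)
    (E := (z ^ (505 * t))⁻¹) (δ' := (z ^ (500 * t))⁻¹) (N := N) c.hA0 hb (by linarith)
    (by linarith) (hθ.trans hθ2) le_rfl n4 (by
      have := c.he1
      linarith) (by positivity)
    (hadm.sm Sm) (hadm.rl Sm) ys yr (c.f1 i) (c.f2 i)
    (fun j a => Bd.mono (hxt.2.1 j a) le_rfl (by positivity) hθ2 (by linarith) le_rfl)
    (fun j k a => Bd.mono (hxt.2.2 j k a) le_rfl (by positivity) hθ2 (by positivity) le_rfl)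
    (fun a => hmono hs0 (y0 a)) (fun j a => hmono hs0 (y1 j a))
    (fun j k a => hmono (by positivity) (y2 j k a))
    (fun a p => by
      have h1 := nil (hE1.1 a) p
      have h2 := hinv.c0 a p
      have h4 : xt Sm z μ X a p - f i a p = (X a p - f i a p) - (X a p - xt Sm z μ X a p) := by
        ring
      rw [h4]
      exact (norm_sub_le _ _).trans (by linarith))
    (fun j a p => by
      have h1 := nil (hE1.2.1 j a) p
      rw [D_sub j (hadm.inv.sm a) (hadm.sm Sm a)] at h1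
      have h2 := hinv.c1 j a p
      have h4 : S.D j (xt Sm z μ X a) p - S.D j (f i a) p = (S.D j (X a) p - S.D j (f i a) p) -
        (S.D j (X a) p - S.D j (xt Sm z μ X a) p) := by ring
      rw [h4]
      exact (norm_sub_le _ _).trans (by linarith))
    (fun j k a p => by
      have h1 := nil (hE1.2.2 j k a) p
      rw [D_sub k (hadm.inv.sm a) (hadm.sm Sm a),
        D_sub j (S.sm_D k (hadm.inv.sm a)) (S.sm_D k (hadm.sm Sm a))] at h1
      have h2 := hinv.c2 j k a p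
      have h4 : S.D j (S.D k (xt Sm z μ X a)) p - S.D j (S.D k (f i a)) p =
        (S.D j (S.D k (X a)) p - S.D j (S.D k (f i a)) p) -
        (S.D j (S.D k (X a)) p - S.D j (S.D k (xt Sm z μ X a)) p) := by ring
      rw [h4]
      have h5 : C1 * (z ^ (1200 * t))⁻¹ * b i ≤ s * b i := by gcongr
      exact (norm_sub_le _ _).trans (by linarith))
    (fun j k => hmono (by positivity) (yE j k))
  refine ⟨fun a p => xt Sm z μ X a p + y a p, ?_, fun a => ?_⟩
  · exact hinv'.mono le_rfl (by positivity) le_rfl (by linarith) (by linarith)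
      (by linarith [c.hA0]) (by positivity)
  · have hμz : μ ≤ μ * z ^ 4 := by
      have : 1 ≤ z ^ 4 := one_le_pow₀ hz_1
      nlinarith
    have h1 := Bd.mono (hE1.1 a) le_rfl hμ0.le hμz (by positivity) n1
    have h2 : S.Bd (μ * z ^ 4) (400 * t) s (y a) := by
      have e : μ * z ^ 2 * z ^ 2 = μ * z ^ 4 := by ring
      rw [← e]
      exact Bd.mono (y0 a) (by omega) hν le_rfl hs0 le_rfl
    have h3 := Bd.sub (ys a) (sm_sub (hadm.inv.sm a) (hadm.sm Sm a)) h2 h1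
    have e : (fun p => y a p - (X a p - xt Sm z μ X a p)) =
        fun p => xt Sm z μ X a p + y a p - X a p := by
      funext p; ring
    rw [e] at h3
    exact Bd.monoC h3 (by positivity) (by linarith)

/-- **the first step** -/
theorem first (hSt : S.StageF Q) (c : Ctx S G f b d A0 M c1 κ1 e0) {δ : ι → ℝ}
    (hδ : ∀ i, 0 < δ i)
    (hnear : ∀ i j k p, ‖G j k p - S.met (f i) j k p - δ i * G j k p‖ ≤ κ1 / 2 * δ i)
    (hfo : ∀ j k, S.FO b δ (fun i p => G j k p - S.met (f i) j k p)) :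
    First S G f b δ (A0 + 1) := by
  intro N
  have hκ1 := c.hκ1
  obtain ⟨CG, hCG1, hCG⟩ := unif (α := κ × κ) (p := fun x C => ∀ p, ‖G x.1 x.2 p‖ ≤ C)
    (fun a C C' h h' p => (h' p).trans h) (fun x => S.bdd (c.sG x.1 x.2))
  set z1 : ℝ := 2 + 2 * CG / κ1 with hz1
  have hz1_1 : 2 ≤ z1 := by
    have h1 : 0 ≤ 2 * CG / κ1 := by positivity
    rw [hz1]; linarith
  let J : Type u := {x : ι × ℝ // z1 ≤ x.2 ∧ δ x.1 * x.2 ^ (400 * 10) = 1}
  let zz : J → ℝ := fun x => x.1.2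
  have hzz1 : ∀ x : J, z1 ≤ zz x := fun x => x.2.1
  have hzz : ∀ x : J, 1 ≤ zz x := fun x => by linarith [hzz1 x]
  have hzz0 : ∀ x : J, 0 < zz x := fun x => by linarith [hzz1 x]
  have hδz : ∀ x : J, (zz x ^ (400 * 10))⁻¹ = δ x.1.1 := fun x => by
    exact (eq_inv_of_mul_eq_one_left x.2.2).symm
  have hδz' : ∀ x : J, ((zz x ^ (400 * 10))⁻¹)⁻¹ * δ x.1.1 = 1 := fun x => by
    rw [hδz]; exact inv_mul_cancel₀ (hδ _).ne'
  have hcore := core (S := S) hSt (t := 10) (by norm_num) (J := J) c.sG zz (fun x => b x.1.1)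
    (fun x => b x.1.1) (fun x => d x.1.1) (fun x => f x.1.1) (c1 / 2) (by linarith [c.hc1]) hzz
    (fun x => c.hb _) (fun x => le_rfl)
    (fun x => by
      have h1 : 1 ≤ zz x ^ 34 := one_le_pow₀ (hzz x)
      have h2 := c.hb x.1.1
      nlinarith)
    (fun x => c.hd _)
    (fbd_re c.hF (fun x : J => x.1.1) (fun x => by linarith [c.hb x.1.1]) (fun x => le_rfl))
    (fun x y hy p hp => by
      have h1 := c.hn x.1.1 y hy p hp
      have h2 : 0 ≤ c1 * b x.1.1 ^ 2 := by have := c.hc1; positivity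
      linarith)
    (fun x => c.sf _) (fun x => c.rf _)
    (fun j a => fo_re (c.F1 j a) (fun x : J => x.1.1))
    (fun j k a => fo_re (c.F2 j k a) (fun x : J => x.1.1))
    (fun x => ten_isT c.iG (c.sf _) _ _)
    (fun x => ten_rl c.rG (c.sf _) (c.rf _) _ _)
    (fun j k => ⟨fun x => ten_sm c.sG (c.sf _) _ _ j k, fun k' => by
      obtain ⟨C, hC, h⟩ := (hfo j k).2 k'
      obtain ⟨C', hC', h'⟩ := sm_bd (c.sG j k) k'
      refine ⟨C + C', by linarith, fun x => ?_⟩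
      have hb := c.hb x.1.1
      have hδx := hδ x.1.1
      have hzx := hzz x
      have hzx0 := hzz0 x
      have b1 := h x.1.1
      have b2 := Bd.smul (((zz x ^ (500 * 10))⁻¹ : ℝ) : ℂ) (c.sG j k) (h' (b x.1.1) hb)
      have s1 : S.Sm (fun p => G j k p - S.met (f x.1.1) j k p) :=
        sm_sub (c.sG j k) (sm_met (c.sf _) j k)
      have b3 := Bd.smul ((((zz x ^ (400 * 10))⁻¹)⁻¹ : ℝ) : ℂ)
        (sm_sub s1 (sm_smul _ (c.sG j k))) (Bd.sub s1 (sm_smul _ (c.sG j k)) b1 b2)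
      refine Bd.monoC b3 (by linarith) ?_
      have n1 : ‖((((zz x ^ (400 * 10))⁻¹)⁻¹ : ℝ) : ℂ)‖ = ((zz x ^ (400 * 10))⁻¹)⁻¹ := by
        rw [Complex.norm_real, Real.norm_of_nonneg (by positivity)]
      have n2 : ‖(((zz x ^ (500 * 10))⁻¹ : ℝ) : ℂ)‖ = (zz x ^ (500 * 10))⁻¹ := by
        rw [Complex.norm_real, Real.norm_of_nonneg (by positivity)]
      rw [n1, n2]
      have e1 : ((zz x ^ (400 * 10))⁻¹)⁻¹ * (C * δ x.1.1 + (zz x ^ (500 * 10))⁻¹ * C') =
          C * (((zz x ^ (400 * 10))⁻¹)⁻¹ * δ x.1.1) +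
          C' * (zz x ^ (400 * 10) * (zz x ^ (500 * 10))⁻¹) := by
        rw [inv_inv]; ring
      rw [e1, hδz' x]
      have e2 : zz x ^ (400 * 10) * (zz x ^ (500 * 10))⁻¹ ≤ 1 := by
        have := pow_mul_inv_le hzx (a := 400 * 10) (b := 500 * 10) (c := 0) (by norm_num)
        simpa using this
      have e3 : C' * (zz x ^ (400 * 10) * (zz x ^ (500 * 10))⁻¹) ≤ C' * 1 := by gcongr
      linarith⟩)
    (fun x a p hp => by
      have h1 := c.hell x.1.1 a (ten S G ((zz x ^ (400 * 10))⁻¹) ((zz x ^ (500 * 10))⁻¹) (f x.1.1))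
        (fun j k q => by
          have h2 := hnear x.1.1 j k q
          have h3 := hCG (j, k) q
          have hδx := hδ x.1.1
          have hzx := hzz x
          have hzx0 := hzz0 x
          have hdd : (((zz x ^ (400 * 10))⁻¹)⁻¹ : ℝ) * (δ x.1.1 : ℂ) = 1 := by
            rw [← Complex.ofReal_mul, hδz' x, Complex.ofReal_one]
          have e1 : ten S G ((zz x ^ (400 * 10))⁻¹) ((zz x ^ (500 * 10))⁻¹) (f x.1.1) j k q
              - G j k q =
              ((((zz x ^ (400 * 10))⁻¹)⁻¹ : ℝ) : ℂ) *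
                ((G j k q - S.met (f x.1.1) j k q - δ x.1.1 * G j k q) -
                  ((zz x ^ (500 * 10))⁻¹ : ℝ) * G j k q) := by
            simp only [ten]
            linear_combination (G j k q) * hdd
          rw [e1, norm_mul]
          have n1 : ‖((((zz x ^ (400 * 10))⁻¹)⁻¹ : ℝ) : ℂ)‖ = ((zz x ^ (400 * 10))⁻¹)⁻¹ := by
            rw [Complex.norm_real, Real.norm_of_nonneg (by positivity)]
          have n2 : ‖(((zz x ^ (500 * 10))⁻¹ : ℝ) : ℂ)‖ = (zz x ^ (500 * 10))⁻¹ := by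
            rw [Complex.norm_real, Real.norm_of_nonneg (by positivity)]
          rw [n1]
          have n3 : ‖(G j k q - S.met (f x.1.1) j k q - δ x.1.1 * G j k q) -
                  ((zz x ^ (500 * 10))⁻¹ : ℝ) * G j k q‖ ≤
              κ1 / 2 * δ x.1.1 + (zz x ^ (500 * 10))⁻¹ * CG := by
            refine (norm_sub_le _ _).trans (add_le_add h2 ?_)
            rw [norm_mul, n2]
            exact mul_le_mul_of_nonneg_left h3 (by positivity)
          have e2 : zz x ^ (400 * 10) * (zz x ^ (500 * 10))⁻¹ ≤ (zz x)⁻¹ := by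
            have := pow_mul_inv_le hzx (a := 400 * 10) (b := 500 * 10) (c := 1) (by norm_num)
            simpa using this
          have e4 : CG * (zz x)⁻¹ ≤ κ1 / 2 := by
            have h4 : 2 * CG / κ1 ≤ zz x := by
              have := hzz1 x
              linarith
            rw [div_le_iff₀ hκ1] at h4
            rw [← div_eq_mul_inv, div_le_iff₀ hzx0]
            linarith
          calc ((zz x ^ (400 * 10))⁻¹)⁻¹ * ‖(G j k q - S.met (f x.1.1) j k q
                - δ x.1.1 * G j k q) - ((zz x ^ (500 * 10))⁻¹ : ℝ) * G j k q‖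
              ≤ ((zz x ^ (400 * 10))⁻¹)⁻¹ * (κ1 / 2 * δ x.1.1 + (zz x ^ (500 * 10))⁻¹ * CG) := by
                gcongr
            _ = κ1 / 2 * (((zz x ^ (400 * 10))⁻¹)⁻¹ * δ x.1.1) +
                CG * (zz x ^ (400 * 10) * (zz x ^ (500 * 10))⁻¹) := by rw [inv_inv]; ring
            _ ≤ κ1 / 2 * 1 + CG * (zz x)⁻¹ := by
                rw [hδz' x]; gcongr
            _ ≤ κ1 := by linarith) p hp
      linarith [c.hc1]) N
  obtain ⟨z2, hz2, hcore⟩ := hcore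
  obtain ⟨C3, hC3, H3⟩ := unif (α := κ × Fin 4)
    (p := fun x C => ∀ i, S.Bd (b i) N C (S.D x.1 (f i x.2)))
    (fun a C C' h h' i => Bd.monoC (h' i) (by linarith [c.hb i]) h)
    (fun x => by
      obtain ⟨C, -, h⟩ := (c.F1 x.1 x.2).2 N
      exact ⟨C, fun i => by simpa using h i⟩)
  obtain ⟨C4, hC4, H4⟩ := unif (α := κ × κ × Fin 4)
    (p := fun x C => ∀ i, S.Bd (b i) N (C * b i) (S.D x.1 (S.D x.2.1 (f i x.2.2))))
    (fun a C C' h h' i => Bd.monoC (h' i) (by linarith [c.hb i])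
      (mul_le_mul_of_nonneg_right h (by linarith [c.hb i])))
    (fun x => by
      obtain ⟨C, -, h⟩ := (c.F2 x.1 x.2.1 x.2.2).2 N
      exact ⟨C, h⟩)
  refine ⟨z1 + z2 + 2 * (C3 + C4) + 2, by linarith, fun i z hz hδz2 => ?_⟩
  have hz_1 : 1 ≤ z := by linarith
  have hz_2 : 2 ≤ z := by linarith
  have hz0 : 0 < z := by linarith
  have hb := c.hb i
  obtain ⟨y, ys, yr, y0, y1, y2, yE⟩ := hcore ⟨(i, z), by
    change z1 ≤ z
    linarith, hδz2⟩ (by
    change z2 ≤ z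
    linarith)
  change ∀ a, S.Bd (b i * z ^ 2) N ((z ^ (170 * 10))⁻¹) (y a) at y0
  change ∀ j a, S.Bd (b i * z ^ 2) N ((z ^ (170 * 10))⁻¹) (S.D j (y a)) at y1
  change ∀ j k a, S.Bd (b i * z ^ 2) N ((z ^ (170 * 10))⁻¹ * b i) (S.D j (S.D k (y a))) at y2
  change ∀ j k, S.Bd (b i * z ^ 2) N ((z ^ (505 * 10))⁻¹)
        (fun p => G j k p - S.met (fun a p => f i a p + y a p) j k p
          - ((z ^ (500 * 10))⁻¹ : ℝ) * G j k p) at yE
  have n3 : (z ^ (170 * 10))⁻¹ ≤ (z ^ (100 * 10))⁻¹ := inv_pow_le hz_1 (by norm_num)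
  have n4 : (z ^ (170 * 10))⁻¹ ≤ z⁻¹ := by
    have := inv_pow_le hz_1 (b := 170 * 10) (c := 1) (by norm_num)
    simpa using this
  have n5 : (z ^ (170 * 10))⁻¹ ≤ 1 := inv_pow_le_one hz_1 _
  set s := (z ^ (170 * 10))⁻¹ with hs
  have hs0 : 0 ≤ s := by positivity
  have hinv' := new_inv (S := S) (G := G) (f := f i) (X := f i) (y := y) (A0 := A0)
    (b := b i) (C := C3 + C4) (z := z) (θ := b i) (μ := b i) (e' := 0) (s := s)
    (E := (z ^ (505 * 10))⁻¹) (δ' := (z ^ (500 * 10))⁻¹) (N := N) c.hA0 hb (by linarith)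
    (by linarith) hb (by
      have : 1 ≤ z ^ 2 := one_le_pow₀ hz_1
      nlinarith) n4 (by linarith) (by positivity)
    (c.sf i) (c.rf i) ys yr (c.f1 i) (c.f2 i)
    (fun j a => Bd.monoC (H3 (j, a) i) (by linarith) (by linarith))
    (fun j k a => Bd.monoC (H4 (j, k, a) i) (by linarith) (by nlinarith))
    y0 y1 y2 (fun a p => by simp) (fun j a p => by simp) (fun j k a p => by simp) yE
  exact ⟨_, hinv'.mono le_rfl (by positivity) le_rfl (by linarith) (by linarith)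
      (by linarith [c.hA0]) (by positivity)⟩

end Main

end It

end Vale.Agent.P205.F
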