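import Vale.Agent.P205.F.ItFam

/-!
# P205, T1U iteration: the tensor to be added
-/

open scoped ContDiff

noncomputable section

namespace Vale.Agent.P205.F

namespace It

universe u

variable {P : Type u} {κ : Type} {S : DAlg P κ}

/-! ### tensors -/

lemma isT_met [Fintype κ] {X : Fin 4 → P → ℂ} (hX : ∀ a, S.Sm (X a)) : S.IsT (S.met X) := by
  refine ⟨fun j k => ?_, fun p c hc k => ?_⟩
  · funext p
    simp only [DAlg.met, DAlg.Dv, dot]
    exact Finset.sum_congr rfl fun a _ => mul_comm _ _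
  · simp only [DAlg.met, DAlg.Dv, dot, Finset.mul_sum]
    rw [Finset.sum_comm]
    refine Finset.sum_eq_zero fun a _ => ?_
    have := hc (X a) (hX a)
    calc ∑ j, c j * (S.D j (X a) p * S.D k (X a) p)
        = (∑ j, c j * S.D j (X a) p) * S.D k (X a) p := by
          rw [Finset.sum_mul]
          exact Finset.sum_congr rfl fun j _ => by ring
      _ = 0 := by rw [this, zero_mul]

lemma isT_lin [Fintype κ] {T T' : κ → κ → P → ℂ} (hT : S.IsT T) (hT' : S.IsT T') (c c' : ℂ) :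
    S.IsT (fun j k p => c * T j k p + c' * T' j k p) := by
  refine ⟨fun j k => ?_, fun p a ha k => ?_⟩
  · funext p
    have h1 := hT.1 j k
    have h2 := hT'.1 j k
    simp only [h1, h2]
  · have h1 := hT.2 p a ha k
    have h2 := hT'.2 p a ha k
    calc ∑ j, a j * (c * T j k p + c' * T' j k p)
        = c * (∑ j, a j * T j k p) + c' * (∑ j, a j * T' j k p) := by
          rw [Finset.mul_sum, Finset.mul_sum, ← Finset.sum_add_distrib]
          exact Finset.sum_congr rfl fun j _ => by ring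
      _ = 0 := by rw [h1, h2]; ring

/-- the tensor `(G - met X - δ' G)/δ` -/
def ten (S : DAlg P κ) (G : κ → κ → P → ℂ) (δ δ' : ℝ) (X : Fin 4 → P → ℂ) (j k : κ) : P → ℂ :=
  fun p => ((δ⁻¹ : ℝ) : ℂ) * (G j k p - S.met X j k p - δ' * G j k p)

lemma ten_isT [Fintype κ] {G : κ → κ → P → ℂ} (hG : S.IsT G) {X : Fin 4 → P → ℂ}
    (hX : ∀ a, S.Sm (X a)) (δ δ' : ℝ) : S.IsT (ten S G δ δ' X) := by
  have h := isT_lin hG (isT_met hX) (((δ⁻¹ : ℝ) : ℂ) * (1 - δ')) (-((δ⁻¹ : ℝ) : ℂ))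
  convert h using 4
  unfold ten
  ring

lemma rl_met {X : Fin 4 → P → ℂ} (hX : ∀ a, S.Sm (X a)) (hr : ∀ a, Rl (X a)) (j k : κ) :
    Rl (S.met X j k) := by
  have hD : ∀ j a, Rl (S.D j (X a)) := by
    intro j a p
    have h1 := S.D_conj j (hX a)
    have h2 : (fun p => (starRingEnd ℂ) (X a p)) = X a := by
      funext q
      exact Complex.conj_eq_iff_im.2 (hr a q)
    rw [h2] at h1
    have h3 := congrFun h1 p
    exact Complex.conj_eq_iff_im.1 h3.symm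
  intro p
  simp only [DAlg.met, DAlg.Dv, dot, Complex.im_sum, Complex.mul_im]
  refine Finset.sum_eq_zero fun a _ => ?_
  rw [hD j a p, hD k a p]; ring

lemma ten_rl {G : κ → κ → P → ℂ} (hG : ∀ j k, Rl (G j k)) {X : Fin 4 → P → ℂ}
    (hX : ∀ a, S.Sm (X a)) (hr : ∀ a, Rl (X a)) (δ δ' : ℝ) (j k : κ) :
    Rl (ten S G δ δ' X j k) := by
  intro p
  have h1 := hG j k p
  have h2 := rl_met hX hr j k p
  simp [ten, Complex.mul_im, h1, h2]

lemma ten_sm {G : κ → κ → P → ℂ} (hG : ∀ j k, S.Sm (G j k)) {X : Fin 4 → P → ℂ}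
    (hX : ∀ a, S.Sm (X a)) (δ δ' : ℝ) (j k : κ) :
    S.Sm (ten S G δ δ' X j k) :=
  sm_smul _ (sm_sub (sm_sub (hG j k) (sm_met hX j k)) (sm_smul _ (hG j k)))

section Fam

variable {ι : Type u} {G : κ → κ → P → ℂ} {f : ι → Fin 4 → P → ℂ} {b : ι → ℝ} {A e0 : ℝ}
  {t : ℕ} {i : ι} {z μ : ℝ} {X : Fin 4 → P → ℂ}

/-- the metric of the smoothed map is close to the metric of the map -/
lemma xt_met (ht : 1 ≤ t) (Sm : S.Smoothing (1200 * t)) (hA : 1 ≤ A) : ∃ C, 1 ≤ C ∧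
    ∀ (i : ι) (z μ : ℝ) (X : Fin 4 → P → ℂ), Adm S G f b A e0 t i z μ X → ∀ j l,
      S.Bd μ (400 * t) (C * (z ^ (1200 * t))⁻¹)
        (fun p => S.met X j l p - S.met (xt Sm z μ X) j l p) := by
  obtain ⟨C, hC1, hC⟩ := xt_appr' (G := G) (f := f) (b := b) (e0 := e0) ht Sm hA
  refine ⟨4 * (2 ^ (400 * t) * (C * A)) + 4 * (2 ^ (400 * t) * ((A + C) * C)), ?_,
    fun i z μ X x j l => ?_⟩
  · have h1 : (1 : ℝ) ≤ 2 ^ (400 * t) := one_le_pow₀ (by norm_num)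
    have h2 : 1 ≤ C * A := by nlinarith
    have h3 : 0 ≤ (A + C) * C := by positivity
    have h4 : 0 ≤ (2 : ℝ) ^ (400 * t) * ((A + C) * C) := by positivity
    nlinarith
  have hμ1 := x.hμ1
  have hμ0 : 0 < μ := by linarith
  have hz := x.hz
  have hz0 : 0 < z := by linarith
  have hA0 : 0 ≤ A := by linarith
  have hC0 : 0 ≤ C := by linarith
  obtain ⟨-, h1, -⟩ := hC i z μ X x
  set c := C * (z ^ (1200 * t))⁻¹ with hc
  have hc0 : 0 ≤ c := by positivity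
  have hcC : c ≤ C := by
    have := inv_pow_le_one hz (1200 * t)
    rw [hc]; nlinarith
  have hX : ∀ j a, S.Bd μ (400 * t) A (S.D j (X a)) := fun j a =>
    Bd.mono (x.inv.b1 j a) (by omega) hμ0.le le_rfl hA0 le_rfl
  have hY : ∀ j a, S.Bd μ (400 * t) (A + C) (S.D j (xt Sm z μ X a)) := by
    intro j a
    have h2 := Bd.sub (S.sm_D j (x.inv.sm a)) (S.sm_D j (sm_sub (x.inv.sm a) (x.sm Sm a)))
      (hX j a) (h1 j a)
    have e : (fun p => S.D j (X a) p - S.D j (fun p => X a p - xt Sm z μ X a p) p) =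
        S.D j (xt Sm z μ X a) := by
      rw [D_sub j (x.inv.sm a) (x.sm Sm a)]
      funext p; ring
    rw [e] at h2
    exact Bd.monoC h2 hμ0.le (by linarith)
  have h3 := bd_met_sub hμ0.le hA0 (by positivity : 0 ≤ A + C) hc0 x.inv.sm (x.sm Sm)
    hX hY h1 j l
  refine Bd.monoC h3 hμ0.le (le_of_eq ?_)
  rw [hc]; ring

/-- the tensor to be added is close to `G` -/
lemma ten_near [Fintype κ] (ht : 1 ≤ t) (Sm : S.Smoothing (1200 * t)) (hA : 1 ≤ A)
    (hG : ∀ j k, S.Sm (G j k)) : ∃ C, 1 ≤ C ∧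
    ∀ (i : ι) (z μ : ℝ) (X : Fin 4 → P → ℂ), Adm S G f b A e0 t i z μ X → ∀ j l,
      S.Bd μ (400 * t) (C * (z ^ (4 * t))⁻¹)
        (fun p => ten S G ((z ^ (400 * t))⁻¹) ((z ^ (500 * t))⁻¹) (xt Sm z μ X) j l p
          - G j l p) := by
  obtain ⟨C, hC1, hC⟩ := xt_met (G := G) (f := f) (b := b) (e0 := e0) ht Sm hA
  obtain ⟨CG, hCG1, hCG⟩ := unif (α := κ × κ)
    (p := fun x C => ∀ μ : ℝ, 1 ≤ μ → S.Bd μ (400 * t) C (G x.1 x.2))
    (fun a C C' h h' μ hμ => Bd.monoC (h' μ hμ) (by linarith) h)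
    (fun x => by
      obtain ⟨C, -, h⟩ := sm_bd (hG x.1 x.2) (400 * t)
      exact ⟨C, h⟩)
  refine ⟨1 + C + CG, by linarith, fun i z μ X x j l => ?_⟩
  have hμ1 := x.hμ1
  have hμ0 : 0 < μ := by linarith
  have hz := x.hz
  have hz0 : 0 < z := by linarith
  have hC0 : 0 ≤ C := by linarith
  set δ := (z ^ (400 * t))⁻¹ with hδ
  set δ' := (z ^ (500 * t))⁻¹ with hδ'
  have hδi : δ⁻¹ = z ^ (400 * t) := by rw [hδ, inv_inv]
  have s1 : S.Sm (fun p => G j l p - S.met X j l p - δ * G j l p) :=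
    sm_sub (sm_sub (hG j l) (sm_met x.inv.sm j l)) (sm_smul _ (hG j l))
  have s2 : S.Sm (fun p => S.met X j l p - S.met (xt Sm z μ X) j l p) :=
    sm_sub (sm_met x.inv.sm j l) (sm_met (x.sm Sm) j l)
  have s3 : S.Sm (fun p => (δ' : ℂ) * G j l p) := sm_smul _ (hG j l)
  have b1 := Bd.mono (x.inv.bE j l) (by omega : 400 * t ≤ 1600 * t + 2) hμ0.le le_rfl
    (by positivity) le_rfl
  have b2 := hC i z μ X x j l
  have b3 := Bd.smul (δ' : ℂ) (hG j l) (hCG (j, l) μ hμ1)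
  have b4 := Bd.sub (S.sm_add s1 s2) s3 (Bd.add s1 s2 b1 b2) b3
  have b5 := Bd.smul ((δ⁻¹ : ℝ) : ℂ) (sm_sub (S.sm_add s1 s2) s3) b4
  have e : (fun p => ((δ⁻¹ : ℝ) : ℂ) * (((fun p => G j l p - S.met X j l p - δ * G j l p) +
      fun p => S.met X j l p - S.met (xt Sm z μ X) j l p) p - (δ' : ℂ) * G j l p)) =
      fun p => ten S G δ δ' (xt Sm z μ X) j l p - G j l p := by
    funext p
    have hd : ((δ⁻¹ : ℝ) : ℂ) * (δ : ℂ) = 1 := by
      rw [← Complex.ofReal_mul, inv_mul_cancel₀ (by positivity : δ ≠ 0), Complex.ofReal_one]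
    simp only [ten, Pi.add_apply]
    linear_combination (-(G j l p)) * hd
  rw [e] at b5
  refine Bd.monoC b5 hμ0.le ?_
  have n1 : ‖((δ⁻¹ : ℝ) : ℂ)‖ = z ^ (400 * t) := by
    rw [Complex.norm_real, hδi, Real.norm_of_nonneg (by positivity)]
  have n2 : ‖(δ' : ℂ)‖ = (z ^ (500 * t))⁻¹ := by
    rw [Complex.norm_real, hδ', Real.norm_of_nonneg (by positivity)]
  rw [n1, n2]
  have k1 : z ^ (400 * t) * (z ^ (404 * t))⁻¹ ≤ (z ^ (4 * t))⁻¹ := pow_mul_inv_le hz (by omega)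
  have k2 : z ^ (400 * t) * (z ^ (1200 * t))⁻¹ ≤ (z ^ (4 * t))⁻¹ := pow_mul_inv_le hz (by omega)
  have k3 : z ^ (400 * t) * (z ^ (500 * t))⁻¹ ≤ (z ^ (4 * t))⁻¹ := pow_mul_inv_le hz (by omega)
  have m2 : C * (z ^ (400 * t) * (z ^ (1200 * t))⁻¹) ≤ C * (z ^ (4 * t))⁻¹ := by gcongr
  have m3 : CG * (z ^ (400 * t) * (z ^ (500 * t))⁻¹) ≤ CG * (z ^ (4 * t))⁻¹ := by gcongr
  nlinarith

/-- all derivatives of the tensor to be added -/
lemma ten_fo [Fintype κ] (ht : 1 ≤ t) (Sm : S.Smoothing (1200 * t)) (hA : 1 ≤ A)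
    (hG : ∀ j k, S.Sm (G j k)) (k : ℕ) : ∃ C, 1 ≤ C ∧
    ∀ (i : ι) (z μ : ℝ) (X : Fin 4 → P → ℂ), Adm S G f b A e0 t i z μ X → ∀ j l,
      S.Bd (μ * z ^ 2) k C
        (ten S G ((z ^ (400 * t))⁻¹) ((z ^ (500 * t))⁻¹) (xt Sm z μ X) j l) := by
  obtain ⟨C, hC1, hC⟩ := ten_near (G := G) (f := f) (b := b) (e0 := e0) ht Sm hA hG
  obtain ⟨C', hC'1, hC'⟩ := xt_bd (G := G) (f := f) (b := b) (e0 := e0) (t := t) Sm hA k
  obtain ⟨CG, hCG1, hCG⟩ := unif (α := κ × κ)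
    (p := fun x C => ∀ μ : ℝ, 1 ≤ μ → S.Bd μ (k + 400 * t) C (G x.1 x.2))
    (fun a C C' h h' μ hμ => Bd.monoC (h' μ hμ) (by linarith) h)
    (fun x => by
      obtain ⟨C, -, h⟩ := sm_bd (hG x.1 x.2) (k + 400 * t)
      exact ⟨C, h⟩)
  refine ⟨C + 2 * CG + 4 * (2 ^ k * (C' * C')), ?_, fun i z μ X x j l w hw p => ?_⟩
  · have : 0 ≤ (2 : ℝ) ^ k * (C' * C') := by positivity
    linarith
  have hμ1 := x.hμ1
  have hμ0 : 0 < μ := by linarith
  have hz := x.hz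
  have hz0 : 0 < z := by linarith
  have hC0 : 0 ≤ C := by linarith
  have hθ := x.hθ
  have hθ' : 1 ≤ μ * z ^ 2 := by
    have : 1 ≤ z ^ 2 := one_le_pow₀ hz
    nlinarith
  have hX4 : 0 ≤ 4 * ((2 : ℝ) ^ k * (C' * C')) := by positivity
  set T := ten S G ((z ^ (400 * t))⁻¹) ((z ^ (500 * t))⁻¹) (xt Sm z μ X) j l with hT
  have sT : S.Sm T := ten_sm hG (x.sm Sm) _ _ j l
  by_cases hwt : w.length ≤ 400 * t
  · have h1 := hC i z μ X x j l w hwt p
    have h2 := hCG (j, l) μ hμ1 w (by omega) p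
    have e : S.wd w T p = S.wd w (fun p => T p - G j l p) p + S.wd w (G j l) p := by
      rw [wd_sub w sT (hG j l)]; ring
    rw [e]
    have h3 : (z ^ (4 * t))⁻¹ ≤ 1 := inv_pow_le_one hz _
    have h4 : C * (z ^ (4 * t))⁻¹ ≤ C := by nlinarith
    have h5 : μ ^ w.length ≤ (μ * z ^ 2) ^ w.length := by
      refine pow_le_pow_left₀ hμ0.le ?_ _
      have : 1 ≤ z ^ 2 := one_le_pow₀ hz
      nlinarith
    calc ‖S.wd w (fun p => T p - G j l p) p + S.wd w (G j l) p‖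
        ≤ ‖S.wd w (fun p => T p - G j l p) p‖ + ‖S.wd w (G j l) p‖ := norm_add_le _ _
      _ ≤ C * (z ^ (4 * t))⁻¹ * μ ^ w.length + CG * μ ^ w.length := add_le_add h1 h2
      _ ≤ C * μ ^ w.length + CG * μ ^ w.length := by gcongr
      _ = (C + CG) * μ ^ w.length := by ring
      _ ≤ (C + 2 * CG + 4 * (2 ^ k * (C' * C'))) * (μ * z ^ 2) ^ w.length := by
        refine mul_le_mul ?_ h5 (by positivity) (by linarith)
        linarith
  · have b1 := hCG (j, l) (μ * z) hθ w (by omega) p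
    have b2 := bd_met (by linarith : 0 ≤ μ * z) (by linarith : 0 ≤ C') (x.sm Sm)
      (hC' i z μ X x).2.1 j l w hw p
    have e : S.wd w T p = ((z ^ (400 * t) : ℝ) : ℂ) * ((1 - ((z ^ (500 * t))⁻¹ : ℝ)) *
        S.wd w (G j l) p - S.wd w (S.met (xt Sm z μ X) j l) p) := by
      have e1 : T = fun p => (((z ^ (400 * t))⁻¹⁻¹ : ℝ) : ℂ) *
          ((G j l p - S.met (xt Sm z μ X) j l p) - ((z ^ (500 * t))⁻¹ : ℝ) * G j l p) := by
        rw [hT]; rfl
      rw [e1, wd_smul w _ (sm_sub (sm_sub (hG j l) (sm_met (x.sm Sm) j l))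
        (sm_smul _ (hG j l))), wd_sub w (sm_sub (hG j l) (sm_met (x.sm Sm) j l))
        (sm_smul _ (hG j l)), wd_sub w (hG j l) (sm_met (x.sm Sm) j l),
        wd_smul w _ (hG j l), inv_inv]
      ring
    rw [e, norm_mul]
    have n1 : ‖((z ^ (400 * t) : ℝ) : ℂ)‖ = z ^ (400 * t) := by
      rw [Complex.norm_real, Real.norm_of_nonneg (by positivity)]
    have n2 : ‖(1 - ((z ^ (500 * t))⁻¹ : ℝ) : ℂ)‖ ≤ 2 := by
      have h1 := inv_pow_le_one hz (500 * t)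
      have h2 : 0 ≤ (z ^ (500 * t))⁻¹ := by positivity
      rw [← Complex.ofReal_one, ← Complex.ofReal_sub, Complex.norm_real, Real.norm_eq_abs, abs_le]
      constructor <;> linarith
    rw [n1]
    have n3 : ‖(1 - ((z ^ (500 * t))⁻¹ : ℝ) : ℂ) * S.wd w (G j l) p -
        S.wd w (S.met (xt Sm z μ X) j l) p‖ ≤
        (2 * CG + 4 * (2 ^ k * (C' * C'))) * (μ * z) ^ w.length := by
      refine (norm_sub_le _ _).trans ?_
      rw [norm_mul]
      have : ‖(1 - ((z ^ (500 * t))⁻¹ : ℝ) : ℂ)‖ * ‖S.wd w (G j l) p‖ ≤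
          2 * (CG * (μ * z) ^ w.length) := mul_le_mul n2 b1 (norm_nonneg _) (by norm_num)
      linarith
    have n4 : z ^ (400 * t) * (μ * z) ^ w.length ≤ (μ * z ^ 2) ^ w.length := by
      have h1 : z ^ (400 * t) ≤ z ^ w.length := pow_le_pow_right₀ hz (by omega)
      calc z ^ (400 * t) * (μ * z) ^ w.length ≤ z ^ w.length * (μ * z) ^ w.length := by gcongr
        _ = (μ * z ^ 2) ^ w.length := by rw [← mul_pow]; ring
    have hK : 0 ≤ 2 * CG + 4 * (2 ^ k * (C' * C')) := by linarith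
    calc z ^ (400 * t) * ‖(1 - ((z ^ (500 * t))⁻¹ : ℝ) : ℂ) * S.wd w (G j l) p -
        S.wd w (S.met (xt Sm z μ X) j l) p‖
        ≤ z ^ (400 * t) * ((2 * CG + 4 * (2 ^ k * (C' * C'))) * (μ * z) ^ w.length) := by gcongr
      _ = (2 * CG + 4 * (2 ^ k * (C' * C'))) * (z ^ (400 * t) * (μ * z) ^ w.length) := by ring
      _ ≤ (C + 2 * CG + 4 * (2 ^ k * (C' * C'))) * (μ * z ^ 2) ^ w.length := by
        refine mul_le_mul ?_ n4 (by positivity) (by linarith)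
        linarith

end Fam

end It

end Vale.Agent.P205.F
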