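import Vale.Agent.P205.F.Wkb0

/-!
WKB solve along a ray (P205, block W): algebra, bounds, linearity.
-/

set_option linter.all false

open scoped ContDiff

noncomputable section

namespace Vale.Agent.P205.F

universe u

variable {P : Type u} {κ : Type} [Fintype κ] (S : DAlg P κ)

theorem osc_eq_qph {lam : ℝ} {Ψ : P → ℂ} (hr : Rl Ψ) : osc lam Ψ = qph lam Ψ := by
  funext q
  unfold osc qph
  have e : Ψ q = ((Ψ q).re : ℂ) := by
    apply Complex.ext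
    · simp
    · simpa using hr q
  rw [← e]

/-- value of a step, first component -/
theorem DAlg.wstep_zero (lam : ℝ) (r : Ray P κ) (F : Frm P) (X : Fin 4 → P → ℂ)
    (h x : Fin 3 → P → ℂ) : S.wstep lam r F X h x 0 = fun q => (Complex.I * lam)⁻¹ *
      ((1 / 2 * h 0 q + dot (S.dirv r.t (S.dirv r.t X)) (F.vec x) q) - S.dir r.t (x 0) q) := by
  funext q
  simp only [DAlg.wstep, Matrix.cons_val_zero]
  rw [div_eq_mul_inv]; ring

theorem DAlg.wstep_one (lam : ℝ) (r : Ray P κ) (F : Frm P) (X : Fin 4 → P → ℂ)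
    (h x : Fin 3 → P → ℂ) : S.wstep lam r F X h x 1 = fun q => (Complex.I * lam)⁻¹ *
      ((h 1 q + (dot (S.dirv r.w (S.dirv r.t X)) (F.vec x) q
        + dot (S.dirv r.t (S.dirv r.w X)) (F.vec x) q)) -
        (S.dir r.w (x 0) q + S.dir r.t (x 1) q)) := by
  funext q
  simp only [DAlg.wstep, Matrix.cons_val_one, Matrix.cons_val_zero]
  rw [div_eq_mul_inv]; ring

theorem DAlg.wstep_two (lam : ℝ) (r : Ray P κ) (F : Frm P) (X : Fin 4 → P → ℂ)
    (h x : Fin 3 → P → ℂ) : S.wstep lam r F X h x 2 = fun q =>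
      S.dir r.w (S.wstep lam r F X h x 1) q - 1 / 2 * h 2 q := by
  funext q
  simp only [DAlg.wstep, Matrix.cons_val_one, Matrix.cons_val_zero, Matrix.cons_val]
  ring

theorem DAlg.sm_vec {F : Frm P} {r : Ray P κ} {X : Fin 4 → P → ℂ} (hF : F.Ok S r X)
    {x : Fin 3 → P → ℂ} (hx : ∀ c, S.Sm (x c)) (a : Fin 4) : S.Sm (F.vec x a) :=
  S.q_sm_add' (S.q_sm_add' (S.q_sm_mul' (hx 0) (hF.smP1 a)) (S.q_sm_mul' (hx 1) (hF.smP2 a)))
    (S.q_sm_mul' (hx 2) (hF.smN a))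

theorem DAlg.zs_vec {F : Frm P} {r : Ray P κ} {X : Fin 4 → P → ℂ} (hF : F.Ok S r X)
    {x : Fin 3 → P → ℂ} (hx : ∀ c, S.Sm (x c)) (hz : ∀ c, S.Zs r.K (x c)) (a : Fin 4) :
    S.Zs r.K (F.vec x a) :=
  (((hz 0).q_mul_left (hx 0) (hF.smP1 a)).q_add ((hz 1).q_mul_left (hx 1) (hF.smP2 a))
    (S.q_sm_mul' (hx 0) (hF.smP1 a)) (S.q_sm_mul' (hx 1) (hF.smP2 a))).q_add
    ((hz 2).q_mul_left (hx 2) (hF.smN a))
    (S.q_sm_add' (S.q_sm_mul' (hx 0) (hF.smP1 a)) (S.q_sm_mul' (hx 1) (hF.smP2 a)))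
    (S.q_sm_mul' (hx 2) (hF.smN a))

theorem DAlg.sm_dirv {c : κ → P → ℂ} (hc : ∀ j, S.Sm (c j)) {X : Fin 4 → P → ℂ}
    (hX : ∀ a, S.Sm (X a)) (a : Fin 4) : S.Sm (S.dirv c X a) := S.q_sm_dir hc (hX a)

/-- smoothness and support of a step -/
theorem DAlg.wstep_ok {lam : ℝ} {r : Ray P κ} (hr : r.Ok S) {F : Frm P} {X : Fin 4 → P → ℂ}
    (sX : ∀ a, S.Sm (X a)) (hF : F.Ok S r X) {h x : Fin 3 → P → ℂ} (hh : ∀ c, S.Sm (h c))
    (hx : ∀ c, S.Sm (x c)) : ∀ c, S.Sm (S.wstep lam r F X h x c) := by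
  have hV := S.sm_vec hF hx
  have hXt := S.sm_dirv hr.smt sX
  have hXw := S.sm_dirv hr.smw sX
  have h0 : S.Sm (S.wstep lam r F X h x 0) := by
    rw [S.wstep_zero]
    exact S.q_sm_cmul _ (S.q_sm_sub' (S.q_sm_add' (S.q_sm_cmul _ (hh 0))
      (S.q_sm_dot (S.sm_dirv hr.smt hXt) hV)) (S.q_sm_dir hr.smt (hx 0)))
  have h1 : S.Sm (S.wstep lam r F X h x 1) := by
    rw [S.wstep_one]
    exact S.q_sm_cmul _ (S.q_sm_sub' (S.q_sm_add' (hh 1)
      (S.q_sm_add' (S.q_sm_dot (S.sm_dirv hr.smw hXt) hV)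
        (S.q_sm_dot (S.sm_dirv hr.smt hXw) hV)))
      (S.q_sm_add' (S.q_sm_dir hr.smw (hx 0)) (S.q_sm_dir hr.smt (hx 1))))
  have h2 : S.Sm (S.wstep lam r F X h x 2) := by
    rw [S.wstep_two]
    exact S.q_sm_sub' (S.q_sm_dir hr.smw h1) (S.q_sm_cmul _ (hh 2))
  intro c
  fin_cases c
  · exact h0
  · exact h1
  · exact h2

theorem DAlg.wstep_zs {lam : ℝ} {r : Ray P κ} (hr : r.Ok S) {F : Frm P} {X : Fin 4 → P → ℂ}
    (sX : ∀ a, S.Sm (X a)) (hF : F.Ok S r X) {h x : Fin 3 → P → ℂ} (hh : ∀ c, S.Sm (h c))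
    (hx : ∀ c, S.Sm (x c)) (zh : ∀ c, S.Zs r.K (h c)) (zx : ∀ c, S.Zs r.K (x c)) :
    ∀ c, S.Zs r.K (S.wstep lam r F X h x c) := by
  have hV := S.sm_vec hF hx
  have zV := S.zs_vec hF hx zx
  have hXt := S.sm_dirv hr.smt sX
  have hXw := S.sm_dirv hr.smw sX
  have hs := S.wstep_ok (lam := lam) hr sX hF hh hx
  have h0 : S.Zs r.K (S.wstep lam r F X h x 0) := by
    rw [S.wstep_zero]
    have a1 := S.q_sm_cmul (1 / 2) (hh 0)
    have a2 := S.q_sm_dot (S.sm_dirv hr.smt hXt) hV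
    have a3 := S.q_sm_dir hr.smt (hx 0)
    exact ((((zh 0).q_cmul (1 / 2) (hh 0)).q_add
      (DAlg.Zs.q_dot zV (S.sm_dirv hr.smt hXt) hV) a1 a2).q_sub
      ((zx 0).q_dir hr.smt (hx 0)) (S.q_sm_add' a1 a2) a3).q_cmul _
        (S.q_sm_sub' (S.q_sm_add' a1 a2) a3)
  have h1 : S.Zs r.K (S.wstep lam r F X h x 1) := by
    rw [S.wstep_one]
    have a2 := S.q_sm_dot (S.sm_dirv hr.smw hXt) hV
    have a3 := S.q_sm_dot (S.sm_dirv hr.smt hXw) hV
    have a4 := S.q_sm_dir hr.smw (hx 0)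
    have a5 := S.q_sm_dir hr.smt (hx 1)
    exact (((zh 1).q_add ((DAlg.Zs.q_dot zV (S.sm_dirv hr.smw hXt) hV).q_add
      (DAlg.Zs.q_dot zV (S.sm_dirv hr.smt hXw) hV) a2 a3) (hh 1) (S.q_sm_add' a2 a3)).q_sub
      (((zx 0).q_dir hr.smw (hx 0)).q_add ((zx 1).q_dir hr.smt (hx 1)) a4 a5)
      (S.q_sm_add' (hh 1) (S.q_sm_add' a2 a3)) (S.q_sm_add' a4 a5)).q_cmul _
        (S.q_sm_sub' (S.q_sm_add' (hh 1) (S.q_sm_add' a2 a3)) (S.q_sm_add' a4 a5))
  have h2 : S.Zs r.K (S.wstep lam r F X h x 2) := by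
    rw [S.wstep_two]
    exact (h1.q_dir hr.smw (hs 1)).q_sub ((zh 2).q_cmul (1 / 2) (hh 2))
      (S.q_sm_dir hr.smw (hs 1)) (S.q_sm_cmul _ (hh 2))
  intro c
  fin_cases c
  · exact h0
  · exact h1
  · exact h2

theorem DAlg.wst_zero (lam : ℝ) (r : Ray P κ) (F : Frm P) (X : Fin 4 → P → ℂ)
    (h : Fin 3 → P → ℂ) : S.wst lam r F X h 0 = ![0, 0, fun q => (-1 / 2) * h 2 q] := by
  simp only [DAlg.wst]
  congr 1
  congr 1
  congr 1
  funext q
  ring

theorem DAlg.wst_ok {lam : ℝ} {r : Ray P κ} (hr : r.Ok S) {F : Frm P} {X : Fin 4 → P → ℂ}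
    (sX : ∀ a, S.Sm (X a)) (hF : F.Ok S r X) {h : Fin 3 → P → ℂ} (hh : ∀ c, S.Sm (h c)) (m : ℕ) :
    ∀ c, S.Sm (S.wst lam r F X h m c) := by
  induction m with
  | zero =>
    rw [S.wst_zero]
    intro c
    fin_cases c
    · exact S.q_sm_zero
    · exact S.q_sm_zero
    · exact S.q_sm_cmul _ (hh 2)
  | succ m ih => exact S.wstep_ok hr sX hF hh ih

theorem DAlg.wst_zs {lam : ℝ} {r : Ray P κ} (hr : r.Ok S) {F : Frm P} {X : Fin 4 → P → ℂ}
    (sX : ∀ a, S.Sm (X a)) (hF : F.Ok S r X) {h : Fin 3 → P → ℂ} (hh : ∀ c, S.Sm (h c))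
    (zh : ∀ c, S.Zs r.K (h c)) (m : ℕ) :
    ∀ c, S.Zs r.K (S.wst lam r F X h m c) := by
  induction m with
  | zero =>
    rw [S.wst_zero]
    intro c
    fin_cases c
    · exact DAlg.Zs.q_zero
    · exact DAlg.Zs.q_zero
    · exact (zh 2).q_cmul _ (hh 2)
  | succ m ih => exact S.wstep_zs hr sX hF hh (S.wst_ok hr sX hF hh m) zh ih

/-- `s = w r - h2/2` for every state -/
theorem DAlg.wst_two (lam : ℝ) (r : Ray P κ) (F : Frm P) (X : Fin 4 → P → ℂ)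
    (h : Fin 3 → P → ℂ) (m : ℕ) (q : P) :
    S.wst lam r F X h m 2 q = S.dir r.w (S.wst lam r F X h m 1) q - 1 / 2 * h 2 q := by
  cases m with
  | zero =>
    rw [S.wst_zero]
    simp only [Matrix.cons_val, Matrix.cons_val_one, Matrix.cons_val_zero]
    have : S.dir r.w (0 : P → ℂ) q = 0 := by
      unfold DAlg.dir
      simp [S.q_D_zero]
    rw [this]; ring
  | succ m =>
    show S.wstep lam r F X h (S.wst lam r F X h m) 2 q = _
    rw [S.wstep_two]; rfl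

theorem vec_dot (F : Frm P) (x : Fin 3 → P → ℂ) (Y : Fin 4 → P → ℂ) (q : P) :
    dot Y (F.vec x) q = x 0 q * dot F.P1 Y q + x 1 q * dot F.P2 Y q + x 2 q * dot F.N Y q := by
  unfold dot Frm.vec
  simp only [Finset.mul_sum, ← Finset.sum_add_distrib]
  refine Finset.sum_congr rfl (fun i _ => ?_)
  ring

theorem dot_off {V : Fin 4 → P → ℂ} {q : P} (h : ∀ a, V a q = 0) (Y : Fin 4 → P → ℂ) :
    dot Y V q = 0 := by
  unfold dot
  exact Finset.sum_eq_zero (fun i _ => by rw [h i, mul_zero])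

/-- the products of `V` with `X_t, X_w, X_ww` -/
theorem DAlg.vec_t {r : Ray P κ} {F : Frm P} {X : Fin 4 → P → ℂ} (hF : F.Ok S r X)
    {x : Fin 3 → P → ℂ} (hx : ∀ c, S.Sm (x c)) (hz : ∀ c, S.Zs r.K (x c)) :
    dot (S.dirv r.t X) (F.vec x) = x 0 := by
  funext q
  by_cases hq : q ∈ r.K
  · rw [vec_dot, hF.P1t q hq, hF.P2t q hq, hF.Nt q hq]; ring
  · rw [dot_off (fun a => (S.zs_vec hF hx hz a).q_apply hq), (hz 0).q_apply hq]

theorem DAlg.vec_w {r : Ray P κ} {F : Frm P} {X : Fin 4 → P → ℂ} (hF : F.Ok S r X)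
    {x : Fin 3 → P → ℂ} (hx : ∀ c, S.Sm (x c)) (hz : ∀ c, S.Zs r.K (x c)) :
    dot (S.dirv r.w X) (F.vec x) = x 1 := by
  funext q
  by_cases hq : q ∈ r.K
  · rw [vec_dot, hF.P1w q hq, hF.P2w q hq, hF.Nw q hq]; ring
  · rw [dot_off (fun a => (S.zs_vec hF hx hz a).q_apply hq), (hz 1).q_apply hq]

theorem DAlg.vec_ww {r : Ray P κ} {F : Frm P} {X : Fin 4 → P → ℂ} (hF : F.Ok S r X)
    {x : Fin 3 → P → ℂ} (hx : ∀ c, S.Sm (x c)) (hz : ∀ c, S.Zs r.K (x c)) :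
    dot (S.dirv r.w (S.dirv r.w X)) (F.vec x) = x 2 := by
  funext q
  by_cases hq : q ∈ r.K
  · rw [vec_dot, hF.P1ww q hq, hF.P2ww q hq, hF.Nww q hq]; ring
  · rw [dot_off (fun a => (S.zs_vec hF hx hz a).q_apply hq), (hz 2).q_apply hq]

/-- derivative of `osc * V a` along a field -/
theorem DAlg.dir_osc {lam : ℝ} {Ψ : P → ℂ} (sΨ : S.Sm Ψ) (rΨ : Rl Ψ) (c : κ → P → ℂ)
    {u : P → ℂ} (su : S.Sm u) (q : P) :
    S.dir c (osc lam Ψ * u) q = osc lam Ψ q * (Complex.I * lam * S.dir c Ψ q * u q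
      + S.dir c u q) := by
  rw [osc_eq_qph rΨ, S.q_dir_mul c (S.q_sm_ph lam sΨ rΨ) su, S.q_dir_ph c lam sΨ rΨ]
  ring

theorem DAlg.dot_osc {lam : ℝ} {Ψ : P → ℂ} (sΨ : S.Sm Ψ) (rΨ : Rl Ψ) (c : κ → P → ℂ)
    {V : Fin 4 → P → ℂ} (sV : ∀ a, S.Sm (V a)) (Y : Fin 4 → P → ℂ) (q : P) :
    dot Y (S.dirv c (fun a => osc lam Ψ * V a)) q = osc lam Ψ q *
      (Complex.I * lam * S.dir c Ψ q * dot Y V q + dot Y (S.dirv c V) q) := by
  unfold dot DAlg.dirv
  simp only [Finset.mul_sum, ← Finset.sum_add_distrib]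
  refine Finset.sum_congr rfl (fun i _ => ?_)
  rw [S.dir_osc sΨ rΨ c (sV i)]; ring

/-- product rule in the form used below -/
theorem DAlg.dot_dirv {c d : κ → P → ℂ} {Y V : Fin 4 → P → ℂ}
    (sY : ∀ a, S.Sm (Y a)) (sV : ∀ a, S.Sm (V a)) {u : P → ℂ} (e : dot Y V = u) (q : P) :
    dot Y (S.dirv c V) q = S.dir c u q - dot (S.dirv c Y) V q := by
  have h := S.q_dir_dot c sY sV q
  rw [e] at h
  rw [h]
  unfold DAlg.dirv
  ring

/-- **(W1)** -/
theorem DAlg.wkbAlg : S.WkbAlg := by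
  intro lam r F X m h hlam hr sX rX hF sh zh
  have sx := S.wst_ok (lam := lam) hr sX hF sh m
  have zx := S.wst_zs (lam := lam) hr sX hF sh zh m
  have sV : ∀ a, S.Sm (S.wkb lam r F X m h a) := S.sm_vec hF sx
  have zV : ∀ a, S.Zs r.K (S.wkb lam r F X m h a) := S.zs_vec hF sx zx
  refine ⟨sV, zV, ?_⟩
  intro j k q
  have zx' := S.wst_zs (lam := lam) hr sX hF sh zh (m + 1)
  have sosc : S.Sm (osc lam r.Ψ) := by
    rw [osc_eq_qph hr.rΨ]; exact S.q_sm_ph lam hr.smΨ hr.rΨ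
  have sv : ∀ a, S.Sm (osc lam r.Ψ * S.wkb lam r F X m h a) := fun a => S.sm_mul sosc (sV a)
  by_cases hq : q ∈ r.K
  · have key := S.q_lin_ray hr sX sv j k hq
    have sXt := S.sm_dirv hr.smt sX
    have sXw := S.sm_dirv hr.smw sX
    have e0 := S.vec_t hF sx zx
    have e1 := S.vec_w hF sx zx
    have e2 := S.vec_ww hF sx zx
    have a1 := S.dot_dirv (c := r.t) (d := r.t) sXt sV e0 q
    have a2 := S.dot_dirv (c := r.w) (d := r.t) sXt sV e0 q
    have a3 := S.dot_dirv (c := r.t) (d := r.t) sXw sV e1 q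
    have a4 := S.dot_dirv (c := r.w) (d := r.t) sXw sV e1 q
    have b1 := S.dot_osc (lam := lam) hr.smΨ hr.rΨ r.t sV (S.dirv r.t X) q
    have b2 := S.dot_osc (lam := lam) hr.smΨ hr.rΨ r.w sV (S.dirv r.t X) q
    have b3 := S.dot_osc (lam := lam) hr.smΨ hr.rΨ r.t sV (S.dirv r.w X) q
    have b4 := S.dot_osc (lam := lam) hr.smΨ hr.rΨ r.w sV (S.dirv r.w X) q
    rw [hr.tΨ q hq] at b1 b3
    rw [hr.wΨ q hq] at b2 b4
    have e0' := congrFun e0 q
    have e1' := congrFun e1 q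
    have e2' := congrFun e2 q
    change dot (S.dirv r.t X) (S.wkb lam r F X m h) q = _ at e0'
    change dot (S.dirv r.w X) (S.wkb lam r F X m h) q = _ at e1'
    change dot (S.dirv r.w (S.dirv r.w X)) (S.wkb lam r F X m h) q = _ at e2'
    rw [e0', a1] at b1
    rw [e0', a2] at b2
    rw [e1', a3] at b3
    rw [e1', a4, e2', S.wst_two] at b4
    have hne : (Complex.I * lam : ℂ) ≠ 0 :=
      mul_ne_zero Complex.I_ne_zero (by exact_mod_cast hlam)
    have s0 : Complex.I * lam * S.wst lam r F X h (m + 1) 0 q =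
        (1 / 2 * h 0 q + dot (S.dirv r.t (S.dirv r.t X)) (S.wkb lam r F X m h) q)
          - S.dir r.t (S.wst lam r F X h m 0) q := by
      show Complex.I * lam * S.wstep lam r F X h (S.wst lam r F X h m) 0 q = _
      rw [S.wstep_zero]
      show Complex.I * lam * ((Complex.I * lam)⁻¹ * _) = _
      rw [← mul_assoc, mul_inv_cancel₀ hne, one_mul]
      rfl
    have s1 : Complex.I * lam * S.wst lam r F X h (m + 1) 1 q =
        (h 1 q + (dot (S.dirv r.w (S.dirv r.t X)) (S.wkb lam r F X m h) q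
        + dot (S.dirv r.t (S.dirv r.w X)) (S.wkb lam r F X m h) q)) -
        (S.dir r.w (S.wst lam r F X h m 0) q + S.dir r.t (S.wst lam r F X h m 1) q) := by
      show Complex.I * lam * S.wstep lam r F X h (S.wst lam r F X h m) 1 q = _
      rw [S.wstep_one]
      show Complex.I * lam * ((Complex.I * lam)⁻¹ * _) = _
      rw [← mul_assoc, mul_inv_cancel₀ hne, one_mul]
      rfl
    have lhs : S.lin X (fun a => osc lam r.Ψ * S.wkb lam r F X m h a) j k q =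
        S.D j r.Ψ q * S.D k r.Ψ q *
        (2 * dot (S.dirv r.t X) (S.dirv r.t (fun a => osc lam r.Ψ * S.wkb lam r F X m h a)) q) +
      (S.D j r.Ψ q * r.β k q + S.D k r.Ψ q * r.β j q) *
        (dot (S.dirv r.t X) (S.dirv r.w (fun a => osc lam r.Ψ * S.wkb lam r F X m h a)) q +
          dot (S.dirv r.w X) (S.dirv r.t (fun a => osc lam r.Ψ * S.wkb lam r F X m h a)) q) +
      r.β j q * r.β k q *
        (2 * dot (S.dirv r.w X) (S.dirv r.w (fun a => osc lam r.Ψ * S.wkb lam r F X m h a)) q) :=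
      key
    rw [lhs, b1, b2, b3, b4]
    simp only [Ray.ten, DAlg.wres, Matrix.cons_val_zero, Matrix.cons_val_one, Matrix.cons_val]
    linear_combination (osc lam r.Ψ q * S.D j r.Ψ q * S.D k r.Ψ q * 2) * s0 +
      (osc lam r.Ψ q * (S.D j r.Ψ q * r.β k q + r.β j q * S.D k r.Ψ q)) * s1
  · have zv : ∀ a, S.Zs r.K (osc lam r.Ψ * S.wkb lam r F X m h a) :=
      fun a => (zV a).q_mul_right sosc (sV a)
    have l1 : S.lin X (fun a => osc lam r.Ψ * S.wkb lam r F X m h a) j k q = 0 := by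
      unfold DAlg.lin
      rw [dot_off (V := S.Dv k (fun a => osc lam r.Ψ * S.wkb lam r F X m h a))
          (fun a => ((zv a).q_D k).q_apply hq),
        dot_off (V := S.Dv j (fun a => osc lam r.Ψ * S.wkb lam r F X m h a))
          (fun a => ((zv a).q_D j).q_apply hq),
        add_zero]
    rw [l1]
    have z := fun c => (zh c).q_apply hq
    have z1 := fun c => (zx c).q_apply hq
    have z2 := fun c => (zx' c).q_apply hq
    simp only [Ray.ten, DAlg.wres, Matrix.cons_val_zero, Matrix.cons_val_one, Matrix.cons_val,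
      z, z1, z2]
    ring

end Vale.Agent.P205.F
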