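import Vale.Agent.P205.F.StageDef
import Vale.Agent.P205.F.Wkb
import Vale.Agent.P205.F.Calc1

/-!
The kernel solutions of the linearised equation along a ray (P205, block K).
-/

set_option linter.all false

noncomputable section

namespace Vale.Agent.P205.F

universe u

variable {P : Type u} {κ : Type} [Fintype κ] (S : DAlg P κ)

/-- the leading term `α E / (iλ)` -/
def kE (lam : ℝ) (F : Frm P) (α : P → ℂ) : Fin 4 → P → ℂ :=
  fun a q => α q * F.E a q / (Complex.I * lam)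

theorem kE_eq (lam : ℝ) (F : Frm P) (α : P → ℂ) (a : Fin 4) :
    kE lam F α a = fun q => (Complex.I * lam)⁻¹ * (α * F.E a) q := by
  funext q; simp only [kE, Pi.mul_apply]; rw [div_eq_mul_inv]; ring

theorem DAlg.sm_kE {lam : ℝ} {r : Ray P κ} {F : Frm P} {X : Fin 4 → P → ℂ} (hF : F.Ok S r X)
    {α : P → ℂ} (hα : S.Sm α) (a : Fin 4) : S.Sm (kE lam F α a) := by
  rw [kE_eq]; exact S.q_sm_cmul _ (S.sm_mul hα (hF.smE a))

theorem DAlg.zs_kE {lam : ℝ} {r : Ray P κ} {F : Frm P} {X : Fin 4 → P → ℂ} (hF : F.Ok S r X)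
    {α : P → ℂ} (hα : S.Sm α) (zα : S.Zs r.K α) (a : Fin 4) : S.Zs r.K (kE lam F α a) := by
  rw [kE_eq]
  exact (zα.q_mul_left hα (hF.smE a)).q_cmul _ (S.sm_mul hα (hF.smE a))

theorem ksrc_zero (lam : ℝ) (r : Ray P κ) (F : Frm P) (X : Fin 4 → P → ℂ) (α : P → ℂ) :
    S.ksrc lam r F X α 0 = fun q => (-2 * (Complex.I * lam)⁻¹) *
      (α * dot (S.dirv r.t (S.dirv r.t X)) F.E) q := by
  funext q
  simp only [DAlg.ksrc, Matrix.cons_val_zero, Pi.mul_apply]
  rw [div_eq_mul_inv]; ring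

theorem ksrc_one (lam : ℝ) (r : Ray P κ) (F : Frm P) (X : Fin 4 → P → ℂ) (α : P → ℂ) :
    S.ksrc lam r F X α 1 = fun q => (-(Complex.I * lam)⁻¹) *
      (α * (dot (S.dirv r.w (S.dirv r.t X)) F.E + dot (S.dirv r.t (S.dirv r.w X)) F.E)) q := by
  funext q
  simp only [DAlg.ksrc, Matrix.cons_val_one, Matrix.cons_val_zero, Pi.mul_apply, Pi.add_apply]
  rw [div_eq_mul_inv]; ring

theorem ksrc_two (lam : ℝ) (r : Ray P κ) (F : Frm P) (X : Fin 4 → P → ℂ) (α : P → ℂ) :
    S.ksrc lam r F X α 2 = 0 := rfl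

theorem DAlg.sm_ksrc {lam : ℝ} {r : Ray P κ} (hr : r.Ok S) {F : Frm P} {X : Fin 4 → P → ℂ}
    (sX : ∀ a, S.Sm (X a)) (hF : F.Ok S r X) {α : P → ℂ} (hα : S.Sm α) (c : Fin 3) :
    S.Sm (S.ksrc lam r F X α c) := by
  have d1 := S.q_sm_dot (S.sm_dirv hr.smt (S.sm_dirv hr.smt sX)) hF.smE
  have d2 := S.q_sm_dot (S.sm_dirv hr.smw (S.sm_dirv hr.smt sX)) hF.smE
  have d3 := S.q_sm_dot (S.sm_dirv hr.smt (S.sm_dirv hr.smw sX)) hF.smE
  fin_cases c
  · show S.Sm (S.ksrc lam r F X α 0)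
    rw [ksrc_zero]; exact S.q_sm_cmul _ (S.sm_mul hα d1)
  · show S.Sm (S.ksrc lam r F X α 1)
    rw [ksrc_one]; exact S.q_sm_cmul _ (S.sm_mul hα (S.sm_add d2 d3))
  · show S.Sm (S.ksrc lam r F X α 2)
    rw [ksrc_two]; exact S.q_sm_zero

theorem DAlg.zs_ksrc {lam : ℝ} {r : Ray P κ} (hr : r.Ok S) {F : Frm P} {X : Fin 4 → P → ℂ}
    (sX : ∀ a, S.Sm (X a)) (hF : F.Ok S r X) {α : P → ℂ} (hα : S.Sm α) (zα : S.Zs r.K α)
    (c : Fin 3) : S.Zs r.K (S.ksrc lam r F X α c) := by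
  have d1 := S.q_sm_dot (S.sm_dirv hr.smt (S.sm_dirv hr.smt sX)) hF.smE
  have d2 := S.q_sm_dot (S.sm_dirv hr.smw (S.sm_dirv hr.smt sX)) hF.smE
  have d3 := S.q_sm_dot (S.sm_dirv hr.smt (S.sm_dirv hr.smw sX)) hF.smE
  fin_cases c
  · show S.Zs r.K (S.ksrc lam r F X α 0)
    rw [ksrc_zero]; exact (zα.q_mul_left hα d1).q_cmul _ (S.sm_mul hα d1)
  · show S.Zs r.K (S.ksrc lam r F X α 1)
    rw [ksrc_one]
    exact (zα.q_mul_left hα (S.sm_add d2 d3)).q_cmul _ (S.sm_mul hα (S.sm_add d2 d3))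
  · show S.Zs r.K (S.ksrc lam r F X α 2)
    rw [ksrc_two]; exact DAlg.Zs.q_zero

theorem kE_dot (lam : ℝ) (F : Frm P) (α : P → ℂ) (Y : Fin 4 → P → ℂ) (q : P) :
    dot Y (kE lam F α) q = α q * dot Y F.E q / (Complex.I * lam) := by
  unfold dot kE
  rw [Finset.mul_sum, Finset.sum_div]
  refine Finset.sum_congr rfl (fun i _ => ?_)
  ring

theorem dot_swap (X Y : Fin 4 → P → ℂ) (q : P) : dot X Y q = dot Y X q := by
  unfold dot
  exact Finset.sum_congr rfl (fun i _ => mul_comm _ _)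

theorem DAlg.kE_orth {lam : ℝ} {r : Ray P κ} {F : Frm P} {Y : Fin 4 → P → ℂ} {α : P → ℂ}
    (zα : S.Zs r.K α) (h : ∀ p ∈ r.K, dot F.E Y p = 0) : dot Y (kE lam F α) = 0 := by
  funext q
  rw [kE_dot]
  by_cases hq : q ∈ r.K
  · rw [dot_swap, h q hq, mul_zero, zero_div]; rfl
  · rw [zα.q_apply hq, zero_mul, zero_div]; rfl

/-- the linearised metric of the leading term -/
theorem DAlg.lin_kE {lam : ℝ} {r : Ray P κ} (hr : r.Ok S) {F : Frm P} {X : Fin 4 → P → ℂ}
    (sX : ∀ a, S.Sm (X a)) (hF : F.Ok S r X) {α : P → ℂ} (hα : S.Sm α)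
    (zα : S.Zs r.K α) (j k : κ) (q : P) :
    S.lin X (fun a => osc lam r.Ψ * kE lam F α a) j k q =
      osc lam r.Ψ q * r.ten S (S.ksrc lam r F X α) j k q := by
  have sV : ∀ a, S.Sm (kE lam F α a) := S.sm_kE hF hα
  have zV : ∀ a, S.Zs r.K (kE lam F α a) := S.zs_kE hF hα zα
  have sosc : S.Sm (osc lam r.Ψ) := by
    rw [osc_eq_qph hr.rΨ]; exact S.q_sm_ph lam hr.smΨ hr.rΨ
  have sv : ∀ a, S.Sm (osc lam r.Ψ * kE lam F α a) := fun a => S.sm_mul sosc (sV a)
  by_cases hq : q ∈ r.K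
  · have key := S.q_lin_ray hr sX sv j k hq
    have sXt := S.sm_dirv hr.smt sX
    have sXw := S.sm_dirv hr.smw sX
    have e0 := S.kE_orth (lam := lam) zα hF.Et
    have e1 := S.kE_orth (lam := lam) zα hF.Ew
    have e2 := S.kE_orth (lam := lam) zα hF.Eww
    have a1 := S.dot_dirv (c := r.t) (d := r.t) sXt sV e0 q
    have a2 := S.dot_dirv (c := r.w) (d := r.t) sXt sV e0 q
    have a3 := S.dot_dirv (c := r.t) (d := r.t) sXw sV e1 q
    have a4 := S.dot_dirv (c := r.w) (d := r.t) sXw sV e1 q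
    have b1 := S.dot_osc (lam := lam) hr.smΨ hr.rΨ r.t sV (S.dirv r.t X) q
    have b2 := S.dot_osc (lam := lam) hr.smΨ hr.rΨ r.w sV (S.dirv r.t X) q
    have b3 := S.dot_osc (lam := lam) hr.smΨ hr.rΨ r.t sV (S.dirv r.w X) q
    have b4 := S.dot_osc (lam := lam) hr.smΨ hr.rΨ r.w sV (S.dirv r.w X) q
    have d0 : ∀ c : κ → P → ℂ, S.dir c (0 : P → ℂ) q = 0 := by
      intro c
      unfold DAlg.dir
      exact Finset.sum_eq_zero (fun j _ => by rw [S.q_D_zero]; exact mul_zero _)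
    have e0' := congrFun e0 q
    have e1' := congrFun e1 q
    have e2' := congrFun e2 q
    rw [e0', a1, d0] at b1
    rw [e0', a2, d0] at b2
    rw [e1', a3, d0] at b3
    rw [e1', a4, e2', d0] at b4
    have lhs : S.lin X (fun a => osc lam r.Ψ * kE lam F α a) j k q =
        S.D j r.Ψ q * S.D k r.Ψ q *
        (2 * dot (S.dirv r.t X) (S.dirv r.t (fun a => osc lam r.Ψ * kE lam F α a)) q) +
      (S.D j r.Ψ q * r.β k q + S.D k r.Ψ q * r.β j q) *
        (dot (S.dirv r.t X) (S.dirv r.w (fun a => osc lam r.Ψ * kE lam F α a)) q +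
          dot (S.dirv r.w X) (S.dirv r.t (fun a => osc lam r.Ψ * kE lam F α a)) q) +
      r.β j q * r.β k q *
        (2 * dot (S.dirv r.w X) (S.dirv r.w (fun a => osc lam r.Ψ * kE lam F α a)) q) :=
      key
    rw [lhs, b1, b2, b3, b4]
    simp only [Ray.ten, DAlg.ksrc, Matrix.cons_val_zero, Matrix.cons_val_one, Matrix.cons_val,
      kE_dot, Pi.zero_apply]
    ring
  · have zv : ∀ a, S.Zs r.K (osc lam r.Ψ * kE lam F α a) :=
      fun a => (zV a).q_mul_right sosc (sV a)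
    have l1 : S.lin X (fun a => osc lam r.Ψ * kE lam F α a) j k q = 0 := by
      unfold DAlg.lin
      rw [dot_off (V := S.Dv k (fun a => osc lam r.Ψ * kE lam F α a))
          (fun a => ((zv a).q_D k).q_apply hq),
        dot_off (V := S.Dv j (fun a => osc lam r.Ψ * kE lam F α a))
          (fun a => ((zv a).q_D j).q_apply hq),
        add_zero]
    rw [l1]
    have z := fun c => (S.zs_ksrc (lam := lam) hr sX hF hα zα c).q_apply hq
    simp only [Ray.ten, z]
    ring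

theorem ker_eq (lam : ℝ) (r : Ray P κ) (F : Frm P) (X : Fin 4 → P → ℂ) (m : ℕ)
    (α : P → ℂ) (a : Fin 4) :
    S.ker lam r F X m α a = kE lam F α a - S.wkb lam r F X m (S.ksrc lam r F X α) a := rfl

theorem DAlg.lin_sub {X v v' : Fin 4 → P → ℂ} (sv : ∀ a, S.Sm (v a))
    (sv' : ∀ a, S.Sm (v' a)) (j k : κ) (q : P) :
    S.lin X (fun a => v a - v' a) j k q = S.lin X v j k q - S.lin X v' j k q := by
  unfold DAlg.lin dot DAlg.Dv
  simp only [← Finset.sum_add_distrib, ← Finset.sum_sub_distrib]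
  refine Finset.sum_congr rfl (fun i _ => ?_)
  rw [S.q_D_sub k (sv i) (sv' i), S.q_D_sub j (sv i) (sv' i)]
  simp only [Pi.sub_apply]; ring

/-- **(K1)** -/
theorem DAlg.kerAlg (W : S.WkbAlg) : S.KerAlg := by
  intro lam r F X m α hlam hr sX rX hF sα zα
  have sE : ∀ a, S.Sm (kE lam F α a) := S.sm_kE hF sα
  have zE : ∀ a, S.Zs r.K (kE lam F α a) := S.zs_kE hF sα zα
  have sh : ∀ c, S.Sm (S.ksrc lam r F X α c) := S.sm_ksrc hr sX hF sα
  have zh : ∀ c, S.Zs r.K (S.ksrc lam r F X α c) := S.zs_ksrc hr sX hF sα zα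
  obtain ⟨sW, zW, eW⟩ := W lam r F X m _ hlam hr sX rX hF sh zh
  have sk : ∀ a, S.Sm (S.ker lam r F X m α a) := fun a => S.q_sm_sub (sE a) (sW a)
  have zk : ∀ a, S.Zs r.K (S.ker lam r F X m α a) := fun a =>
    (zE a).q_sub (zW a) (sE a) (sW a)
  have sosc : S.Sm (osc lam r.Ψ) := by
    rw [osc_eq_qph hr.rΨ]; exact S.q_sm_ph lam hr.smΨ hr.rΨ
  have ekB : ∀ j a, S.kerB lam r F X m α j a = S.D j (S.ker lam r F X m α a)
      + fun q => (Complex.I * lam) * (S.D j r.Ψ * S.ker lam r F X m α a) q := by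
    intro j a
    funext q
    simp only [DAlg.kerB, Pi.add_apply, Pi.mul_apply]
    ring
  have s1 : ∀ j a, S.Sm (S.D j r.Ψ * S.ker lam r F X m α a) := fun j a =>
    S.sm_mul (S.sm_D j hr.smΨ) (sk a)
  refine ⟨sk, zk, ?_, ?_, ?_, ?_⟩
  · intro j a
    rw [ekB]
    exact S.sm_add (S.sm_D j (sk a)) (S.q_sm_cmul _ (s1 j a))
  · intro j a
    rw [ekB]
    exact ((zk a).q_D j).q_add (((zk a).q_mul_right (S.sm_D j hr.smΨ) (sk a)).q_cmul _
      (s1 j a)) (S.sm_D j (sk a)) (S.q_sm_cmul _ (s1 j a))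
  · intro j a q
    rw [S.D_mul j sosc (sk a)]
    simp only [Pi.add_apply, Pi.mul_apply]
    have := S.q_D_ph lam j hr.smΨ hr.rΨ q
    rw [← osc_eq_qph hr.rΨ] at this
    rw [this, DAlg.kerB]; ring
  · intro j k q
    have e : (fun a => osc lam r.Ψ * S.ker lam r F X m α a) =
        fun a => (osc lam r.Ψ * kE lam F α a)
          - (osc lam r.Ψ * S.wkb lam r F X m (S.ksrc lam r F X α) a) := by
      funext a
      rw [ker_eq, mul_sub]
    rw [e, S.lin_sub (fun a => S.sm_mul sosc (sE a)) (fun a => S.sm_mul sosc (sW a)),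
      S.lin_kE hr sX hF sα zα, eW]
    ring

/-- **(K3)** -/
theorem DAlg.kerLin (W : S.WkbLin) : S.KerLin := by
  intro lam r F X m α α' c hr sX hF sα sα' a q
  have sh := S.sm_ksrc (lam := lam) hr sX hF sα
  have sh' := S.sm_ksrc (lam := lam) hr sX hF sα'
  have e : S.ksrc lam r F X (fun q => α q + c * α' q) =
      fun b q => S.ksrc lam r F X α b q + c * S.ksrc lam r F X α' b q := by
    funext b p
    fin_cases b
    · simp only [DAlg.ksrc, Fin.zero_eta, Matrix.cons_val_zero]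
      ring
    · simp only [DAlg.ksrc, Fin.mk_one, Matrix.cons_val_one, Matrix.cons_val_zero]
      ring
    · simp [DAlg.ksrc]
  have h := W lam r F X m _ _ c hr sX hF sh sh' a q
  simp only [DAlg.ker]
  rw [e, h]
  ring

/-- **(K2)** -/
theorem DAlg.kerBd (W : S.WkbBd) : S.KerBd := by
  intro ι L θ lam s r F X m α hL hθ hlam hs ht hw hΨ hE hN hP1 hP2 htt hwt htw hα
  have hL0 : ∀ i, 0 < L i := fun i => zero_lt_one.trans_le (hL i)
  have hθ0 : ∀ i, 0 < θ i := fun i => zero_lt_one.trans_le (hθ i)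
  have hθ0' : ∀ i, 0 ≤ θ i := fun i => (hθ0 i).le
  have hl0 : ∀ i, 0 < lam i := fun i =>
    lt_of_lt_of_le (mul_pos (pow_pos (hL0 i) 3) (hθ0 i)) (hlam i)
  have hinv : ∀ i, ‖(Complex.I * (lam i : ℂ))⁻¹‖ ≤ 1 * (lam i)⁻¹ := fun i => by
    rw [norm_inv, norm_mul, Complex.norm_I, one_mul, one_mul, Complex.norm_real,
      Real.norm_eq_abs, abs_of_pos (hl0 i)]
  have hinv2 : ∀ i, ‖-2 * (Complex.I * (lam i : ℂ))⁻¹‖ ≤ 2 * (lam i)⁻¹ := fun i => by
    rw [norm_mul, norm_neg, Complex.norm_ofNat]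
    have := hinv i
    rw [one_mul] at this
    exact mul_le_mul_of_nonneg_left this (by norm_num)
  have hinv3 : ∀ i, ‖-(Complex.I * (lam i : ℂ))⁻¹‖ ≤ 1 * (lam i)⁻¹ := fun i => by
    rw [norm_neg]; exact hinv i
  have hl0' : ∀ i, 0 ≤ (lam i)⁻¹ := fun i => inv_nonneg.2 (hl0 i).le
  -- the source
  have c0 : S.FO θ (fun i => s i * L i ^ 2 / lam i)
      (fun i => S.ksrc (lam i) (r i) (F i) (X i) (α i) 0) := by
    have h1 := DAlg.FO.smul (S := S) hinv2 hl0' (hα.mul (DAlg.FO.dot htt hE))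
    refine (h1.congr_s fun i => ?_).congr fun i p => ?_
    · rw [div_eq_mul_inv]; ring
    · rw [ksrc_zero]
  have c1 : S.FO θ (fun i => s i * L i ^ 2 / lam i)
      (fun i => S.ksrc (lam i) (r i) (F i) (X i) (α i) 1) := by
    have h1 := DAlg.FO.smul (S := S) hinv3 hl0' (hα.mul ((DAlg.FO.dot hwt hE).add
      (DAlg.FO.dot htw hE)))
    refine (h1.congr_s fun i => ?_).congr fun i p => ?_
    · rw [div_eq_mul_inv]; ring
    · rw [ksrc_one]
  have c2 : S.FO θ (fun i => s i * L i ^ 2 / lam i)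
      (fun i => S.ksrc (lam i) (r i) (F i) (X i) (α i) 2) := DAlg.FO.zero
  have hh : ∀ c, S.FO θ (fun i => s i * L i ^ 2 / lam i)
      (fun i => S.ksrc (lam i) (r i) (F i) (X i) (α i) c) := by
    intro c
    fin_cases c
    · exact c0
    · exact c1
    · exact c2
  have hs' : ∀ i, 0 ≤ s i * L i ^ 2 / lam i := fun i =>
    div_nonneg (mul_nonneg (hs i) (pow_nonneg (hL0 i).le 2)) (hl0 i).le
  obtain ⟨w1, w2, w3⟩ := W ι L θ lam _ r F X m
    (fun i => S.ksrc (lam i) (r i) (F i) (X i) (α i)) hL hθ hlam hs' ht hw hN hP1 hP2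
    htt hwt htw hh
  have hk1 : ∀ a, S.FO θ (fun i => s i * L i ^ 3 / lam i)
      (fun i => kE (lam i) (F i) (α i) a) := fun a => by
    have h1 := DAlg.FO.smul (S := S) hinv hl0' (hα.mul (hE a))
    refine (h1.mono_s' (s' := fun i => s i * L i ^ 3 / lam i) (fun i => ?_) hθ0').congr
      fun i p => ?_
    · rw [div_eq_mul_inv, mul_comm]
      refine mul_le_mul_of_nonneg_right ?_ (hl0' i)
      refine mul_le_mul_of_nonneg_left ?_ (hs i)
      exact le_self_pow₀ (hL i) (by norm_num)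
    · rw [kE_eq]
  have hk : ∀ a, S.FO θ (fun i => s i * L i ^ 3 / lam i)
      (fun i => S.ker (lam i) (r i) (F i) (X i) m (α i) a) := fun a => by
    have h2 := (w1 a).congr_s (s' := fun i => s i * L i ^ 3 / lam i) fun i => by ring
    exact (hk1 a).sub h2
  refine ⟨hk, ?_, ?_⟩
  · intro j a
    have hw2 : S.FO θ (fun i => s i * L i ^ 6 / lam i * (θ i / lam i))
        (fun i => S.wkb (lam i) (r i) (F i) (X i) m
          (S.ksrc (lam i) (r i) (F i) (X i) (α i)) a) := by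
      refine ((w2 a).congr_s fun i => ?_).congr fun i p => ?_
      · ring
      · rw [ksrc_two]; simp
    have hil : ∀ i, ‖Complex.I * (lam i : ℂ)‖ ≤ 1 * lam i := fun i => by
      rw [norm_mul, Complex.norm_I, one_mul, one_mul, Complex.norm_real,
        Real.norm_eq_abs, abs_of_pos (hl0 i)]
    have h3 := DAlg.FO.smul (S := S) hil (fun i => (hl0 i).le) ((hΨ j).mul hw2)
    have h3' := h3.congr_s (s' := fun i => s i * L i ^ 7 * (θ i / lam i)) fun i => by
      have := (hl0 i).ne'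
      field_simp
    have h4 := ((hk a).D j).mono_s' (s' := fun i => s i * L i ^ 7 * (θ i / lam i))
      (fun i => by
        have e : s i * L i ^ 3 / lam i * θ i = s i * L i ^ 3 * (θ i / lam i) := by ring
        rw [e]
        refine mul_le_mul_of_nonneg_right ?_ (div_nonneg (hθ0' i) (hl0 i).le)
        exact mul_le_mul_of_nonneg_left (pow_le_pow_right₀ (hL i) (by norm_num)) (hs i))
      hθ0'
    refine (h4.sub h3').congr fun i p => ?_
    have hne : (Complex.I * (lam i : ℂ)) ≠ 0 :=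
      mul_ne_zero Complex.I_ne_zero (by exact_mod_cast (hl0 i).ne')
    have e1 : S.ker (lam i) (r i) (F i) (X i) m (α i) a p =
      α i p * (F i).E a p / (Complex.I * lam i)
        - S.wkb (lam i) (r i) (F i) (X i) m (S.ksrc (lam i) (r i) (F i) (X i) (α i)) a p := rfl
    have e2 : Complex.I * (lam i : ℂ) * (α i p * (F i).E a p / (Complex.I * lam i))
        = α i p * (F i).E a p := mul_div_cancel₀ _ hne
    simp only [Pi.sub_apply, Pi.mul_apply, DAlg.kerB]
    rw [e1]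
    linear_combination (-S.D j (r i).Ψ p) * e2
  · intro c
    exact (w3 c).congr_s fun i => by ring

/-- **(K2')** scale invariant form -/
theorem DAlg.kerB_of (W : S.WkbB) : S.KerB := by
  intro ι θ b lam s r F X m α hb hbθ hlam hs ht hw hΨ hE hN hP1 hP2 htt hwt htw hα
  have hb0 : ∀ i, 0 < b i := fun i => zero_lt_one.trans_le (hb i)
  have hθ0 : ∀ i, 0 < θ i := fun i => (hb0 i).trans_le (hbθ i)
  have hθ0' : ∀ i, 0 ≤ θ i := fun i => (hθ0 i).le
  have hl0 : ∀ i, 0 < lam i := fun i => (hθ0 i).trans_le (hlam i)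
  have hinv : ∀ i, ‖(Complex.I * (lam i : ℂ))⁻¹‖ ≤ 1 * (lam i)⁻¹ := fun i => by
    rw [norm_inv, norm_mul, Complex.norm_I, one_mul, one_mul, Complex.norm_real,
      Real.norm_eq_abs, abs_of_pos (hl0 i)]
  have hinv2 : ∀ i, ‖-2 * (Complex.I * (lam i : ℂ))⁻¹‖ ≤ 2 * (lam i)⁻¹ := fun i => by
    rw [norm_mul, norm_neg, Complex.norm_ofNat]
    have := hinv i
    rw [one_mul] at this
    exact mul_le_mul_of_nonneg_left this (by norm_num)
  have hinv3 : ∀ i, ‖-(Complex.I * (lam i : ℂ))⁻¹‖ ≤ 1 * (lam i)⁻¹ := fun i => by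
    rw [norm_neg]; exact hinv i
  have hl0' : ∀ i, 0 ≤ (lam i)⁻¹ := fun i => inv_nonneg.2 (hl0 i).le
  have hbl : ∀ i, 0 ≤ b i / lam i := fun i => div_nonneg (hb0 i).le (hl0 i).le
  have hbl1 : ∀ i, b i / lam i ≤ 1 := fun i => by
    rw [div_le_one (hl0 i)]; exact (hbθ i).trans (hlam i)
  -- the source
  have c0 : S.FO θ (fun i => s i * (b i / lam i))
      (fun i => S.ksrc (lam i) (r i) (F i) (X i) (α i) 0) := by
    have h1 := DAlg.FO.smul (S := S) hinv2 hl0' (hα.mul (DAlg.FO.dot htt hE))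
    refine (h1.congr_s fun i => ?_).congr fun i p => ?_
    · rw [div_eq_mul_inv]; ring
    · rw [ksrc_zero]
  have c1 : S.FO θ (fun i => s i * (b i / lam i))
      (fun i => S.ksrc (lam i) (r i) (F i) (X i) (α i) 1) := by
    have h1 := DAlg.FO.smul (S := S) hinv3 hl0' (hα.mul ((DAlg.FO.dot hwt hE).add
      (DAlg.FO.dot htw hE)))
    refine (h1.congr_s fun i => ?_).congr fun i p => ?_
    · rw [div_eq_mul_inv]; ring
    · rw [ksrc_one]
  have c2 : S.FO θ (fun i => s i * (b i / lam i))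
      (fun i => S.ksrc (lam i) (r i) (F i) (X i) (α i) 2) := DAlg.FO.zero
  have hh : ∀ c, S.FO θ (fun i => s i * (b i / lam i))
      (fun i => S.ksrc (lam i) (r i) (F i) (X i) (α i) c) := by
    intro c
    fin_cases c
    · exact c0
    · exact c1
    · exact c2
  have hs' : ∀ i, 0 ≤ s i * (b i / lam i) := fun i => mul_nonneg (hs i) (hbl i)
  obtain ⟨w1, w2, w3⟩ := W ι θ b lam _ r F X m
    (fun i => S.ksrc (lam i) (r i) (F i) (X i) (α i)) hb hbθ hlam hs' ht hw hN hP1 hP2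
    htt hwt htw hh
  have hk1 : ∀ a, S.FO θ (fun i => s i / lam i)
      (fun i => kE (lam i) (F i) (α i) a) := fun a => by
    have h1 := DAlg.FO.smul (S := S) hinv hl0' (hα.mul (hE a))
    refine (h1.congr_s fun i => ?_).congr fun i p => ?_
    · rw [div_eq_mul_inv]; ring
    · rw [kE_eq]
  have hk : ∀ a, S.FO θ (fun i => s i / lam i)
      (fun i => S.ker (lam i) (r i) (F i) (X i) m (α i) a) := fun a => by
    have h2 := (w1 a).congr_s (s' := fun i => s i / lam i) fun i => by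
      have := (hb0 i).ne'
      field_simp
    exact (hk1 a).sub h2
  refine ⟨hk, ?_, ?_⟩
  · intro j a
    have hw2 : S.FO θ (fun i => (lam i)⁻¹ * (s i * (θ i / lam i)))
        (fun i => S.wkb (lam i) (r i) (F i) (X i) m
          (S.ksrc (lam i) (r i) (F i) (X i) (α i)) a) := by
      refine ((w2 a).congr_s fun i => ?_).congr fun i p => ?_
      · have h1 := (hb0 i).ne'
        have h2 := (hl0 i).ne'
        field_simp
      · rw [ksrc_two]; simp
    have hil : ∀ i, ‖Complex.I * (lam i : ℂ)‖ ≤ 1 * lam i := fun i => by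
      rw [norm_mul, Complex.norm_I, one_mul, one_mul, Complex.norm_real,
        Real.norm_eq_abs, abs_of_pos (hl0 i)]
    have h3 := DAlg.FO.smul (S := S) hil (fun i => (hl0 i).le) ((hΨ j).mul hw2)
    have h3' := h3.congr_s (s' := fun i => s i * (θ i / lam i)) fun i => by
      have := (hl0 i).ne'
      field_simp
    have h4 := ((hk a).D j).congr_s (s' := fun i => s i * (θ i / lam i))
      (fun i => by ring)
    refine (h4.sub h3').congr fun i p => ?_
    have hne : (Complex.I * (lam i : ℂ)) ≠ 0 :=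
      mul_ne_zero Complex.I_ne_zero (by exact_mod_cast (hl0 i).ne')
    have e1 : S.ker (lam i) (r i) (F i) (X i) m (α i) a p =
      α i p * (F i).E a p / (Complex.I * lam i)
        - S.wkb (lam i) (r i) (F i) (X i) m (S.ksrc (lam i) (r i) (F i) (X i) (α i)) a p := rfl
    have e2 : Complex.I * (lam i : ℂ) * (α i p * (F i).E a p / (Complex.I * lam i))
        = α i p * (F i).E a p := mul_div_cancel₀ _ hne
    simp only [Pi.sub_apply, Pi.mul_apply, DAlg.kerB]
    rw [e1]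
    linear_combination (-S.D j (r i).Ψ p) * e2
  · intro c
    refine (w3 c).mono_s' (fun i => ?_) hθ0'
    have h1 : 0 ≤ (θ i / lam i) ^ m := pow_nonneg (div_nonneg (hθ0' i) (hl0 i).le) m
    refine mul_le_mul_of_nonneg_right ?_ h1
    exact mul_le_of_le_one_right (hs i) (hbl1 i)

end Vale.Agent.P205.F
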