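import Vale.Agent.P205.F.StageDef

/-! The statements `Boxes`, `DAlg.Pieces` are now in `StageDef.lean`. -/
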