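import Vale.Agent.P205.F.StageDef

/-!
The corrugation of one stage: definitions (quadratic identity, interface of the stage).

`y = ε u1 + ε² u2`, `u1 = Σ_a Re (osc ψ_a · ker_a)`,
`u2 = - Σ_(a,b,σ) used Re (osc (pr a b σ).Ψ · wkb (pairH))`.
-/

noncomputable section

open scoped Classical

namespace Vale.Agent.P205.F

universe u

variable {P : Type u} {κ : Type} [Fintype κ] (S : DAlg P κ)

/-- conjugate of a vector -/
def cjv (V : Fin 4 → P → ℂ) : Fin 4 → P → ℂ := fun a q => (starRingEnd ℂ) (V a q)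

/-- `V` for `true`, the conjugate for `false` -/
def twv (σ : Bool) (V : Fin 4 → P → ℂ) : Fin 4 → P → ℂ := bif σ then V else cjv V

/-- component along a field of a covector field with values in `ℂ⁴` -/
def cmp (c : κ → P → ℂ) (B : κ → Fin 4 → P → ℂ) : Fin 4 → P → ℂ :=
  fun a q => ∑ j, c j q * B j a q

/-- `(tt, tw, ww)` of the symmetric part of `B ⊗ B' / 2` -/
def pairH (r : Ray P κ) (B B' : κ → Fin 4 → P → ℂ) : Fin 3 → P → ℂ :=
  ![fun q => (1 / 2) * dot (cmp r.t B) (cmp r.t B') q,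
    fun q => (1 / 4) * (dot (cmp r.t B) (cmp r.w B') q + dot (cmp r.w B) (cmp r.t B') q),
    fun q => (1 / 2) * dot (cmp r.w B) (cmp r.w B') q]

/-- slow part of the quadratic term -/
def slowM {Q : Type} [Fintype Q] (B : Q → κ → Fin 4 → P → ℂ) (j k : κ) : P → ℂ :=
  fun q => ∑ a, (((1 / 2) * dot (B a j) (cjv (B a k)) q).re : ℂ)

section

variable {Q : Type} [Fintype Q] (lam : ℝ) (d : PData P κ Q) (F : Q ⊕ (Q × Q × Bool) → Frm P)
  (X : Fin 4 → P → ℂ) (m : ℕ) (α : Q → P → ℂ)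

/-- the kernel solution of the piece `a` -/
def DAlg.sk (a : Q) : Fin 4 → P → ℂ := S.ker lam (d.ray a) (F (Sum.inl a)) X m (α a)

/-- its derivative, without the oscillating factor -/
def DAlg.sB (a : Q) (j : κ) : Fin 4 → P → ℂ :=
  S.kerB lam (d.ray a) (F (Sum.inl a)) X m (α a) j

/-- the source of the pair `(a, b, σ)` -/
def DAlg.sh (x : Q × Q × Bool) : Fin 3 → P → ℂ :=
  pairH (d.pr x.1 x.2.1 x.2.2) (S.sB lam d F X m α x.1)
    (fun k => twv x.2.2 (S.sB lam d F X m α x.2.1 k))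

/-- the WKB solution of the pair -/
def DAlg.sw (x : Q × Q × Bool) : Fin 4 → P → ℂ :=
  S.wkb lam (d.pr x.1 x.2.1 x.2.2) (F (Sum.inr x)) X m (S.sh lam d F X m α x)

/-- first order part -/
def DAlg.su1 : Fin 4 → P → ℂ :=
  fun c q => ∑ a, ((osc lam (d.ray a).Ψ q * S.sk lam d F X m α a c q).re : ℂ)

/-- second order part -/
def DAlg.su2 : Fin 4 → P → ℂ :=
  fun c q => - ∑ x : Q × Q × Bool, if usedRay (Sum.inr x) then
    ((osc lam (d.pr x.1 x.2.1 x.2.2).Ψ q * S.sw lam d F X m α x c q).re : ℂ) else 0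

/-- the corrugation -/
def DAlg.sy (ε : ℝ) : Fin 4 → P → ℂ :=
  fun c q => ε * S.su1 lam d F X m α c q + ε ^ 2 * S.su2 lam d F X m α c q

/-- **(QA)** the quadratic identity -/
def DAlg.QuadAlg (Q : Type) [Fintype Q] : Prop :=
  ∀ (lam ε : ℝ) (d : PData P κ Q) (F : Q ⊕ (Q × Q × Bool) → Frm P) (X : Fin 4 → P → ℂ) (m : ℕ)
    (α : Q → P → ℂ), lam ≠ 0 → d.Ok S → (∀ a, S.Sm (X a)) → (∀ a, Rl (X a)) →
    (∀ x, usedRay x → (F x).Ok S (d.rays x) X) → (∀ a, S.Sm (α a)) →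
    (∀ a, S.Zs (d.ray a).K (α a)) → (∀ a, Rl (α a)) →
    ∀ j k q, S.met (fun a => X a + S.sy lam d F X m α ε a) j k q - S.met X j k q =
      - ε * ∑ a, ((osc lam (d.ray a).Ψ q * (d.ray a).ten S (S.wres lam (d.ray a)
          (F (Sum.inl a)) X m (S.ksrc lam (d.ray a) (F (Sum.inl a)) X (α a))) j k q).re : ℂ)
      - ε ^ 2 * (∑ x : Q × Q × Bool, if usedRay (Sum.inr x) then
          ((osc lam (d.pr x.1 x.2.1 x.2.2).Ψ q * (d.pr x.1 x.2.1 x.2.2).ten S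
            (S.wres lam (d.pr x.1 x.2.1 x.2.2) (F (Sum.inr x)) X m
              (S.sh lam d F X m α x)) j k q).re : ℂ) else 0)
      + ε ^ 2 * slowM (S.sB lam d F X m α) j k q
      + ε ^ 3 * (dot (S.Dv j (S.su1 lam d F X m α)) (S.Dv k (S.su2 lam d F X m α)) q
          + dot (S.Dv j (S.su2 lam d F X m α)) (S.Dv k (S.su1 lam d F X m α)) q)
      + ε ^ 4 * dot (S.Dv j (S.su2 lam d F X m α)) (S.Dv k (S.su2 lam d F X m α)) q

end

/-- frames of all rays in use with their bounds, `1 ≤ b ≤ θ`, scale `θ` -/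
structure FrmBd {Q : Type} {ι : Type u} (θ b : ι → ℝ) (d : ι → PData P κ Q)
    (X : ι → Fin 4 → P → ℂ) (F : ι → Q ⊕ (Q × Q × Bool) → Frm P) : Prop where
  ok : ∀ i x, usedRay x → (F i x).Ok S ((d i).rays x) (X i)
  E : ∀ x, usedRay x → ∀ a, S.FO θ (fun _ => 1) (fun i => (F i x).E a)
  N : ∀ x, usedRay x → ∀ a, S.FO θ (fun i => 1 / b i) (fun i => (F i x).N a)
  P1 : ∀ x, usedRay x → ∀ a, S.FO θ (fun _ => 1) (fun i => (F i x).P1 a)
  P2 : ∀ x, usedRay x → ∀ a, S.FO θ (fun _ => 1) (fun i => (F i x).P2 a)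
  tt : ∀ x, usedRay x → ∀ a, S.FO θ b
    (fun i => S.dirv ((d i).rays x).t (S.dirv ((d i).rays x).t (X i)) a)
  wt : ∀ x, usedRay x → ∀ a, S.FO θ b
    (fun i => S.dirv ((d i).rays x).w (S.dirv ((d i).rays x).t (X i)) a)
  tw : ∀ x, usedRay x → ∀ a, S.FO θ b
    (fun i => S.dirv ((d i).rays x).t (S.dirv ((d i).rays x).w (X i)) a)

/-- **(PREP)** frames and bounds for all rays in use, families -/
def DAlg.Prep (Q : Type) [Fintype Q] : Prop :=
  ∀ (ι : Type u) (θ b : ι → ℝ) (c0 : ℝ) (d : ι → PData P κ Q) (X : ι → Fin 4 → P → ℂ),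
    0 < c0 → (∀ i, 1 ≤ b i) → (∀ i, b i ≤ θ i) →
    (∀ i, (d i).Ok S) → PData.FBd S d θ → (∀ i, (d i).Nondeg S c0 (b i) (X i)) →
    (∀ i a, S.Sm (X i a)) → (∀ i a, Rl (X i a)) →
    (∀ j a, S.FO θ (fun _ => 1) (fun i => S.D j (X i a))) →
    (∀ j k a, S.FO θ b (fun i => S.D j (S.D k (X i a)))) →
    ∃ F : ι → Q ⊕ (Q × Q × Bool) → Frm P, FrmBd S θ b d X F

end Vale.Agent.P205.F
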