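import Vale.Agent.P205.F.Frame
import Vale.Agent.P205.F.QuadDef

/-!
Preparation of a stage (P205, block PREP): frames along all used rays, and the bounds for
everything that enters the WKB solutions.
-/

set_option linter.all false

noncomputable section

namespace Vale.Agent.P205.F

universe u

variable {P : Type u} {κ : Type} [Fintype κ] (S : DAlg P κ)

namespace DAlg

section
variable {ι : Type*} {b θ : ι → ℝ} {c e : ι → κ → P → ℂ} {X : ι → Fin 4 → P → ℂ}

theorem FO.mono_both {μ μ' s s' : ι → ℝ} {u : ι → P → ℂ} (h : S.FO μ s u)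
    (hμ : ∀ i, μ i ≤ μ' i) (h0 : ∀ i, 0 ≤ μ i) (hs : ∀ i, s i ≤ s' i) (hs0 : ∀ i, 0 ≤ s i) :
    S.FO μ' s' u :=
  DAlg.FO.mono_s' (DAlg.FO.mono_mu h hμ h0 hs0) hs (fun i => (h0 i).trans (hμ i))

/-- first derivative along a field -/
theorem fo_dir1 (hc : ∀ j, S.FO θ (fun _ => 1) (fun i => c i j))
    (h1 : ∀ j a, S.FO θ (fun _ => 1) (fun i => S.D j (X i a))) (a : Fin 4) :
    S.FO θ (fun _ => 1) (fun i => S.dirv (c i) (X i) a) := by
  have h := DAlg.FO.sum' (S := S) (μ := θ) (s := fun i => 1 * 1)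
    (A := (Finset.univ : Finset κ)) (u := fun j i => c i j * S.D j (X i a))
    fun j _ => (hc j).mul (h1 j a)
  exact h.congr_s fun i => by ring

/-- second derivative along two fields -/
theorem fo_dir2 (hb : ∀ i, 1 ≤ b i) (hθ : ∀ i, 1 ≤ θ i)
    (hc : ∀ j, S.FO (fun _ => 1) (fun _ => 1) (fun i => c i j))
    (he : ∀ j, S.FO (fun _ => 1) (fun _ => 1) (fun i => e i j))
    (sX : ∀ i a, S.Sm (X i a))
    (h1 : ∀ j a, S.FO θ (fun _ => 1) (fun i => S.D j (X i a)))
    (h2 : ∀ j k a, S.FO θ b (fun i => S.D j (S.D k (X i a)))) (a : Fin 4) :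
    S.FO θ b (fun i => S.dirv (e i) (S.dirv (c i) (X i)) a) := by
  have hθ0 : ∀ i, 0 ≤ θ i := fun i => zero_le_one.trans (hθ i)
  have up : ∀ {u : ι → P → ℂ}, S.FO (fun _ => 1) (fun _ => 1) u → S.FO θ (fun _ => 1) u :=
    fun {u} h => h.mono_mu hθ (fun _ => zero_le_one) (fun _ => zero_le_one)
  have hD : ∀ j k, S.FO θ (fun _ => 1) (fun i => S.D j (c i k)) := fun j k =>
    up (((hc k).D j).congr_s fun i => by ring)
  have hin : ∀ j, S.FO θ b (fun i => S.D j (S.dirv (c i) (X i) a)) := by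
    intro j
    have t1 : S.FO θ b (fun i p => ∑ k, (S.D j (c i k) * S.D k (X i a)) p) :=
      DAlg.FO.sum' (S := S) (u := fun k i => S.D j (c i k) * S.D k (X i a))
        fun k _ => ((hD j k).mul (h1 k a)).mono_s' (fun i => by
          rw [one_mul]; exact hb i) hθ0
    have t2 : S.FO θ b (fun i p => ∑ k, (c i k * S.D j (S.D k (X i a))) p) :=
      DAlg.FO.sum' (S := S) (u := fun k i => c i k * S.D j (S.D k (X i a)))
        fun k _ => ((up (hc k)).mul (h2 j k a)).congr_s fun i => by ring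
    refine (t1.add t2).congr fun i p => ?_
    have := S.D_dir j (fun l => (hc l).1 i) (sX i a) p
    rw [DAlg.dirv, this]
    rfl
  have h := DAlg.FO.sum' (S := S) (μ := θ) (s := fun i => 1 * b i)
    (A := (Finset.univ : Finset κ)) (u := fun j i => e i j * S.D j (S.dirv (c i) (X i) a))
    fun j _ => (up (he j)).mul (hin j)
  exact h.congr_s fun i => by ring

end

/-- **(PREP)** -/
theorem prep (Q : Type) [Fintype Q] : S.Prep Q := by
  intro ι θ b c0 d X hc hb hθ hd hB hN sX rX h1 h2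
  have hθ1 : ∀ i, 1 ≤ θ i := fun i => (hb i).trans (hθ i)
  have up : ∀ {u : ι → P → ℂ}, S.FO (fun _ => 1) (fun _ => 1) u → S.FO θ (fun _ => 1) u :=
    fun {u} h => h.mono_mu hθ1 (fun _ => zero_le_one) (fun _ => zero_le_one)
  have hok : ∀ x, usedRay x → ∀ i, ((d i).rays x).Ok S := by
    intro x hx i
    rcases x with a | ⟨a, b, σ⟩
    · exact (hd i).ray a
    · exact (hd i).pr a b σ hx
  have key : ∀ x, usedRay x → ∃ F : ι → Frm P, (∀ i, (F i).Ok S ((d i).rays x) (X i)) ∧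
      (∀ a, S.FO θ (fun _ => 1) (fun i => (F i).E a)) ∧
      (∀ a, S.FO θ (fun i => 1 / b i) (fun i => (F i).N a)) ∧
      (∀ a, S.FO θ (fun _ => 1) (fun i => (F i).P1 a)) ∧
      (∀ a, S.FO θ (fun _ => 1) (fun i => (F i).P2 a)) := by
    intro x hx
    have ht := hB.t x hx
    have hw := hB.w x hx
    have Xt := S.fo_dir1 (fun j => up (ht j)) h1
    have Xw := S.fo_dir1 (fun j => up (hw j)) h1
    have ww := S.fo_dir2 hb hθ1 hw hw sX h1 h2
    have rt : ∀ i a, Rl (S.dirv ((d i).rays x).t (X i) a) := fun i a =>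
      Rl.dir (hok x hx i).rt (sX i a) (rX i a)
    have rw' : ∀ i a, Rl (S.dirv ((d i).rays x).w (X i) a) := fun i a =>
      Rl.dir (hok x hx i).rw' (sX i a) (rX i a)
    have rww : ∀ i a, Rl (S.dirv ((d i).rays x).w (S.dirv ((d i).rays x).w (X i)) a) :=
      fun i a => Rl.dir (hok x hx i).rw' (S.sm_dir (hok x hx i).smw (sX i a)) (rw' i a)
    obtain ⟨F, hF, hE, hNN, hP1, hP2, -, -, -⟩ :=
      S.frame_rayU hθ1 hb hc (r := fun i => (d i).rays x) (X := X) Xt Xw ww rt rw' rww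
        (fun i p hp => hN i x hx p hp)
    exact ⟨F, hF, hE, hNN, hP1, hP2⟩
  classical
  have key' : ∀ x, ∃ F : ι → Frm P, usedRay x → (∀ i, (F i).Ok S ((d i).rays x) (X i)) ∧
      (∀ a, S.FO θ (fun _ => 1) (fun i => (F i).E a)) ∧
      (∀ a, S.FO θ (fun i => 1 / b i) (fun i => (F i).N a)) ∧
      (∀ a, S.FO θ (fun _ => 1) (fun i => (F i).P1 a)) ∧
      (∀ a, S.FO θ (fun _ => 1) (fun i => (F i).P2 a)) := by
    intro x
    by_cases hx : usedRay x
    · obtain ⟨F, hF⟩ := key x hx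
      exact ⟨F, fun _ => hF⟩
    · exact ⟨fun _ => ⟨0, 0, 0, 0⟩, fun h => absurd h hx⟩
  choose F hF using key'
  exact ⟨fun i x => F x i,
    { ok := fun i x hx => (hF x hx).1 i
      E := fun x hx => (hF x hx).2.1
      N := fun x hx => (hF x hx).2.2.1
      P1 := fun x hx => (hF x hx).2.2.2.1
      P2 := fun x hx => (hF x hx).2.2.2.2
      tt := fun x hx => S.fo_dir2 hb hθ1 (hB.t x hx) (hB.t x hx) sX h1 h2
      wt := fun x hx => S.fo_dir2 hb hθ1 (hB.t x hx) (hB.w x hx) sX h1 h2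
      tw := fun x hx => S.fo_dir2 hb hθ1 (hB.w x hx) (hB.t x hx) sX h1 h2 }⟩

end DAlg

end Vale.Agent.P205.F
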