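import Vale.Agent.P205.F.QuadDef
import Vale.Agent.P205.F.Ker

/-!
The quadratic identity `QuadAlg` for the corrugation of one stage.
-/

set_option linter.all false

noncomputable section

open scoped Classical

namespace Vale.Agent.P205.F

universe u

variable {P : Type u} {κ : Type} [Fintype κ] (S : DAlg P κ)

/-! ### real parts -/

omit [Fintype κ] in
theorem DAlg.D_re {u : P → ℂ} (j : κ) (hu : S.Sm u) (p : P) :
    S.D j (fun q => ((u q).re : ℂ)) p = ((S.D j u p).re : ℂ) := by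
  have e : (fun q => ((u q).re : ℂ)) = fun q => (1 / 2 : ℂ) * (u + fun q => (starRingEnd ℂ) (u q)) q := by
    funext q
    have h := Complex.add_conj (u q)
    simp only [Pi.add_apply, h]
    push_cast
    ring
  rw [e, S.D_smul_apply j _ (S.sm_add hu (S.sm_conj hu)), S.D_add_apply j hu (S.sm_conj hu),
    S.D_conj_apply j hu]
  have h := Complex.add_conj (S.D j u p)
  rw [h]
  push_cast
  ring

theorem DAlg.lin_re {X v : Fin 4 → P → ℂ} (sX : ∀ a, S.Sm (X a)) (rX : ∀ a, Rl (X a))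
    (sv : ∀ a, S.Sm (v a)) (j k : κ) (q : P) :
    S.lin X (fun a q => ((v a q).re : ℂ)) j k q = ((S.lin X v j k q).re : ℂ) := by
  unfold DAlg.lin dot DAlg.Dv
  have h : ∀ l i, S.D l (fun q => ((v i q).re : ℂ)) q = ((S.D l (v i) q).re : ℂ) := fun l i =>
    S.D_re l (sv i) q
  have hX : ∀ l i, S.D l (X i) q = ((S.D l (X i) q).re : ℂ) := fun l i =>
    ((S.rl_D l (sX i) (rX i)).ofReal_re q).symm
  have hm : ∀ l l' i, ((S.D l (X i) q * S.D l' (v i) q).re : ℂ)
      = S.D l (X i) q * ((S.D l' (v i) q).re : ℂ) := fun l l' i => by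
    have h1 : (S.D l (X i) q).im = 0 := S.rl_D l (sX i) (rX i) q
    rw [Complex.mul_re, h1, zero_mul, sub_zero]
    push_cast
    rw [← hX]
  simp only [h]
  rw [Complex.add_re, Complex.re_sum, Complex.re_sum]
  push_cast
  simp only [hm]

theorem DAlg.lin_sum {ι : Type*} [Fintype ι] {X : Fin 4 → P → ℂ} {v : ι → Fin 4 → P → ℂ}
    (sv : ∀ x a, S.Sm (v x a)) (j k : κ) (q : P) :
    S.lin X (fun a q => ∑ x, v x a q) j k q = ∑ x, S.lin X (v x) j k q := by
  unfold DAlg.lin dot DAlg.Dv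
  have h : ∀ l i, S.D l (fun q => ∑ x, v x i q) q = ∑ x, S.D l (v x i) q := fun l i =>
    S.D_sum_apply l (fun x _ => sv x i) q
  simp only [h]
  rw [Finset.sum_add_distrib, Finset.sum_comm (s := (Finset.univ : Finset ι)),
    Finset.sum_comm (s := (Finset.univ : Finset ι))]
  simp only [Finset.mul_sum]

theorem DAlg.lin_comb {X v v' : Fin 4 → P → ℂ} (sv : ∀ a, S.Sm (v a))
    (sv' : ∀ a, S.Sm (v' a)) (c c' : ℂ) (j k : κ) (q : P) :
    S.lin X (fun a q => c * v a q + c' * v' a q) j k q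
      = c * S.lin X v j k q + c' * S.lin X v' j k q := by
  unfold DAlg.lin dot DAlg.Dv
  have h : ∀ l i, S.D l (fun q => c * v i q + c' * v' i q) q
      = c * S.D l (v i) q + c' * S.D l (v' i) q := fun l i => by
    have h1 := S.D_add_apply l (S.sm_smul c (sv i)) (S.sm_smul c' (sv' i)) q
    rw [S.D_smul_apply l c (sv i), S.D_smul_apply l c' (sv' i)] at h1
    exact h1
  simp only [h, mul_add, Finset.mul_sum, ← Finset.sum_add_distrib]
  refine Finset.sum_congr rfl (fun i _ => ?_)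
  ring

/-- expansion of the metric -/
theorem DAlg.met_add {X v v' : Fin 4 → P → ℂ} (sX : ∀ a, S.Sm (X a)) (sv : ∀ a, S.Sm (v a))
    (sv' : ∀ a, S.Sm (v' a)) (c c' : ℂ) (j k : κ) (q : P) :
    S.met (fun a => X a + fun q => c * v a q + c' * v' a q) j k q - S.met X j k q =
      c * S.lin X v j k q + c' * S.lin X v' j k q
      + c ^ 2 * dot (S.Dv j v) (S.Dv k v) q
      + c * c' * (dot (S.Dv j v) (S.Dv k v') q + dot (S.Dv j v') (S.Dv k v) q)
      + c' ^ 2 * dot (S.Dv j v') (S.Dv k v') q := by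
  unfold DAlg.met DAlg.lin dot DAlg.Dv
  have h : ∀ l i, S.D l (X i + fun q => c * v i q + c' * v' i q) q
      = S.D l (X i) q + (c * S.D l (v i) q + c' * S.D l (v' i) q) := fun l i => by
    have h1 := S.D_add_apply l (S.sm_smul c (sv i)) (S.sm_smul c' (sv' i)) q
    rw [S.D_smul_apply l c (sv i), S.D_smul_apply l c' (sv' i)] at h1
    have h2 := S.D_add_apply l (sX i) (S.sm_add (S.sm_smul c (sv i)) (S.sm_smul c' (sv' i))) q
    rw [h1] at h2
    exact h2
  simp only [h, mul_add, Finset.mul_sum, ← Finset.sum_add_distrib, ← Finset.sum_sub_distrib]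
  refine Finset.sum_congr rfl (fun i _ => ?_)
  ring

/-! ### tensors along a ray -/

/-- decomposition of `B` along the ray at `q` -/
def LrAt (r : Ray P κ) (B : κ → Fin 4 → P → ℂ) (q : P) : Prop :=
  ∀ j c, B j c q = S.D j r.Ψ q * cmp r.t B c q + r.β j q * cmp r.w B c q

theorem ten_pairH {r : Ray P κ} {B B' : κ → Fin 4 → P → ℂ} {q : P} (h : LrAt S r B q)
    (h' : LrAt S r B' q) (j k : κ) :
    r.ten S (pairH r B B') j k q
      = 1 / 4 * (dot (B j) (B' k) q + dot (B k) (B' j) q) := by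
  unfold Ray.ten pairH
  simp only [Matrix.cons_val_zero, Matrix.cons_val_one, Matrix.cons_val]
  unfold dot
  have e : ∀ c, 1 / 4 * (B j c q * B' k c q + B k c q * B' j c q) =
      S.D j r.Ψ q * S.D k r.Ψ q * (1 / 2 * (cmp r.t B c q * cmp r.t B' c q))
      + (S.D j r.Ψ q * r.β k q + r.β j q * S.D k r.Ψ q) *
        (1 / 4 * (cmp r.t B c q * cmp r.w B' c q + cmp r.w B c q * cmp r.t B' c q))
      + r.β j q * r.β k q * (1 / 2 * (cmp r.w B c q * cmp r.w B' c q)) := by
    intro c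
    rw [h j c, h k c, h' j c, h' k c]
    ring
  have e' : 1 / 4 * (∑ c, B j c q * B' k c q + ∑ c, B k c q * B' j c q)
      = ∑ c, 1 / 4 * (B j c q * B' k c q + B k c q * B' j c q) := by
    rw [← Finset.sum_add_distrib, Finset.mul_sum]
  rw [e', Finset.sum_congr rfl fun c _ => e c]
  simp only [Finset.sum_add_distrib, Finset.mul_sum, mul_add]

theorem ten_pairH_off {r : Ray P κ} {B B' : κ → Fin 4 → P → ℂ} {q : P}
    (h : (∀ j c, B j c q = 0) ∨ (∀ j c, B' j c q = 0)) (j k : κ) :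
    r.ten S (pairH r B B') j k q
      = 1 / 4 * (dot (B j) (B' k) q + dot (B k) (B' j) q) := by
  have hc : ∀ (V : κ → Fin 4 → P → ℂ), (∀ j c, V j c q = 0) → ∀ (t : κ → P → ℂ) c,
      cmp t V c q = 0 := fun V hV t c => by
    unfold cmp
    exact Finset.sum_eq_zero fun j _ => by rw [hV j c, mul_zero]
  unfold Ray.ten pairH
  simp only [Matrix.cons_val_zero, Matrix.cons_val_one, Matrix.cons_val]
  unfold dot
  rcases h with h | h
  · simp only [h, hc B h, zero_mul, Finset.sum_const_zero, mul_zero, add_zero]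
  · simp only [h, hc B' h, zero_mul, Finset.sum_const_zero, mul_zero, add_zero]

theorem twv_apply (σ : Bool) (V : Fin 4 → P → ℂ) (c : Fin 4) (q : P) :
    twv σ V c q = bif σ then V c q else (starRingEnd ℂ) (V c q) := by
  cases σ <;> rfl

theorem cmp_twv {t : κ → P → ℂ} (rt : ∀ j, Rl (t j)) (σ : Bool) (B : κ → Fin 4 → P → ℂ)
    (c : Fin 4) (q : P) :
    cmp t (fun k => twv σ (B k)) c q = bif σ then cmp t B c q
      else (starRingEnd ℂ) (cmp t B c q) := by
  cases σ
  · simp only [cmp, twv_apply, cond_false, map_sum, map_mul]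
    refine Finset.sum_congr rfl fun j _ => ?_
    rw [Complex.conj_eq_iff_im.2 (rt j q)]
  · rfl

theorem LrAt.twv {r : Ray P κ} (hr : r.Ok S) {B : κ → Fin 4 → P → ℂ} {q : P}
    (h : LrAt S r B q) (σ : Bool) : LrAt S r (fun k => twv σ (B k)) q := by
  intro j c
  rw [cmp_twv hr.rt, cmp_twv hr.rw']
  have h1 := h j c
  cases σ
  · simp only [twv_apply, cond_false]
    rw [h1, map_add, map_mul, map_mul, Complex.conj_eq_iff_im.2 (hr.rβ j q),
      Complex.conj_eq_iff_im.2 (S.rl_D j hr.smΨ hr.rΨ q)]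
  · simpa only [twv_apply, cond_true] using h1

/-- `kerB` decomposes along every ray -/
theorem lrAt_kerB {r r' : Ray P κ} (hr : r.Ok S) (hr' : r'.Ok S) {lam : ℝ} {F : Frm P}
    {X : Fin 4 → P → ℂ} {m : ℕ} {α : P → ℂ}
    (sk : ∀ a, S.Sm (S.ker lam r' F X m α a)) {q : P} (hq : q ∈ r.K) :
    LrAt S r (S.kerB lam r' F X m α) q := by
  intro j c
  have h1 := hr.dec _ (sk c) j q hq
  have h2 := hr.dec _ hr'.smΨ j q hq
  have h3 : ∀ t : κ → P → ℂ, cmp t (S.kerB lam r' F X m α) c q =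
      S.dir t (S.ker lam r' F X m α c) q
        + Complex.I * lam * S.dir t r'.Ψ q * S.ker lam r' F X m α c q := by
    intro t
    unfold cmp DAlg.kerB DAlg.dir
    rw [Finset.mul_sum, Finset.sum_mul, ← Finset.sum_add_distrib]
    refine Finset.sum_congr rfl fun i _ => ?_
    ring
  rw [h3, h3]
  unfold DAlg.kerB
  rw [h1, h2]
  ring

theorem sm_cmp {t : κ → P → ℂ} (st : ∀ j, S.Sm (t j)) {B : κ → Fin 4 → P → ℂ}
    (sB : ∀ j c, S.Sm (B j c)) (c : Fin 4) : S.Sm (cmp t B c) :=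
  S.sm_sum' fun j _ => S.sm_mul (st j) (sB j c)

theorem zs_cmp {K : Set P} {t : κ → P → ℂ} (st : ∀ j, S.Sm (t j)) {B : κ → Fin 4 → P → ℂ}
    (sB : ∀ j c, S.Sm (B j c)) (zB : ∀ j c, S.Zs K (B j c)) (c : Fin 4) :
    S.Zs K (cmp t B c) :=
  DAlg.Zs.sum' (A := Finset.univ) (u := fun j => t j * B j c)
    (fun j _ => S.sm_mul (st j) (sB j c)) fun j _ => (zB j c).mul_right (st j) (sB j c)

theorem sm_twv (σ : Bool) {V : Fin 4 → P → ℂ} (sV : ∀ a, S.Sm (V a)) (a : Fin 4) :
    S.Sm (twv σ V a) := by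
  cases σ
  · exact S.sm_conj (sV a)
  · exact sV a

theorem zs_twv {K : Set P} (σ : Bool) {V : Fin 4 → P → ℂ} (sV : ∀ a, S.Sm (V a))
    (zV : ∀ a, S.Zs K (V a)) (a : Fin 4) : S.Zs K (twv σ V a) := by
  cases σ
  · exact (zV a).conj (sV a)
  · exact zV a

theorem sm_pairH {r : Ray P κ} (hr : r.Ok S) {B B' : κ → Fin 4 → P → ℂ}
    (sB : ∀ j c, S.Sm (B j c)) (sB' : ∀ j c, S.Sm (B' j c)) (c : Fin 3) :
    S.Sm (pairH r B B' c) := by
  have t1 := sm_cmp S hr.smt sB
  have t2 := sm_cmp S hr.smt sB'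
  have w1 := sm_cmp S hr.smw sB
  have w2 := sm_cmp S hr.smw sB'
  fin_cases c
  · exact S.sm_smul _ (S.sm_dot t1 t2)
  · exact S.sm_smul _ (S.sm_add (S.sm_dot t1 w2) (S.sm_dot w1 t2))
  · exact S.sm_smul _ (S.sm_dot w1 w2)

theorem zs_pairH_left {K : Set P} {r : Ray P κ} (hr : r.Ok S) {B B' : κ → Fin 4 → P → ℂ}
    (sB : ∀ j c, S.Sm (B j c)) (sB' : ∀ j c, S.Sm (B' j c)) (zB : ∀ j c, S.Zs K (B j c))
    (c : Fin 3) : S.Zs K (pairH r B B' c) := by
  have t1 := sm_cmp S hr.smt sB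
  have t2 := sm_cmp S hr.smt sB'
  have w1 := sm_cmp S hr.smw sB
  have w2 := sm_cmp S hr.smw sB'
  have zt := zs_cmp S hr.smt sB zB
  have zw := zs_cmp S hr.smw sB zB
  fin_cases c
  · exact DAlg.Zs.smul (S.sm_dot t1 t2) _ (DAlg.Zs.dot_left t1 t2 zt)
  · exact DAlg.Zs.smul (S.sm_add (S.sm_dot t1 w2) (S.sm_dot w1 t2)) _
      (DAlg.Zs.add (S.sm_dot t1 w2) (S.sm_dot w1 t2) (DAlg.Zs.dot_left t1 w2 zt)
        (DAlg.Zs.dot_left w1 t2 zw))
  · exact DAlg.Zs.smul (S.sm_dot w1 w2) _ (DAlg.Zs.dot_left w1 w2 zw)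

theorem zs_pairH_right {K : Set P} {r : Ray P κ} (hr : r.Ok S) {B B' : κ → Fin 4 → P → ℂ}
    (sB : ∀ j c, S.Sm (B j c)) (sB' : ∀ j c, S.Sm (B' j c)) (zB' : ∀ j c, S.Zs K (B' j c))
    (c : Fin 3) : S.Zs K (pairH r B B' c) := by
  have t1 := sm_cmp S hr.smt sB
  have t2 := sm_cmp S hr.smt sB'
  have w1 := sm_cmp S hr.smw sB
  have w2 := sm_cmp S hr.smw sB'
  have zt := zs_cmp S hr.smt sB' zB'
  have zw := zs_cmp S hr.smw sB' zB'
  fin_cases c
  · exact DAlg.Zs.smul (S.sm_dot t1 t2) _ (DAlg.Zs.dot_right t1 t2 zt)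
  · exact DAlg.Zs.smul (S.sm_add (S.sm_dot t1 w2) (S.sm_dot w1 t2)) _
      (DAlg.Zs.add (S.sm_dot t1 w2) (S.sm_dot w1 t2) (DAlg.Zs.dot_right t1 w2 zw)
        (DAlg.Zs.dot_right w1 t2 zt))
  · exact DAlg.Zs.smul (S.sm_dot w1 w2) _ (DAlg.Zs.dot_right w1 w2 zw)

/-! ### products of real parts -/

/-- the factor of the pair -/
def pfac (σ : Bool) (A A' : ℂ) : ℂ := A * (bif σ then A' else (starRingEnd ℂ) A')

theorem re_mul_re (z w : ℂ) :
    ((z.re : ℂ) * (w.re : ℂ)) = ((1 / 2 * (z * w)).re : ℂ)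
      + ((1 / 2 * (z * (starRingEnd ℂ) w)).re : ℂ) := by
  rw [← Complex.ofReal_mul, ← Complex.ofReal_add]
  congr 1
  simp only [Complex.mul_re, Complex.conj_re, Complex.conj_im, Complex.mul_im]
  norm_num
  ring

theorem pair_c (A A' b b' : ℂ) :
    (((A * b).re : ℂ) * ((A' * b').re : ℂ)) =
      ((pfac true A A' * (1 / 2 * (b * b'))).re : ℂ)
      + ((pfac false A A' * (1 / 2 * (b * (starRingEnd ℂ) b'))).re : ℂ) := by
  rw [re_mul_re]
  simp only [pfac, cond_true, cond_false, map_mul]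
  congr 3 <;> ring

/-- finite-dimensional form of the quadratic identity -/
theorem quad_point {Q : Type} [Fintype Q] (A : Q → ℂ) (hA : ∀ a, A a * (starRingEnd ℂ) (A a) = 1)
    (B : Q → κ → Fin 4 → P → ℂ) (j k : κ) (q : P) :
    ∑ c : Fin 4, (∑ a, ((A a * B a j c q).re : ℂ)) * (∑ b, ((A b * B b k c q).re : ℂ)) =
      (∑ x : Q × Q × Bool, if usedRay (Sum.inr x) then
        ((pfac x.2.2 (A x.1) (A x.2.1) * (1 / 4 * (dot (B x.1 j) (twv x.2.2 (B x.2.1 k)) q
          + dot (B x.1 k) (twv x.2.2 (B x.2.1 j)) q))).re : ℂ) else 0)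
      + slowM B j k q := by
  -- the products for a pair
  have hP : ∀ (j k : κ) (a b : Q), ∑ c : Fin 4, ((A a * B a j c q).re : ℂ) * ((A b * B b k c q).re : ℂ) =
      ((pfac true (A a) (A b) * (1 / 2 * dot (B a j) (twv true (B b k)) q)).re : ℂ)
      + ((pfac false (A a) (A b) * (1 / 2 * dot (B a j) (twv false (B b k)) q)).re : ℂ) := by
    intro j k a b
    simp only [pair_c, Finset.sum_add_distrib, dot, Finset.mul_sum, twv_apply, cond_true,
      cond_false, Complex.re_sum, Complex.ofReal_sum]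
  have hS : ∀ j k : κ, ∑ c : Fin 4, (∑ a, ((A a * B a j c q).re : ℂ)) * (∑ b, ((A b * B b k c q).re : ℂ))
      = ∑ a, ∑ b, ∑ c : Fin 4, ((A a * B a j c q).re : ℂ) * ((A b * B b k c q).re : ℂ) := by
    intro j k
    simp only [Finset.sum_mul_sum]
    rw [Finset.sum_comm]
    refine Finset.sum_congr rfl fun a _ => ?_
    rw [Finset.sum_comm]
  have hsym : ∑ c : Fin 4, (∑ a, ((A a * B a j c q).re : ℂ)) * (∑ b, ((A b * B b k c q).re : ℂ))
      = ∑ c : Fin 4, (∑ a, ((A a * B a k c q).re : ℂ)) * (∑ b, ((A b * B b j c q).re : ℂ)) :=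
    Finset.sum_congr rfl fun c _ => mul_comm _ _
  -- the symmetrised form
  have h1 : ∑ c : Fin 4, (∑ a, ((A a * B a j c q).re : ℂ)) * (∑ b, ((A b * B b k c q).re : ℂ))
      = ∑ a, ∑ b, ∑ σ : Bool,
        ((pfac σ (A a) (A b) * (1 / 4 * (dot (B a j) (twv σ (B b k)) q
          + dot (B a k) (twv σ (B b j)) q))).re : ℂ) := by
    have h2 : ∑ c : Fin 4, (∑ a, ((A a * B a j c q).re : ℂ)) * (∑ b, ((A b * B b k c q).re : ℂ))
      = (1 / 2) * ((∑ c : Fin 4, (∑ a, ((A a * B a j c q).re : ℂ)) * (∑ b, ((A b * B b k c q).re : ℂ)))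
        + ∑ c : Fin 4, (∑ a, ((A a * B a k c q).re : ℂ)) * (∑ b, ((A b * B b j c q).re : ℂ))) := by
      rw [← hsym]; ring
    rw [h2, hS, hS, ← Finset.sum_add_distrib, Finset.mul_sum]
    refine Finset.sum_congr rfl fun a _ => ?_
    rw [← Finset.sum_add_distrib, Finset.mul_sum]
    refine Finset.sum_congr rfl fun b _ => ?_
    rw [hP, hP, Fintype.sum_bool]
    have h3 : ∀ z w w' : ℂ, ((z * (1 / 4 * (w + w'))).re : ℂ)
        = 1 / 2 * (((z * (1 / 2 * w)).re : ℂ) + ((z * (1 / 2 * w')).re : ℂ)) := by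
      intro z w w'
      have : z * (1 / 4 * (w + w')) = ((1 / 2 : ℝ) : ℂ) * (z * (1 / 2 * w) + z * (1 / 2 * w')) := by
        push_cast; ring
      rw [this, Complex.re_ofReal_mul, Complex.add_re]
      push_cast
      ring
    rw [h3, h3]
    ring
  rw [h1]
  rw [Fintype.sum_prod_type]
  simp only [Fintype.sum_prod_type]
  have h4 : ∀ a b : Q, (∑ σ : Bool,
        ((pfac σ (A a) (A b) * (1 / 4 * (dot (B a j) (twv σ (B b k)) q
          + dot (B a k) (twv σ (B b j)) q))).re : ℂ)) =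
      (∑ σ : Bool, if usedRay (Q := Q) (Sum.inr (a, b, σ)) then
        ((pfac σ (A a) (A b) * (1 / 4 * (dot (B a j) (twv σ (B b k)) q
          + dot (B a k) (twv σ (B b j)) q))).re : ℂ) else 0)
      + if a = b then (((1 / 2) * dot (B a j) (cjv (B a k)) q).re : ℂ) else 0 := by
    intro a b
    rw [Fintype.sum_bool, Fintype.sum_bool]
    have u1 : usedRay (Q := Q) (Sum.inr (a, b, true)) := Or.inl rfl
    rw [if_pos u1]
    by_cases hab : a = b
    · subst hab
      have u2 : ¬ usedRay (Q := Q) (Sum.inr (a, a, false)) := by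
        rintro (h | h)
        · exact Bool.noConfusion h
        · exact h rfl
      rw [if_neg u2, if_pos rfl, add_zero]
      congr 1
      have h5 : pfac false (A a) (A a) = 1 := hA a
      rw [h5, one_mul]
      congr 1
      have h6 : (dot (B a k) (cjv (B a j)) q).re = (dot (B a j) (cjv (B a k)) q).re := by
        unfold dot cjv
        rw [Complex.re_sum, Complex.re_sum]
        refine Finset.sum_congr rfl fun c _ => ?_
        simp only [Complex.mul_re, Complex.conj_re, Complex.conj_im]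
        ring
      have h7 : ∀ z w : ℂ, z.re = w.re → (1 / 4 * (w + z)).re = (1 / 2 * w).re := by
        intro z w h
        have e1 : (1 / 4 : ℂ) = ((1 / 4 : ℝ) : ℂ) := by push_cast; rfl
        have e2 : (1 / 2 : ℂ) = ((1 / 2 : ℝ) : ℂ) := by push_cast; rfl
        rw [e1, e2, Complex.re_ofReal_mul, Complex.re_ofReal_mul, Complex.add_re, h]
        ring
      exact h7 _ _ h6
    · have u2 : usedRay (Q := Q) (Sum.inr (a, b, false)) := Or.inr hab
      rw [if_pos u2, if_neg hab, add_zero]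
  simp only [h4, Finset.sum_add_distrib]
  congr 1
  unfold slowM
  refine Finset.sum_congr rfl fun a _ => ?_
  rw [Finset.sum_ite_eq]
  simp

/-! ### the quadratic identity -/

theorem osc_add (lam : ℝ) (Ψ Ψ' : P → ℂ) (q : P) :
    osc lam (Ψ + Ψ') q = pfac true (osc lam Ψ q) (osc lam Ψ' q) := by
  simp only [pfac, cond_true, osc, Pi.add_apply]
  rw [← Complex.exp_add]
  congr 1
  ring

theorem conj_osc {lam : ℝ} {Ψ : P → ℂ} (h : Rl Ψ) (q : P) :
    (starRingEnd ℂ) (osc lam Ψ q) = Complex.exp (-(Complex.I * lam * Ψ q)) := by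
  unfold osc
  rw [← Complex.exp_conj, map_mul, map_mul, Complex.conj_I, Complex.conj_ofReal,
    Complex.conj_eq_iff_im.2 (h q)]
  congr 1
  ring

theorem osc_sub (lam : ℝ) {Ψ Ψ' : P → ℂ} (h : Rl Ψ') (q : P) :
    osc lam (Ψ - Ψ') q = pfac false (osc lam Ψ q) (osc lam Ψ' q) := by
  simp only [pfac, cond_false]
  rw [conj_osc h]
  unfold osc
  rw [← Complex.exp_add]
  congr 1
  simp only [Pi.sub_apply]
  ring

theorem osc_mul_conj {lam : ℝ} {Ψ : P → ℂ} (h : Rl Ψ) (q : P) :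
    osc lam Ψ q * (starRingEnd ℂ) (osc lam Ψ q) = 1 := by
  rw [conj_osc h]
  unfold osc
  rw [← Complex.exp_add, add_neg_cancel, Complex.exp_zero]

/-- **(QA)** -/
theorem DAlg.quadAlg (Q : Type) [Fintype Q] : S.QuadAlg Q := by
  intro lam ε d F X m α hlam hd sX rX hF sα zα rα j k q
  have K1 := fun a => S.kerAlg S.wkbAlg lam (d.ray a) (F (Sum.inl a)) X m (α a) hlam (hd.ray a)
    sX rX (hF (Sum.inl a) trivial) (sα a) (zα a)
  have sk : ∀ a c, S.Sm (S.sk lam d F X m α a c) := fun a => (K1 a).1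
  have sB : ∀ a j c, S.Sm (S.sB lam d F X m α a j c) := fun a => (K1 a).2.2.1
  have zB : ∀ a j c, S.Zs (d.ray a).K (S.sB lam d F X m α a j c) := fun a => (K1 a).2.2.2.1
  have eB : ∀ a j c q, S.D j (osc lam (d.ray a).Ψ * S.sk lam d F X m α a c) q =
      osc lam (d.ray a).Ψ q * S.sB lam d F X m α a j c q := fun a => (K1 a).2.2.2.2.1
  have lk : ∀ a j k q, S.lin X (fun c => osc lam (d.ray a).Ψ * S.sk lam d F X m α a c) j k q =
      - (osc lam (d.ray a).Ψ q * (d.ray a).ten S (S.wres lam (d.ray a) (F (Sum.inl a)) X m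
        (S.ksrc lam (d.ray a) (F (Sum.inl a)) X (α a))) j k q) := fun a => (K1 a).2.2.2.2.2
  have sosc : ∀ {r : Ray P κ}, r.Ok S → S.Sm (osc lam r.Ψ) := fun {r} hr => by
    rw [osc_eq_qph hr.rΨ]; exact S.q_sm_ph lam hr.smΨ hr.rΨ
  -- the sources of the pairs
  have sh : ∀ x : Q × Q × Bool, usedRay (Sum.inr x) → ∀ c, S.Sm (S.sh lam d F X m α x c) :=
    fun x hx c => sm_pairH S (hd.pr x.1 x.2.1 x.2.2 hx) (sB x.1)
      (fun k => sm_twv S x.2.2 (sB x.2.1 k)) c
  have zh : ∀ x : Q × Q × Bool, usedRay (Sum.inr x) → ∀ c,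
      S.Zs (d.pr x.1 x.2.1 x.2.2).K (S.sh lam d F X m α x c) := by
    intro x hx c w p hp
    have hr := hd.pr x.1 x.2.1 x.2.2 hx
    rw [hd.prK] at hp
    by_cases h1 : p ∈ (d.ray x.1).K
    · have h2 : p ∉ (d.ray x.2.1).K := fun h => hp ⟨h1, h⟩
      exact zs_pairH_right S hr (sB x.1) (fun k => sm_twv S x.2.2 (sB x.2.1 k))
        (fun k => zs_twv S x.2.2 (sB x.2.1 k) (zB x.2.1 k)) c w p h2
    · exact zs_pairH_left S hr (sB x.1) (fun k => sm_twv S x.2.2 (sB x.2.1 k))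
        (zB x.1) c w p h1
  have W := fun x (hx : usedRay (Q := Q) (Sum.inr x)) =>
    S.wkbAlg lam (d.pr x.1 x.2.1 x.2.2) (F (Sum.inr x)) X m (S.sh lam d F X m α x) hlam
      (hd.pr x.1 x.2.1 x.2.2 hx) sX rX (hF (Sum.inr x) hx) (sh x hx) (zh x hx)
  -- the vector fields of the pairs
  have tenh : ∀ x : Q × Q × Bool, usedRay (Sum.inr x) →
      (d.pr x.1 x.2.1 x.2.2).ten S (S.sh lam d F X m α x) j k q =
      1 / 4 * (dot (S.sB lam d F X m α x.1 j) (twv x.2.2 (S.sB lam d F X m α x.2.1 k)) q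
        + dot (S.sB lam d F X m α x.1 k) (twv x.2.2 (S.sB lam d F X m α x.2.1 j)) q) := by
    intro x hx
    have hr := hd.pr x.1 x.2.1 x.2.2 hx
    by_cases hq : q ∈ (d.pr x.1 x.2.1 x.2.2).K
    · exact ten_pairH S (lrAt_kerB S hr (hd.ray x.1) (sk x.1) hq)
        ((lrAt_kerB S hr (hd.ray x.2.1) (sk x.2.1) hq).twv S hr x.2.2) j k
    · rw [hd.prK] at hq
      refine ten_pairH_off S ?_ j k
      by_cases h1 : q ∈ (d.ray x.1).K
      · have h2 : q ∉ (d.ray x.2.1).K := fun h => hq ⟨h1, h⟩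
        refine Or.inr fun j c => ?_
        exact (zs_twv S x.2.2 (sB x.2.1 j) (zB x.2.1 j) c).q_apply h2
      · exact Or.inl fun j c => (zB x.1 j c).q_apply h1
  -- smoothness of the parts
  have s1 : ∀ a c, S.Sm (osc lam (d.ray a).Ψ * S.sk lam d F X m α a c) := fun a c =>
    S.sm_mul (sosc (hd.ray a)) (sk a c)
  have s1' : ∀ a c, S.Sm (fun q => ((osc lam (d.ray a).Ψ q * S.sk lam d F X m α a c q).re : ℂ)) :=
    fun a c => S.sm_re (s1 a c)
  have su1 : ∀ c, S.Sm (S.su1 lam d F X m α c) := fun c =>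
    S.sm_sum' fun a _ => s1' a c
  have s2 : ∀ x, usedRay (Q := Q) (Sum.inr x) → ∀ c,
      S.Sm (osc lam (d.pr x.1 x.2.1 x.2.2).Ψ * S.sw lam d F X m α x c) := fun x hx c =>
    S.sm_mul (sosc (hd.pr x.1 x.2.1 x.2.2 hx)) ((W x hx).1 c)
  have s2' : ∀ x : Q × Q × Bool, ∀ c, S.Sm (fun q => if usedRay (Sum.inr x) then
      ((osc lam (d.pr x.1 x.2.1 x.2.2).Ψ q * S.sw lam d F X m α x c q).re : ℂ) else 0) := by
    intro x c
    by_cases hx : usedRay (Sum.inr x)
    · simp only [if_pos hx]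
      exact S.sm_re (s2 x hx c)
    · simp only [if_neg hx]
      exact S.sm_zero
  have su2' : ∀ c, S.Sm (fun q => ∑ x : Q × Q × Bool, if usedRay (Sum.inr x) then
      ((osc lam (d.pr x.1 x.2.1 x.2.2).Ψ q * S.sw lam d F X m α x c q).re : ℂ) else 0) := fun c =>
    S.sm_sum' fun x _ => s2' x c
  have su2 : ∀ c, S.Sm (S.su2 lam d F X m α c) := fun c => S.sm_neg (su2' c)
  -- the linear terms
  have L1 : S.lin X (S.su1 lam d F X m α) j k q =
      - ∑ a, ((osc lam (d.ray a).Ψ q * (d.ray a).ten S (S.wres lam (d.ray a)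
          (F (Sum.inl a)) X m (S.ksrc lam (d.ray a) (F (Sum.inl a)) X (α a))) j k q).re : ℂ) := by
    have h := S.lin_sum (X := X) (v := fun a c q =>
      ((osc lam (d.ray a).Ψ q * S.sk lam d F X m α a c q).re : ℂ)) s1' j k q
    have h' : S.lin X (S.su1 lam d F X m α) j k q = _ := h
    rw [h', ← Finset.sum_neg_distrib]
    refine Finset.sum_congr rfl fun a _ => ?_
    have h2 := S.lin_re sX rX (s1 a) j k q
    rw [lk a j k q] at h2
    rw [Complex.neg_re] at h2
    push_cast at h2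
    exact h2
  have L2 : S.lin X (S.su2 lam d F X m α) j k q =
      - ∑ x : Q × Q × Bool, if usedRay (Sum.inr x) then
        ((osc lam (d.pr x.1 x.2.1 x.2.2).Ψ q *
          ((d.pr x.1 x.2.1 x.2.2).ten S (S.sh lam d F X m α x) j k q
          + (d.pr x.1 x.2.1 x.2.2).ten S
            (S.wres lam (d.pr x.1 x.2.1 x.2.2) (F (Sum.inr x)) X m
              (S.sh lam d F X m α x)) j k q)).re : ℂ) else 0 := by
    have h := S.lin_sum (X := X) (v := fun (x : Q × Q × Bool) c q =>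
      if usedRay (Sum.inr x) then
        ((osc lam (d.pr x.1 x.2.1 x.2.2).Ψ q * S.sw lam d F X m α x c q).re : ℂ) else 0)
      s2' j k q
    have h0 := S.lin_comb (X := X) (v := fun c q => ∑ x : Q × Q × Bool,
      if usedRay (Sum.inr x) then
        ((osc lam (d.pr x.1 x.2.1 x.2.2).Ψ q * S.sw lam d F X m α x c q).re : ℂ) else 0)
      (v' := fun _ _ => 0) su2' (fun _ => S.sm_zero) (-1) 0 j k q
    have e0 : (fun (c : Fin 4) (q : P) => (-1 : ℂ) * (∑ x : Q × Q × Bool,
      if usedRay (Sum.inr x) then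
        ((osc lam (d.pr x.1 x.2.1 x.2.2).Ψ q * S.sw lam d F X m α x c q).re : ℂ) else 0)
        + 0 * 0) = S.su2 lam d F X m α := by
      funext c q
      simp only [DAlg.su2]
      ring
    rw [e0] at h0
    rw [h0, h, zero_mul, add_zero, neg_one_mul]
    congr 1
    refine Finset.sum_congr rfl fun x _ => ?_
    by_cases hx : usedRay (Sum.inr x)
    · simp only [if_pos hx]
      have h2 := S.lin_re sX rX (s2 x hx) j k q
      have h3 : S.lin X (fun a => osc lam (d.pr x.1 x.2.1 x.2.2).Ψ * S.sw lam d F X m α x a)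
          j k q = _ := (W x hx).2.2 j k q
      rw [h3] at h2
      exact h2
    · simp only [if_neg hx]
      unfold DAlg.lin dot DAlg.Dv
      have z : ∀ l : κ, S.D l (fun _ : P => (0 : ℂ)) q = 0 := fun l => S.D_const_apply l 0 q
      simp only [z, mul_zero, Finset.sum_const_zero, add_zero]
  -- the quadratic term
  have D1 : ∀ l c, S.Dv l (S.su1 lam d F X m α) c q =
      ∑ a, ((osc lam (d.ray a).Ψ q * S.sB lam d F X m α a l c q).re : ℂ) := by
    intro l c
    have h1 : S.Dv l (S.su1 lam d F X m α) c q = _ := S.D_sum_apply (A := Finset.univ)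
      (u := fun a q => ((osc lam (d.ray a).Ψ q * S.sk lam d F X m α a c q).re : ℂ)) l
      (fun a _ => s1' a c) q
    rw [h1]
    refine Finset.sum_congr rfl fun a _ => ?_
    have h2 := S.D_re l (s1 a c) q
    rw [eB a l c q] at h2
    exact h2
  have Q1 : dot (S.Dv j (S.su1 lam d F X m α)) (S.Dv k (S.su1 lam d F X m α)) q =
      (∑ x : Q × Q × Bool, if usedRay (Sum.inr x) then
        ((osc lam (d.pr x.1 x.2.1 x.2.2).Ψ q *
          ((d.pr x.1 x.2.1 x.2.2).ten S (S.sh lam d F X m α x) j k q)).re : ℂ) else 0)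
      + slowM (S.sB lam d F X m α) j k q := by
    have h := quad_point (κ := κ) (fun a => osc lam (d.ray a).Ψ q)
      (fun a => osc_mul_conj (hd.ray a).rΨ q) (S.sB lam d F X m α) j k q
    have h' : dot (S.Dv j (S.su1 lam d F X m α)) (S.Dv k (S.su1 lam d F X m α)) q =
        ∑ c : Fin 4, (∑ a, ((osc lam (d.ray a).Ψ q * S.sB lam d F X m α a j c q).re : ℂ))
          * (∑ b, ((osc lam (d.ray b).Ψ q * S.sB lam d F X m α b k c q).re : ℂ)) := by
      unfold dot
      simp only [D1]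
    rw [h', h]
    congr 1
    refine Finset.sum_congr rfl fun x _ => ?_
    by_cases hx : usedRay (Sum.inr x)
    · rw [if_pos hx, if_pos hx, tenh x hx]
      congr 3
      obtain ⟨a, b, σ⟩ := x
      cases σ
      · have hab : a ≠ b := by
          rcases hx with h | h
          · exact Bool.noConfusion h
          · exact h
        simp only [hd.prΨ' a b hab]
        exact (osc_sub lam (hd.ray b).rΨ q).symm
      · simp only [hd.prΨ a b]
        exact (osc_add lam _ _ q).symm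
    · rw [if_neg hx, if_neg hx]
  -- assembly
  have M := S.met_add (X := X) (v := S.su1 lam d F X m α) (v' := S.su2 lam d F X m α) sX su1 su2
    (ε : ℂ) ((ε : ℂ) ^ 2) j k q
  have eM : (fun a => X a + S.sy lam d F X m α ε a) =
      fun a => X a + fun q => (ε : ℂ) * S.su1 lam d F X m α a q
        + (ε : ℂ) ^ 2 * S.su2 lam d F X m α a q := rfl
  rw [eM, M, L1, L2, Q1]
  have split : (∑ x : Q × Q × Bool, if usedRay (Sum.inr x) then
        ((osc lam (d.pr x.1 x.2.1 x.2.2).Ψ q *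
          ((d.pr x.1 x.2.1 x.2.2).ten S (S.sh lam d F X m α x) j k q
          + (d.pr x.1 x.2.1 x.2.2).ten S
            (S.wres lam (d.pr x.1 x.2.1 x.2.2) (F (Sum.inr x)) X m
              (S.sh lam d F X m α x)) j k q)).re : ℂ) else 0) =
      (∑ x : Q × Q × Bool, if usedRay (Sum.inr x) then
        ((osc lam (d.pr x.1 x.2.1 x.2.2).Ψ q *
          ((d.pr x.1 x.2.1 x.2.2).ten S (S.sh lam d F X m α x) j k q)).re : ℂ) else 0)
      + ∑ x : Q × Q × Bool, if usedRay (Sum.inr x) then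
          ((osc lam (d.pr x.1 x.2.1 x.2.2).Ψ q * (d.pr x.1 x.2.1 x.2.2).ten S
            (S.wres lam (d.pr x.1 x.2.1 x.2.2) (F (Sum.inr x)) X m
              (S.sh lam d F X m α x)) j k q).re : ℂ) else 0 := by
    rw [← Finset.sum_add_distrib]
    refine Finset.sum_congr rfl fun x _ => ?_
    by_cases hx : usedRay (Sum.inr x)
    · simp only [if_pos hx]
      rw [mul_add, Complex.add_re]
      push_cast
      rfl
    · simp only [if_neg hx, add_zero]
  rw [split]
  ring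

end Vale.Agent.P205.F
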