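import Vale.Agent.P205.F.QuadDef
import Vale.Agent.P205.F.Ker

/-!
The quadratic identity of one stage (P205, block QA).
-/

set_option linter.unusedSectionVars false

noncomputable section

open scoped Classical

namespace Vale.Agent.P205.F

universe u

variable {P : Type u} {κ : Type} [Fintype κ] (S : DAlg P κ)

/-- real part of a function -/
def rp (u : P → ℂ) : P → ℂ := fun q => ((u q).re : ℂ)

theorem rp_apply (u : P → ℂ) (q : P) : rp u q = ((u q).re : ℂ) := rfl

theorem DAlg.sm_rp {u : P → ℂ} (hu : S.Sm u) : S.Sm (rp u) := S.sm_re hu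

theorem DAlg.D_rp {u : P → ℂ} (j : κ) (hu : S.Sm u) : S.D j (rp u) = rp (S.D j u) := by
  have h1 : ∀ v : P → ℂ, rp v = fun p => (1 / 2 : ℂ) * (v + fun p => (starRingEnd ℂ) (v p)) p := by
    intro v
    funext p
    have h2 := Complex.add_conj (v p)
    simp only [Pi.add_apply, h2, rp]
    push_cast
    ring
  rw [h1 u, S.D_smul j _ (S.sm_add hu (S.sm_conj hu)), S.D_add j hu (S.sm_conj hu),
    S.D_conj j hu, h1 (S.D j u)]

theorem dot_apply (X Y : Fin 4 → P → ℂ) (q : P) : dot X Y q = ∑ c, X c q * Y c q := rfl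

/-- expansion of the induced metric -/
theorem DAlg.met_add {X y : Fin 4 → P → ℂ} (sX : ∀ a, S.Sm (X a)) (sy : ∀ a, S.Sm (y a))
    (j k : κ) (q : P) : S.met (fun a => X a + y a) j k q - S.met X j k q =
      S.lin X y j k q + dot (S.Dv j y) (S.Dv k y) q := by
  simp only [DAlg.met, DAlg.lin, dot_apply, DAlg.Dv]
  rw [← Finset.sum_sub_distrib, ← Finset.sum_add_distrib, ← Finset.sum_add_distrib]
  refine Finset.sum_congr rfl fun c _ => ?_
  rw [S.D_add_apply j (sX c) (sy c), S.D_add_apply k (sX c) (sy c)]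
  ring

/-- the linearised metric of a finite sum of real parts -/
theorem DAlg.lin_sum_rp {X : Fin 4 → P → ℂ} (sX : ∀ a, S.Sm (X a)) (rX : ∀ a, Rl (X a))
    {I : Type*} [Fintype I] {v : I → Fin 4 → P → ℂ} {y : Fin 4 → P → ℂ} {j k : κ} {q : P}
    (hj : ∀ c, S.D j (y c) q = ∑ i, rp (S.D j (v i c)) q)
    (hk : ∀ c, S.D k (y c) q = ∑ i, rp (S.D k (v i c)) q) :
    S.lin X y j k q = ∑ i, rp (S.lin X (v i) j k) q := by
  have h1 : ∀ (l : κ) (c : Fin 4) (z : ℂ), S.D l (X c) q * ((z.re : ℝ) : ℂ) =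
      (((S.D l (X c) q * z).re : ℝ) : ℂ) := by
    intro l c z
    have him : (S.D l (X c) q).im = 0 := S.rl_D l (sX c) (rX c) q
    apply Complex.ext
    · simp [Complex.mul_re, him]
    · simp [Complex.mul_im, him]
  simp only [DAlg.lin, dot_apply, DAlg.Dv, rp]
  simp_rw [hj, hk, Finset.mul_sum, rp, h1]
  rw [Finset.sum_comm, Finset.sum_comm (f := fun c i => (((S.D k (X c) q *
    S.D j (v i c) q).re : ℝ) : ℂ)), ← Finset.sum_add_distrib]
  refine Finset.sum_congr rfl fun i _ => ?_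
  rw [Complex.add_re, Complex.re_sum, Complex.re_sum]
  push_cast
  rfl

section

variable {S}

variable {Q : Type} [Fintype Q] {lam : ℝ} {d : PData P κ Q} {F : Q ⊕ (Q × Q × Bool) → Frm P}
  {X : Fin 4 → P → ℂ} {m : ℕ} {α : Q → P → ℂ}

/-- standing hypotheses -/
structure QHyp (S : DAlg P κ) (lam : ℝ) (d : PData P κ Q) (F : Q ⊕ (Q × Q × Bool) → Frm P)
    (X : Fin 4 → P → ℂ) (α : Q → P → ℂ) : Prop where
  lam0 : lam ≠ 0
  ok : d.Ok S
  sX : ∀ a, S.Sm (X a)
  rX : ∀ a, Rl (X a)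
  fr : ∀ x, usedRay x → (F x).Ok S (d.rays x) X
  sα : ∀ a, S.Sm (α a)
  zα : ∀ a, S.Zs (d.ray a).K (α a)

variable (H : QHyp S lam d F X α)

include H

theorem QHyp.ker (a : Q) :
    (∀ c, S.Sm (S.sk lam d F X m α a c)) ∧ (∀ c, S.Zs (d.ray a).K (S.sk lam d F X m α a c)) ∧
    (∀ j c, S.Sm (S.sB lam d F X m α a j c)) ∧
    (∀ j c, S.Zs (d.ray a).K (S.sB lam d F X m α a j c)) ∧
    (∀ j c q, S.D j (osc lam (d.ray a).Ψ * S.sk lam d F X m α a c) q =
      osc lam (d.ray a).Ψ q * S.sB lam d F X m α a j c q) ∧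
    ∀ j k q, S.lin X (fun c => osc lam (d.ray a).Ψ * S.sk lam d F X m α a c) j k q =
      - (osc lam (d.ray a).Ψ q * (d.ray a).ten S (S.wres lam (d.ray a) (F (Sum.inl a)) X m
        (S.ksrc lam (d.ray a) (F (Sum.inl a)) X (α a))) j k q) :=
  (S.kerAlg S.wkbAlg) lam (d.ray a) (F (Sum.inl a)) X m (α a) H.lam0 (H.ok.ray a) H.sX H.rX
    (H.fr (Sum.inl a) trivial) (H.sα a) (H.zα a)

theorem QHyp.sm_osc (a : Q) : S.Sm (osc lam (d.ray a).Ψ) := by
  rw [osc_eq_qph (H.ok.ray a).rΨ]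
  exact S.q_sm_ph lam (H.ok.ray a).smΨ (H.ok.ray a).rΨ

/-- the oscillating vector of the piece `a` -/
theorem QHyp.smU (a : Q) (c : Fin 4) :
    S.Sm (osc lam (d.ray a).Ψ * S.sk lam d F X m α a c) :=
  S.sm_mul (H.sm_osc a) ((H.ker a).1 c)

omit H in
theorem osc_ne_zero (lam : ℝ) (Ψ : P → ℂ) (q : P) : osc lam Ψ q ≠ 0 := Complex.exp_ne_zero _

omit H in
theorem conj_osc {Ψ : P → ℂ} (hr : Rl Ψ) (q : P) :
    (starRingEnd ℂ) (osc lam Ψ q) = Complex.exp (-(Complex.I * lam * Ψ q)) := by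
  have e : (starRingEnd ℂ) (Ψ q) = Ψ q := Complex.conj_eq_iff_im.2 (hr q)
  rw [osc, ← Complex.exp_conj]
  simp [e]

/-- decomposition of the covector field `B` along any ray -/
theorem QHyp.decB (a : Q) {r : Ray P κ} (hr : r.Ok S) (j : κ) (c : Fin 4) {q : P} (hq : q ∈ r.K) :
    S.sB lam d F X m α a j c q = S.D j r.Ψ q * cmp r.t (S.sB lam d F X m α a) c q
      + r.β j q * cmp r.w (S.sB lam d F X m α a) c q := by
  have h0 := osc_ne_zero lam (d.ray a).Ψ q
  have h1 := hr.dec _ (H.smU (m := m) a c) j q hq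
  have hd : ∀ e : κ → P → ℂ, S.dir e (osc lam (d.ray a).Ψ * S.sk lam d F X m α a c) q =
      osc lam (d.ray a).Ψ q * cmp e (S.sB lam d F X m α a) c q := by
    intro e
    simp only [DAlg.dir, cmp, Finset.mul_sum]
    refine Finset.sum_congr rfl fun l _ => ?_
    rw [(H.ker (m := m) a).2.2.2.2.1 l c q]
    ring
  rw [(H.ker (m := m) a).2.2.2.2.1 j c q, hd, hd] at h1
  refine mul_left_cancel₀ h0 ?_
  rw [h1]
  ring

omit H in
theorem cmp_twv {e : κ → P → ℂ} (he : ∀ j, Rl (e j)) (B : κ → Fin 4 → P → ℂ) (σ : Bool)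
    (c : Fin 4) (q : P) : cmp e (fun k => twv σ (B k)) c q = twv σ (cmp e B) c q := by
  cases σ
  · simp only [cmp, twv, cond_false, cjv, map_sum, map_mul]
    refine Finset.sum_congr rfl fun j _ => ?_
    rw [Complex.conj_eq_iff_im.2 (he j q)]
  · rfl

theorem QHyp.decB' (a : Q) {r : Ray P κ} (hr : r.Ok S) (σ : Bool) (j : κ) (c : Fin 4) {q : P}
    (hq : q ∈ r.K) :
    twv σ (S.sB lam d F X m α a j) c q =
      S.D j r.Ψ q * cmp r.t (fun k => twv σ (S.sB lam d F X m α a k)) c q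
      + r.β j q * cmp r.w (fun k => twv σ (S.sB lam d F X m α a k)) c q := by
  rw [cmp_twv hr.rt, cmp_twv hr.rw']
  have h := H.decB (m := m) a hr j c hq
  cases σ
  · simp only [twv, cond_false, cjv]
    rw [h, map_add, map_mul, map_mul, Complex.conj_eq_iff_im.2 (S.rl_D j hr.smΨ hr.rΨ q),
      Complex.conj_eq_iff_im.2 (hr.rβ j q)]
  · exact h

omit H in
theorem twv_zero {σ : Bool} {V : Fin 4 → P → ℂ} {c : Fin 4} {q : P} (h : V c q = 0) :
    twv σ V c q = 0 := by
  cases σ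
  · simp [twv, cjv, h]
  · exact h

/-- the tensor of the source of a pair -/
theorem QHyp.ten_sh (x : Q × Q × Bool) (hx : usedRay (Sum.inr x)) (j k : κ) (q : P) :
    (d.pr x.1 x.2.1 x.2.2).ten S (S.sh lam d F X m α x) j k q =
      (1 / 4) * (dot (S.sB lam d F X m α x.1 j) (twv x.2.2 (S.sB lam d F X m α x.2.1 k)) q
        + dot (S.sB lam d F X m α x.1 k) (twv x.2.2 (S.sB lam d F X m α x.2.1 j)) q) := by
  obtain ⟨a, b, σ⟩ := x
  have hok : (d.pr a b σ).Ok S := H.ok.pr a b σ hx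
  simp only [Ray.ten, DAlg.sh, pairH, Matrix.cons_val_zero, Matrix.cons_val_one, Matrix.cons_val]
  by_cases hq : q ∈ (d.pr a b σ).K
  · have h1 : ∀ l c, S.sB lam d F X m α a l c q = _ := fun l c => H.decB (m := m) a hok l c hq
    have h2 : ∀ l c, twv σ (S.sB lam d F X m α b l) c q = _ :=
      fun l c => H.decB' (m := m) b hok σ l c hq
    simp only [dot_apply]
    simp_rw [h1, h2]
    simp only [Fin.sum_univ_four]
    ring
  · have h3 : q ∉ (d.ray a).K ∨ q ∉ (d.ray b).K := by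
      rw [H.ok.prK] at hq
      by_contra h
      push Not at h
      exact hq ⟨h.1, h.2⟩
    rcases h3 with h3 | h3
    · have h4 : ∀ l c, S.sB lam d F X m α a l c q = 0 := fun l c =>
        ((H.ker (m := m) a).2.2.2.1 l c).apply h3
      simp [dot_apply, cmp, h4]
    · have h4 : ∀ l c, twv σ (S.sB lam d F X m α b l) c q = 0 := fun l c =>
        twv_zero (((H.ker (m := m) b).2.2.2.1 l c).apply h3)
      simp [dot_apply, cmp, h4]

omit H in
theorem DAlg.sm_twv {σ : Bool} {V : Fin 4 → P → ℂ} (hV : ∀ c, S.Sm (V c)) (c : Fin 4) :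
    S.Sm (twv σ V c) := by
  cases σ
  · exact S.sm_conj (hV c)
  · exact hV c

omit H in
theorem DAlg.zs_twv {K : Set P} {σ : Bool} {V : Fin 4 → P → ℂ} (hV : ∀ c, S.Sm (V c))
    (zV : ∀ c, S.Zs K (V c)) (c : Fin 4) : S.Zs K (twv σ V c) := by
  cases σ
  · exact DAlg.Zs.conj (hV c) (zV c)
  · exact zV c

omit H in
theorem DAlg.sm_cmp {e : κ → P → ℂ} (he : ∀ j, S.Sm (e j)) {B : κ → Fin 4 → P → ℂ}
    (hB : ∀ j c, S.Sm (B j c)) (c : Fin 4) : S.Sm (cmp e B c) :=
  S.sm_sum' fun j _ => S.sm_mul (he j) (hB j c)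

omit H in
theorem DAlg.zs_cmp {K : Set P} {e : κ → P → ℂ} (he : ∀ j, S.Sm (e j)) {B : κ → Fin 4 → P → ℂ}
    (hB : ∀ j c, S.Sm (B j c)) (zB : ∀ j c, S.Zs K (B j c)) (c : Fin 4) :
    S.Zs K (cmp e B c) :=
  DAlg.Zs.sum' (A := Finset.univ) (u := fun j => e j * B j c)
    (fun j _ => S.sm_mul (he j) (hB j c)) fun j _ => DAlg.Zs.mul_right (he j) (hB j c) (zB j c)

omit H in
theorem DAlg.Zs.inter {K K' : Set P} {u : P → ℂ} (h : S.Zs K u) (h' : S.Zs K' u) :
    S.Zs (K ∩ K') u := by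
  intro w p hp
  by_cases h1 : p ∈ K
  · exact h' w p fun h2 => hp ⟨h1, h2⟩
  · exact h w p h1

theorem QHyp.sh_ok (x : Q × Q × Bool) (hx : usedRay (Sum.inr x)) (i : Fin 3) :
    S.Sm (S.sh lam d F X m α x i) ∧
      S.Zs (d.pr x.1 x.2.1 x.2.2).K (S.sh lam d F X m α x i) := by
  obtain ⟨a, b, σ⟩ := x
  have hok : (d.pr a b σ).Ok S := H.ok.pr a b σ hx
  have sA : ∀ j c, S.Sm (S.sB lam d F X m α a j c) := (H.ker a).2.2.1
  have zA : ∀ j c, S.Zs (d.ray a).K (S.sB lam d F X m α a j c) := (H.ker a).2.2.2.1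
  have sB : ∀ j c, S.Sm (twv σ (S.sB lam d F X m α b j) c) := fun j c =>
    DAlg.sm_twv ((H.ker b).2.2.1 j) c
  have zB : ∀ j c, S.Zs (d.ray b).K (twv σ (S.sB lam d F X m α b j) c) := fun j c =>
    DAlg.zs_twv ((H.ker b).2.2.1 j) ((H.ker b).2.2.2.1 j) c
  have key : ∀ e e' : κ → P → ℂ, (∀ j, S.Sm (e j)) → (∀ j, S.Sm (e' j)) →
      S.Sm (dot (cmp e (S.sB lam d F X m α a))
        (cmp e' (fun k => twv σ (S.sB lam d F X m α b k)))) ∧
      S.Zs (d.pr a b σ).K (dot (cmp e (S.sB lam d F X m α a))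
        (cmp e' (fun k => twv σ (S.sB lam d F X m α b k)))) := by
    intro e e' he he'
    have s1 : ∀ c, S.Sm (cmp e (S.sB lam d F X m α a) c) := DAlg.sm_cmp he sA
    have s2 : ∀ c, S.Sm (cmp e' (fun k => twv σ (S.sB lam d F X m α b k)) c) :=
      DAlg.sm_cmp he' sB
    refine ⟨S.sm_dot s1 s2, ?_⟩
    rw [H.ok.prK]
    exact (DAlg.Zs.dot_left s1 s2 (DAlg.zs_cmp he sA zA)).inter
      (DAlg.Zs.dot_right s1 s2 (DAlg.zs_cmp he' sB zB))
  have k1 := key _ _ hok.smt hok.smt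
  have k2 := key _ _ hok.smt hok.smw
  have k3 := key _ _ hok.smw hok.smt
  have k4 := key _ _ hok.smw hok.smw
  fin_cases i
  · exact ⟨S.sm_smul _ k1.1, DAlg.Zs.smul k1.1 _ k1.2⟩
  · exact ⟨S.sm_smul _ (S.sm_add k2.1 k3.1),
      DAlg.Zs.smul (S.sm_add k2.1 k3.1) _ (DAlg.Zs.add k2.1 k3.1 k2.2 k3.2)⟩
  · exact ⟨S.sm_smul _ k4.1, DAlg.Zs.smul k4.1 _ k4.2⟩

theorem QHyp.wkb (x : Q × Q × Bool) (hx : usedRay (Sum.inr x)) :
    (∀ c, S.Sm (S.sw lam d F X m α x c)) ∧
    ∀ j k q, S.lin X (fun c => osc lam (d.pr x.1 x.2.1 x.2.2).Ψ * S.sw lam d F X m α x c) j k q =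
      osc lam (d.pr x.1 x.2.1 x.2.2).Ψ q *
        ((d.pr x.1 x.2.1 x.2.2).ten S (S.sh lam d F X m α x) j k q
          + (d.pr x.1 x.2.1 x.2.2).ten S (S.wres lam (d.pr x.1 x.2.1 x.2.2) (F (Sum.inr x)) X m
            (S.sh lam d F X m α x)) j k q) := by
  obtain ⟨a, b, σ⟩ := x
  have hok : (d.pr a b σ).Ok S := H.ok.pr a b σ hx
  have h := S.wkbAlg lam (d.pr a b σ) (F (Sum.inr (a, b, σ))) X m
    (S.sh lam d F X m α (a, b, σ)) H.lam0 hok H.sX H.rX (H.fr (Sum.inr (a, b, σ)) hx)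
    (fun i => (H.sh_ok (m := m) (a, b, σ) hx i).1) (fun i => (H.sh_ok (m := m) (a, b, σ) hx i).2)
  exact ⟨h.1, h.2.2⟩

/-- the oscillating factor of the pair -/
def oscP (lam : ℝ) (d : PData P κ Q) (x : Q × Q × Bool) (q : P) : ℂ :=
  osc lam (d.ray x.1).Ψ q *
    bif x.2.2 then osc lam (d.ray x.2.1).Ψ q else (starRingEnd ℂ) (osc lam (d.ray x.2.1).Ψ q)

theorem QHyp.oscP_eq (x : Q × Q × Bool) (hx : usedRay (Sum.inr x)) (q : P) :
    oscP lam d x q = osc lam (d.pr x.1 x.2.1 x.2.2).Ψ q := by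
  obtain ⟨a, b, σ⟩ := x
  cases σ
  · have hab : a ≠ b := by
      rcases hx with h | h
      · exact absurd h (by simp)
      · exact h
    simp only [oscP, cond_false]
    rw [conj_osc (H.ok.ray b).rΨ, H.ok.prΨ' a b hab, osc, osc, ← Complex.exp_add, Pi.sub_apply]
    congr 1
    ring
  · simp only [oscP, cond_true]
    rw [H.ok.prΨ a b, osc, osc, osc, ← Complex.exp_add, Pi.add_apply]
    congr 1
    ring

theorem QHyp.oscP_diag (a : Q) (q : P) : oscP lam d (a, a, false) q = 1 := by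
  simp only [oscP, cond_false]
  rw [conj_osc (H.ok.ray a).rΨ, osc, ← Complex.exp_add]
  simp

/-- the quadratic form of the pair -/
def Gq (S : DAlg P κ) (lam : ℝ) (d : PData P κ Q) (F : Q ⊕ (Q × Q × Bool) → Frm P)
    (X : Fin 4 → P → ℂ) (m : ℕ) (α : Q → P → ℂ) (j k : κ) (q : P) (x : Q × Q × Bool) : ℂ :=
  oscP lam d x q * dot (S.sB lam d F X m α x.1 j) (twv x.2.2 (S.sB lam d F X m α x.2.1 k)) q

omit H in
theorem Gq_swap (j k : κ) (q : P) (a b : Q) (σ : Bool) :
    (Gq S lam d F X m α j k q (b, a, σ)).re = (Gq S lam d F X m α k j q (a, b, σ)).re := by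
  cases σ
  · have h : Gq S lam d F X m α j k q (b, a, false) =
        (starRingEnd ℂ) (Gq S lam d F X m α k j q (a, b, false)) := by
      simp only [Gq, oscP, cond_false, twv, dot_apply, cjv, map_mul, map_sum, Complex.conj_conj]
      rw [mul_comm ((starRingEnd ℂ) (osc lam (d.ray a).Ψ q))]
      congr 1
      exact Finset.sum_congr rfl fun c _ => mul_comm _ _
    rw [h, Complex.conj_re]
  · have h : Gq S lam d F X m α j k q (b, a, true) = Gq S lam d F X m α k j q (a, b, true) := by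
      simp only [Gq, oscP, cond_true, twv, dot_apply]
      rw [mul_comm (osc lam (d.ray a).Ψ q)]
      congr 1
      exact Finset.sum_congr rfl fun c _ => mul_comm _ _
    rw [h]

theorem QHyp.D_su1 (j : κ) (c : Fin 4) (q : P) : S.D j (S.su1 lam d F X m α c) q =
    ∑ a, ((osc lam (d.ray a).Ψ q * S.sB lam d F X m α a j c q).re : ℂ) := by
  have h : S.su1 lam d F X m α c =
      fun q => ∑ a, rp (osc lam (d.ray a).Ψ * S.sk lam d F X m α a c) q := rfl
  rw [h, S.D_sum_apply (A := Finset.univ)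
    (u := fun a => rp (osc lam (d.ray a).Ψ * S.sk lam d F X m α a c)) j
    (fun a _ => S.sm_rp (H.smU a c))]
  refine Finset.sum_congr rfl fun a _ => ?_
  rw [S.D_rp j (H.smU a c), rp, (H.ker a).2.2.2.2.1 j c q]

theorem QHyp.sm_su1 (c : Fin 4) : S.Sm (S.su1 lam d F X m α c) := by
  have h : S.su1 lam d F X m α c =
      fun q => ∑ a, rp (osc lam (d.ray a).Ψ * S.sk lam d F X m α a c) q := rfl
  rw [h]
  exact S.sm_sum' (A := Finset.univ)
    (u := fun a => rp (osc lam (d.ray a).Ψ * S.sk lam d F X m α a c))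
    fun a _ => S.sm_rp (H.smU a c)

/-- the oscillating vector of the pair (zero if not in use) -/
def Wp (S : DAlg P κ) (lam : ℝ) (d : PData P κ Q) (F : Q ⊕ (Q × Q × Bool) → Frm P)
    (X : Fin 4 → P → ℂ) (m : ℕ) (α : Q → P → ℂ) (x : Q × Q × Bool) : Fin 4 → P → ℂ :=
  fun c => if usedRay (Sum.inr x) then osc lam (d.pr x.1 x.2.1 x.2.2).Ψ * S.sw lam d F X m α x c
    else 0

theorem QHyp.smW (x : Q × Q × Bool) (c : Fin 4) : S.Sm (Wp S lam d F X m α x c) := by
  simp only [Wp]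
  split_ifs with hx
  · have hok : (d.pr x.1 x.2.1 x.2.2).Ok S := by
      obtain ⟨a, b, σ⟩ := x
      exact H.ok.pr a b σ hx
    refine S.sm_mul ?_ ((H.wkb x hx).1 c)
    rw [osc_eq_qph hok.rΨ]
    exact S.q_sm_ph lam hok.smΨ hok.rΨ
  · exact S.sm_zero

omit H in
theorem su2_eq (c : Fin 4) : S.su2 lam d F X m α c =
    fun q => (-1 : ℂ) * (fun q => ∑ x, rp (Wp S lam d F X m α x c) q) q := by
  funext q
  simp only [DAlg.su2]
  rw [neg_one_mul]
  congr 1
  refine Finset.sum_congr rfl fun x _ => ?_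
  simp only [rp, Wp]
  split_ifs with hx
  · rfl
  · simp

theorem QHyp.sm_su2' (c : Fin 4) :
    S.Sm (fun q => ∑ x, rp (Wp S lam d F X m α x c) q) :=
  S.sm_sum' (A := Finset.univ) (u := fun x => rp (Wp S lam d F X m α x c))
    fun x _ => S.sm_rp (H.smW x c)

theorem QHyp.sm_su2 (c : Fin 4) : S.Sm (S.su2 lam d F X m α c) := by
  rw [su2_eq]
  exact S.sm_smul _ (H.sm_su2' c)

theorem QHyp.D_su2 (j : κ) (c : Fin 4) (q : P) : S.D j (S.su2 lam d F X m α c) q =
    - ∑ x, rp (S.D j (Wp S lam d F X m α x c)) q := by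
  rw [su2_eq, S.D_smul_apply j _ (H.sm_su2' c), neg_one_mul]
  congr 1
  rw [S.D_sum_apply (A := Finset.univ) (u := fun x => rp (Wp S lam d F X m α x c)) j
    (fun x _ => S.sm_rp (H.smW x c))]
  refine Finset.sum_congr rfl fun x _ => ?_
  rw [S.D_rp j (H.smW x c)]

theorem QHyp.lin_su1 (j k : κ) (q : P) : S.lin X (S.su1 lam d F X m α) j k q =
    - ∑ a, ((osc lam (d.ray a).Ψ q * (d.ray a).ten S (S.wres lam (d.ray a)
          (F (Sum.inl a)) X m (S.ksrc lam (d.ray a) (F (Sum.inl a)) X (α a))) j k q).re : ℂ) := by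
  have hD : ∀ l c, S.D l (S.su1 lam d F X m α c) q =
      ∑ a, rp (S.D l ((fun c => osc lam (d.ray a).Ψ * S.sk lam d F X m α a c) c)) q := by
    intro l c
    rw [H.D_su1 l c q]
    refine Finset.sum_congr rfl fun a _ => ?_
    simp only [rp]
    rw [(H.ker a).2.2.2.2.1 l c q]
  rw [S.lin_sum_rp H.sX H.rX (v := fun a c => osc lam (d.ray a).Ψ * S.sk lam d F X m α a c)
    (fun c => hD j c) (fun c => hD k c), ← Finset.sum_neg_distrib]
  refine Finset.sum_congr rfl fun a _ => ?_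
  simp only [rp]
  rw [(H.ker (m := m) a).2.2.2.2.2 j k q, Complex.neg_re]
  push_cast
  rfl

theorem QHyp.lin_su2 (j k : κ) (q : P) : S.lin X (S.su2 lam d F X m α) j k q =
    - ((∑ x : Q × Q × Bool, if usedRay (Sum.inr x) then
        ((osc lam (d.pr x.1 x.2.1 x.2.2).Ψ q *
          (d.pr x.1 x.2.1 x.2.2).ten S (S.sh lam d F X m α x) j k q).re : ℂ) else 0)
      + ∑ x : Q × Q × Bool, if usedRay (Sum.inr x) then
          ((osc lam (d.pr x.1 x.2.1 x.2.2).Ψ q * (d.pr x.1 x.2.1 x.2.2).ten S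
            (S.wres lam (d.pr x.1 x.2.1 x.2.2) (F (Sum.inr x)) X m
              (S.sh lam d F X m α x)) j k q).re : ℂ) else 0) := by
  have h1 : S.lin X (fun c q => ∑ x, rp (Wp S lam d F X m α x c) q) j k q =
      ∑ x, rp (S.lin X (Wp S lam d F X m α x) j k) q := by
    have hD : ∀ l c, S.D l (fun q => ∑ x, rp (Wp S lam d F X m α x c) q) q =
        ∑ x, rp (S.D l (Wp S lam d F X m α x c)) q := by
      intro l c
      rw [S.D_sum_apply (A := Finset.univ) (u := fun x => rp (Wp S lam d F X m α x c)) l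
        (fun x _ => S.sm_rp (H.smW x c))]
      refine Finset.sum_congr rfl fun x _ => ?_
      rw [S.D_rp l (H.smW x c)]
    exact S.lin_sum_rp H.sX H.rX (fun c => hD j c) (fun c => hD k c)
  have h2 : S.lin X (S.su2 lam d F X m α) j k q =
      - S.lin X (fun c q => ∑ x, rp (Wp S lam d F X m α x c) q) j k q := by
    simp only [DAlg.lin, dot_apply, DAlg.Dv]
    rw [neg_add, ← Finset.sum_neg_distrib, ← Finset.sum_neg_distrib]
    have h3 : ∀ l c, S.D l (S.su2 lam d F X m α c) q =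
        - S.D l (fun q => ∑ x, rp (Wp S lam d F X m α x c) q) q := by
      intro l c
      rw [su2_eq, S.D_smul_apply l _ (H.sm_su2' c), neg_one_mul]
    congr 1
    · exact Finset.sum_congr rfl fun c _ => by rw [h3, mul_neg]
    · exact Finset.sum_congr rfl fun c _ => by rw [h3, mul_neg]
  rw [h2, h1, ← Finset.sum_add_distrib]
  congr 1
  refine Finset.sum_congr rfl fun x _ => ?_
  by_cases hx : usedRay (Sum.inr x)
  · have h4 : Wp S lam d F X m α x =
        fun c => osc lam (d.pr x.1 x.2.1 x.2.2).Ψ * S.sw lam d F X m α x c := by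
      funext c
      simp only [Wp, if_pos hx]
    rw [if_pos hx, if_pos hx, rp, h4, (H.wkb x hx).2 j k q, mul_add, Complex.add_re]
    push_cast
    rfl
  · have h4 : Wp S lam d F X m α x = fun c => 0 := by
      funext c
      simp only [Wp, if_neg hx]
    rw [if_neg hx, if_neg hx, rp, h4]
    simp [DAlg.lin, dot_apply, DAlg.Dv, S.D_zero]

/-- the product of the first order terms -/
theorem QHyp.dot_su1 (j k : κ) (q : P) :
    dot (S.Dv j (S.su1 lam d F X m α)) (S.Dv k (S.su1 lam d F X m α)) q =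
      ∑ x, (((1 / 2 : ℝ) * (Gq S lam d F X m α j k q x).re : ℝ) : ℂ) := by
  simp only [dot_apply, DAlg.Dv]
  simp_rw [H.D_su1, Finset.sum_mul_sum]
  rw [Finset.sum_comm]
  rw [Fintype.sum_prod_type]
  refine Finset.sum_congr rfl fun a _ => ?_
  rw [Finset.sum_comm, Fintype.sum_prod_type]
  refine Finset.sum_congr rfl fun b _ => ?_
  rw [Fintype.sum_bool]
  simp only [Gq, oscP, cond_true, cond_false, twv, dot_apply, cjv, Fin.sum_univ_four]
  rw [← Complex.ofReal_add, ← Complex.ofReal_mul, ← Complex.ofReal_mul, ← Complex.ofReal_mul,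
    ← Complex.ofReal_mul, ← Complex.ofReal_add, ← Complex.ofReal_add, ← Complex.ofReal_add]
  congr 1
  simp only [Complex.mul_re, Complex.mul_im, Complex.add_re, Complex.add_im, Complex.conj_re,
    Complex.conj_im]
  ring

omit H in
/-- symmetry under the exchange of the two pieces -/
theorem sum_swap (j k : κ) (q : P) :
    (∑ x, if usedRay (Sum.inr x) then (Gq S lam d F X m α j k q x).re else 0) =
      ∑ x, if usedRay (Sum.inr x) then (Gq S lam d F X m α k j q x).re else 0 := by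
  let e : (Q × Q × Bool) ≃ (Q × Q × Bool) :=
    { toFun := fun x => (x.2.1, x.1, x.2.2)
      invFun := fun x => (x.2.1, x.1, x.2.2)
      left_inv := fun x => rfl
      right_inv := fun x => rfl }
  rw [← Equiv.sum_comp e]
  refine Finset.sum_congr rfl fun x _ => ?_
  obtain ⟨a, b, σ⟩ := x
  have h1 : usedRay (Sum.inr (e (a, b, σ))) ↔ usedRay (Sum.inr (a, b, σ)) := by
    change (σ = true ∨ b ≠ a) ↔ (σ = true ∨ a ≠ b)
    rw [ne_comm]
  by_cases hx : usedRay (Sum.inr (a, b, σ))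
  · rw [if_pos hx, if_pos (h1.2 hx)]
    exact Gq_swap j k q a b σ
  · rw [if_neg hx, if_neg fun h => hx (h1.1 h)]

theorem QHyp.dot_su1' (j k : κ) (q : P) :
    dot (S.Dv j (S.su1 lam d F X m α)) (S.Dv k (S.su1 lam d F X m α)) q =
      (∑ x : Q × Q × Bool, if usedRay (Sum.inr x) then
        ((osc lam (d.pr x.1 x.2.1 x.2.2).Ψ q *
          (d.pr x.1 x.2.1 x.2.2).ten S (S.sh lam d F X m α x) j k q).re : ℂ) else 0)
      + slowM (S.sB lam d F X m α) j k q := by
  rw [H.dot_su1]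
  have h1 : ∀ x, (((1 / 2 : ℝ) * (Gq S lam d F X m α j k q x).re : ℝ) : ℂ) =
      ((if usedRay (Sum.inr x) then (1 / 2 : ℝ) * (Gq S lam d F X m α j k q x).re else 0 : ℝ) : ℂ)
      + ((if usedRay (Sum.inr x) then 0 else (1 / 2 : ℝ) * (Gq S lam d F X m α j k q x).re : ℝ)
        : ℂ) := by
    intro x
    split_ifs <;> simp
  rw [Finset.sum_congr rfl fun x _ => h1 x, Finset.sum_add_distrib]
  congr 1
  · -- the pairs in use
    have h2 : ∀ x : Q × Q × Bool, (if usedRay (Sum.inr x) then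
        ((osc lam (d.pr x.1 x.2.1 x.2.2).Ψ q *
          (d.pr x.1 x.2.1 x.2.2).ten S (S.sh lam d F X m α x) j k q).re : ℂ) else 0) =
        ((1 / 4 * (if usedRay (Sum.inr x) then (Gq S lam d F X m α j k q x).re else 0)
          + 1 / 4 * (if usedRay (Sum.inr x) then (Gq S lam d F X m α k j q x).re else 0) : ℝ)
            : ℂ) := by
      intro x
      by_cases hx : usedRay (Sum.inr x)
      · rw [if_pos hx, if_pos hx, if_pos hx, H.ten_sh x hx, ← H.oscP_eq x hx]
        congr 1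
        simp only [Gq]
        have : oscP lam d x q * (1 / 4 * (dot (S.sB lam d F X m α x.1 j)
            (twv x.2.2 (S.sB lam d F X m α x.2.1 k)) q + dot (S.sB lam d F X m α x.1 k)
            (twv x.2.2 (S.sB lam d F X m α x.2.1 j)) q)) =
            ((1 / 4 : ℝ) : ℂ) * (oscP lam d x q * dot (S.sB lam d F X m α x.1 j)
            (twv x.2.2 (S.sB lam d F X m α x.2.1 k)) q) +
            ((1 / 4 : ℝ) : ℂ) * (oscP lam d x q * dot (S.sB lam d F X m α x.1 k)
            (twv x.2.2 (S.sB lam d F X m α x.2.1 j)) q) := by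
          push_cast
          ring
        rw [this, Complex.add_re, Complex.re_ofReal_mul, Complex.re_ofReal_mul]
      · rw [if_neg hx, if_neg hx, if_neg hx]
        simp
    rw [Finset.sum_congr rfl fun x _ => h2 x, ← Complex.ofReal_sum, ← Complex.ofReal_sum]
    congr 1
    rw [Finset.sum_add_distrib, ← Finset.mul_sum, ← Finset.mul_sum,
      ← sum_swap (S := S) (lam := lam) (d := d) (F := F) (X := X) (m := m) (α := α) j k q,
      ← add_mul]
    have h3 : ∀ x, (if usedRay (Sum.inr x) then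
        (1 / 2 : ℝ) * (Gq S lam d F X m α j k q x).re else 0) =
        (1 / 2 : ℝ) * (if usedRay (Sum.inr x) then (Gq S lam d F X m α j k q x).re else 0) := by
      intro x
      split_ifs <;> simp
    rw [Finset.sum_congr rfl fun x _ => h3 x, ← Finset.mul_sum]
    norm_num
  · -- the slow part
    simp only [slowM]
    rw [Fintype.sum_prod_type]
    refine Finset.sum_congr rfl fun a _ => ?_
    rw [Fintype.sum_prod_type]
    have h2 : ∀ b, (∑ σ : Bool, ((if usedRay (Sum.inr (a, b, σ)) then 0 else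
        (1 / 2 : ℝ) * (Gq S lam d F X m α j k q (a, b, σ)).re : ℝ) : ℂ)) =
        if a = b then (((1 / 2 : ℝ) * (Gq S lam d F X m α j k q (a, b, false)).re : ℝ) : ℂ)
          else 0 := by
      intro b
      rw [Fintype.sum_bool]
      by_cases hab : a = b
      · simp [usedRay, hab]
      · simp [usedRay, hab]
    rw [Finset.sum_congr rfl fun b _ => h2 b, Finset.sum_ite_eq]
    simp only [Finset.mem_univ, if_true]
    congr 1
    simp only [Gq, H.oscP_diag, one_mul, twv, cond_false]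
    have : (1 / 2 : ℂ) = ((1 / 2 : ℝ) : ℂ) := by push_cast; rfl
    rw [this, Complex.re_ofReal_mul]

end

/-- **(QA)** the quadratic identity -/
theorem DAlg.quadAlg (Q : Type) [Fintype Q] : S.QuadAlg Q := by
  intro lam ε d F X m α hlam hd sX rX hF sα zα rα j k q
  have H : QHyp S lam d F X α := ⟨hlam, hd, sX, rX, hF, sα, zα⟩
  have s1 : ∀ c, S.Sm (S.su1 lam d F X m α c) := H.sm_su1
  have s2 : ∀ c, S.Sm (S.su2 lam d F X m α c) := H.sm_su2
  have sy : ∀ c, S.Sm (S.sy lam d F X m α ε c) := fun c =>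
    S.sm_add (S.sm_smul _ (s1 c)) (S.sm_smul _ (s2 c))
  have hD : ∀ l c, S.D l (S.sy lam d F X m α ε c) q =
      ε * S.D l (S.su1 lam d F X m α c) q + ε ^ 2 * S.D l (S.su2 lam d F X m α c) q := by
    intro l c
    have h := S.D_add_apply l (S.sm_smul (ε : ℂ) (s1 c)) (S.sm_smul ((ε : ℂ) ^ 2) (s2 c)) q
    rw [S.D_smul_apply l _ (s1 c), S.D_smul_apply l _ (s2 c)] at h
    exact h
  rw [S.met_add sX sy]
  have h1 : S.lin X (S.sy lam d F X m α ε) j k q =
      ε * S.lin X (S.su1 lam d F X m α) j k q + ε ^ 2 * S.lin X (S.su2 lam d F X m α) j k q := by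
    simp only [DAlg.lin, dot_apply, DAlg.Dv, hD, Fin.sum_univ_four]
    ring
  have h2 : dot (S.Dv j (S.sy lam d F X m α ε)) (S.Dv k (S.sy lam d F X m α ε)) q =
      ε ^ 2 * dot (S.Dv j (S.su1 lam d F X m α)) (S.Dv k (S.su1 lam d F X m α)) q
      + ε ^ 3 * (dot (S.Dv j (S.su1 lam d F X m α)) (S.Dv k (S.su2 lam d F X m α)) q
          + dot (S.Dv j (S.su2 lam d F X m α)) (S.Dv k (S.su1 lam d F X m α)) q)
      + ε ^ 4 * dot (S.Dv j (S.su2 lam d F X m α)) (S.Dv k (S.su2 lam d F X m α)) q := by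
    simp only [dot_apply, DAlg.Dv, hD, Fin.sum_univ_four]
    ring
  rw [h1, h2, H.lin_su1, H.lin_su2, H.dot_su1']
  ring

end Vale.Agent.P205.F
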