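import Vale.Agent.P205.F.DAlg

/-!
The WKB solution of the linearised isometric immersion equation along a ray: definitions.

`lin X v j k = D_j X · D_k v + D_k X · D_j v`.  For `v = exp(iλΨ) V` with
`V = p P1 + r P2 + s N` supported in `K` the equations `lin X v (t,t) = h 0`,
`(t,w) = h 1`, `(w,w) = h 2` (all with the factor `exp(iλΨ)`) read
`iλ p = h0/2 + X_tt·V - t p`, `iλ r = h1 + (X_wt + X_tw)·V - w p - t r`, `s = w r - h2/2`,
where `X_tt = t(tX)`, `X_wt = w(tX)`, `X_tw = t(wX)`.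
-/

noncomputable section

namespace Vale.Agent.P205.F

universe u

variable {P : Type u} {κ : Type} [Fintype κ] (S : DAlg P κ)

/-- derivative of a vector valued map -/
def DAlg.Dv (j : κ) (X : Fin 4 → P → ℂ) : Fin 4 → P → ℂ := fun a => S.D j (X a)

/-- derivative of a vector valued map along a field -/
def DAlg.dirv (c : κ → P → ℂ) (X : Fin 4 → P → ℂ) : Fin 4 → P → ℂ := fun a => S.dir c (X a)

/-- the linearised metric -/
def DAlg.lin (X v : Fin 4 → P → ℂ) (j k : κ) : P → ℂ :=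
  fun p => dot (S.Dv j X) (S.Dv k v) p + dot (S.Dv k X) (S.Dv j v) p

/-- frame along a ray -/
structure Frm (P : Type*) where
  /-- unit normal, orthogonal to `X_t, X_w, X_ww` -/
  E : Fin 4 → P → ℂ
  /-- dual to `X_ww` -/
  N : Fin 4 → P → ℂ
  /-- dual to `X_t` -/
  P1 : Fin 4 → P → ℂ
  /-- dual to `X_w` -/
  P2 : Fin 4 → P → ℂ

/-- validity of a frame -/
structure Frm.Ok (F : Frm P) (r : Ray P κ) (X : Fin 4 → P → ℂ) : Prop where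
  smE : ∀ a, S.Sm (F.E a)
  smN : ∀ a, S.Sm (F.N a)
  smP1 : ∀ a, S.Sm (F.P1 a)
  smP2 : ∀ a, S.Sm (F.P2 a)
  rE : ∀ a, Rl (F.E a)
  rN : ∀ a, Rl (F.N a)
  rP1 : ∀ a, Rl (F.P1 a)
  rP2 : ∀ a, Rl (F.P2 a)
  EE : ∀ p ∈ r.K, dot F.E F.E p = 1
  Et : ∀ p ∈ r.K, dot F.E (S.dirv r.t X) p = 0
  Ew : ∀ p ∈ r.K, dot F.E (S.dirv r.w X) p = 0
  Eww : ∀ p ∈ r.K, dot F.E (S.dirv r.w (S.dirv r.w X)) p = 0
  Nt : ∀ p ∈ r.K, dot F.N (S.dirv r.t X) p = 0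
  Nw : ∀ p ∈ r.K, dot F.N (S.dirv r.w X) p = 0
  Nww : ∀ p ∈ r.K, dot F.N (S.dirv r.w (S.dirv r.w X)) p = 1
  P1t : ∀ p ∈ r.K, dot F.P1 (S.dirv r.t X) p = 1
  P1w : ∀ p ∈ r.K, dot F.P1 (S.dirv r.w X) p = 0
  P1ww : ∀ p ∈ r.K, dot F.P1 (S.dirv r.w (S.dirv r.w X)) p = 0
  P2t : ∀ p ∈ r.K, dot F.P2 (S.dirv r.t X) p = 0
  P2w : ∀ p ∈ r.K, dot F.P2 (S.dirv r.w X) p = 1
  P2ww : ∀ p ∈ r.K, dot F.P2 (S.dirv r.w (S.dirv r.w X)) p = 0

/-- the vector `V = p P1 + r P2 + s N` of a state `x = (p, r, s)` -/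
def Frm.vec (F : Frm P) (x : Fin 3 → P → ℂ) : Fin 4 → P → ℂ :=
  fun a q => x 0 q * F.P1 a q + x 1 q * F.P2 a q + x 2 q * F.N a q

/-- one WKB step; `h = (h_tt, h_tw, h_ww)`, state `x = (p, r, s)` -/
def DAlg.wstep (lam : ℝ) (r : Ray P κ) (F : Frm P) (X : Fin 4 → P → ℂ) (h x : Fin 3 → P → ℂ) :
    Fin 3 → P → ℂ :=
  let V := F.vec x
  let p' : P → ℂ := fun q => (h 0 q / 2 + dot (S.dirv r.t (S.dirv r.t X)) V q
    - S.dir r.t (x 0) q) / (Complex.I * lam)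
  let r' : P → ℂ := fun q => (h 1 q + (dot (S.dirv r.w (S.dirv r.t X)) V q
    + dot (S.dirv r.t (S.dirv r.w X)) V q) - S.dir r.w (x 0) q - S.dir r.t (x 1) q)
      / (Complex.I * lam)
  let s' : P → ℂ := fun q => S.dir r.w r' q - h 2 q / 2
  ![p', r', s']

/-- the states of the WKB iteration -/
def DAlg.wst (lam : ℝ) (r : Ray P κ) (F : Frm P) (X : Fin 4 → P → ℂ) (h : Fin 3 → P → ℂ) :
    ℕ → Fin 3 → P → ℂ
  | 0 => ![fun _ => 0, fun _ => 0, fun q => - h 2 q / 2]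
  | m + 1 => S.wstep lam r F X h (DAlg.wst lam r F X h m)

/-- the WKB approximate solution `W_m(h)` -/
def DAlg.wkb (lam : ℝ) (r : Ray P κ) (F : Frm P) (X : Fin 4 → P → ℂ) (m : ℕ)
    (h : Fin 3 → P → ℂ) : Fin 4 → P → ℂ := F.vec (S.wst lam r F X h m)

/-- the residual `(tt, tw, ww)` of `W_m(h)` -/
def DAlg.wres (lam : ℝ) (r : Ray P κ) (F : Frm P) (X : Fin 4 → P → ℂ) (m : ℕ)
    (h : Fin 3 → P → ℂ) : Fin 3 → P → ℂ :=
  ![fun q => 2 * (Complex.I * lam) * (S.wst lam r F X h m 0 q - S.wst lam r F X h (m + 1) 0 q),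
    fun q => Complex.I * lam * (S.wst lam r F X h m 1 q - S.wst lam r F X h (m + 1) 1 q),
    fun _ => 0]

/-- the tensor with components `h = (tt, tw, ww)` along the ray, in the directions `j, k` -/
def Ray.ten (r : Ray P κ) (h : Fin 3 → P → ℂ) (j k : κ) : P → ℂ :=
  fun q => S.D j r.Ψ q * S.D k r.Ψ q * h 0 q
    + (S.D j r.Ψ q * r.β k q + r.β j q * S.D k r.Ψ q) * h 1 q + r.β j q * r.β k q * h 2 q

/-- the oscillating factor -/
def osc (lam : ℝ) (Ψ : P → ℂ) : P → ℂ := fun q => Complex.exp (Complex.I * lam * Ψ q)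

/-- **(W1)** algebra of the WKB solution -/
def DAlg.WkbAlg : Prop := ∀ (lam : ℝ) (r : Ray P κ) (F : Frm P) (X : Fin 4 → P → ℂ) (m : ℕ)
    (h : Fin 3 → P → ℂ), lam ≠ 0 → r.Ok S → (∀ a, S.Sm (X a)) → (∀ a, Rl (X a)) →
    F.Ok S r X → (∀ c, S.Sm (h c)) → (∀ c, S.Zs r.K (h c)) →
    (∀ a, S.Sm (S.wkb lam r F X m h a)) ∧ (∀ a, S.Zs r.K (S.wkb lam r F X m h a)) ∧
    ∀ j k q, S.lin X (fun a => osc lam r.Ψ * S.wkb lam r F X m h a) j k q =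
      osc lam r.Ψ q * (r.ten S h j k q + r.ten S (S.wres lam r F X m h) j k q)

/-- **(W2)** bounds for the WKB solution, families; `L³θ ≤ λ` -/
def DAlg.WkbBd : Prop := ∀ (ι : Type u) (L θ lam s : ι → ℝ) (r : ι → Ray P κ) (F : ι → Frm P)
    (X : ι → Fin 4 → P → ℂ) (m : ℕ) (h : ι → Fin 3 → P → ℂ),
    (∀ i, 1 ≤ L i) → (∀ i, 1 ≤ θ i) → (∀ i, L i ^ 3 * θ i ≤ lam i) → (∀ i, 0 ≤ s i) →
    (∀ j, S.FO θ L (fun i => (r i).t j)) → (∀ j, S.FO θ L (fun i => (r i).w j)) →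
    (∀ a, S.FO θ L (fun i => (F i).N a)) → (∀ a, S.FO θ L (fun i => (F i).P1 a)) →
    (∀ a, S.FO θ L (fun i => (F i).P2 a)) →
    (∀ a, S.FO θ L (fun i => S.dirv (r i).t (S.dirv (r i).t (X i)) a)) →
    (∀ a, S.FO θ L (fun i => S.dirv (r i).w (S.dirv (r i).t (X i)) a)) →
    (∀ a, S.FO θ L (fun i => S.dirv (r i).t (S.dirv (r i).w (X i)) a)) →
    (∀ c, S.FO θ s (fun i => h i c)) →
    (∀ a, S.FO θ (fun i => s i * L i) (fun i => S.wkb (lam i) (r i) (F i) (X i) m (h i) a)) ∧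
    (∀ a, S.FO θ (fun i => s i * L i ^ 4 * (θ i / lam i))
      (fun i => fun q => S.wkb (lam i) (r i) (F i) (X i) m (h i) a q
        + h i 2 q / 2 * (F i).N a q)) ∧
    (∀ c, S.FO θ (fun i => s i * L i ^ 2 * (L i ^ 3 * θ i / lam i) ^ m)
      (fun i => S.wres (lam i) (r i) (F i) (X i) m (h i) c))

/-- **(W2')** scale invariant bounds for the WKB solution (USE THIS ONE), families; `1 ≤ b ≤ θ ≤ λ`, `b` is the size of the second
derivatives of `X` -/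
def DAlg.WkbB : Prop := ∀ (ι : Type u) (θ b lam s : ι → ℝ) (r : ι → Ray P κ) (F : ι → Frm P)
    (X : ι → Fin 4 → P → ℂ) (m : ℕ) (h : ι → Fin 3 → P → ℂ),
    (∀ i, 1 ≤ b i) → (∀ i, b i ≤ θ i) → (∀ i, θ i ≤ lam i) → (∀ i, 0 ≤ s i) →
    (∀ j, S.FO θ (fun _ => 1) (fun i => (r i).t j)) →
    (∀ j, S.FO θ (fun _ => 1) (fun i => (r i).w j)) →
    (∀ a, S.FO θ (fun i => 1 / b i) (fun i => (F i).N a)) →
    (∀ a, S.FO θ (fun _ => 1) (fun i => (F i).P1 a)) →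
    (∀ a, S.FO θ (fun _ => 1) (fun i => (F i).P2 a)) →
    (∀ a, S.FO θ b (fun i => S.dirv (r i).t (S.dirv (r i).t (X i)) a)) →
    (∀ a, S.FO θ b (fun i => S.dirv (r i).w (S.dirv (r i).t (X i)) a)) →
    (∀ a, S.FO θ b (fun i => S.dirv (r i).t (S.dirv (r i).w (X i)) a)) →
    (∀ c, S.FO θ s (fun i => h i c)) →
    (∀ a, S.FO θ (fun i => s i / b i) (fun i => S.wkb (lam i) (r i) (F i) (X i) m (h i) a)) ∧
    (∀ a, S.FO θ (fun i => s i * (θ i / (b i * lam i)))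
      (fun i => fun q => S.wkb (lam i) (r i) (F i) (X i) m (h i) a q
        + h i 2 q / 2 * (F i).N a q)) ∧
    (∀ c, S.FO θ (fun i => s i * (θ i / lam i) ^ m)
      (fun i => S.wres (lam i) (r i) (F i) (X i) m (h i) c))

/-- **(W3)** linearity in `h` -/
def DAlg.WkbLin : Prop := ∀ (lam : ℝ) (r : Ray P κ) (F : Frm P) (X : Fin 4 → P → ℂ) (m : ℕ)
    (h h' : Fin 3 → P → ℂ) (c : ℂ), r.Ok S → (∀ a, S.Sm (X a)) →
    F.Ok S r X → (∀ c, S.Sm (h c)) → (∀ c, S.Sm (h' c)) →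
    ∀ a q, S.wkb lam r F X m (fun b q => h b q + c * h' b q) a q =
      S.wkb lam r F X m h a q + c * S.wkb lam r F X m h' a q

end Vale.Agent.P205.F
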