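import Vale.Agent.P205.F.Inst1
import Vale.Agent.P205.F.WkbDef
import Vale.Agent.P205.F.StageDef

/-!
From an exact map of the differential function space of a compact manifold to a smooth isometric
map with values in `ℝ⁴`.
-/

noncomputable section

set_option linter.unusedSectionVars false

open scoped Manifold ContDiff Topology
open Set Filter

namespace Vale.Agent.P205.F

theorem real_conv {α : Type*} {v sv w sw : α} (Φ : α → α → Prop) (hv : v = sv) (hw : w = sw)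
    (h : Φ sv sw) : Φ v w := by
  subst hv
  subst hw
  exact h

theorem real_bilin {E : Type*} [NormedAddCommGroup E] [NormedSpace ℝ E] {A : Type*} [Fintype A]
    {ι : Type*} [Fintype ι] (T : ι → E →L[ℝ] ℝ) (G : E →L[ℝ] E →L[ℝ] ℝ) (x : A → E)
    (h : ∀ a b, ∑ i, T i (x a) * T i (x b) = G (x a) (x b)) (c d : A → ℝ) :
    ∑ i, T i (∑ a, c a • x a) * T i (∑ a, d a • x a) =
      G (∑ a, c a • x a) (∑ a, d a • x a) := by
  have h1 : ∀ i, T i (∑ a, c a • x a) * T i (∑ a, d a • x a) =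
      ∑ a, ∑ b, c a * d b * (T i (x a) * T i (x b)) := by
    intro i
    rw [map_sum, map_sum, Finset.sum_mul_sum]
    refine Finset.sum_congr rfl fun a _ => Finset.sum_congr rfl fun b _ => ?_
    rw [map_smul, map_smul, smul_eq_mul, smul_eq_mul]
    ring
  have h2 : G (∑ a, c a • x a) (∑ a, d a • x a) = ∑ a, ∑ b, c a * d b * G (x a) (x b) := by
    have h3 : G (∑ a, c a • x a) = ∑ a, c a • G (x a) := by
      rw [map_sum]
      exact Finset.sum_congr rfl fun a _ => map_smul _ _ _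
    rw [h3, sum_apply]
    refine Finset.sum_congr rfl fun a _ => ?_
    rw [_root_.ContinuousLinearMap.smul_apply, map_sum, Finset.smul_sum]
    refine Finset.sum_congr rfl fun b _ => ?_
    rw [map_smul, smul_eq_mul, smul_eq_mul]
    ring
  rw [h2, Finset.sum_congr rfl fun i _ => h1 i, Finset.sum_comm]
  refine Finset.sum_congr rfl fun a _ => ?_
  rw [Finset.sum_comm]
  refine Finset.sum_congr rfl fun b _ => ?_
  rw [← Finset.mul_sum, h]

namespace Cov

variable {E : Type*} [NormedAddCommGroup E] [NormedSpace ℝ E]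
  {M : Type*} [TopologicalSpace M] [ChartedSpace E M] [IsManifold 𝓘(ℝ, E) ∞ M] [CompactSpace M]
  (K : Cov E M) {A : Type} [Fintype A] (b : Module.Basis A ℝ E)

/-- the real parts of a real element of the algebra -/
theorem contMDiff_re {u : M → ℂ} (hu : ContMDiff 𝓘(ℝ, E) 𝓘(ℝ, ℂ) ∞ u) :
    ContMDiff 𝓘(ℝ, E) 𝓘(ℝ, ℝ) ∞ (fun p => (u p).re) :=
  (Complex.reCLM.contDiff.contMDiff (n := ∞)).comp hu

theorem Dv_ofReal {u : M → ℝ} (hu : ContMDiff 𝓘(ℝ, E) 𝓘(ℝ, ℝ) ∞ u) (j : Fin K.n × A) :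
    K.Dv b j (fun p => (u p : ℂ)) = fun p => ((K.Dv b j u p : ℝ) : ℂ) :=
  K.Dv_clm b Complex.ofRealCLM hu j

/-- a real exact map is an isometric map into `ℝ⁴` -/
theorem exists_real (g : Bundle.ContMDiffRiemannianMetric 𝓘(ℝ, E) ∞ E
      (fun x : M => TangentSpace 𝓘(ℝ, E) x))
    (F : Fin 4 → M → ℂ) (hF : ∀ a, (K.dalg b).Sm (F a)) (hr : ∀ a, Rl (F a))
    (hm : ∀ j k p, (K.dalg b).met F j k p =
      ((g.inner p (K.X b j p) (K.X b k p) : ℝ) : ℂ)) :
    ∃ X : Fin 4 → M → ℝ, (∀ i, ContMDiff 𝓘(ℝ, E) 𝓘(ℝ) ∞ (X i)) ∧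
      ∀ (m : M) (v w : TangentSpace 𝓘(ℝ, E) m),
        ∑ i, mvfderiv 𝓘(ℝ, E) (X i) m v * mvfderiv 𝓘(ℝ, E) (X i) m w = g.inner m v w := by
  have hX : ∀ i, ContMDiff 𝓘(ℝ, E) 𝓘(ℝ, ℝ) ∞ (fun p => (F i p).re) :=
    fun i => contMDiff_re (hF i)
  refine ⟨fun i p => (F i p).re, hX, fun m v w => ?_⟩
  have hFX : ∀ i, F i = fun p => (((F i p).re : ℝ) : ℂ) := by
    intro i
    funext p
    exact Complex.ext (by simp) (by simpa using hr i p)
  have hD : ∀ j i p, K.Dv b j (F i) p = ((K.Dv b j (fun p => (F i p).re) p : ℝ) : ℂ) := by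
    intro j i p
    conv_lhs => rw [hFX i]
    rw [K.Dv_ofReal b (hX i)]
  have hm' : ∀ j k, ∑ i, K.Dv b j (fun p => (F i p).re) m * K.Dv b k (fun p => (F i p).re) m =
      g.inner m (K.X b j m) (K.X b k m) := by
    intro j k
    have h1 := hm j k m
    have h2 : (K.dalg b).met F j k m =
        ((∑ i, K.Dv b j (fun p => (F i p).re) m * K.Dv b k (fun p => (F i p).re) m : ℝ) : ℂ) := by
      rw [DAlg.met, dot]
      push_cast
      refine Finset.sum_congr rfl fun i _ => ?_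
      rw [← hD, ← hD]
      rfl
    rw [h2] at h1
    exact_mod_cast h1
  obtain ⟨i, hi⟩ := K.cov m
  have hv := K.X_span b (K.V_sub i hi) v
  have hw := K.X_span b (K.V_sub i hi) w
  rw [K.one i m hi, one_smul] at hv hw
  let T : Fin 4 → E →L[ℝ] ℝ := fun q => mfderiv 𝓘(ℝ, E) 𝓘(ℝ, ℝ) (fun p => (F q p).re) m
  let G : E →L[ℝ] E →L[ℝ] ℝ := g.inner m
  let x : A → E := fun a => K.X b (i, a) m
  have hT : ∀ q a, T q (x a) = K.Dv b (i, a) (fun p => (F q p).re) m := fun q a =>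
    (K.Dv_eq b (hX q) (i, a) m).symm
  have hG : ∀ a a', G (x a) (x a') = g.inner m (K.X b (i, a) m) (K.X b (i, a') m) :=
    fun _ _ => rfl
  have key := real_bilin T G x (fun a a' => by
      rw [hG, ← hm' (i, a) (i, a')]
      exact Finset.sum_congr rfl fun q _ => by rw [hT, hT])
    (fun a => b.repr (mfderiv 𝓘(ℝ, E) 𝓘(ℝ, E) (K.ph i) m v : E) a)
    (fun a => b.repr (mfderiv 𝓘(ℝ, E) 𝓘(ℝ, E) (K.ph i) m w : E) a)
  exact real_conv (α := E) (fun x y => ∑ q, T q x * T q y = G x y) hv hw key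

end Cov

end Vale.Agent.P205.F
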