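import Vale.Agent.P205.F.Calc1
import Vale.Agent.P205.F.StageDef

/-!
The scaled differential function space: `(S.scl b).D j u = b * S.D j u`.

With `b = 1 / Λ` statements at the scale `Λ` for `S` become statements at scale one for
`S.scl b`.
-/

open scoped ContDiff

noncomputable section

namespace Vale.Agent.P205.F

universe u

variable {P : Type u} {κ : Type} (S : DAlg P κ)

/-- the scaled algebra: all derivations are multiplied by the real number `b` -/
def DAlg.scl (b : ℝ) : DAlg P κ where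
  Sm := S.Sm
  D := fun j u p => (b : ℂ) * S.D j u p
  sm_const := S.sm_const
  sm_add := S.sm_add
  sm_mul := S.sm_mul
  sm_conj := S.sm_conj
  sm_D := by
    intro u j hu
    exact S.sm_mul (S.sm_const (b : ℂ)) (S.sm_D j hu)
  D_const := by
    intro j c
    funext p
    simp [S.D_const j c]
  D_add := by
    intro u v j hu hv
    funext p
    simp only [Pi.add_apply]
    rw [S.D_add j hu hv]
    simp only [Pi.add_apply]
    ring
  D_mul := by
    intro u v j hu hv
    funext p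
    simp only [Pi.add_apply, Pi.mul_apply]
    rw [S.D_mul j hu hv]
    simp only [Pi.add_apply, Pi.mul_apply]
    ring
  D_conj := by
    intro u j hu
    funext p
    rw [S.D_conj j hu]
    simp
  sm_comp := S.sm_comp
  D_comp := by
    intro F u j hF hu hr
    funext p
    rw [S.D_comp j hF hu hr]
    ring
  bdd := S.bdd

@[simp] theorem DAlg.scl_Sm (b : ℝ) (u : P → ℂ) : (S.scl b).Sm u = S.Sm u := rfl

theorem DAlg.scl_D (b : ℝ) (j : κ) (u : P → ℂ) :
    (S.scl b).D j u = fun p => (b : ℂ) * S.D j u p := rfl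

theorem DAlg.scl_D_apply (b : ℝ) (j : κ) (u : P → ℂ) (p : P) :
    (S.scl b).D j u p = (b : ℂ) * S.D j u p := rfl

theorem DAlg.scl_wd (b : ℝ) (w : List κ) {u : P → ℂ} (hu : S.Sm u) (p : P) :
    (S.scl b).wd w u p = (b : ℂ) ^ w.length * S.wd w u p := by
  induction w generalizing p with
  | nil => simp [DAlg.wd]
  | cons j w ih =>
    have h : (S.scl b).wd w u = fun p => (b : ℂ) ^ w.length * S.wd w u p := funext ih
    change (b : ℂ) * S.D j ((S.scl b).wd w u) p = _
    rw [h, S.D_smul_apply j _ (S.sm_wd w hu)]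
    simp only [DAlg.wd, List.length_cons]
    ring

theorem DAlg.norm_scl_wd {b : ℝ} (hb : 0 ≤ b) (w : List κ) {u : P → ℂ} (hu : S.Sm u) (p : P) :
    ‖(S.scl b).wd w u p‖ = b ^ w.length * ‖S.wd w u p‖ := by
  rw [S.scl_wd b w hu p, norm_mul, norm_pow, Complex.norm_real, Real.norm_of_nonneg hb]

theorem DAlg.scl_bd_iff {b μ : ℝ} (hb : 0 < b) {k : ℕ} {C : ℝ} {u : P → ℂ} (hu : S.Sm u) :
    (S.scl b).Bd μ k C u ↔ S.Bd (μ / b) k C u := by
  have hb' : ∀ n : ℕ, 0 < b ^ n := fun n => pow_pos hb n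
  constructor
  · intro h w hw p
    have h1 := h w hw p
    rw [S.norm_scl_wd hb.le w hu p] at h1
    rw [div_pow, ← mul_div_assoc, le_div_iff₀ (hb' _), mul_comm]
    exact h1
  · intro h w hw p
    have h1 := h w hw p
    rw [div_pow, ← mul_div_assoc, le_div_iff₀ (hb' _), mul_comm] at h1
    rw [S.norm_scl_wd hb.le w hu p]
    exact h1

theorem DAlg.scl_nb_iff {b : ℝ} (hb : 0 ≤ b) {k : ℕ} {C : ℝ} {u : P → ℂ} (hu : S.Sm u) :
    (S.scl b).Nb k C u ↔ ∀ w : List κ, w.length ≤ k → ∀ p, b ^ w.length * ‖S.wd w u p‖ ≤ C := by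
  constructor
  · intro h w hw p
    rw [← S.norm_scl_wd hb w hu p]
    exact h w hw p
  · intro h w hw p
    rw [S.norm_scl_wd hb w hu p]
    exact h w hw p

/-- slow functions: unscaled bounds give scaled bounds -/
theorem DAlg.Nb.scl {b : ℝ} (hb : 0 ≤ b) (hb1 : b ≤ 1) {k : ℕ} {C : ℝ} {u : P → ℂ}
    (hu : S.Sm u) (h : S.Nb k C u) : (S.scl b).Nb k C u := by
  rw [S.scl_nb_iff hb hu]
  intro w hw p
  have h1 := h w hw p
  have h2 : b ^ w.length ≤ 1 := pow_le_one₀ hb hb1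
  have h3 : 0 ≤ ‖S.wd w u p‖ := norm_nonneg _
  nlinarith

/-- slow functions: words of positive length gain a factor `b` -/
theorem DAlg.norm_scl_wd_le {b : ℝ} (hb : 0 ≤ b) (hb1 : b ≤ 1) {k : ℕ} {C : ℝ} {u : P → ℂ}
    (hu : S.Sm u) (h : S.Nb k C u) (w : List κ) (hw : w ≠ []) (hk : w.length ≤ k) (p : P) :
    ‖(S.scl b).wd w u p‖ ≤ C * b := by
  rw [S.norm_scl_wd hb w hu p]
  have h1 := h w hk p
  have h4 : 1 ≤ w.length := by
    cases w with
    | nil => exact absurd rfl hw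
    | cons _ _ => simp
  have h2 : b ^ w.length ≤ b := by
    calc b ^ w.length ≤ b ^ 1 := pow_le_pow_of_le_one hb hb1 h4
      _ = b := pow_one b
  have h3 : 0 ≤ ‖S.wd w u p‖ := norm_nonneg _
  calc b ^ w.length * ‖S.wd w u p‖ ≤ b * ‖S.wd w u p‖ := by nlinarith
    _ ≤ b * C := by nlinarith
    _ = C * b := mul_comm _ _

theorem DAlg.scl_zs {b : ℝ} {K : Set P} {u : P → ℂ} (hu : S.Sm u) (h : S.Zs K u) :
    (S.scl b).Zs K u := by
  intro w p hp
  rw [S.scl_wd b w hu p, h w p hp, mul_zero]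

theorem DAlg.scl_zs_iff {b : ℝ} (hb : b ≠ 0) {K : Set P} {u : P → ℂ} (hu : S.Sm u) :
    (S.scl b).Zs K u ↔ S.Zs K u := by
  refine ⟨fun h w p hp => ?_, S.scl_zs hu⟩
  have h1 := h w p hp
  rw [S.scl_wd b w hu p] at h1
  rcases mul_eq_zero.1 h1 with h2 | h2
  · exact absurd h2 (pow_ne_zero _ (by exact_mod_cast hb))
  · exact h2

section dirs
variable [Fintype κ]

theorem DAlg.scl_dir (b : ℝ) (c : κ → P → ℂ) (u : P → ℂ) (p : P) :
    (S.scl b).dir c u p = (b : ℂ) * S.dir c u p := by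
  simp only [DAlg.dir, DAlg.scl_D_apply, Finset.mul_sum]
  refine Finset.sum_congr rfl fun j _ => ?_
  ring

end dirs

/-- the function `u / b` -/
def sdiv (b : ℝ) (u : P → ℂ) : P → ℂ := fun p => (b : ℂ)⁻¹ * u p

theorem DAlg.sm_sdiv (b : ℝ) {u : P → ℂ} (hu : S.Sm u) : S.Sm (sdiv b u) := S.sm_smul _ hu

theorem Rl.sdiv {u : P → ℂ} (hu : Rl u) (b : ℝ) : Rl (F.sdiv b u) := by
  intro p
  have h := hu p
  simp only [F.sdiv]
  rw [← Complex.ofReal_inv, Complex.im_ofReal_mul, h, mul_zero]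

theorem DAlg.scl_D_sdiv {b : ℝ} (hb : b ≠ 0) (j : κ) {u : P → ℂ} (hu : S.Sm u) (p : P) :
    (S.scl b).D j (sdiv b u) p = S.D j u p := by
  have hb' : (b : ℂ) ≠ 0 := by exact_mod_cast hb
  rw [DAlg.scl_D_apply]
  have h := S.D_smul_apply j ((b : ℂ)⁻¹) hu p
  change (b : ℂ) * S.D j (fun q => (b : ℂ)⁻¹ * u q) p = _
  rw [h, ← mul_assoc, mul_inv_cancel₀ hb', one_mul]

theorem DAlg.scl_D_sdiv' {b : ℝ} (hb : b ≠ 0) (j : κ) {u : P → ℂ} (hu : S.Sm u) :
    (S.scl b).D j (sdiv b u) = S.D j u := funext fun p => S.scl_D_sdiv hb j hu p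

/-- words of positive length of `u / b` -/
theorem DAlg.norm_scl_wd_sdiv {b : ℝ} (hb : 0 < b) (w : List κ) (hw : w ≠ []) {u : P → ℂ}
    (hu : S.Sm u) (p : P) :
    ‖(S.scl b).wd w (sdiv b u) p‖ = b ^ (w.length - 1) * ‖S.wd w u p‖ := by
  rw [S.norm_scl_wd hb.le w (S.sm_sdiv b hu) p]
  have h : S.wd w (sdiv b u) = fun p => (b : ℂ)⁻¹ * S.wd w u p := S.wd_smul w _ hu
  rw [h]
  have hl : w.length ≠ 0 := by
    cases w with
    | nil => exact absurd rfl hw
    | cons _ _ => simp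
  obtain ⟨n, hn⟩ := Nat.exists_eq_succ_of_ne_zero hl
  rw [hn, norm_mul, norm_inv, Complex.norm_real, Real.norm_of_nonneg hb.le]
  simp only [Nat.succ_eq_add_one, Nat.add_sub_cancel]
  rw [pow_succ]
  field_simp

theorem DAlg.scl_met [Fintype κ] {b : ℝ} (hb : b ≠ 0) {X : Fin 4 → P → ℂ}
    (hX : ∀ a, S.Sm (X a)) (j k : κ) :
    (S.scl b).met (fun a => sdiv b (X a)) j k = S.met X j k := by
  funext p
  simp only [DAlg.met, dot, DAlg.Dv]
  refine Finset.sum_congr rfl fun a _ => ?_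
  rw [S.scl_D_sdiv hb j (hX a) p, S.scl_D_sdiv hb k (hX a) p]

theorem DAlg.scl_isT {b : ℝ} (hb : b ≠ 0) [Fintype κ] (T : κ → κ → P → ℂ) :
    (S.scl b).IsT T ↔ S.IsT T := by
  have hb' : (b : ℂ) ≠ 0 := by exact_mod_cast hb
  have key : ∀ (p : P) (c : κ → ℂ), (∀ u, (S.scl b).Sm u → ∑ j, c j * (S.scl b).D j u p = 0) ↔
      (∀ u, S.Sm u → ∑ j, c j * S.D j u p = 0) := by
    intro p c
    constructor
    · intro h u hu
      have h1 := h u hu
      simp only [DAlg.scl_D_apply] at h1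
      have h2 : ∑ j, c j * ((b : ℂ) * S.D j u p) = (b : ℂ) * ∑ j, c j * S.D j u p := by
        rw [Finset.mul_sum]
        exact Finset.sum_congr rfl fun j _ => by ring
      rw [h2] at h1
      exact (mul_eq_zero.1 h1).resolve_left hb'
    · intro h u hu
      have h1 := h u hu
      simp only [DAlg.scl_D_apply]
      have h2 : ∑ j, c j * ((b : ℂ) * S.D j u p) = (b : ℂ) * ∑ j, c j * S.D j u p := by
        rw [Finset.mul_sum]
        exact Finset.sum_congr rfl fun j _ => by ring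
      rw [h2, h1, mul_zero]
  constructor
  · rintro ⟨h1, h2⟩
    exact ⟨h1, fun p c hc k => h2 p c ((key p c).2 hc) k⟩
  · rintro ⟨h1, h2⟩
    exact ⟨h1, fun p c hc k => h2 p c ((key p c).1 hc) k⟩

/-- the scaled ray: phase `Ψ / b`, the same fields -/
def Ray.scl (r : Ray P κ) (b : ℝ) : Ray P κ where
  Ψ := sdiv b r.Ψ
  t := r.t
  w := r.w
  β := r.β
  K := r.K

theorem Ray.Ok.scl [Fintype κ] {S : DAlg P κ} {r : Ray P κ} (h : r.Ok S) {b : ℝ} (hb : b ≠ 0) :
    (r.scl b).Ok (S.scl b) := by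
  have hD : ∀ (c : κ → P → ℂ) (u : P → ℂ), S.Sm u → ∀ p,
      (S.scl b).dir c (sdiv b u) p = S.dir c u p := by
    intro c u hu p
    simp only [DAlg.dir]
    refine Finset.sum_congr rfl fun j _ => ?_
    rw [S.scl_D_sdiv hb j hu p]
  refine { smΨ := S.sm_sdiv b h.smΨ, smt := h.smt, smw := h.smw, smβ := h.smβ
           rΨ := h.rΨ.sdiv b, rt := h.rt, rw' := h.rw', rβ := h.rβ, tΨ := ?_, wΨ := ?_
           dec := ?_ }
  · intro p hp
    change (S.scl b).dir r.t (sdiv b r.Ψ) p = 1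
    rw [hD r.t r.Ψ h.smΨ p]
    exact h.tΨ p hp
  · intro p hp
    change (S.scl b).dir r.w (sdiv b r.Ψ) p = 0
    rw [hD r.w r.Ψ h.smΨ p]
    exact h.wΨ p hp
  · intro u hu j p hp
    have h1 := h.dec u hu j p hp
    change (b : ℂ) * S.D j u p = (S.scl b).D j (sdiv b r.Ψ) p * (S.scl b).dir r.t u p
      + r.β j p * (S.scl b).dir r.w u p
    rw [S.scl_D_sdiv hb j h.smΨ p, S.scl_dir, S.scl_dir, h1]
    ring

theorem DAlg.Complete.scl {b : ℝ} (hb : 0 < b) (hC : S.Complete) : (S.scl b).Complete := by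
  intro u hu h
  have hu' : ∀ q, S.Sm (u q) := hu
  have hsub : ∀ q, S.Sm (u (q + 1) - u q) := fun q => S.sm_sub (hu' _) (hu' _)
  obtain ⟨v, hv, hlim⟩ := hC u hu' (by
    intro k
    obtain ⟨c, hc, q0, hq⟩ := h k
    refine ⟨fun q => c q * (∑ n ∈ Finset.range (k + 1), (b ^ n)⁻¹), hc.mul_right _, q0, ?_⟩
    intro q hqq w hw p
    have h1 := hq q hqq w hw p
    rw [S.norm_scl_wd hb.le w (hsub q) p] at h1
    have hbp : 0 < b ^ w.length := pow_pos hb _
    have h2 : ‖S.wd w (u (q + 1) - u q) p‖ ≤ c q * (b ^ w.length)⁻¹ := by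
      rw [← div_eq_mul_inv, le_div_iff₀ hbp, mul_comm]
      exact h1
    have hc0 : 0 ≤ c q := le_trans (mul_nonneg hbp.le (norm_nonneg _)) h1
    refine h2.trans (mul_le_mul_of_nonneg_left ?_ hc0)
    exact Finset.single_le_sum (f := fun n => (b ^ n)⁻¹)
      (fun n _ => inv_nonneg.2 (pow_nonneg hb.le n))
      (Finset.mem_range.2 (Nat.lt_succ_of_le hw)))
  refine ⟨v, hv, fun w p => ?_⟩
  have h1 := (hlim w p).const_mul ((b : ℂ) ^ w.length)
  have h2 : ∀ q, (S.scl b).wd w (u q) p = (b : ℂ) ^ w.length * S.wd w (u q) p :=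
    fun q => S.scl_wd b w (hu' q) p
  rw [S.scl_wd b w hv p]
  simpa only [h2] using h1

/-- smoothing operators of the scaled algebra; the constants do not depend on the scale -/
def DAlg.Smoothing.scl {S : DAlg P κ} {m : ℕ} (T0 : S.Smoothing m) {b : ℝ} (hb : 0 < b)
    (hb1 : b ≤ 1) : (S.scl b).Smoothing m where
  T := fun θ u => T0.T (θ / b) u
  C := fun l => ∑ j ∈ Finset.range (l + 1), |T0.C j|
  sm := by
    intro θ u hθ hu
    exact T0.sm (by rw [le_div_iff₀ hb]; linarith) hu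
  real := by
    intro θ u hθ hu hr
    exact T0.real (by rw [le_div_iff₀ hb]; linarith) hu hr
  gain := by
    intro k l θ B u hkl hθ hu hB
    have hu' : S.Sm u := hu
    have hθb : 1 ≤ θ / b := by rw [le_div_iff₀ hb]; linarith
    have hsm : S.Sm (T0.T (θ / b) u) := T0.sm hθb hu'
    intro w hw p
    have hB0 : 0 ≤ B := by
      have h := hB [] (Nat.zero_le _) p
      exact le_trans (norm_nonneg _) h
    rw [S.norm_scl_wd hb.le w hsm p]
    set j := w.length with hj
    set k' := min j k with hk'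
    have hk'j : k' ≤ j := min_le_left _ _
    have hk'k : k' ≤ k := min_le_right _ _
    have hN : S.Nb k' (B / b ^ k') u := by
      intro v hv q
      have h1 := hB v (hv.trans hk'k) q
      rw [S.norm_scl_wd hb.le v hu' q] at h1
      rw [le_div_iff₀ (pow_pos hb _)]
      have h3 : b ^ k' ≤ b ^ v.length := pow_le_pow_of_le_one hb.le hb1 hv
      have h4 : 0 ≤ ‖S.wd v u q‖ := norm_nonneg _
      nlinarith
    have h5 := T0.gain hk'j hθb hu' hN w (le_of_eq hj.symm) p
    have hbj : 0 < b ^ j := pow_pos hb _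
    have h6 : b ^ j * ‖S.wd w (T0.T (θ / b) u) p‖ ≤
        b ^ j * (T0.C j * (θ / b) ^ (j - k') * (B / b ^ k')) :=
      mul_le_mul_of_nonneg_left h5 hbj.le
    have h7 : b ^ j * (T0.C j * (θ / b) ^ (j - k') * (B / b ^ k')) =
        T0.C j * θ ^ (j - k') * B := by
      have h8 : b ^ j = b ^ (j - k') * b ^ k' := by rw [← pow_add, Nat.sub_add_cancel hk'j]
      have h9 : b ^ (j - k') ≠ 0 := (pow_pos hb _).ne'
      have h10 : b ^ k' ≠ 0 := (pow_pos hb _).ne'
      rw [h8, div_pow]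
      field_simp
    rw [h7] at h6
    refine h6.trans ?_
    have hexp : j - k' ≤ l - k := by
      rcases le_total j k with h | h
      · have : k' = j := min_eq_left h
        omega
      · have : k' = k := min_eq_right h
        omega
    have h11 : θ ^ (j - k') ≤ θ ^ (l - k) := pow_le_pow_right₀ hθ hexp
    have h12 : T0.C j ≤ ∑ i ∈ Finset.range (l + 1), |T0.C i| := by
      refine (le_abs_self _).trans ?_
      exact Finset.single_le_sum (f := fun i => |T0.C i|) (fun i _ => abs_nonneg _)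
        (Finset.mem_range.2 (Nat.lt_succ_of_le hw))
    have h13 : 0 ≤ ∑ i ∈ Finset.range (l + 1), |T0.C i| :=
      Finset.sum_nonneg fun i _ => abs_nonneg _
    have h14 : 0 ≤ θ ^ (j - k') := pow_nonneg (by linarith) _
    refine mul_le_mul_of_nonneg_right ?_ hB0
    exact mul_le_mul h12 h11 h14 h13
  appr := by
    intro k θ B u hθ hu hB
    have hu' : S.Sm u := hu
    have hθb : 1 ≤ θ / b := by rw [le_div_iff₀ hb]; linarith
    have hsm : S.Sm (T0.T (θ / b) u) := T0.sm hθb hu'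
    intro w hw p
    have hB0 : 0 ≤ B := by
      have h := hB [] (Nat.zero_le _) p
      exact le_trans (norm_nonneg _) h
    rw [S.norm_scl_wd hb.le w (S.sm_sub hu' hsm) p]
    set j := w.length with hj
    have hN : S.Nb (j + m) (B / b ^ (j + m)) u := by
      intro v hv q
      have h1 := hB v (hv.trans (Nat.add_le_add_right hw m)) q
      rw [S.norm_scl_wd hb.le v hu' q] at h1
      rw [le_div_iff₀ (pow_pos hb _)]
      have h3 : b ^ (j + m) ≤ b ^ v.length := pow_le_pow_of_le_one hb.le hb1 hv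
      have h4 : 0 ≤ ‖S.wd v u q‖ := norm_nonneg _
      nlinarith
    have h5 := T0.appr hθb hu' hN w (le_of_eq hj.symm) p
    have hbj : 0 < b ^ j := pow_pos hb _
    have h6 : b ^ j * ‖S.wd w (u - T0.T (θ / b) u) p‖ ≤
        b ^ j * (T0.C j * ((θ / b) ^ m)⁻¹ * (B / b ^ (j + m))) :=
      mul_le_mul_of_nonneg_left h5 hbj.le
    have h7 : b ^ j * (T0.C j * ((θ / b) ^ m)⁻¹ * (B / b ^ (j + m))) =
        T0.C j * (θ ^ m)⁻¹ * B := by
      have h8 : b ^ (j + m) = b ^ j * b ^ m := pow_add _ _ _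
      have h9 : b ^ j ≠ 0 := hbj.ne'
      have h10 : b ^ m ≠ 0 := (pow_pos hb _).ne'
      have h11 : θ ^ m ≠ 0 := (pow_pos (by linarith) _).ne'
      rw [h8, div_pow]
      field_simp
    rw [h7] at h6
    refine h6.trans ?_
    have h12 : T0.C j ≤ ∑ i ∈ Finset.range (k + 1), |T0.C i| := by
      refine (le_abs_self _).trans ?_
      exact Finset.single_le_sum (f := fun i => |T0.C i|) (fun i _ => abs_nonneg _)
        (Finset.mem_range.2 (Nat.lt_succ_of_le hw))
    have h14 : 0 ≤ (θ ^ m)⁻¹ := inv_nonneg.2 (pow_nonneg (by linarith) _)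
    exact mul_le_mul_of_nonneg_right (mul_le_mul_of_nonneg_right h12 h14) hB0

end Vale.Agent.P205.F
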