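import Mathlib

/-!
Smoothing in a Euclidean chart (P205, full question), part A.

Constant coefficient word derivatives `ddw b w g`, the predicate `EN b k B g` and the operator
`smo h m = I - (I - P_h) ^ m`, where `P_h` is convolution with a bump function of size `h`.
-/

open MeasureTheory Set Function
open scoped ContDiff Convolution Pointwise

noncomputable section

namespace Vale.Agent.P205.F

section defs

variable {E : Type*} [NormedAddCommGroup E] [NormedSpace ℝ E]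
variable {F : Type*} [NormedAddCommGroup F] [NormedSpace ℝ F]
variable {A : Type*}

/-- derivative in the constant direction `v` -/
def dd (v : E) (g : E → F) : E → F := fun x => fderiv ℝ g x v

/-- iterated derivatives along words in the directions `b a` -/
def ddw (b : A → E) : List A → (E → F) → (E → F)
  | [], g => g
  | a :: w, g => dd (b a) (ddw b w g)

/-- smooth with compact support -/
def Cc (g : E → F) : Prop := ContDiff ℝ ∞ g ∧ HasCompactSupport g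

/-- all word derivatives of order at most `k` are bounded by `B` -/
def EN (b : A → E) (k : ℕ) (B : ℝ) (g : E → F) : Prop :=
  ∀ w : List A, w.length ≤ k → ∀ x, ‖ddw b w g x‖ ≤ B

theorem ddw_append (b : A → E) (w₁ w₂ : List A) (g : E → F) :
    ddw b (w₁ ++ w₂) g = ddw b w₁ (ddw b w₂ g) := by
  induction w₁ with
  | nil => rfl
  | cons a w ih => simp [ddw, ih]

theorem Cc.dd {g : E → F} (hg : Cc g) (v : E) : Cc (dd v g) := by
  refine ⟨?_, ?_⟩
  · have h1 : ContDiff ℝ ∞ (fderiv ℝ g) := hg.1.fderiv_right (m := ∞) (by simp)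
    exact h1.clm_apply contDiff_const
  · exact (hg.2.fderiv_apply ℝ v)

theorem Cc.ddw {g : E → F} (hg : Cc g) (b : A → E) (w : List A) : Cc (ddw b w g) := by
  induction w with
  | nil => exact hg
  | cons a w ih => exact ih.dd _

theorem Cc.add {g g' : E → F} (hg : Cc g) (hg' : Cc g') : Cc (g + g') :=
  ⟨hg.1.add hg'.1, hg.2.add hg'.2⟩

theorem Cc.neg {g : E → F} (hg : Cc g) : Cc (-g) :=
  ⟨hg.1.neg, hg.2.neg⟩

theorem Cc.sub {g g' : E → F} (hg : Cc g) (hg' : Cc g') : Cc (g - g') := by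
  rw [sub_eq_add_neg]
  exact hg.add hg'.neg

theorem Cc.zero : Cc (0 : E → F) :=
  ⟨contDiff_const, HasCompactSupport.zero⟩

theorem Cc.differentiable {g : E → F} (hg : Cc g) : Differentiable ℝ g :=
  hg.1.differentiable (by simp)

theorem dd_add {g g' : E → F} (hg : Cc g) (hg' : Cc g') (v : E) :
    dd v (g + g') = dd v g + dd v g' := by
  funext x
  simp [dd, fderiv_add (hg.differentiable x) (hg'.differentiable x)]

theorem dd_sub {g g' : E → F} (hg : Cc g) (hg' : Cc g') (v : E) :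
    dd v (g - g') = dd v g - dd v g' := by
  funext x
  simp [dd, fderiv_sub (hg.differentiable x) (hg'.differentiable x)]

theorem ddw_add {g g' : E → F} (hg : Cc g) (hg' : Cc g') (b : A → E) (w : List A) :
    ddw b w (g + g') = ddw b w g + ddw b w g' := by
  induction w with
  | nil => rfl
  | cons a w ih => rw [ddw, ih, dd_add (hg.ddw b w) (hg'.ddw b w)]; rfl

theorem ddw_sub {g g' : E → F} (hg : Cc g) (hg' : Cc g') (b : A → E) (w : List A) :
    ddw b w (g - g') = ddw b w g - ddw b w g' := by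
  induction w with
  | nil => rfl
  | cons a w ih => rw [ddw, ih, dd_sub (hg.ddw b w) (hg'.ddw b w)]; rfl

theorem ddw_zero (b : A → E) (w : List A) : ddw b w (0 : E → F) = 0 := by
  induction w with
  | nil => rfl
  | cons a w ih =>
    rw [ddw, ih]
    funext y
    simp [dd]

theorem EN.mono {b : A → E} {k k' : ℕ} {B B' : ℝ} {g : E → F} (h : EN b k B g) (hk : k' ≤ k)
    (hB : B ≤ B') : EN b k' B' g :=
  fun w hw x => (h w (hw.trans hk) x).trans hB

theorem EN.nonneg {b : A → E} {k : ℕ} {B : ℝ} {g : E → F} (h : EN b k B g) : 0 ≤ B :=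
  (norm_nonneg _).trans (h [] (by simp) 0)

theorem EN.add {b : A → E} {k : ℕ} {B B' : ℝ} {g g' : E → F} (hg : Cc g) (hg' : Cc g')
    (h : EN b k B g) (h' : EN b k B' g') : EN b k (B + B') (g + g') := by
  intro w hw x
  rw [ddw_add hg hg']
  exact (norm_add_le _ _).trans (add_le_add (h w hw x) (h' w hw x))

theorem EN.sub {b : A → E} {k : ℕ} {B B' : ℝ} {g g' : E → F} (hg : Cc g) (hg' : Cc g')
    (h : EN b k B g) (h' : EN b k B' g') : EN b k (B + B') (g - g') := by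
  intro w hw x
  rw [ddw_sub hg hg']
  exact (norm_sub_le _ _).trans (add_le_add (h w hw x) (h' w hw x))

theorem EN.ddw {b : A → E} {k : ℕ} {B : ℝ} {g : E → F} (w : List A)
    (h : EN b (k + w.length) B g) : EN b k B (Vale.Agent.P205.F.ddw b w g) := by
  intro w' hw' x
  rw [← ddw_append]
  exact h _ (by simp; omega) x

/-- finitely many words: uniform bounds -/
theorem exists_word_bound [Finite A] (c : List A → ℝ) (l : ℕ) :
    ∃ C : ℝ, 0 ≤ C ∧ ∀ w : List A, w.length ≤ l → c w ≤ C := by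
  have hfin : Set.Finite (c '' {w : List A | w.length ≤ l}) :=
    (List.finite_length_le A l).image c
  obtain ⟨C, hC⟩ := hfin.bddAbove
  refine ⟨max C 0, le_max_right _ _, fun w hw => ?_⟩
  exact (hC ⟨w, hw, rfl⟩).trans (le_max_left _ _)

end defs

section conv

variable {E : Type*} [NormedAddCommGroup E] [NormedSpace ℝ E] [FiniteDimensional ℝ E]
  [MeasurableSpace E] [BorelSpace E] (μ : Measure E) [μ.IsAddHaarMeasure]
variable {A : Type*}

/-- convolution with a real test function -/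
def Kc (ψ : E → ℝ) (g : E → ℂ) : E → ℂ := ψ ⋆[ContinuousLinearMap.lsmul ℝ ℝ, μ] g

theorem Cc.locInt {F : Type*} [NormedAddCommGroup F] [NormedSpace ℝ F] {g : E → F} (hg : Cc g) :
    LocallyIntegrable g μ := hg.1.continuous.locallyIntegrable

theorem Kc_cc {ψ : E → ℝ} {g : E → ℂ} (hψ : Cc ψ) (hg : Cc g) : Cc (Kc μ ψ g) := by
  refine ⟨?_, ?_⟩
  · exact hg.2.contDiff_convolution_right _ (hψ.locInt μ) hg.1
  · exact HasCompactSupport.convolution _ hψ.2 hg.2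

theorem dd_Kc_right {ψ : E → ℝ} {g : E → ℂ} (hψ : Cc ψ) (hg : Cc g) (v : E) :
    dd v (Kc μ ψ g) = Kc μ ψ (dd v g) := by
  funext x
  have h := hg.2.hasFDerivAt_convolution_right (ContinuousLinearMap.lsmul ℝ ℝ) (hψ.locInt μ)
    (hg.1.of_le (by simp)) x
  have h2 := h.fderiv
  simp only [dd, Kc]
  rw [h2, convolution_precompR_apply _ (hψ.locInt μ) (hg.2.fderiv ℝ)
    (hg.1.continuous_fderiv (by simp))]
  rfl

theorem dd_Kc_left {ψ : E → ℝ} {g : E → ℂ} (hψ : Cc ψ) (hg : Cc g) (v : E) :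
    dd v (Kc μ ψ g) = Kc μ (dd v ψ) g := by
  funext x
  have h := hψ.2.hasFDerivAt_convolution_left (ContinuousLinearMap.lsmul ℝ ℝ (E := ℂ))
    (hψ.1.of_le (by simp)) (hg.locInt μ) x
  have h2 := h.fderiv
  simp only [dd, Kc]
  rw [h2]
  have h3 : ConvolutionExistsAt (fderiv ℝ ψ) g x
      ((ContinuousLinearMap.lsmul ℝ ℝ (E := ℂ)).precompL E) μ :=
    HasCompactSupport.convolutionExists_left _ (hψ.2.fderiv ℝ)
      (hψ.1.continuous_fderiv (by simp)) (hg.locInt μ) x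
  rw [convolution_def, convolution_def]
  rw [ContinuousLinearMap.integral_apply h3]
  rfl

theorem ddw_Kc_right {ψ : E → ℝ} {g : E → ℂ} (hψ : Cc ψ) (hg : Cc g) (b : A → E) (w : List A) :
    ddw b w (Kc μ ψ g) = Kc μ ψ (ddw b w g) := by
  induction w with
  | nil => rfl
  | cons a w ih => rw [ddw, ih, dd_Kc_right μ hψ (hg.ddw b w)]; rfl

theorem ddw_Kc_left {ψ : E → ℝ} {g : E → ℂ} (hψ : Cc ψ) (hg : Cc g) (b : A → E) (w : List A) :
    ddw b w (Kc μ ψ g) = Kc μ (ddw b w ψ) g := by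
  induction w with
  | nil => rfl
  | cons a w ih => rw [ddw, ih, dd_Kc_left μ (hψ.ddw b w) hg]; rfl

omit [FiniteDimensional ℝ E] in
theorem Kc_bound {ψ : E → ℝ} {g : E → ℂ} (hψ : Cc ψ) {B : ℝ} (hB : ∀ x, ‖g x‖ ≤ B) (x : E) :
    ‖Kc μ ψ g x‖ ≤ (∫ t, ‖ψ t‖ ∂μ) * B := by
  have hint : Integrable (fun t => ‖ψ t‖) μ := (hψ.1.continuous.integrable_of_hasCompactSupport
    hψ.2).norm
  rw [Kc, convolution_def, ← integral_mul_const]
  refine norm_integral_le_of_norm_le (hint.mul_const B) (Filter.Eventually.of_forall fun t => ?_)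
  simp only [ContinuousLinearMap.lsmul_apply, norm_smul]
  exact mul_le_mul_of_nonneg_left (hB _) (norm_nonneg _)

/-- rescaled test function -/
def sc (h : ℝ) (ψ : E → ℝ) : E → ℝ := fun t => (h ^ Module.finrank ℝ E)⁻¹ * ψ (h⁻¹ • t)

omit [FiniteDimensional ℝ E] [MeasurableSpace E] [BorelSpace E] in
theorem sc_cc {ψ : E → ℝ} (hψ : Cc ψ) {h : ℝ} (hh : 0 < h) : Cc (sc h ψ) := by
  refine ⟨?_, ?_⟩
  · exact contDiff_const.mul (hψ.1.comp (contDiff_const_smul _))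
  · refine HasCompactSupport.mul_left ?_
    exact hψ.2.comp_homeomorph (Homeomorph.smulOfNeZero h⁻¹ (inv_ne_zero hh.ne'))

omit [FiniteDimensional ℝ E] [MeasurableSpace E] [BorelSpace E] in
theorem dd_sc {ψ : E → ℝ} (hψ : Cc ψ) (h : ℝ) (v : E) :
    dd v (sc h ψ) = fun t => h⁻¹ * sc h (dd v ψ) t := by
  funext x
  simp only [dd, sc]
  have h1 : HasFDerivAt (fun t : E => h⁻¹ • t) (h⁻¹ • ContinuousLinearMap.id ℝ E) x :=
    (hasFDerivAt_id x).const_smul h⁻¹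
  have h2 : HasFDerivAt ψ (fderiv ℝ ψ (h⁻¹ • x)) (h⁻¹ • x) :=
    (hψ.differentiable _).hasFDerivAt
  have h3 : HasFDerivAt (fun t => ψ (h⁻¹ • t)) ((fderiv ℝ ψ (h⁻¹ • x)).comp
      (h⁻¹ • ContinuousLinearMap.id ℝ E)) x := h2.comp x h1
  have h4 : HasFDerivAt (sc h ψ) ((h ^ Module.finrank ℝ E)⁻¹ • (fderiv ℝ ψ (h⁻¹ • x)).comp
      (h⁻¹ • ContinuousLinearMap.id ℝ E)) x := h3.const_mul ((h ^ Module.finrank ℝ E)⁻¹)
  rw [h4.fderiv]
  simp
  ring

omit [FiniteDimensional ℝ E] [MeasurableSpace E] [BorelSpace E] in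
theorem ddw_sc {ψ : E → ℝ} (hψ : Cc ψ) {h : ℝ} (hh : 0 < h) (b : A → E) (w : List A) :
    ddw b w (sc h ψ) = fun t => (h⁻¹) ^ w.length * sc h (ddw b w ψ) t := by
  induction w with
  | nil => funext x; simp [ddw]
  | cons a w ih =>
    rw [ddw, ih]
    have h1 : (fun t => (h⁻¹) ^ w.length * sc h (ddw b w ψ) t) =
        (h⁻¹) ^ w.length • sc h (ddw b w ψ) := rfl
    rw [h1]
    funext x
    have h2 : dd (b a) ((h⁻¹) ^ w.length • sc h (ddw b w ψ)) x
        = (h⁻¹) ^ w.length * dd (b a) (sc h (ddw b w ψ)) x := by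
      simp only [dd]
      rw [fderiv_const_smul ((sc_cc (hψ.ddw b w) hh).differentiable x)]
      simp
    rw [h2, dd_sc (hψ.ddw b w)]
    simp only [List.length_cons, pow_succ]
    simp only [ddw]
    ring

theorem integral_norm_sc (ψ : E → ℝ) {h : ℝ} (hh : 0 < h) :
    ∫ t, ‖sc h ψ t‖ ∂μ = ∫ t, ‖ψ t‖ ∂μ := by
  have h1 : ∀ t, ‖sc h ψ t‖ = (h ^ Module.finrank ℝ E)⁻¹ * ‖ψ (h⁻¹ • t)‖ := by
    intro t
    simp only [sc, norm_mul]
    rw [Real.norm_of_nonneg (by positivity)]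
  simp_rw [h1]
  rw [integral_const_mul, Measure.integral_comp_inv_smul μ (fun t => ‖ψ t‖) h,
    abs_of_pos (by positivity)]
  simp only [smul_eq_mul]
  rw [← mul_assoc, inv_mul_cancel₀ (by positivity), one_mul]

theorem integral_sc (ψ : E → ℝ) {h : ℝ} (hh : 0 < h) :
    ∫ t, sc h ψ t ∂μ = ∫ t, ψ t ∂μ := by
  simp only [sc]
  rw [integral_const_mul, Measure.integral_comp_inv_smul μ ψ h, abs_of_pos (by positivity)]
  simp only [smul_eq_mul]
  rw [← mul_assoc, inv_mul_cancel₀ (by positivity), one_mul]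

omit [FiniteDimensional ℝ E] [BorelSpace E] [μ.IsAddHaarMeasure] in
/-- uniform bound for the integrals of the word derivatives of a test function -/
theorem exists_int_bound [Finite A] (b : A → E) (ψ : E → ℝ) (l : ℕ) :
    ∃ C : ℝ, 0 ≤ C ∧ ∀ w : List A, w.length ≤ l → ∫ t, ‖ddw b w ψ t‖ ∂μ ≤ C :=
  exists_word_bound _ l

theorem Kc_gain [Finite A] (b : A → E) {ψ : E → ℝ} (hψ : Cc ψ) (l : ℕ) :
    ∃ C : ℝ, 0 ≤ C ∧ ∀ (k : ℕ) (h B : ℝ) (g : E → ℂ), k ≤ l → 0 < h → h ≤ 1 → Cc g → EN b k B g →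
      EN b l (C * (h⁻¹) ^ (l - k) * B) (Kc μ (sc h ψ) g) := by
  obtain ⟨C, hC0, hC⟩ := exists_int_bound μ b ψ l
  refine ⟨C, hC0, fun k h B g hkl hh hh1 hg hB w hw x => ?_⟩
  have hB0 := hB.nonneg
  have h1h : (1 : ℝ) ≤ h⁻¹ := (one_le_inv₀ hh).2 hh1
  -- split the word
  set n₁ := w.length - k with hn₁
  have hsplit : w = w.take n₁ ++ w.drop n₁ := (List.take_append_drop n₁ w).symm
  have hl1 : (w.take n₁).length = n₁ := by rw [List.length_take]; omega
  have hl2 : (w.drop n₁).length ≤ k := by rw [List.length_drop]; omega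
  rw [hsplit, ddw_append, ddw_Kc_right μ (sc_cc hψ hh) hg,
    ddw_Kc_left μ (sc_cc hψ hh) (hg.ddw b _)]
  have h2 := Kc_bound μ ((sc_cc hψ hh).ddw b (w.take n₁)) (hB (w.drop n₁) hl2) x
  refine h2.trans (mul_le_mul_of_nonneg_right ?_ hB0)
  rw [ddw_sc hψ hh]
  have h3 : ∀ t, ‖(h⁻¹) ^ (w.take n₁).length * sc h (ddw b (w.take n₁) ψ) t‖ =
      (h⁻¹) ^ (w.take n₁).length * ‖sc h (ddw b (w.take n₁) ψ) t‖ := by
    intro t
    rw [norm_mul, Real.norm_of_nonneg (by positivity)]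
  simp_rw [h3]
  rw [integral_const_mul, integral_norm_sc μ _ hh, hl1, mul_comm]
  refine mul_le_mul (hC _ (by rw [hl1]; omega)) (pow_le_pow_right₀ h1h (by omega)) (by positivity)
    hC0

/-- convolution with a probability density does not increase the norms -/
theorem Kc_EN (b : A → E) {ψ : E → ℝ} (hψ : Cc ψ) (h1 : ∫ t, ‖ψ t‖ ∂μ = 1) {h : ℝ} (hh : 0 < h)
    {k : ℕ} {B : ℝ} {g : E → ℂ} (hg : Cc g) (hB : EN b k B g) : EN b k B (Kc μ (sc h ψ) g) := by
  intro w hw x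
  rw [ddw_Kc_right μ (sc_cc hψ hh) hg]
  have h2 := Kc_bound μ (sc_cc hψ hh) (hB w hw) x
  rwa [integral_norm_sc μ ψ hh, h1, one_mul] at h2

/-- first order approximation -/
theorem Kc_appr [Fintype A] (b : Module.Basis A ℝ E) {ψ : E → ℝ} (hψ : Cc ψ) (h0 : ∀ t, 0 ≤ ψ t)
    (h1 : ∫ t, ψ t ∂μ = 1) (hs : support ψ ⊆ Metric.ball 0 1) :
    ∃ C : ℝ, 0 ≤ C ∧ ∀ (k : ℕ) (h B : ℝ) (g : E → ℂ), 0 < h → Cc g → EN b (k + 1) B g →
      EN b k (C * h * B) (g - Kc μ (sc h ψ) g) := by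
  refine ⟨Fintype.card A • ‖(b.equivFunL : E →L[ℝ] A → ℝ)‖, by positivity,
    fun k h B g hh hg hB w hw x => ?_⟩
  set C : ℝ := Fintype.card A • ‖(b.equivFunL : E →L[ℝ] A → ℝ)‖ with hC
  have hC0 : 0 ≤ C := by rw [hC]; positivity
  have hB0 := hB.nonneg
  rw [ddw_sub hg (Kc_cc μ (sc_cc hψ hh) hg), ddw_Kc_right μ (sc_cc hψ hh) hg]
  have hg' : Cc (ddw b w g) := hg.ddw b w
  have hder : ∀ y, ‖fderiv ℝ (ddw b w g) y‖ ≤ C * B := by
    intro y
    have := Module.Basis.opNorm_le b (u := fderiv ℝ (ddw b w g) y) hB0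
      (fun a => hB (a :: w) (by simp; omega) y)
    simpa [hC, nsmul_eq_mul] using this
  have hlip : ∀ y z, ‖ddw b w g z - ddw b w g y‖ ≤ C * B * ‖z - y‖ := fun y z =>
    Convex.norm_image_sub_le_of_norm_fderiv_le (fun y _ => hg'.differentiable y)
      (fun y _ => hder y) convex_univ (mem_univ y) (mem_univ z)
  have hsupp : support (sc h ψ) ⊆ Metric.ball 0 h := by
    intro t ht
    have h2 : ψ (h⁻¹ • t) ≠ 0 := fun h3 => ht (by simp [sc, h3])
    have h3 := hs h2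
    rw [mem_ball_zero_iff, norm_smul, norm_inv, Real.norm_of_nonneg hh.le] at h3
    rw [mem_ball_zero_iff]
    have := (inv_mul_lt_iff₀ hh).1 h3
    simpa using this
  have h5 := dist_convolution_le (μ := μ) (f := sc h ψ) (g := ddw b w g) (x₀ := x)
    (z₀ := ddw b w g x) (ε := C * B * h) (by positivity) hsupp
    (fun t => mul_nonneg (by positivity) (h0 _)) (by rw [integral_sc μ ψ hh, h1])
    hg'.1.continuous.aestronglyMeasurable
    (fun y hy => by
      rw [dist_eq_norm]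
      refine (hlip x y).trans ?_
      rw [Metric.mem_ball, dist_eq_norm] at hy
      gcongr)
  rw [dist_comm, dist_eq_norm] at h5
  refine h5.trans (le_of_eq (by ring))

/-- the error operator `I - P_h` -/
def Rop (ψ : E → ℝ) (h : ℝ) (g : E → ℂ) : E → ℂ := g - Kc μ (sc h ψ) g

/-- the iterated error operator -/
def RopN (ψ : E → ℝ) (h : ℝ) : ℕ → (E → ℂ) → (E → ℂ)
  | 0, g => g
  | n + 1, g => Rop μ ψ h (RopN ψ h n g)

/-- the smoothing operator of order `m` -/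
def smo (ψ : E → ℝ) (h : ℝ) (m : ℕ) (g : E → ℂ) : E → ℂ := g - RopN μ ψ h m g

theorem Rop_cc {ψ : E → ℝ} (hψ : Cc ψ) {h : ℝ} (hh : 0 < h) {g : E → ℂ} (hg : Cc g) :
    Cc (Rop μ ψ h g) := hg.sub (Kc_cc μ (sc_cc hψ hh) hg)

theorem RopN_cc {ψ : E → ℝ} (hψ : Cc ψ) {h : ℝ} (hh : 0 < h) (m : ℕ) {g : E → ℂ} (hg : Cc g) :
    Cc (RopN μ ψ h m g) := by
  induction m with
  | zero => exact hg
  | succ n ih => exact Rop_cc μ hψ hh ih

theorem smo_cc {ψ : E → ℝ} (hψ : Cc ψ) {h : ℝ} (hh : 0 < h) (m : ℕ) {g : E → ℂ} (hg : Cc g) :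
    Cc (smo μ ψ h m g) := hg.sub (RopN_cc μ hψ hh m hg)

omit [FiniteDimensional ℝ E] [BorelSpace E] [μ.IsAddHaarMeasure] in
theorem smo_zero (ψ : E → ℝ) (h : ℝ) (g : E → ℂ) : smo μ ψ h 0 g = 0 := by
  simp [smo, RopN]

omit [FiniteDimensional ℝ E] [BorelSpace E] [μ.IsAddHaarMeasure] in
theorem smo_succ (ψ : E → ℝ) (h : ℝ) (m : ℕ) (g : E → ℂ) :
    smo μ ψ h (m + 1) g = smo μ ψ h m g + Kc μ (sc h ψ) (RopN μ ψ h m g) := by
  simp only [smo, RopN, Rop]
  abel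

theorem RopN_EN (b : A → E) {ψ : E → ℝ} (hψ : Cc ψ) (h1 : ∫ t, ‖ψ t‖ ∂μ = 1) {h : ℝ} (hh : 0 < h)
    (m : ℕ) {k : ℕ} {B : ℝ} {g : E → ℂ} (hg : Cc g) (hB : EN b k B g) :
    EN b k (2 ^ m * B) (RopN μ ψ h m g) := by
  induction m with
  | zero => simpa [RopN] using hB
  | succ n ih =>
    have h2 := ih.sub (RopN_cc μ hψ hh n hg) (Kc_cc μ (sc_cc hψ hh) (RopN_cc μ hψ hh n hg))
      (Kc_EN μ b hψ h1 hh (RopN_cc μ hψ hh n hg) ih)
    have h3 : (2 : ℝ) ^ (n + 1) * B = 2 ^ n * B + 2 ^ n * B := by ring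
    rw [h3]
    exact h2

/-- gain of derivatives for the smoothing operator -/
theorem smo_gain [Finite A] (b : A → E) {ψ : E → ℝ} (hψ : Cc ψ) (h1 : ∫ t, ‖ψ t‖ ∂μ = 1)
    (m l : ℕ) :
    ∃ C : ℝ, 0 ≤ C ∧ ∀ (k : ℕ) (h B : ℝ) (g : E → ℂ), k ≤ l → 0 < h → h ≤ 1 → Cc g → EN b k B g →
      EN b l (C * (h⁻¹) ^ (l - k) * B) (smo μ ψ h m g) := by
  obtain ⟨C₁, hC₁0, hC₁⟩ := Kc_gain μ b hψ l
  induction m with
  | zero =>
    refine ⟨0, le_rfl, fun k h B g _ _ _ _ _ w _ x => ?_⟩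
    rw [smo_zero, ddw_zero]
    simp
  | succ n ih =>
    obtain ⟨C₂, hC₂0, hC₂⟩ := ih
    refine ⟨C₂ + C₁ * 2 ^ n, by positivity, fun k h B g hkl hh hh1 hg hB => ?_⟩
    rw [smo_succ]
    have h2 := hC₂ k h B g hkl hh hh1 hg hB
    have h3 := hC₁ k h (2 ^ n * B) (RopN μ ψ h n g) hkl hh hh1 (RopN_cc μ hψ hh n hg)
      (RopN_EN μ b hψ h1 hh n hg hB)
    have h4 := h2.add (smo_cc μ hψ hh n hg) (Kc_cc μ (sc_cc hψ hh) (RopN_cc μ hψ hh n hg)) h3
    refine h4.mono le_rfl (le_of_eq (by ring))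

/-- approximation of order `m` -/
theorem smo_appr [Fintype A] (b : Module.Basis A ℝ E) {ψ : E → ℝ} (hψ : Cc ψ)
    (h0 : ∀ t, 0 ≤ ψ t) (h1 : ∫ t, ψ t ∂μ = 1) (hs : support ψ ⊆ Metric.ball 0 1) (m : ℕ) :
    ∃ C : ℝ, 0 ≤ C ∧ ∀ (k : ℕ) (h B : ℝ) (g : E → ℂ), 0 < h → Cc g → EN b (k + m) B g →
      EN b k (C * h ^ m * B) (g - smo μ ψ h m g) := by
  obtain ⟨C₁, hC₁0, hC₁⟩ := Kc_appr μ b hψ h0 h1 hs
  refine ⟨C₁ ^ m, by positivity, fun k h B g hh hg hB => ?_⟩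
  have h2 : g - smo μ ψ h m g = RopN μ ψ h m g := by simp [smo]
  rw [h2]
  have key : ∀ n k, EN b (k + n) B g → EN b k (C₁ ^ n * h ^ n * B) (RopN μ ψ h n g) := by
    intro n
    induction n with
    | zero => intro k hk; simpa [RopN] using hk
    | succ n ih =>
      intro k hk
      have h3 := ih (k + 1) (by rwa [add_right_comm])
      have h4 := hC₁ k h _ _ hh (RopN_cc μ hψ hh n hg) h3
      refine EN.mono h4 le_rfl (le_of_eq (by ring))
  exact key m k hB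

omit [NormedSpace ℝ E] [FiniteDimensional ℝ E] [BorelSpace E] [μ.IsAddHaarMeasure] in
theorem Kc_real (ψ : E → ℝ) {g : E → ℂ} (hg : ∀ x, (g x).im = 0) (x : E) :
    (Kc μ ψ g x).im = 0 := by
  rw [Kc, convolution_def]
  have h1 : ∀ t, (ContinuousLinearMap.lsmul ℝ ℝ) (ψ t) (g (x - t)) =
      ((ψ t * (g (x - t)).re : ℝ) : ℂ) := by
    intro t
    apply Complex.ext
    · simp
    · simp [hg]
  simp_rw [h1]
  have h2 : ∫ t, ((ψ t * (g (x - t)).re : ℝ) : ℂ) ∂μ =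
      ((∫ t, ψ t * (g (x - t)).re ∂μ : ℝ) : ℂ) := integral_ofReal
  rw [h2]
  simp

omit [FiniteDimensional ℝ E] [BorelSpace E] [μ.IsAddHaarMeasure] in
theorem RopN_real (ψ : E → ℝ) (h : ℝ) (m : ℕ) {g : E → ℂ} (hg : ∀ x, (g x).im = 0) (x : E) :
    (RopN μ ψ h m g x).im = 0 := by
  induction m generalizing x with
  | zero => exact hg x
  | succ n ih =>
    have h2 := Kc_real μ (sc h ψ) (g := RopN μ ψ h n g) ih x
    simp only [RopN, Rop, Pi.sub_apply, Complex.sub_im, ih x, h2, sub_zero]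

omit [FiniteDimensional ℝ E] [BorelSpace E] [μ.IsAddHaarMeasure] in
theorem smo_real (ψ : E → ℝ) (h : ℝ) (m : ℕ) {g : E → ℂ} (hg : ∀ x, (g x).im = 0) (x : E) :
    (smo μ ψ h m g x).im = 0 := by
  simp only [smo, Pi.sub_apply, Complex.sub_im, hg x, RopN_real μ ψ h m hg x, sub_zero]

end conv

/-- a bump function as needed -/
theorem exists_bump (E : Type*) [NormedAddCommGroup E] [NormedSpace ℝ E] [FiniteDimensional ℝ E]
    [MeasurableSpace E] [BorelSpace E] (μ : Measure E) [μ.IsAddHaarMeasure] :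
    ∃ ψ : E → ℝ, Cc ψ ∧ (∀ t, 0 ≤ ψ t) ∧ ∫ t, ψ t ∂μ = 1 ∧ ∫ t, ‖ψ t‖ ∂μ = 1 ∧
      support ψ ⊆ Metric.ball 0 1 := by
  let f : ContDiffBump (0 : E) := ⟨1 / 2, 1, by norm_num, by norm_num⟩
  refine ⟨f.normed μ, ⟨f.contDiff_normed, f.hasCompactSupport_normed⟩, f.nonneg_normed, ?_, ?_, ?_⟩
  · exact f.integral_normed
  · have : ∀ t, ‖f.normed μ t‖ = f.normed μ t := fun t => Real.norm_of_nonneg (f.nonneg_normed t)
    simp_rw [this]
    exact f.integral_normed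
  · rw [f.support_normed_eq]

end Vale.Agent.P205.F
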