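import Vale.Agent.P205.F.Calc1
import Vale.Agent.P205.F.Smooth1

/-!
Smoothing operators for a differential function space with finitely many charts (P205), part B.
-/

open MeasureTheory Set Function
open scoped ContDiff

noncomputable section

namespace Vale.Agent.P205.F

variable {P κ : Type*} (S : DAlg P κ)

/-- Localisation of a differential function space in finitely many Euclidean charts:
`down i u` is the function `χ i * u` read in the chart `i`, and `up i g` is the function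
`χ' i * (g ∘ chart i)`, where `χ' i = 1` on the support of `χ i` and `∑ i, χ i = 1`. -/
structure DAlg.Charts (E : Type*) [NormedAddCommGroup E] [NormedSpace ℝ E] {A : Type*}
    (b : A → E) where
  /-- index of the charts -/
  ι : Type
  /-- finitely many -/
  fin : Fintype ι
  /-- localisation -/
  down : ι → (P → ℂ) → (E → ℂ)
  /-- globalisation -/
  up : ι → (E → ℂ) → (P → ℂ)
  down_cc : ∀ i {u}, S.Sm u → Cc (down i u)
  down_real : ∀ i {u}, S.Sm u → Rl u → ∀ x, (down i u x).im = 0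
  down_nb : ∀ i k, ∃ C : ℝ, 0 ≤ C ∧ ∀ B u, 0 ≤ B → S.Sm u → S.Nb k B u →
    EN b k (C * B) (down i u)
  up_sm : ∀ i {g}, Cc g → S.Sm (up i g)
  up_real : ∀ i {g}, Cc g → (∀ x, (g x).im = 0) → Rl (up i g)
  up_nb : ∀ i k, ∃ C : ℝ, 0 ≤ C ∧ ∀ B g, Cc g → EN b k B g → S.Nb k (C * B) (up i g)
  up_sub : ∀ i {g g'}, Cc g → Cc g' → up i (g - g') = up i g - up i g'
  sum_eq : ∀ {u}, S.Sm u → ∑ i, up i (down i u) = u

variable {S}

theorem DAlg.Nb.sum {ι : Type*} (s : Finset ι) {u : ι → P → ℂ} (hu : ∀ i ∈ s, S.Sm (u i))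
    {k : ℕ} {B : ι → ℝ} (hB : ∀ i ∈ s, S.Nb k (B i) (u i)) :
    S.Nb k (∑ i ∈ s, B i) (∑ i ∈ s, u i) := by
  intro w hw p
  rw [S.wd_sum w hu, Finset.sum_apply]
  exact (norm_sum_le _ _).trans (Finset.sum_le_sum fun i hi => hB i hi w hw p)

theorem DAlg.Nb.mono' {k k' : ℕ} {B B' : ℝ} {u : P → ℂ} (h : S.Nb k B u) (hk : k' ≤ k)
    (hB : B ≤ B') : S.Nb k' B' u :=
  fun w hw p => (h w (hw.trans hk) p).trans hB

/-- Smoothing operators exist as soon as there is a finite system of charts. -/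
theorem DAlg.Charts.smoothing {E : Type*} [NormedAddCommGroup E] [NormedSpace ℝ E]
    [FiniteDimensional ℝ E] {A : Type*} [Fintype A] (b : Module.Basis A ℝ E)
    (c : S.Charts E b) (m : ℕ) : Nonempty (S.Smoothing m) := by
  classical
  let _ : MeasurableSpace E := borel E
  have _ : BorelSpace E := ⟨rfl⟩
  let μ : Measure E := Measure.addHaar
  let _ := c.fin
  obtain ⟨ψ, hψ, h0, h1, h1', hs⟩ := exists_bump E μ
  -- the operator
  let T : ℝ → (P → ℂ) → (P → ℂ) := fun θ u => ∑ i, c.up i (smo μ ψ θ⁻¹ m (c.down i u))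
  have hθ : ∀ {θ : ℝ}, 1 ≤ θ → 0 < θ⁻¹ := fun h => inv_pos.2 (by linarith)
  have hcc : ∀ i {θ : ℝ} {u : P → ℂ}, 1 ≤ θ → S.Sm u →
      Cc (smo μ ψ θ⁻¹ m (c.down i u)) := fun i θ u h hu => smo_cc μ hψ (hθ h) m (c.down_cc i hu)
  have hsub : ∀ {θ : ℝ} {u : P → ℂ}, 1 ≤ θ → S.Sm u →
      u - T θ u = ∑ i, c.up i (c.down i u - smo μ ψ θ⁻¹ m (c.down i u)) := by
    intro θ u h hu
    have h2 : ∀ i, c.up i (c.down i u - smo μ ψ θ⁻¹ m (c.down i u)) =
        c.up i (c.down i u) - c.up i (smo μ ψ θ⁻¹ m (c.down i u)) :=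
      fun i => c.up_sub i (c.down_cc i hu) (hcc i h hu)
    simp_rw [h2]
    rw [Finset.sum_sub_distrib, c.sum_eq hu]
  -- constants for the gain
  have hgain : ∀ l, ∃ C : ℝ, 0 ≤ C ∧ ∀ {k : ℕ} {θ B : ℝ} {u : P → ℂ}, k ≤ l → 1 ≤ θ → S.Sm u →
      S.Nb k B u → S.Nb l (C * θ ^ (l - k) * B) (T θ u) := by
    intro l
    have hd : ∀ i, ∃ C : ℝ, 0 ≤ C ∧ ∀ k ≤ l, ∀ B u, 0 ≤ B → S.Sm u → S.Nb k B u →
        EN b k (C * B) (c.down i u) := by
      intro i
      choose C hC0 hC using c.down_nb i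
      refine ⟨∑ k ∈ Finset.range (l + 1), C k, Finset.sum_nonneg fun k _ => hC0 k,
        fun k hk B u hB hu hN => ?_⟩
      refine (hC k B u hB hu hN).mono le_rfl ?_
      exact mul_le_mul_of_nonneg_right
        (Finset.single_le_sum (fun k _ => hC0 k) (Finset.mem_range.2 (by omega))) hB
    choose C₁ hC₁0 hC₁ using hd
    obtain ⟨C₂, hC₂0, hC₂⟩ := smo_gain μ (b : A → E) hψ h1' m l
    choose C₃ hC₃0 hC₃ using fun i => c.up_nb i l
    refine ⟨∑ i, C₃ i * C₂ * C₁ i, Finset.sum_nonneg fun i _ => by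
      have := hC₁0 i; have := hC₃0 i; positivity, ?_⟩
    intro k θ B u hkl h hu hN
    rcases isEmpty_or_nonempty P with hP | ⟨⟨p₀⟩⟩
    · intro w _ p
      exact (hP.false p).elim
    have hB : 0 ≤ B := (norm_nonneg _).trans (hN [] (by simp) p₀)
    have h2 := DAlg.Nb.sum (S := S) Finset.univ (u := fun i =>
        c.up i (smo μ ψ θ⁻¹ m (c.down i u))) (fun i _ => c.up_sm i (hcc i h hu)) (k := l)
      (B := fun i => C₃ i * (C₂ * (θ⁻¹)⁻¹ ^ (l - k) * (C₁ i * B))) (fun i _ => by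
        refine hC₃ i _ _ (hcc i h hu) ?_
        exact hC₂ k _ _ _ hkl (hθ h) (inv_le_one_of_one_le₀ h) (c.down_cc i hu)
          (hC₁ i k hkl B u hB hu hN))
    refine h2.mono' le_rfl (le_of_eq ?_)
    rw [inv_inv, Finset.sum_mul, Finset.sum_mul]
    refine Finset.sum_congr rfl fun i _ => by ring
  have happr : ∀ k, ∃ C : ℝ, 0 ≤ C ∧ ∀ {θ B : ℝ} {u : P → ℂ}, 1 ≤ θ → S.Sm u →
      S.Nb (k + m) B u → S.Nb k (C * (θ ^ m)⁻¹ * B) (u - T θ u) := by
    intro k
    choose C₁ hC₁0 hC₁ using fun i => c.down_nb i (k + m)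
    obtain ⟨C₂, hC₂0, hC₂⟩ := smo_appr μ b hψ h0 h1 hs m
    choose C₃ hC₃0 hC₃ using fun i => c.up_nb i k
    refine ⟨∑ i, C₃ i * C₂ * C₁ i, Finset.sum_nonneg fun i _ => by
      have := hC₁0 i; have := hC₃0 i; positivity, ?_⟩
    intro θ B u h hu hN
    rcases isEmpty_or_nonempty P with hP | ⟨⟨p₀⟩⟩
    · intro w _ p
      exact (hP.false p).elim
    have hB : 0 ≤ B := (norm_nonneg _).trans (hN [] (by simp) p₀)
    rw [hsub h hu]
    have h2 := DAlg.Nb.sum (S := S) Finset.univ (u := fun i =>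
        c.up i (c.down i u - smo μ ψ θ⁻¹ m (c.down i u)))
        (fun i _ => c.up_sm i ((c.down_cc i hu).sub (hcc i h hu))) (k := k)
      (B := fun i => C₃ i * (C₂ * θ⁻¹ ^ m * (C₁ i * B))) (fun i _ => by
        refine hC₃ i _ _ ((c.down_cc i hu).sub (hcc i h hu)) ?_
        exact hC₂ k _ _ _ (hθ h) (c.down_cc i hu) (hC₁ i B u hB hu hN))
    refine h2.mono' le_rfl (le_of_eq ?_)
    rw [inv_pow, Finset.sum_mul, Finset.sum_mul]
    refine Finset.sum_congr rfl fun i _ => by ring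
  choose Cg hCg0 hCg using hgain
  choose Ca hCa0 hCa using happr
  refine ⟨{
    T := T
    C := fun l => Cg l + Ca l
    sm := fun h hu => S.sm_sum fun i _ => c.up_sm i (hcc i h hu)
    real := fun h hu hr p => ?_
    gain := fun {k l θ B u} hkl h hu hN => ?_
    appr := fun {k θ B u} h hu hN => ?_ }⟩
  · simp only [T, Finset.sum_apply, Complex.im_sum]
    exact Finset.sum_eq_zero fun i _ => c.up_real i (hcc i h hu)
      (smo_real μ ψ _ m (c.down_real i hu hr)) p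
  · rcases isEmpty_or_nonempty P with hP | ⟨⟨p₀⟩⟩
    · intro w _ p
      exact (hP.false p).elim
    have hB : 0 ≤ B := (norm_nonneg _).trans (hN [] (by simp) p₀)
    have hθ0 : 0 ≤ θ := by linarith
    refine (hCg l hkl h hu hN).mono' le_rfl ?_
    have := hCa0 l
    gcongr
    linarith
  · rcases isEmpty_or_nonempty P with hP | ⟨⟨p₀⟩⟩
    · intro w _ p
      exact (hP.false p).elim
    have hB : 0 ≤ B := (norm_nonneg _).trans (hN [] (by simp) p₀)
    have hθ0 : 0 ≤ θ := by linarith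
    refine (hCa k h hu hN).mono' le_rfl ?_
    have := hCg0 k
    gcongr
    linarith

end Vale.Agent.P205.F
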