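import Vale.Agent.P205.F.Inst0
import Vale.Agent.P205.F.Smooth2

/-!
Smoothing operators on a compact manifold (P205, full question), part C: the differential
function space `K.dalg b` of `Inst0.lean` has finitely many charts in the sense of
`DAlg.Charts`, hence smoothing operators of every order.
-/

open Set Function Filter
open scoped Manifold ContDiff Topology

noncomputable section

namespace Vale.Agent.P205.F

namespace Cov

variable {E : Type*} [NormedAddCommGroup E] [NormedSpace ℝ E]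
  {M : Type*} [TopologicalSpace M] [ChartedSpace E M]
  (K : Cov E M)

/-! ### from the manifold to the chart -/

/-- `f` read in the chart `i`, extended by zero -/
def psh (i : Fin K.n) (f : M → ℂ) : E → ℂ :=
  (K.ph i).target.indicator (f ∘ (K.ph i).symm)

theorem psh_of_mem {i : Fin K.n} {f : M → ℂ} {x : E} (hx : x ∈ (K.ph i).target) :
    K.psh i f x = f ((K.ph i).symm x) := indicator_of_mem hx _

theorem psh_of_notMem {i : Fin K.n} {f : M → ℂ} {x : E} (hx : x ∉ (K.ph i).target) :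
    K.psh i f x = 0 := indicator_of_notMem hx _

theorem psh_eventuallyEq {i : Fin K.n} {f : M → ℂ} {x : E} (hx : x ∈ (K.ph i).target) :
    K.psh i f =ᶠ[𝓝 x] f ∘ (K.ph i).symm := by
  filter_upwards [(K.isOpen_target i).mem_nhds hx] with y hy using K.psh_of_mem hy

/-- the compact set carrying `psh i f` -/
def car (i : Fin K.n) (f : M → ℂ) : Set E := K.ph i '' tsupport f

theorem psh_zero_of_notMem_car {i : Fin K.n} {f : M → ℂ} {x : E} (hx : x ∉ K.car i f) :
    K.psh i f x = 0 := by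
  by_cases h : x ∈ (K.ph i).target
  · rw [K.psh_of_mem h]
    by_contra h2
    exact hx ⟨_, subset_tsupport _ h2, (K.ph i).right_inv h⟩
  · exact K.psh_of_notMem h

theorem car_sub {i : Fin K.n} {f : M → ℂ} (hf : tsupport f ⊆ (K.ph i).source) :
    K.car i f ⊆ (K.ph i).target := by
  rintro _ ⟨p, hp, rfl⟩
  exact (K.ph i).map_source (hf hp)

theorem isCompact_car [CompactSpace M] {i : Fin K.n} {f : M → ℂ}
    (hf : tsupport f ⊆ (K.ph i).source) : IsCompact (K.car i f) := by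
  refine ((isClosed_tsupport f).isCompact).image_of_continuousOn ?_
  exact (continuousOn_extChartAt (K.c i)).mono hf

theorem psh_cc [CompactSpace M] [IsManifold 𝓘(ℝ, E) ∞ M] {i : Fin K.n} {f : M → ℂ}
    (hf : ContMDiff 𝓘(ℝ, E) 𝓘(ℝ, ℂ) ∞ f) (hs : tsupport f ⊆ (K.ph i).source) :
    Cc (K.psh i f) := by
  have hK := K.isCompact_car hs
  refine ⟨?_, ?_⟩
  · rw [contDiff_iff_contDiffAt]
    intro x
    by_cases hx : x ∈ (K.ph i).target
    · exact (((K.contDiffOn_symm hf i).contDiffAt ((K.isOpen_target i).mem_nhds hx))).congr_of_eventuallyEq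
        (K.psh_eventuallyEq hx)
    · have h1 : x ∈ (K.car i f)ᶜ := fun h => hx (K.car_sub hs h)
      have h2 : K.psh i f =ᶠ[𝓝 x] fun _ => 0 := by
        filter_upwards [hK.isClosed.isOpen_compl.mem_nhds h1] with y hy
        exact K.psh_zero_of_notMem_car hy
      exact contDiffAt_const.congr_of_eventuallyEq h2
  · exact HasCompactSupport.intro hK fun x hx => K.psh_zero_of_notMem_car hx

variable {A : Type*} (b : A → E)

theorem Dv_notMem_tsupport {f : M → ℂ} {p : M} (hp : p ∉ tsupport f) (j : Fin K.n × A) :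
    K.Dv b j f p = 0 := by
  by_cases hs : p ∈ (K.ph j.1).source
  · have h1 : f =ᶠ[𝓝 p] 0 := notMem_tsupport_iff_eventuallyEq.1 hp
    have h2 : Tendsto (K.ph j.1).symm (𝓝 (K.ph j.1 p)) (𝓝 p) := by
      have h3 : ContinuousAt (K.ph j.1).symm (K.ph j.1 p) :=
        continuousAt_extChartAt_symm' (by exact hs)
      have h4 := h3.tendsto
      rwa [(K.ph j.1).left_inv hs] at h4
    have h5 : (f ∘ (K.ph j.1).symm) =ᶠ[𝓝 (K.ph j.1 p)] fun _ => 0 := h2.eventually h1
    rw [Dv, h5.fderiv_eq]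
    simp
  · exact K.Dv_eq_zero b j f hs

theorem tsupport_Dv (f : M → ℂ) (j : Fin K.n × A) : tsupport (K.Dv b j f) ⊆ tsupport f := by
  refine closure_minimal (fun p hp => ?_) (isClosed_tsupport f)
  by_contra h
  exact hp (K.Dv_notMem_tsupport b h j)

theorem dd_psh [CompactSpace M] [IsManifold 𝓘(ℝ, E) ∞ M] {i : Fin K.n} {f : M → ℂ}
    (hs : tsupport f ⊆ K.V i) (a : A) :
    dd (b a) (K.psh i f) = K.psh i (K.Dv b (i, a) f) := by
  have hs' : tsupport f ⊆ (K.ph i).source := hs.trans (K.V_sub i)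
  have hK := K.isCompact_car hs'
  funext x
  by_cases hc : x ∈ K.car i f
  · have hx := K.car_sub hs' hc
    rw [K.psh_of_mem hx, dd, (K.psh_eventuallyEq hx).fderiv_eq, Dv]
    obtain ⟨p, hp, rfl⟩ := hc
    rw [(K.ph i).left_inv (hs' hp), K.one i p (hs hp), one_smul]
  · have h2 : K.psh i f =ᶠ[𝓝 x] fun _ => 0 := by
      filter_upwards [hK.isClosed.isOpen_compl.mem_nhds hc] with y hy
      exact K.psh_zero_of_notMem_car hy
    rw [dd, h2.fderiv_eq]
    have h3 : x ∉ K.car i (K.Dv b (i, a) f) := by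
      rintro ⟨p, hp, rfl⟩
      exact hc ⟨p, K.tsupport_Dv b f _ hp, rfl⟩
    rw [K.psh_zero_of_notMem_car h3]
    simp

theorem ddw_psh [CompactSpace M] [IsManifold 𝓘(ℝ, E) ∞ M] {i : Fin K.n} {f : M → ℂ}
    (hs : tsupport f ⊆ K.V i) (w : List A) :
    ddw b w (K.psh i f) = K.psh i ((K.dalg b).wd (w.map fun a => (i, a)) f) ∧
      tsupport ((K.dalg b).wd (w.map fun a => (i, a)) f) ⊆ K.V i := by
  induction w with
  | nil => exact ⟨rfl, hs⟩
  | cons a w ih =>
    refine ⟨?_, ?_⟩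
    · rw [ddw, ih.1, K.dd_psh b ih.2]
      rfl
    · exact (K.tsupport_Dv b _ _).trans ih.2

theorem norm_psh_le {i : Fin K.n} {f : M → ℂ} {C : ℝ} (hC : 0 ≤ C) (h : ∀ p, ‖f p‖ ≤ C) (x : E) :
    ‖K.psh i f x‖ ≤ C := by
  by_cases hx : x ∈ (K.ph i).target
  · rw [K.psh_of_mem hx]
    exact h _
  · rw [K.psh_of_notMem hx]
    simpa using hC

theorem EN_psh [CompactSpace M] [IsManifold 𝓘(ℝ, E) ∞ M] {i : Fin K.n} {f : M → ℂ} {k : ℕ}
    {C : ℝ} (hC : 0 ≤ C) (hs : tsupport f ⊆ K.V i) (h : (K.dalg b).Nb k C f) :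
    EN b k C (K.psh i f) := by
  intro w hw x
  rw [(K.ddw_psh b hs w).1]
  exact K.norm_psh_le hC (h _ (by simpa using hw)) x

/-! ### from the chart to the manifold -/

/-- the cut off chart, a smooth map on `M` -/
def zt (i : Fin K.n) : M → E := fun p => K.χ i p • K.ph i p

theorem zt_sm [IsManifold 𝓘(ℝ, E) ∞ M] (i : Fin K.n) :
    ContMDiff 𝓘(ℝ, E) 𝓘(ℝ, E) ∞ (K.zt i) := by
  refine contMDiff_of_tsupport fun p hp => ?_
  have h1 : p ∈ (chartAt E (K.c i)).source := K.sup i (tsupport_smul_subset_left _ _ hp)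
  exact (K.sm i).contMDiffAt.smul ((contMDiffOn_extChartAt (x := K.c i)).contMDiffAt
    ((chartAt E (K.c i)).open_source.mem_nhds h1))

theorem zt_of_mem {i : Fin K.n} {p : M} (hp : p ∈ K.V i) : K.zt i p = K.ph i p := by
  rw [zt, K.one i p hp, one_smul]

theorem Dv_comp_zt [IsManifold 𝓘(ℝ, E) ∞ M] {g : E → ℂ} (hg : ContDiff ℝ ∞ g) {z : M → E}
    (hz : ContMDiff 𝓘(ℝ, E) 𝓘(ℝ, E) ∞ z) (j : Fin K.n × A) (p : M) :
    K.Dv b j (g ∘ z) p = fderiv ℝ g (z p) (K.Dv b j z p) := by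
  by_cases hp : p ∈ (K.ph j.1).source
  · have h1 : HasFDerivAt g (fderiv ℝ g ((z ∘ (K.ph j.1).symm) (K.ph j.1 p)))
        ((z ∘ (K.ph j.1).symm) (K.ph j.1 p)) :=
      (hg.differentiable (by simp)).differentiableAt.hasFDerivAt
    have h2 := (h1.comp (K.ph j.1 p) (K.differentiableAt_symm hz hp).hasFDerivAt).fderiv
    have h3 : fderiv ℝ ((g ∘ z) ∘ (K.ph j.1).symm) (K.ph j.1 p) =
      (fderiv ℝ g ((z ∘ (K.ph j.1).symm) (K.ph j.1 p))).comp
        (fderiv ℝ (z ∘ (K.ph j.1).symm) (K.ph j.1 p)) := h2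
    rw [Dv, h3, Function.comp_apply, (K.ph j.1).left_inv hp, Dv, map_smul]
    rfl
  · rw [K.Dv_eq_zero b j _ hp, K.Dv_eq_zero b j _ hp, map_zero]

section basis

variable [Fintype A] (b : Module.Basis A ℝ E) [FiniteDimensional ℝ E]

/-- coefficients of the fields in the chart `i` -/
def cf (i : Fin K.n) (j : Fin K.n × A) (a : A) : M → ℂ :=
  fun p => ((b.repr (K.Dv b j (K.zt i) p) a : ℝ) : ℂ)

omit [Fintype A] in
theorem cf_sm [IsManifold 𝓘(ℝ, E) ∞ M] (i : Fin K.n) (j : Fin K.n × A) (a : A) :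
    ContMDiff 𝓘(ℝ, E) 𝓘(ℝ, ℂ) ∞ (K.cf b i j a) := by
  have h1 : ContMDiff 𝓘(ℝ, E) 𝓘(ℝ, E) ∞ (K.Dv b j (K.zt i)) := K.Dv_contMDiff b (K.zt_sm i) j
  let L : E →L[ℝ] ℝ := LinearMap.toContinuousLinearMap (b.coord a)
  have h2 : ContDiff ℝ ∞ fun x : E => ((L x : ℝ) : ℂ) :=
    Complex.ofRealCLM.contDiff.comp L.contDiff
  exact h2.comp_contMDiff h1

omit [FiniteDimensional ℝ E] in
theorem Dv_comp_sum [IsManifold 𝓘(ℝ, E) ∞ M] {g : E → ℂ} (hg : ContDiff ℝ ∞ g) (i : Fin K.n)
    (j : Fin K.n × A) :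
    K.Dv b j (g ∘ K.zt i) = ∑ a, K.cf b i j a * (dd (b a) g ∘ K.zt i) := by
  funext p
  rw [K.Dv_comp_zt b hg (K.zt_sm i), Finset.sum_apply]
  conv_lhs => rw [← b.sum_repr (K.Dv b j (K.zt i) p), map_sum]
  refine Finset.sum_congr rfl fun a _ => ?_
  rw [map_smul]
  simp [cf, dd]

variable [IsManifold 𝓘(ℝ, E) ∞ M] [CompactSpace M]

omit [Fintype A] [FiniteDimensional ℝ E] in
/-- `η * (g ∘ chart)` -/
theorem pll_sm {η : M → ℂ} (hη : (K.dalg b).Sm η) {g : E → ℂ} (hg : ContDiff ℝ ∞ g)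
    (i : Fin K.n) : (K.dalg b).Sm (η * (g ∘ K.zt i)) :=
  (K.dalg b).sm_mul hη (hg.comp_contMDiff (K.zt_sm i))

theorem pll_bound (i : Fin K.n) (w : List (Fin K.n × A)) : ∀ η : M → ℂ, (K.dalg b).Sm η →
    ∃ C : ℝ, 0 ≤ C ∧ ∀ (B : ℝ) (g : E → ℂ), Cc g → EN b w.length B g →
      ∀ p, ‖(K.dalg b).wd w (η * (g ∘ K.zt i)) p‖ ≤ C * B := by
  induction w using List.reverseRecOn with
  | nil =>
    intro η hη
    obtain ⟨C, hC⟩ := (K.dalg b).bdd hη
    refine ⟨max C 0, le_max_right _ _, fun B g hg hB p => ?_⟩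
    simp only [DAlg.wd_nil, Pi.mul_apply, norm_mul, comp_apply]
    exact mul_le_mul ((hC p).trans (le_max_left _ _)) (hB [] (by simp) _) (norm_nonneg _)
      (le_max_right _ _)
  | append_singleton w j ih =>
    intro η hη
    obtain ⟨C₀, hC₀0, hC₀⟩ := ih ((K.dalg b).D j η) ((K.dalg b).sm_D j hη)
    have hcf : ∀ a, (K.dalg b).Sm (η * K.cf b i j a) := fun a =>
      (K.dalg b).sm_mul hη (K.cf_sm b i j a)
    choose C hC0 hC using fun a => ih (η * K.cf b i j a) (hcf a)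
    refine ⟨C₀ + ∑ a, C a, add_nonneg hC₀0 (Finset.sum_nonneg fun a _ => hC0 a),
      fun B g hg hB p => ?_⟩
    have hgd : ∀ a, Cc (dd (b a) g) := fun a => hg.dd _
    have h1 : (K.dalg b).D j (η * (g ∘ K.zt i)) =
        (K.dalg b).D j η * (g ∘ K.zt i) + ∑ a, (η * K.cf b i j a) * (dd (b a) g ∘ K.zt i) := by
      rw [(K.dalg b).D_mul j hη (hg.1.comp_contMDiff (K.zt_sm i))]
      congr 1
      have h2 : (K.dalg b).D j (g ∘ K.zt i) = K.Dv b j (g ∘ K.zt i) := rfl
      rw [h2, K.Dv_comp_sum b hg.1, Finset.mul_sum]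
      exact Finset.sum_congr rfl fun a _ => (mul_assoc _ _ _).symm
    rw [DAlg.wd_snoc, h1, (K.dalg b).wd_add w
      (K.pll_sm b ((K.dalg b).sm_D j hη) hg.1 i)
      ((K.dalg b).sm_sum fun a _ => K.pll_sm b (hcf a) (hgd a).1 i),
      (K.dalg b).wd_sum w fun a _ => K.pll_sm b (hcf a) (hgd a).1 i, Pi.add_apply,
      Finset.sum_apply]
    refine (norm_add_le _ _).trans ?_
    rw [add_mul, Finset.sum_mul]
    have hlen : (w ++ [j]).length = w.length + 1 := by simp
    rw [hlen] at hB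
    refine add_le_add (hC₀ B g hg (hB.mono (by omega) le_rfl) p)
      ((norm_sum_le _ _).trans (Finset.sum_le_sum fun a _ => ?_))
    exact hC a B (dd (b a) g) (hgd a) (EN.ddw (k := w.length) [a] hB) p

theorem pll_Nb (i : Fin K.n) {η : M → ℂ} (hη : (K.dalg b).Sm η) (k : ℕ) :
    ∃ C : ℝ, 0 ≤ C ∧ ∀ (B : ℝ) (g : E → ℂ), Cc g → EN b k B g →
      (K.dalg b).Nb k (C * B) (η * (g ∘ K.zt i)) := by
  choose C hC0 hC using fun w => K.pll_bound b i w η hη
  obtain ⟨C', hC'0, hC'⟩ := exists_word_bound C k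
  refine ⟨C', hC'0, fun B g hg hB w hw p => ?_⟩
  exact (hC w B g hg (hB.mono hw le_rfl) p).trans
    (mul_le_mul_of_nonneg_right (hC' w hw) hB.nonneg)

end basis

end Cov

/-- every smooth function is bounded in all norms -/
theorem DAlg.exists_Nb {P κ : Type*} [Finite κ] (S : DAlg P κ) {u : P → ℂ} (hu : S.Sm u) (k : ℕ) :
    ∃ C : ℝ, 0 ≤ C ∧ S.Nb k C u := by
  choose C hC using fun w => S.bdd (S.sm_wd w hu)
  obtain ⟨C', hC'0, hC'⟩ := exists_word_bound C k
  exact ⟨C', hC'0, fun w hw p => (hC w p).trans (hC' w hw)⟩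

section main

variable {E : Type*} [NormedAddCommGroup E] [NormedSpace ℝ E] [FiniteDimensional ℝ E]
  {M : Type*} [TopologicalSpace M] [ChartedSpace E M] [IsManifold 𝓘(ℝ, E) ∞ M]
  [CompactSpace M] [T2Space M] (K : Cov E M) {A : Type*} [Fintype A] (b : Module.Basis A ℝ E)

/-- the charts of the differential function space of a compact manifold -/
theorem Cov.exists_charts : Nonempty ((K.dalg b).Charts E b) := by
  classical
  obtain ⟨ψ, hψ⟩ := SmoothPartitionOfUnity.exists_isSubordinate 𝓘(ℝ, E) (isClosed_univ (X := M))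
    K.V (fun i => K.opn i) (fun p _ => by
      obtain ⟨i, hi⟩ := K.cov p
      exact mem_iUnion.2 ⟨i, hi⟩)
  -- the outer cut-offs
  have hom : ∀ i, ∃ f : C^∞⟮𝓘(ℝ, E), M; 𝓘(ℝ), ℝ⟯, EqOn f 0 (K.V i)ᶜ ∧
      EqOn f 1 (tsupport (ψ i)) := fun i => by
    obtain ⟨f, h1, h2, -⟩ := exists_contMDiffMap_zero_one_of_isClosed 𝓘(ℝ, E)
      (K.opn i).isClosed_compl (isClosed_tsupport (ψ i))
      (disjoint_left.2 fun p hp hp' => hp (hψ i hp'))
    exact ⟨f, h1, h2⟩
  choose om hom0 hom1 using hom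
  let S := K.dalg b
  let Ψ : Fin K.n → M → ℂ := fun i p => ((ψ i p : ℝ) : ℂ)
  let Ω : Fin K.n → M → ℂ := fun i p => ((om i p : ℝ) : ℂ)
  have hΨ : ∀ i, S.Sm (Ψ i) := fun i =>
    Complex.ofRealCLM.contDiff.comp_contMDiff (ψ i).contMDiff
  have hΩ : ∀ i, S.Sm (Ω i) := fun i =>
    Complex.ofRealCLM.contDiff.comp_contMDiff (om i).contMDiff
  have hsup : ∀ i (u : M → ℂ), tsupport (Ψ i * u) ⊆ K.V i := by
    intro i u
    refine (closure_mono ?_).trans (hψ i)
    intro p hp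
    have h1 : Ψ i p ≠ 0 := fun h => hp (by simp [h])
    simpa [Ψ] using h1
  refine ⟨{
    ι := Fin K.n
    fin := inferInstance
    down := fun i u => K.psh i (Ψ i * u)
    up := fun i g => Ω i * (g ∘ K.zt i)
    down_cc := fun i {u} hu => K.psh_cc (S.sm_mul (hΨ i) hu) ((hsup i u).trans (K.V_sub i))
    down_real := fun i {u} hu hr x => ?_
    down_nb := fun i k => ?_
    up_sm := fun i {g} hg => K.pll_sm b (hΩ i) hg.1 i
    up_real := fun i {g} hg hr p => ?_
    up_nb := fun i k => K.pll_Nb b i (hΩ i) k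
    up_sub := fun i {g g'} _ _ => ?_
    sum_eq := fun {u} hu => ?_ }⟩
  · by_cases hx : x ∈ (K.ph i).target
    · rw [K.psh_of_mem hx]
      have h1 : (u ((K.ph i).symm x)).im = 0 := hr _
      simp only [Pi.mul_apply, Complex.mul_im, h1, mul_zero, Ψ, Complex.ofReal_im, zero_mul,
        add_zero]
    · rw [K.psh_of_notMem hx]
      rfl
  · obtain ⟨C, hC0, hC⟩ := S.exists_Nb (hΨ i) k
    refine ⟨2 ^ k * C, by positivity, fun B u hB hu hN => ?_⟩
    refine K.EN_psh b (by positivity) (hsup i u) ?_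
    have := DAlg.Nb.mul (hΨ i) hu hC hN
    rwa [← mul_assoc] at this
  · simp [Ω, hr]
  · funext p
    simp [mul_sub]
  · funext p
    rw [Finset.sum_apply]
    have h1 : ∀ i, (Ω i * (K.psh i (Ψ i * u) ∘ K.zt i)) p = Ψ i p * u p := by
      intro i
      by_cases hp : p ∈ K.V i
      · have h2 : K.ph i p ∈ (K.ph i).target := (K.ph i).map_source (K.V_sub i hp)
        simp only [Pi.mul_apply, comp_apply]
        rw [K.zt_of_mem hp, K.psh_of_mem h2, (K.ph i).left_inv (K.V_sub i hp)]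
        by_cases hs : p ∈ tsupport (ψ i)
        · have h3 : Ω i p = 1 := by
            have := hom1 i hs
            simp [Ω, this]
          rw [h3, one_mul]
          rfl
        · have h3 : Ψ i p = 0 := by
            have : ψ i p = 0 := image_eq_zero_of_notMem_tsupport hs
            simp [Ψ, this]
          simp [h3]
      · have h3 : Ω i p = 0 := by
          have := hom0 i hp
          simp [Ω, this]
        have h4 : Ψ i p = 0 := by
          have : ψ i p = 0 := image_eq_zero_of_notMem_tsupport fun h => hp (hψ i h)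
          simp [Ψ, this]
        simp [h3, h4]
    rw [Finset.sum_congr rfl fun i _ => h1 i, ← Finset.sum_mul]
    have h5 : ∑ i, Ψ i p = 1 := by
      have h := ψ.sum_eq_one (mem_univ p)
      rw [finsum_eq_sum_of_fintype] at h
      simp only [Ψ]
      rw [← Complex.ofReal_sum, h, Complex.ofReal_one]
    rw [h5, one_mul]

/-- **smoothing operators** of every order on a compact manifold -/
theorem Cov.smoothing (m : ℕ) : Nonempty ((K.dalg b).Smoothing m) :=
  (K.exists_charts b).elim fun c => c.smoothing b m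

end main

end Vale.Agent.P205.F
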