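import Vale.Agent.P205.F.QuadDef
import Vale.Agent.P205.F.Calc1
import Vale.Agent.P205.F.Wkb

/-!
Bounds for the corrugation of one stage.
-/

noncomputable section

open scoped Classical

namespace Vale.Agent.P205.F

universe u

variable {P : Type u} {κ : Type} [Fintype κ] {S : DAlg P κ}

section osc

variable {ι : Type*} {μ s : ι → ℝ}

/-- a function with `D_j u = v_j u`, `v_j = O(μ)`, `|u| ≤ 1` is `O(1)` at scale `μ` -/
theorem FO_of_D {u : ι → P → ℂ} {v : κ → ι → P → ℂ} (hμ : ∀ i, 0 ≤ μ i)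
    (hu : ∀ i, S.Sm (u i)) (hb : ∀ i p, ‖u i p‖ ≤ 1) (hv : ∀ j, S.FO μ μ (v j))
    (hD : ∀ i j p, S.D j (u i) p = v j i p * u i p) : S.FO μ (fun _ => 1) u := by
  refine ⟨hu, fun k => ?_⟩
  induction k with
  | zero =>
    refine ⟨1, zero_le_one, fun i w hw p => ?_⟩
    have hw0 : w = [] := List.length_eq_zero_iff.1 (Nat.le_zero.1 hw)
    subst hw0
    simpa using hb i p
  | succ k ih =>
    obtain ⟨C, hC, h⟩ := ih
    choose Cv hCv hv' using fun j => (hv j).2 k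
    have hS : 0 ≤ ∑ j, Cv j := Finset.sum_nonneg fun j _ => hCv j
    refine ⟨C + 2 ^ k * ((∑ j, Cv j) * C), by positivity, fun i w hw p => ?_⟩
    have hμw : 0 ≤ μ i ^ w.length := pow_nonneg (hμ i) _
    by_cases hwk : w.length ≤ k
    · refine (h i w hwk p).trans (mul_le_mul_of_nonneg_right ?_ hμw)
      have : 0 ≤ 2 ^ k * ((∑ j, Cv j) * C) := by positivity
      linarith
    · have hne : w ≠ [] := by
        rintro rfl
        exact hwk (Nat.zero_le _)
      obtain ⟨w', j, rfl⟩ : ∃ w' j, w = w' ++ [j] :=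
        ⟨w.dropLast, w.getLast hne, (List.dropLast_append_getLast hne).symm⟩
      have hl : (w' ++ [j]).length = w'.length + 1 := by simp
      have hw' : w'.length ≤ k := by
        rw [hl] at hw; omega
      rw [S.wd_snoc]
      have e : S.D j (u i) = v j i * u i := funext fun p => hD i j p
      rw [e]
      have hb2 := ((hv' j i).mul ((hv j).1 i) (hu i) (h i)) w' hw' p
      refine hb2.trans ?_
      rw [hl, pow_succ]
      have h1 : Cv j ≤ ∑ j, Cv j := Finset.single_le_sum (fun j _ => hCv j) (Finset.mem_univ j)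
      have h2 : 0 ≤ μ i ^ w'.length := pow_nonneg (hμ i) _
      have h3 : 2 ^ k * (Cv j * μ i * (C * 1)) * μ i ^ w'.length
          = (2 ^ k * (Cv j * C)) * (μ i ^ w'.length * μ i) := by ring
      rw [h3]
      refine mul_le_mul_of_nonneg_right ?_ (mul_nonneg h2 (hμ i))
      have h4 : 2 ^ k * (Cv j * C) ≤ 2 ^ k * ((∑ j, Cv j) * C) := by gcongr
      linarith

theorem norm_osc {lam : ℝ} {Ψ : P → ℂ} (h : Rl Ψ) (p : P) : ‖osc lam Ψ p‖ = 1 := by
  unfold osc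
  rw [Complex.norm_exp]
  have : (Complex.I * lam * Ψ p).re = 0 := by
    simp [h p]
  rw [this, Real.exp_zero]

/-- the oscillating factor is `O(1)` at scale `λ` -/
theorem FO_osc {lam : ι → ℝ} {Ψ : ι → P → ℂ} (hl : ∀ i, 0 ≤ lam i)
    (sΨ : ∀ i, S.Sm (Ψ i)) (rΨ : ∀ i, Rl (Ψ i))
    (h : ∀ j, S.FO lam (fun _ => 1) (fun i => S.D j (Ψ i))) :
    S.FO lam (fun _ => 1) (fun i => osc (lam i) (Ψ i)) := by
  refine FO_of_D (v := fun j i p => (Complex.I * lam i) * S.D j (Ψ i) p)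
    hl (fun i => ?_) (fun i p => (norm_osc (rΨ i) p).le) (fun j => ?_) (fun i j p => ?_)
  · rw [osc_eq_qph (rΨ i)]; exact S.q_sm_ph _ (sΨ i) (rΨ i)
  · have h1 := DAlg.FO.smul (r := lam) (c := fun i => Complex.I * lam i) (C := 1)
      (fun i => by simp [abs_of_nonneg (hl i)]) hl (h j)
    exact h1.congr_s fun i => mul_one _
  · rw [osc_eq_qph (rΨ i), S.q_D_ph _ j (sΨ i) (rΨ i)]

omit [Fintype κ] in
theorem FO_re {u : ι → P → ℂ} (hu : S.FO μ s u) : S.FO μ s (fun i p => ((u i p).re : ℂ)) := by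
  refine ((hu.add hu.conj).const_mul (1 / 2)).congr fun i p => ?_
  have h2 := Complex.add_conj (u i p)
  simp only [Pi.add_apply, h2]
  push_cast
  ring

theorem FO_cmp {Λ Θ s : ι → ℝ} {c : ι → κ → P → ℂ} {B : ι → κ → Fin 4 → P → ℂ}
    (hc : ∀ j, S.FO Θ Λ (fun i => c i j)) (hB : ∀ j a, S.FO Θ s (fun i => B i j a)) (a : Fin 4) :
    S.FO Θ (fun i => Λ i * s i) (fun i => cmp (c i) (B i) a) :=
  DAlg.FO.sum' (S := S) (A := (Finset.univ : Finset κ)) (u := fun j i => c i j * B i j a)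
    fun j _ => (hc j).mul (hB j a)

omit [Fintype κ] in
theorem FO_twv {Θ s : ι → ℝ} (σ : Bool) {V : ι → Fin 4 → P → ℂ}
    (hV : ∀ a, S.FO Θ s (fun i => V i a)) (a : Fin 4) :
    S.FO Θ s (fun i => twv σ (V i) a) := by
  cases σ
  · exact (hV a).conj
  · exact hV a

end osc

/-- everything that is known before the corrugation is estimated -/
structure StB (S : DAlg P κ) {Q : Type} [Fintype Q] {ι : Type u} (θ b lam : ι → ℝ)
    (d : ι → PData P κ Q) (X : ι → Fin 4 → P → ℂ) (F : ι → Q ⊕ (Q × Q × Bool) → Frm P)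
    (α : ι → Q → P → ℂ) : Prop where
  hb : ∀ i, 1 ≤ b i
  hθ : ∀ i, b i ≤ θ i
  hlam : ∀ i, θ i ≤ lam i
  dOk : ∀ i, (d i).Ok S
  FB : PData.FBd S d θ
  sX : ∀ i a, S.Sm (X i a)
  rX : ∀ i a, Rl (X i a)
  fr : FrmBd S θ b d X F
  sα : ∀ i a, S.Sm (α i a)
  rα : ∀ i a, Rl (α i a)
  zα : ∀ i a, S.Zs ((d i).ray a).K (α i a)
  bα : ∀ a, S.FO θ (fun _ => 1) (fun i => α i a)

namespace StB

variable {Q : Type} [Fintype Q] {ι : Type u} {θ b lam : ι → ℝ} {d : ι → PData P κ Q}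
  {X : ι → Fin 4 → P → ℂ} {F : ι → Q ⊕ (Q × Q × Bool) → Frm P} {α : ι → Q → P → ℂ}

theorem θ1 (H : StB S θ b lam d X F α) (i : ι) : 1 ≤ θ i := (H.hb i).trans (H.hθ i)

theorem θ0 (H : StB S θ b lam d X F α) (i : ι) : 0 ≤ θ i := zero_le_one.trans (H.θ1 i)

theorem lam1 (H : StB S θ b lam d X F α) (i : ι) : 1 ≤ lam i := (H.θ1 i).trans (H.hlam i)

theorem lam0 (H : StB S θ b lam d X F α) (i : ι) : 0 ≤ lam i := zero_le_one.trans (H.lam1 i)

theorem lampos (H : StB S θ b lam d X F α) (i : ι) : 0 < lam i := zero_lt_one.trans_le (H.lam1 i)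

theorem bpos (H : StB S θ b lam d X F α) (i : ι) : 0 < b i := zero_lt_one.trans_le (H.hb i)

theorem ρ0 (H : StB S θ b lam d X F α) (i : ι) : 0 ≤ θ i / lam i :=
  div_nonneg (H.θ0 i) (H.lam0 i)

theorem ρ1 (H : StB S θ b lam d X F α) (i : ι) : θ i / lam i ≤ 1 :=
  (div_le_one (H.lampos i)).2 (H.hlam i)

theorem slow (H : StB S θ b lam d X F α) {u : ι → P → ℂ}
    (hu : S.FO (fun _ => 1) (fun _ => 1) u) : S.FO θ (fun _ => 1) u :=
  hu.mono_mu H.θ1 (fun _ => zero_le_one) (fun _ => zero_le_one)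

theorem ker_bd (H : StB S θ b lam d X F α) (hKB : S.KerB) (m : ℕ) (a : Q) :
    (∀ c, S.FO θ (fun i => 1 / lam i)
      (fun i => S.sk (lam i) (d i) (F i) (X i) m (α i) a c)) ∧
    (∀ j c, S.FO θ (fun i => 1 * (θ i / lam i))
      (fun i q => S.sB (lam i) (d i) (F i) (X i) m (α i) a j c q
        - α i a q * S.D j ((d i).ray a).Ψ q * (F i (Sum.inl a)).E c q)) ∧
    (∀ c, S.FO θ (fun i => 1 * (θ i / lam i) ^ m)
      (fun i => S.wres (lam i) ((d i).ray a) (F i (Sum.inl a)) (X i) m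
        (S.ksrc (lam i) ((d i).ray a) (F i (Sum.inl a)) (X i) (α i a)) c)) := by
  have hu : usedRay (Q := Q) (Sum.inl a) := trivial
  exact hKB ι θ b lam (fun _ => 1) (fun i => (d i).ray a) (fun i => F i (Sum.inl a)) X m
    (fun i => α i a) H.hb H.hθ H.hlam (fun _ => zero_le_one)
    (fun j => H.slow (H.FB.t _ hu j)) (fun j => H.slow (H.FB.w _ hu j))
    (fun j => H.slow (H.FB.Ψ _ hu j)) (H.fr.E _ hu) (H.fr.N _ hu) (H.fr.P1 _ hu) (H.fr.P2 _ hu)
    (H.fr.tt _ hu) (H.fr.wt _ hu) (H.fr.tw _ hu) (H.bα a)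

theorem B_bd (H : StB S θ b lam d X F α) (hKB : S.KerB) (m : ℕ) (a : Q) (j : κ) (c : Fin 4) :
    S.FO θ (fun _ => 1) (fun i => S.sB (lam i) (d i) (F i) (X i) m (α i) a j c) := by
  have hu : usedRay (Q := Q) (Sum.inl a) := trivial
  have h2 : S.FO θ (fun _ => 1) (fun i q => S.sB (lam i) (d i) (F i) (X i) m (α i) a j c q
        - α i a q * S.D j ((d i).ray a).Ψ q * (F i (Sum.inl a)).E c q) :=
    ((H.ker_bd hKB m a).2.1 j c).mono_s' (fun i => by rw [one_mul]; exact H.ρ1 i) H.θ0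
  have h4 : S.FO θ (fun _ => 1) (fun i q => α i a q * S.D j ((d i).ray a).Ψ q
      * (F i (Sum.inl a)).E c q) :=
    (((H.bα a).mul (H.slow (H.FB.Ψ _ hu j))).mul (H.fr.E _ hu c)).congr_s fun i => by norm_num
  exact (h2.add h4).congr fun i q => by simp only [Pi.add_apply]; ring

theorem h_bd (H : StB S θ b lam d X F α) (hKB : S.KerB) (m : ℕ) (x : Q × Q × Bool)
    (hx : usedRay (Sum.inr x)) (c : Fin 3) :
    S.FO θ (fun _ => 1) (fun i => S.sh (lam i) (d i) (F i) (X i) m (α i) x c) := by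
  have hB := fun j c => H.B_bd hKB m x.1 j c
  have hB' := fun j c => FO_twv (S := S) x.2.2 (fun c => H.B_bd hKB m x.2.1 j c) c
  have ht := fun j => H.slow (H.FB.t _ hx j)
  have hw := fun j => H.slow (H.FB.w _ hx j)
  have t1 := FO_cmp ht hB
  have t2 := FO_cmp ht hB'
  have w1 := FO_cmp hw hB
  have w2 := FO_cmp hw hB'
  have e : ∀ i : ι, (1 : ℝ) * 1 * (1 * 1) = 1 := fun i => by norm_num
  fin_cases c
  · exact ((DAlg.FO.dot t1 t2).congr_s e).const_mul (1 / 2)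
  · exact (((DAlg.FO.dot t1 w2).add (DAlg.FO.dot w1 t2)).congr_s e).const_mul (1 / 4)
  · exact ((DAlg.FO.dot w1 w2).congr_s e).const_mul (1 / 2)

theorem w_bd (H : StB S θ b lam d X F α) (hKB : S.KerB) (hWB : S.WkbB) (m : ℕ)
    (x : Q × Q × Bool) (hx : usedRay (Sum.inr x)) :
    (∀ c, S.FO θ (fun i => 1 / b i) (fun i => S.sw (lam i) (d i) (F i) (X i) m (α i) x c)) ∧
    (∀ c, S.FO θ (fun i => 1 * (θ i / lam i) ^ m)
      (fun i => S.wres (lam i) ((d i).pr x.1 x.2.1 x.2.2) (F i (Sum.inr x)) (X i) m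
        (S.sh (lam i) (d i) (F i) (X i) m (α i) x) c)) := by
  have h := hWB ι θ b lam (fun _ => 1) (fun i => (d i).pr x.1 x.2.1 x.2.2)
    (fun i => F i (Sum.inr x)) X m (fun i => S.sh (lam i) (d i) (F i) (X i) m (α i) x)
    H.hb H.hθ H.hlam (fun _ => zero_le_one)
    (fun j => H.slow (H.FB.t _ hx j)) (fun j => H.slow (H.FB.w _ hx j))
    (H.fr.N _ hx) (H.fr.P1 _ hx) (H.fr.P2 _ hx)
    (H.fr.tt _ hx) (H.fr.wt _ hx) (H.fr.tw _ hx) (H.h_bd hKB m x hx)
  exact ⟨h.1, h.2.2⟩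

theorem osc_bd (H : StB S θ b lam d X F α) (x : Q ⊕ (Q × Q × Bool)) (hx : usedRay x) :
    S.FO lam (fun _ => 1) (fun i => osc (lam i) ((d i).rays x).Ψ) := by
  have hok : ∀ i, ((d i).rays x).Ok S := by
    intro i
    rcases x with a | ⟨a, b, σ⟩
    · exact (H.dOk i).ray a
    · exact (H.dOk i).pr a b σ hx
  exact FO_osc H.lam0 (fun i => (hok i).smΨ) (fun i => (hok i).rΨ) fun j =>
    (H.FB.Ψ x hx j).mono_mu H.lam1 (fun _ => zero_le_one) (fun _ => zero_le_one)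

theorem re_osc (H : StB S θ b lam d X F α) (x : Q ⊕ (Q × Q × Bool)) (hx : usedRay x)
    {s : ι → ℝ} (hs : ∀ i, 0 ≤ s i) {u : ι → P → ℂ} (hu : S.FO θ s u) :
    S.FO lam s (fun i q => ((osc (lam i) ((d i).rays x).Ψ q * u i q).re : ℂ)) := by
  have h1 := (H.osc_bd x hx).mul (hu.mono_mu H.hlam H.θ0 hs)
  exact (FO_re (h1.congr_s fun i => one_mul (s i))).congr fun i q => rfl

theorem u1_bd (H : StB S θ b lam d X F α) (hKB : S.KerB) (m : ℕ) (c : Fin 4) :
    S.FO lam (fun i => 1 / lam i) (fun i => S.su1 (lam i) (d i) (F i) (X i) m (α i) c) := by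
  have h : ∀ a ∈ (Finset.univ : Finset Q), S.FO lam (fun i => 1 / lam i)
      (fun i q => ((osc (lam i) ((d i).ray a).Ψ q *
        S.sk (lam i) (d i) (F i) (X i) m (α i) a c q).re : ℂ)) := fun a _ =>
    H.re_osc (Sum.inl a) trivial (fun i => div_nonneg zero_le_one (H.lam0 i))
      ((H.ker_bd hKB m a).1 c)
  exact DAlg.FO.sum' h

theorem u2_bd (H : StB S θ b lam d X F α) (hKB : S.KerB) (hWB : S.WkbB) (m : ℕ)
    (c : Fin 4) :
    S.FO lam (fun i => 1 / b i) (fun i => S.su2 (lam i) (d i) (F i) (X i) m (α i) c) := by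
  have h : ∀ x ∈ (Finset.univ : Finset (Q × Q × Bool)),
      S.FO lam (fun i => 1 / b i)
      (fun i q => if usedRay (Sum.inr x) then ((osc (lam i) ((d i).pr x.1 x.2.1 x.2.2).Ψ q *
        S.sw (lam i) (d i) (F i) (X i) m (α i) x c q).re : ℂ) else 0) := by
    intro x _
    by_cases hx : usedRay (Sum.inr x)
    · simp only [if_pos hx]
      exact H.re_osc (Sum.inr x) hx (fun i => div_nonneg zero_le_one (H.bpos i).le)
        ((H.w_bd hKB hWB m x hx).1 c)
    · simp only [if_neg hx]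
      exact DAlg.FO.zero
  exact (DAlg.FO.sum' h).neg

theorem ten_bd (H : StB S θ b lam d X F α) (x : Q ⊕ (Q × Q × Bool)) (hx : usedRay x)
    {s : ι → ℝ} {h : ι → Fin 3 → P → ℂ} (hh : ∀ c, S.FO θ s (fun i => h i c)) (j k : κ) :
    S.FO θ s (fun i => ((d i).rays x).ten S (h i) j k) := by
  have hj := H.slow (H.FB.Ψ x hx j)
  have hk := H.slow (H.FB.Ψ x hx k)
  have bj := H.slow (H.FB.β x hx j)
  have bk := H.slow (H.FB.β x hx k)
  exact ((((hj.mul hk).mul (hh 0)).add (((hj.mul bk).add (bj.mul hk)).mul (hh 1))).add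
    ((bj.mul bk).mul (hh 2))).congr_s fun i => by ring

theorem t1_bd (H : StB S θ b lam d X F α) (hKB : S.KerB) (m : ℕ) (j k : κ) :
    S.FO lam (fun i => (θ i / lam i) ^ m)
      (fun i q => ∑ a, ((osc (lam i) ((d i).ray a).Ψ q * ((d i).ray a).ten S
        (S.wres (lam i) ((d i).ray a) (F i (Sum.inl a)) (X i) m
          (S.ksrc (lam i) ((d i).ray a) (F i (Sum.inl a)) (X i) (α i a))) j k q).re : ℂ)) := by
  refine DAlg.FO.sum' fun a _ => ?_
  have h1 := H.ten_bd (Sum.inl a) trivial (H.ker_bd hKB m a).2.2 j k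
  exact H.re_osc (Sum.inl a) trivial (fun i => pow_nonneg (H.ρ0 i) m)
    (h1.congr_s fun i => one_mul _)

theorem t2_bd (H : StB S θ b lam d X F α) (hKB : S.KerB) (hWB : S.WkbB) (m : ℕ) (j k : κ) :
    S.FO lam (fun i => (θ i / lam i) ^ m)
      (fun i q => ∑ x : Q × Q × Bool, if usedRay (Sum.inr x) then
        ((osc (lam i) ((d i).pr x.1 x.2.1 x.2.2).Ψ q * ((d i).pr x.1 x.2.1 x.2.2).ten S
            (S.wres (lam i) ((d i).pr x.1 x.2.1 x.2.2) (F i (Sum.inr x)) (X i) m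
              (S.sh (lam i) (d i) (F i) (X i) m (α i) x)) j k q).re : ℂ) else 0) := by
  refine DAlg.FO.sum' fun x _ => ?_
  by_cases hx : usedRay (Sum.inr x)
  · simp only [if_pos hx]
    have h1 := H.ten_bd (Sum.inr x) hx (H.w_bd hKB hWB m x hx).2 j k
    exact H.re_osc (Sum.inr x) hx (fun i => pow_nonneg (H.ρ0 i) m)
      (h1.congr_s fun i => one_mul _)
  · simp only [if_neg hx]
    exact DAlg.FO.zero

end StB

end Vale.Agent.P205.F
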