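import Vale.Agent.P205.F.WkbBd

/-!
Scale invariant bounds for the WKB solve (P205, block W): `wkbB`.
-/

set_option linter.all false

open scoped ContDiff

noncomputable section

namespace Vale.Agent.P205.F

universe u

variable {P : Type u} {κ : Type} [Fintype κ] (S : DAlg P κ)

/-- bounds on the geometric data, scale invariant form -/
structure WGeoB {ι : Type*} (b θ : ι → ℝ) (r : ι → Ray P κ) (F : ι → Frm P)
    (X : ι → Fin 4 → P → ℂ) : Prop where
  t : ∀ j, S.FO θ (fun _ => 1) (fun i => (r i).t j)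
  w : ∀ j, S.FO θ (fun _ => 1) (fun i => (r i).w j)
  N : ∀ a, S.FO θ (fun i => 1 / b i) (fun i => (F i).N a)
  P1 : ∀ a, S.FO θ (fun _ => 1) (fun i => (F i).P1 a)
  P2 : ∀ a, S.FO θ (fun _ => 1) (fun i => (F i).P2 a)
  tt : ∀ a, S.FO θ b (fun i => S.dirv (r i).t (S.dirv (r i).t (X i)) a)
  wt : ∀ a, S.FO θ b (fun i => S.dirv (r i).w (S.dirv (r i).t (X i)) a)
  tw : ∀ a, S.FO θ b (fun i => S.dirv (r i).t (S.dirv (r i).w (X i)) a)

section
variable {S} {ι : Type*} {b θ lam σ : ι → ℝ} {r : ι → Ray P κ} {F : ι → Frm P}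
  {X : ι → Fin 4 → P → ℂ}

theorem vecB_bd (G : WGeoB S b θ r F X) (hb : ∀ i, 1 ≤ b i) (hθ : ∀ i, b i ≤ θ i)
    (hσ : ∀ i, 0 ≤ σ i) {x : ι → Fin 3 → P → ℂ}
    (x0 : S.FO θ (fun i => σ i / θ i) (fun i => x i 0))
    (x1 : S.FO θ (fun i => σ i / θ i) (fun i => x i 1))
    (x2 : S.FO θ σ (fun i => x i 2)) (a : Fin 4) :
    S.FO θ (fun i => σ i / b i) (fun i => (F i).vec (x i) a) := by
  have hb0 : ∀ i, 0 < b i := fun i => zero_lt_one.trans_le (hb i)
  have hθpos : ∀ i, 0 < θ i := fun i => (hb0 i).trans_le (hθ i)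
  have hθ0 : ∀ i, 0 ≤ θ i := fun i => (hθpos i).le
  have hq : ∀ i, σ i / θ i ≤ σ i / b i := fun i =>
    div_le_div_of_nonneg_left (hσ i) (hb0 i) (hθ i)
  have hq0 : ∀ i, 0 ≤ σ i / b i := fun i => div_nonneg (hσ i) (hb0 i).le
  have h1 : ∀ i : ι, (0 : ℝ) ≤ (fun _ => 1 : ι → ℝ) i := fun i => zero_le_one
  have hb1 : ∀ i : ι, (0 : ℝ) ≤ 1 / b i := fun i => by have := hb0 i; positivity
  have y0 := x0.q_mono hθ0 hq
  have y1 := x1.q_mono hθ0 hq
  have l1 : ∀ i, σ i / b i * 1 ≤ σ i / b i := fun i => by rw [mul_one]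
  have l2 : ∀ i, σ i * (1 / b i) ≤ σ i / b i := fun i => le_of_eq (by ring)
  exact (((y0.q_mul (G.P1 a) hθ0 hq0 h1).q_mono hθ0 l1).q_add
    ((y1.q_mul (G.P2 a) hθ0 hq0 h1).q_mono hθ0 l1)).q_add
    ((x2.q_mul (G.N a) hθ0 hσ hb1).q_mono hθ0 l2)

theorem wstepB_bd (G : WGeoB S b θ r F X) (hb : ∀ i, 1 ≤ b i) (hθ : ∀ i, b i ≤ θ i)
    (hlam : ∀ i, θ i ≤ lam i) (hσ : ∀ i, 0 ≤ σ i) {h x : ι → Fin 3 → P → ℂ}
    (h0 : S.FO θ σ (fun i => h i 0)) (h1 : S.FO θ σ (fun i => h i 1))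
    (x0 : S.FO θ (fun i => σ i / θ i) (fun i => x i 0))
    (x1 : S.FO θ (fun i => σ i / θ i) (fun i => x i 1))
    (x2 : S.FO θ σ (fun i => x i 2)) :
    S.FO θ (fun i => σ i / lam i)
      (fun i => S.wstep (lam i) (r i) (F i) (X i) (h i) (x i) 0) ∧
    S.FO θ (fun i => σ i / lam i)
      (fun i => S.wstep (lam i) (r i) (F i) (X i) (h i) (x i) 1) ∧
    S.FO θ (fun i => σ i * (θ i / lam i))
      (fun i => S.dir (r i).w (S.wstep (lam i) (r i) (F i) (X i) (h i) (x i) 1)) := by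
  have hb0 : ∀ i, 0 < b i := fun i => zero_lt_one.trans_le (hb i)
  have hbn : ∀ i, 0 ≤ b i := fun i => (hb0 i).le
  have hθpos : ∀ i, 0 < θ i := fun i => (hb0 i).trans_le (hθ i)
  have hθ0 : ∀ i, 0 ≤ θ i := fun i => (hθpos i).le
  have hlpos : ∀ i, 0 < lam i := fun i => (hθpos i).trans_le (hlam i)
  have hone : ∀ i : ι, (0 : ℝ) ≤ (fun _ => 1 : ι → ℝ) i := fun i => zero_le_one
  have hσb : ∀ i, 0 ≤ σ i / b i := fun i => div_nonneg (hσ i) (hbn i)
  have hσθ : ∀ i, 0 ≤ σ i / θ i := fun i => div_nonneg (hσ i) (hθ0 i)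
  have hV := fun a => vecB_bd G hb hθ hσ x0 x1 x2 a
  -- the products
  have c1 : ∀ i, b i * (σ i / b i) ≤ σ i := fun i => le_of_eq (by
    have := (hb0 i).ne'; field_simp)
  have d1 := (DAlg.FO.q_dot (fun a => G.tt a) hV hθ0 hbn hσb).q_mono hθ0 c1
  have d2 := (DAlg.FO.q_dot (fun a => G.wt a) hV hθ0 hbn hσb).q_mono hθ0 c1
  have d3 := (DAlg.FO.q_dot (fun a => G.tw a) hV hθ0 hbn hσb).q_mono hθ0 c1
  have c2 : ∀ i, (1 : ℝ) * (σ i / θ i * θ i) ≤ σ i := fun i => le_of_eq (by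
    have := (hθpos i).ne'; field_simp)
  have t0 := (DAlg.FO.q_dir G.t x0 hθ0 hone hσθ).q_mono hθ0 c2
  have t1 := (DAlg.FO.q_dir G.t x1 hθ0 hone hσθ).q_mono hθ0 c2
  have w0 := (DAlg.FO.q_dir G.w x0 hθ0 hone hσθ).q_mono hθ0 c2
  have hc : ∀ i, ‖(Complex.I * (lam i : ℂ))⁻¹‖ ≤ (lam i)⁻¹ := fun i => by
    rw [norm_inv, norm_mul, Complex.norm_I, one_mul, Complex.norm_real, Real.norm_eq_abs,
      abs_of_pos (hlpos i)]
  have hfin : ∀ i, (lam i)⁻¹ * (σ i) ≤ σ i / lam i := fun i =>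
    le_of_eq (by rw [div_eq_mul_inv]; ring)
  have r0 : S.FO θ (fun i => σ i / lam i)
      (fun i => S.wstep (lam i) (r i) (F i) (X i) (h i) (x i) 0) := by
    simp only [S.wstep_zero]
    exact ((((h0.q_kmul (1 / 2)).q_add d1).q_sub t0).q_cmul hθ0 hσ hc).q_mono hθ0 hfin
  have r1 : S.FO θ (fun i => σ i / lam i)
      (fun i => S.wstep (lam i) (r i) (F i) (X i) (h i) (x i) 1) := by
    simp only [S.wstep_one]
    exact (((h1.q_add (d2.q_add d3)).q_sub (w0.q_add t1)).q_cmul hθ0 hσ hc).q_mono hθ0 hfin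
  refine ⟨r0, r1, ?_⟩
  have hs1 : ∀ i, 0 ≤ σ i / lam i := fun i => div_nonneg (hσ i) (hlpos i).le
  refine (DAlg.FO.q_dir G.w r1 hθ0 hone hs1).q_mono hθ0 (fun i => le_of_eq ?_)
  ring

/-- bounds for the states -/
theorem wstB_bd (G : WGeoB S b θ r F X) (hb : ∀ i, 1 ≤ b i) (hθ : ∀ i, b i ≤ θ i)
    (hlam : ∀ i, θ i ≤ lam i) {s : ι → ℝ} (hs : ∀ i, 0 ≤ s i)
    {h : ι → Fin 3 → P → ℂ} (hh : ∀ c, S.FO θ s (fun i => h i c)) (m : ℕ) :
    S.FO θ (fun i => s i / lam i)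
      (fun i => S.wst (lam i) (r i) (F i) (X i) (h i) m 0) ∧
    S.FO θ (fun i => s i / lam i)
      (fun i => S.wst (lam i) (r i) (F i) (X i) (h i) m 1) ∧
    S.FO θ (fun i => s i * (θ i / lam i))
      (fun i => S.dir (r i).w (S.wst (lam i) (r i) (F i) (X i) (h i) m 1)) := by
  have hb0 : ∀ i, 0 < b i := fun i => zero_lt_one.trans_le (hb i)
  have hθpos : ∀ i, 0 < θ i := fun i => (hb0 i).trans_le (hθ i)
  have hθ0 : ∀ i, 0 ≤ θ i := fun i => (hθpos i).le
  have hlpos : ∀ i, 0 < lam i := fun i => (hθpos i).trans_le (hlam i)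
  induction m with
  | zero =>
    have e0 : (fun i => S.wst (lam i) (r i) (F i) (X i) (h i) 0 0) = fun _ _ => 0 := by
      funext i; rw [S.wst_zero]; rfl
    have e1 : (fun i => S.wst (lam i) (r i) (F i) (X i) (h i) 0 1) = fun _ _ => 0 := by
      funext i; rw [S.wst_zero]; rfl
    have e2 : (fun i => S.dir (r i).w (S.wst (lam i) (r i) (F i) (X i) (h i) 0 1)) =
        fun _ _ => 0 := by
      funext i
      have : S.wst (lam i) (r i) (F i) (X i) (h i) 0 1 = 0 := by rw [S.wst_zero]; rfl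
      rw [this]
      funext q
      unfold DAlg.dir
      simp [S.q_D_zero]
    rw [e0, e1, e2]
    exact ⟨DAlg.FO.q_zero, DAlg.FO.q_zero, DAlg.FO.q_zero⟩
  | succ m ih =>
    obtain ⟨i0, i1, i2⟩ := ih
    have c : ∀ i, s i / lam i ≤ s i / θ i := fun i =>
      div_le_div_of_nonneg_left (hs i) (hθpos i) (hlam i)
    have c2 : ∀ i, s i * (θ i / lam i) ≤ s i := fun i => by
      have : θ i / lam i ≤ 1 := (div_le_one (hlpos i)).2 (hlam i)
      nlinarith [hs i]
    have y2 : S.FO θ s (fun i => S.wst (lam i) (r i) (F i) (X i) (h i) m 2) := by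
      have e : (fun i => S.wst (lam i) (r i) (F i) (X i) (h i) m 2) =
          fun i q => S.dir (r i).w (S.wst (lam i) (r i) (F i) (X i) (h i) m 1) q
            - 1 / 2 * h i 2 q := by
        funext i q; rw [S.wst_two]
      rw [e]
      exact (i2.q_mono hθ0 c2).q_sub ((hh 2).q_kmul (1 / 2))
    exact wstepB_bd G hb hθ hlam hs (hh 0) (hh 1) (i0.q_mono hθ0 c) (i1.q_mono hθ0 c) y2

theorem wstB_sm (G : WGeoB S b θ r F X) (hb : ∀ i, 1 ≤ b i) (hθ : ∀ i, b i ≤ θ i)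
    (hlam : ∀ i, θ i ≤ lam i) {s : ι → ℝ} (hs : ∀ i, 0 ≤ s i)
    {h : ι → Fin 3 → P → ℂ} (hh : ∀ c, S.FO θ s (fun i => h i c)) (m : ℕ) (i : ι) (c : Fin 3) :
    S.Sm (S.wst (lam i) (r i) (F i) (X i) (h i) m c) := by
  obtain ⟨a0, a1, a2⟩ := wstB_bd G hb hθ hlam hs hh m
  have h2 : S.Sm (S.wst (lam i) (r i) (F i) (X i) (h i) m 2) := by
    have e : S.wst (lam i) (r i) (F i) (X i) (h i) m 2 =
        fun q => S.dir (r i).w (S.wst (lam i) (r i) (F i) (X i) (h i) m 1) q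
          - 1 / 2 * h i 2 q := by
      funext q; rw [S.wst_two]
    rw [e]
    exact S.q_sm_sub' (a2.1 i) (S.q_sm_cmul _ ((hh 2).1 i))
  fin_cases c
  · exact a0.1 i
  · exact a1.1 i
  · exact h2

/-- bounds for the differences of consecutive states -/
theorem wdiffB_bd (G : WGeoB S b θ r F X) (hb : ∀ i, 1 ≤ b i) (hθ : ∀ i, b i ≤ θ i)
    (hlam : ∀ i, θ i ≤ lam i) {s : ι → ℝ} (hs : ∀ i, 0 ≤ s i)
    {h : ι → Fin 3 → P → ℂ} (hh : ∀ c, S.FO θ s (fun i => h i c)) (m : ℕ) :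
    S.FO θ (fun i => s i * (θ i / lam i) ^ m / lam i)
      (fun i q => S.wst (lam i) (r i) (F i) (X i) (h i) m 0 q
        - S.wst (lam i) (r i) (F i) (X i) (h i) (m + 1) 0 q) ∧
    S.FO θ (fun i => s i * (θ i / lam i) ^ m / lam i)
      (fun i q => S.wst (lam i) (r i) (F i) (X i) (h i) m 1 q
        - S.wst (lam i) (r i) (F i) (X i) (h i) (m + 1) 1 q) ∧
    S.FO θ (fun i => s i * (θ i / lam i) ^ (m + 1))
      (fun i q => S.wst (lam i) (r i) (F i) (X i) (h i) m 2 q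
        - S.wst (lam i) (r i) (F i) (X i) (h i) (m + 1) 2 q) := by
  have hb0 : ∀ i, 0 < b i := fun i => zero_lt_one.trans_le (hb i)
  have hθpos : ∀ i, 0 < θ i := fun i => (hb0 i).trans_le (hθ i)
  have hθ0 : ∀ i, 0 ≤ θ i := fun i => (hθpos i).le
  have hlpos : ∀ i, 0 < lam i := fun i => (hθpos i).trans_le (hlam i)
  have hρ : ∀ i, 0 ≤ θ i / lam i := fun i => div_nonneg (hθ0 i) (hlpos i).le
  induction m with
  | zero =>
    obtain ⟨a0, a1, a2⟩ := wstB_bd G hb hθ hlam hs hh 0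
    obtain ⟨b0, b1, b2⟩ := wstB_bd G hb hθ hlam hs hh 1
    have c : ∀ i, s i / lam i ≤
        s i * (θ i / lam i) ^ 0 / lam i := fun i => by
      rw [pow_zero, mul_one]
    have c' : ∀ i, s i * (θ i / lam i) ≤
        s i * (θ i / lam i) ^ (0 + 1) := fun i => by
      rw [zero_add, pow_one]
    refine ⟨(a0.q_sub b0).q_mono hθ0 c, (a1.q_sub b1).q_mono hθ0 c, ?_⟩
    have e : (fun i q => S.wst (lam i) (r i) (F i) (X i) (h i) 0 2 q
        - S.wst (lam i) (r i) (F i) (X i) (h i) (0 + 1) 2 q) =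
        fun i q => S.dir (r i).w (S.wst (lam i) (r i) (F i) (X i) (h i) 0 1) q
          - S.dir (r i).w (S.wst (lam i) (r i) (F i) (X i) (h i) 1 1) q := by
      funext i q
      rw [S.wst_two, S.wst_two]; ring
    rw [e]
    exact (a2.q_sub b2).q_mono hθ0 c'
  | succ m ih =>
    obtain ⟨i0, i1, i2⟩ := ih
    have sx := wstB_sm G hb hθ hlam hs hh m
    have sy := wstB_sm G hb hθ hlam hs hh (m + 1)
    have sz := wstB_sm G hb hθ hlam hs hh (m + 2)
    have hρ' : ∀ i, 0 ≤ s i * (θ i / lam i) ^ (m + 1) := fun i =>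
      mul_nonneg (hs i) (pow_nonneg (hρ i) _)
    have cc : ∀ i, s i * (θ i / lam i) ^ m / lam i ≤
        s i * (θ i / lam i) ^ (m + 1) / θ i := fun i => by
      refine le_of_eq ?_
      rw [pow_succ (θ i / lam i) m]
      generalize (θ i / lam i) ^ m = A
      have := (hlpos i).ne'; have := (hθpos i).ne'
      field_simp
    have key := wstepB_bd (lam := lam)
      (x := fun i c q => S.wst (lam i) (r i) (F i) (X i) (h i) m c q
        - S.wst (lam i) (r i) (F i) (X i) (h i) (m + 1) c q) (h := fun _ _ _ => 0)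
      G hb hθ hlam hρ' DAlg.FO.q_zero DAlg.FO.q_zero
      (i0.q_mono hθ0 cc) (i1.q_mono hθ0 cc) i2
    obtain ⟨k0, k1, k2⟩ := key
    have d := fun i => wstep_sub S (lam i) (r i) (F i) (X i) (h i)
      (S.wst (lam i) (r i) (F i) (X i) (h i) m) (S.wst (lam i) (r i) (F i) (X i) (h i) (m + 1))
      (sx i) (sy i)
    have f0 : (fun i q => S.wst (lam i) (r i) (F i) (X i) (h i) (m + 1) 0 q
        - S.wst (lam i) (r i) (F i) (X i) (h i) (m + 1 + 1) 0 q) =
        (fun i => S.wstep (lam i) (r i) (F i) (X i) (fun _ _ => 0)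
          (fun c q => S.wst (lam i) (r i) (F i) (X i) (h i) m c q
            - S.wst (lam i) (r i) (F i) (X i) (h i) (m + 1) c q) 0) := by
      funext i q; exact (d i).1 q
    have f1 : (fun i q => S.wst (lam i) (r i) (F i) (X i) (h i) (m + 1) 1 q
        - S.wst (lam i) (r i) (F i) (X i) (h i) (m + 1 + 1) 1 q) =
        (fun i => S.wstep (lam i) (r i) (F i) (X i) (fun _ _ => 0)
          (fun c q => S.wst (lam i) (r i) (F i) (X i) (h i) m c q
            - S.wst (lam i) (r i) (F i) (X i) (h i) (m + 1) c q) 1) := by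
      funext i q; exact (d i).2 q
    refine ⟨by rw [f0]; exact k0, by rw [f1]; exact k1, ?_⟩
    have f2 : (fun i q => S.wst (lam i) (r i) (F i) (X i) (h i) (m + 1) 2 q
        - S.wst (lam i) (r i) (F i) (X i) (h i) (m + 1 + 1) 2 q) =
        (fun i => S.dir (r i).w (S.wstep (lam i) (r i) (F i) (X i) (fun _ _ => 0)
          (fun c q => S.wst (lam i) (r i) (F i) (X i) (h i) m c q
            - S.wst (lam i) (r i) (F i) (X i) (h i) (m + 1) c q) 1)) := by
      funext i q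
      have e : (fun q => S.wst (lam i) (r i) (F i) (X i) (h i) (m + 1) 1 q
        - S.wst (lam i) (r i) (F i) (X i) (h i) (m + 1 + 1) 1 q) =
        S.wstep (lam i) (r i) (F i) (X i) (fun _ _ => 0)
          (fun c q => S.wst (lam i) (r i) (F i) (X i) (h i) m c q
            - S.wst (lam i) (r i) (F i) (X i) (h i) (m + 1) c q) 1 := congrFun f1 i
      rw [← e, S.q_dir_sub' (r i).w (sy i 1) (sz i 1), S.wst_two, S.wst_two]
      ring
    rw [f2]
    refine k2.q_mono hθ0 (fun i => le_of_eq ?_)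
    rw [pow_succ (θ i / lam i) (m + 1)]
    ring

end

/-- **(W2')** -/
theorem DAlg.wkbB : S.WkbB := by
  intro ι θ b lam s r F X m h hb hθ hlam hs gt gw gN gP1 gP2 gtt gwt gtw hh
  have G : WGeoB S b θ r F X := ⟨gt, gw, gN, gP1, gP2, gtt, gwt, gtw⟩
  have hb0 : ∀ i, 0 < b i := fun i => zero_lt_one.trans_le (hb i)
  have hθpos : ∀ i, 0 < θ i := fun i => (hb0 i).trans_le (hθ i)
  have hθ0 : ∀ i, 0 ≤ θ i := fun i => (hθpos i).le
  have hlpos : ∀ i, 0 < lam i := fun i => (hθpos i).trans_le (hlam i)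
  have hρ : ∀ i, 0 ≤ θ i / lam i := fun i => div_nonneg (hθ0 i) (hlpos i).le
  have hone : ∀ i : ι, (0 : ℝ) ≤ (fun _ => 1 : ι → ℝ) i := fun i => zero_le_one
  have hb1 : ∀ i : ι, (0 : ℝ) ≤ 1 / b i := fun i => by have := hb0 i; positivity
  obtain ⟨i0, i1, i2⟩ := wstB_bd G hb hθ hlam hs hh m
  have c : ∀ i, s i / lam i ≤ s i / θ i := fun i =>
    div_le_div_of_nonneg_left (hs i) (hθpos i) (hlam i)
  have c2 : ∀ i, s i * (θ i / lam i) ≤ s i := fun i => by
    have : θ i / lam i ≤ 1 := (div_le_one (hlpos i)).2 (hlam i)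
    nlinarith [hs i]
  have y2 : S.FO θ s (fun i => S.wst (lam i) (r i) (F i) (X i) (h i) m 2) := by
    have e : (fun i => S.wst (lam i) (r i) (F i) (X i) (h i) m 2) =
        fun i q => S.dir (r i).w (S.wst (lam i) (r i) (F i) (X i) (h i) m 1) q
          - 1 / 2 * h i 2 q := by
      funext i q; rw [S.wst_two]
    rw [e]
    exact (i2.q_mono hθ0 c2).q_sub ((hh 2).q_kmul (1 / 2))
  refine ⟨fun a => vecB_bd G hb hθ hs (i0.q_mono hθ0 c) (i1.q_mono hθ0 c) y2 a,
    fun a => ?_, ?_⟩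
  · have e : (fun i => fun q => S.wkb (lam i) (r i) (F i) (X i) m (h i) a q
        + h i 2 q / 2 * (F i).N a q) = fun i q =>
        (S.wst (lam i) (r i) (F i) (X i) (h i) m 0 q * (F i).P1 a q +
        S.wst (lam i) (r i) (F i) (X i) (h i) m 1 q * (F i).P2 a q) +
        S.dir (r i).w (S.wst (lam i) (r i) (F i) (X i) (h i) m 1) q * (F i).N a q := by
      funext i q
      simp only [DAlg.wkb, Frm.vec]
      rw [S.wst_two]; ring
    rw [e]
    have hsl : ∀ i, 0 ≤ s i / lam i := fun i => div_nonneg (hs i) (hlpos i).le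
    have hsρ : ∀ i, 0 ≤ s i * (θ i / lam i) := fun i => mul_nonneg (hs i) (hρ i)
    have l1 : ∀ i, s i / lam i * 1 ≤ s i * (θ i / (b i * lam i)) := fun i => by
      have h1 : s i * (θ i / (b i * lam i)) = (s i / lam i) * (θ i / b i) := by
        have := (hb0 i).ne'; have := (hlpos i).ne'
        field_simp
      rw [h1]
      exact mul_le_mul_of_nonneg_left ((one_le_div (hb0 i)).2 (hθ i)) (hsl i)
    have l2 : ∀ i, s i * (θ i / lam i) * (1 / b i) ≤ s i * (θ i / (b i * lam i)) :=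
      fun i => le_of_eq (by
        have := (hb0 i).ne'; have := (hlpos i).ne'
        field_simp)
    exact (((i0.q_mul (gP1 a) hθ0 hsl hone).q_mono hθ0 l1).q_add
      ((i1.q_mul (gP2 a) hθ0 hsl hone).q_mono hθ0 l1)).q_add
      ((i2.q_mul (gN a) hθ0 hsρ hb1).q_mono hθ0 l2)
  · obtain ⟨d0, d1, d2⟩ := wdiffB_bd G hb hθ hlam hs hh m
    have hc : ∀ i, ‖(Complex.I * (lam i : ℂ))‖ ≤ lam i := fun i => by
      rw [norm_mul, Complex.norm_I, one_mul, Complex.norm_real, Real.norm_eq_abs,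
        abs_of_pos (hlpos i)]
    have hd : ∀ i, 0 ≤ s i * (θ i / lam i) ^ m / lam i := fun i =>
      div_nonneg (mul_nonneg (hs i) (pow_nonneg (hρ i) _)) (hlpos i).le
    have l3 : ∀ i, lam i * (s i * (θ i / lam i) ^ m / lam i) ≤
        s i * (θ i / lam i) ^ m := fun i => by
      refine le_of_eq ?_
      have := (hlpos i).ne'
      field_simp
    intro c
    fin_cases c
    · have e : (fun i => S.wres (lam i) (r i) (F i) (X i) m (h i) 0) = fun i q =>
          2 * ((Complex.I * (lam i : ℂ)) * (S.wst (lam i) (r i) (F i) (X i) (h i) m 0 q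
            - S.wst (lam i) (r i) (F i) (X i) (h i) (m + 1) 0 q)) := by
        funext i q
        simp only [DAlg.wres, Matrix.cons_val_zero]
        ring
      show S.FO _ _ (fun i => S.wres (lam i) (r i) (F i) (X i) m (h i) 0)
      rw [e]
      exact ((d0.q_cmul hθ0 hd hc).q_mono hθ0 l3).q_kmul 2
    · have e : (fun i => S.wres (lam i) (r i) (F i) (X i) m (h i) 1) = fun i q =>
          ((Complex.I * (lam i : ℂ)) * (S.wst (lam i) (r i) (F i) (X i) (h i) m 1 q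
            - S.wst (lam i) (r i) (F i) (X i) (h i) (m + 1) 1 q)) := by
        funext i q
        simp only [DAlg.wres, Matrix.cons_val_one, Matrix.cons_val_zero]
      show S.FO _ _ (fun i => S.wres (lam i) (r i) (F i) (X i) m (h i) 1)
      rw [e]
      exact (d1.q_cmul hθ0 hd hc).q_mono hθ0 l3
    · have e : (fun i => S.wres (lam i) (r i) (F i) (X i) m (h i) 2) = fun i q => 0 := by
        funext i q
        simp only [DAlg.wres, Matrix.cons_val]
      show S.FO _ _ (fun i => S.wres (lam i) (r i) (F i) (X i) m (h i) 2)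
      rw [e]
      exact DAlg.FO.q_zero

end Vale.Agent.P205.F
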