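import Vale.Agent.P205.F.Stage
import Vale.Agent.P205.F.AbsorbStage
import Vale.Agent.P205.F.Prep
import Vale.Agent.P205.F.Ker
import Vale.Agent.P205.F.WkbB
import Vale.Agent.P205.F.Quad

/-! The stage without smoothing: assembly of all blocks. -/

namespace Vale.Agent.P205.F

universe u

/-- **(ST)** the stage without smoothing holds in every differential function space -/
theorem DAlg.stage {P : Type u} {κ : Type} [Fintype κ] (S : DAlg P κ) (Q : Type) [Fintype Q] :
    S.StageF Q :=
  DAlg.stageF (DAlg.prep S Q)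
    (DAlg.absU (DAlg.kerAlg S (DAlg.wkbAlg S)) (DAlg.kerB_of S (DAlg.wkbB S))
      (DAlg.kerLin S (DAlg.wkbLin S)))
    (DAlg.quadAlg S Q) (DAlg.kerB_of S (DAlg.wkbB S)) (DAlg.wkbB S)

end Vale.Agent.P205.F
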