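import Vale.Agent.P205.F.Stage
import Vale.Agent.P205.F.Quad
import Vale.Agent.P205.F.Prep
import Vale.Agent.P205.F.AbsorbStage
import Vale.Agent.P205.F.WkbB

/-!
The stage `StageF`, unconditional.
-/

noncomputable section

namespace Vale.Agent.P205.F

universe u

variable {P : Type u} {κ : Type} [Fintype κ] (S : DAlg P κ)

/-- **(ST)** -/
theorem DAlg.stageU (Q : Type) [Fintype Q] : S.StageF Q :=
  DAlg.stageF (S.prep Q)
    (DAlg.absU (S.kerAlg S.wkbAlg) (S.kerB_of S.wkbB) (S.kerLin S.wkbLin))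
    (S.quadAlg Q) (S.kerB_of S.wkbB) S.wkbB

end Vale.Agent.P205.F
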