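import Vale.Agent.P205.F.Inst2
import Vale.Agent.P205.F.Smooth3
import Vale.Agent.P205.F.BoxesInst
import Vale.Agent.P205.F.Stage
import Vale.Agent.P205.F.Prep
import Vale.Agent.P205.F.AbsorbStage
import Vale.Agent.P205.F.Quad
import Vale.Agent.P205.F.WkbB
import Vale.Agent.P205.F.Real

/-!
The perturbation theorem `T1U` for compact surfaces: assembly (the blocks `Iter`, `StageF`,
`Pieces` are hypotheses here), the version for a fixed metric, and the version for sequences.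
-/

set_option linter.unusedSectionVars false

noncomputable section

namespace Vale.Agent.P205.F

open scoped Manifold ContDiff

universe u

section Abstract

variable {P : Type u} {κ : Type} [Fintype κ] {S : DAlg P κ}

/-- `T1U` for the target metric `G` -/
def DAlg.T1G (S : DAlg P κ) (G : κ → κ → P → ℂ) : Prop :=
    ∃ κ1 : ℝ, 0 < κ1 ∧ ∀ (ι : Type u) (Lam δ : ι → ℝ) (f : ι → Fin 4 → P → ℂ) (c0 : ℝ),
      0 < c0 → (∀ i, 1 ≤ Lam i) → (∀ i, 0 < δ i) → (∀ i, δ i ≤ 1) →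
      (∀ i a, S.Sm (f i a)) → (∀ i a, Rl (f i a)) →
      (∀ a, S.FO Lam (fun _ => 1) (fun i => f i a)) →
      (∀ j a, S.FO Lam (fun _ => 1) (fun i => S.D j (f i a))) →
      (∀ i p, ∃ j1 j2 j k, c0 * Lam i ^ 2 ≤
        (gram3 (S.Dv j1 (f i)) (S.Dv j2 (f i)) (S.Dv j (S.Dv k (f i))) p).re) →
      (∀ i j k p, ‖G j k p - S.met (f i) j k p - δ i * G j k p‖ ≤ κ1 * δ i) →
      (∀ j k, S.FO Lam δ (fun i p => G j k p - S.met (f i) j k p)) →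
      ∃ δ0 : ℝ, 0 < δ0 ∧ ∀ i, δ i ≤ δ0 →
        ∃ F : Fin 4 → P → ℂ, (∀ a, S.Sm (F a)) ∧ (∀ a, Rl (F a)) ∧
          ∀ j k p, S.met F j k p = G j k p

/-- boxes exist for all precisions -/
def DAlg.HasBoxes (S : DAlg P κ) (G : κ → κ → P → ℂ) : Prop :=
  ∀ κ0 : ℝ, 0 < κ0 → ∃ n : ℕ, Nonempty (Boxes S (Fin n) G κ0)

theorem DAlg.T1U.t1g (h : S.T1U) {G : κ → κ → P → ℂ} (h1 : S.IsT G) (h2 : ∀ j k, Rl (G j k))
    (h3 : ∀ j k, S.Sm (G j k)) (h4 : S.HasBoxes G) : S.T1G G := by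
  obtain ⟨κ0, hκ0, h⟩ := h
  obtain ⟨n, ⟨B⟩⟩ := h4 κ0 hκ0
  exact h (Fin n) G h1 h2 h3 B

/-- the version for sequences: one exact map -/
def DAlg.T1S (S : DAlg P κ) (G : κ → κ → P → ℂ) : Prop :=
    ∃ κ1 : ℝ, 0 < κ1 ∧ ∀ (Lam δ : ℕ → ℝ) (f : ℕ → Fin 4 → P → ℂ) (c0 : ℝ),
      0 < c0 → (∀ i, 1 ≤ Lam i) → (∀ i, 0 < δ i) → (∀ i, δ i ≤ 1) →
      Filter.Tendsto δ Filter.atTop (nhds 0) →
      (∀ i a, S.Sm (f i a)) → (∀ i a, Rl (f i a)) →
      (∀ a, S.FO Lam (fun _ => 1) (fun i => f i a)) →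
      (∀ j a, S.FO Lam (fun _ => 1) (fun i => S.D j (f i a))) →
      (∀ i p, ∃ j1 j2 j k, c0 * Lam i ^ 2 ≤
        (gram3 (S.Dv j1 (f i)) (S.Dv j2 (f i)) (S.Dv j (S.Dv k (f i))) p).re) →
      (∀ i j k p, ‖G j k p - S.met (f i) j k p - δ i * G j k p‖ ≤ κ1 * δ i) →
      (∀ j k, S.FO Lam δ (fun i p => G j k p - S.met (f i) j k p)) →
        ∃ F : Fin 4 → P → ℂ, (∀ a, S.Sm (F a)) ∧ (∀ a, Rl (F a)) ∧
          ∀ j k p, S.met F j k p = G j k p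

theorem DAlg.T1G.t1s {G : κ → κ → P → ℂ} (h : S.T1G G) : S.T1S G := by
  obtain ⟨κ1, hκ1, h⟩ := h
  refine ⟨κ1, hκ1, fun Lam δ f c0 hc hL hδ hδ1 hlim hs hr h1 h2 h3 h4 h5 => ?_⟩
  obtain ⟨δ0, hδ0, h6⟩ := h (ULift.{u} ℕ) (fun i => Lam i.down) (fun i => δ i.down)
    (fun i => f i.down) c0 hc (fun i => hL _) (fun i => hδ _) (fun i => hδ1 _)
    (fun i => hs _) (fun i => hr _) (fun a => DAlg.FO.reindex ULift.down (h1 a))
    (fun j a => DAlg.FO.reindex ULift.down (h2 j a)) (fun i => h3 _) (fun i => h4 _)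
    (fun j k => DAlg.FO.reindex ULift.down (h5 j k))
  obtain ⟨i, hi⟩ := (hlim.eventually_le_const hδ0).exists
  exact h6 ⟨i⟩ hi

/-- **(ST)** the stage -/
theorem DAlg.stageF_all (S : DAlg P κ) (Q : Type) [Fintype Q] : S.StageF Q :=
  DAlg.stageF (DAlg.prep S Q)
    (DAlg.absU (DAlg.kerAlg S (DAlg.wkbAlg S)) (DAlg.kerB_of S (DAlg.wkbB S))
      (DAlg.kerLin S (DAlg.wkbLin S)))
    (DAlg.quadAlg S Q) (DAlg.kerB_of S (DAlg.wkbB S)) (DAlg.wkbB S)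

end Abstract

variable {E : Type} [NormedAddCommGroup E] [NormedSpace ℝ E] [FiniteDimensional ℝ E]
variable {M : Type u} [TopologicalSpace M] [T2Space M] [CompactSpace M] [ChartedSpace E M]
  [IsManifold 𝓘(ℝ, E) ∞ M]
variable {A : Type} [Fintype A]

/-- `T1U` for the algebra of a compact manifold from the blocks -/
theorem Cov.t1u_of (K : Cov E M) (b : Module.Basis A ℝ E) (hI : (K.dalg b).Iter)
    (hP : (K.dalg b).Pieces) : (K.dalg b).T1U :=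
  hI (fun Q _ => DAlg.stageF_all (K.dalg b) Q) hP (K.complete b) (K.smoothing b)

/-- the exact smooth isometric map from a sequence of approximate maps -/
theorem Cov.t1s_of [Nonempty M] (K : Cov E M) (b : Module.Basis (Fin 2) ℝ E)
    (g : Bundle.ContMDiffRiemannianMetric 𝓘(ℝ, E) ∞ E (fun x : M => TangentSpace 𝓘(ℝ, E) x))
    (h : (K.dalg b).T1U) : (K.dalg b).T1S (K.G b g) :=
  (h.t1g (K.G_isT b g) (K.G_rl b g) (K.G_contMDiff b g)
    (fun _ h0 => K.exists_boxes b g h0)).t1s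

/-- an exact map gives a smooth isometric map into `ℝ⁴` -/
theorem Cov.isom_of_met (K : Cov E M) (b : Module.Basis (Fin 2) ℝ E)
    (g : Bundle.ContMDiffRiemannianMetric 𝓘(ℝ, E) ∞ E (fun x : M => TangentSpace 𝓘(ℝ, E) x))
    (h : ∃ F : Fin 4 → M → ℂ, (∀ a, (K.dalg b).Sm (F a)) ∧ (∀ a, Rl (F a)) ∧
      ∀ j k p, (K.dalg b).met F j k p = K.G b g j k p) :
    ∃ X : Fin 4 → M → ℝ, (∀ i, ContMDiff 𝓘(ℝ, E) 𝓘(ℝ) ∞ (X i)) ∧
      ∀ (m : M) (v w : TangentSpace 𝓘(ℝ, E) m),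
        ∑ i, mvfderiv 𝓘(ℝ, E) (X i) m v * mvfderiv 𝓘(ℝ, E) (X i) m w = g.inner m v w := by
  obtain ⟨F, h1, h2, h3⟩ := h
  exact K.exists_real b g F h1 h2 h3

end Vale.Agent.P205.F
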