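import Vale.Agent.P205.F.WkbDef
import Vale.Agent.P205.F.WdEq

/-!
WKB solve, pure algebra (P205, block W): the identity for the linearised metric operator applied
to `exp(iλΨ) V` for a field `V` supported in the region of a ray.
-/

set_option linter.all false

open scoped ContDiff

namespace Vale.Agent.P205.F

universe u

variable {P : Type u} {κ : Type} (S : DAlg P κ)

/-! ### closure of `Sm` -/

theorem DAlg.q_sm_zero : S.Sm (0 : P → ℂ) := S.sm_const 0

theorem DAlg.q_sm_cmul {u : P → ℂ} (c : ℂ) (hu : S.Sm u) : S.Sm (fun p => c * u p) :=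
  S.sm_mul (S.sm_const c) hu

theorem DAlg.q_sm_neg {u : P → ℂ} (hu : S.Sm u) : S.Sm (-u) := by
  have h := S.q_sm_cmul (-1) hu
  have e : (fun p => (-1 : ℂ) * u p) = -u := by
    funext p; simp
  rwa [e] at h

theorem DAlg.q_sm_sub {u v : P → ℂ} (hu : S.Sm u) (hv : S.Sm v) : S.Sm (u - v) := by
  rw [sub_eq_add_neg]; exact S.sm_add hu (S.q_sm_neg hv)

theorem DAlg.q_sm_sum {α : Type*} (s : Finset α) {u : α → P → ℂ} (h : ∀ a ∈ s, S.Sm (u a)) :
    S.Sm (∑ a ∈ s, u a) := by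
  classical
  induction s using Finset.induction_on with
  | empty => simpa using S.q_sm_zero
  | insert a s ha ih =>
    rw [Finset.sum_insert ha]
    exact S.sm_add (h a (Finset.mem_insert_self _ _))
      (ih (fun b hb => h b (Finset.mem_insert_of_mem hb)))

theorem DAlg.q_sm_sum' {α : Type*} (s : Finset α) {u : α → P → ℂ} (h : ∀ a ∈ s, S.Sm (u a)) :
    S.Sm (fun p => ∑ a ∈ s, u a p) := by
  have e : (fun p => ∑ a ∈ s, u a p) = ∑ a ∈ s, u a := by
    funext p; simp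
  rw [e]; exact S.q_sm_sum s h

theorem DAlg.q_sm_add' {u v : P → ℂ} (hu : S.Sm u) (hv : S.Sm v) : S.Sm (fun p => u p + v p) :=
  S.sm_add hu hv

theorem DAlg.q_sm_mul' {u v : P → ℂ} (hu : S.Sm u) (hv : S.Sm v) : S.Sm (fun p => u p * v p) :=
  S.sm_mul hu hv

theorem DAlg.q_sm_sub' {u v : P → ℂ} (hu : S.Sm u) (hv : S.Sm v) : S.Sm (fun p => u p - v p) :=
  S.q_sm_sub hu hv

theorem DAlg.q_sm_neg' {u : P → ℂ} (hu : S.Sm u) : S.Sm (fun p => -u p) := S.q_sm_neg hu

theorem DAlg.q_sm_dot {X Y : Fin 4 → P → ℂ} (hX : ∀ i, S.Sm (X i)) (hY : ∀ i, S.Sm (Y i)) :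
    S.Sm (dot X Y) :=
  S.q_sm_sum' _ (fun i _ => S.sm_mul (hX i) (hY i))

theorem DAlg.q_sm_dir [Fintype κ] {c : κ → P → ℂ} {u : P → ℂ} (hc : ∀ j, S.Sm (c j))
    (hu : S.Sm u) : S.Sm (S.dir c u) :=
  S.q_sm_sum' _ (fun j _ => S.sm_mul (hc j) (S.sm_D j hu))

/-! ### rules for `D` -/

theorem DAlg.q_D_zero (j : κ) : S.D j (0 : P → ℂ) = 0 := S.D_const j 0

theorem DAlg.q_D_cmul {u : P → ℂ} (j : κ) (c : ℂ) (hu : S.Sm u) :
    S.D j (fun p => c * u p) = fun p => c * S.D j u p := by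
  have h := S.D_mul j (S.sm_const c) hu
  have e : ((fun _ => c) * u : P → ℂ) = fun p => c * u p := rfl
  rw [e] at h
  rw [h, S.D_const]
  funext p; simp

theorem DAlg.q_D_neg {u : P → ℂ} (j : κ) (hu : S.Sm u) : S.D j (-u) = -S.D j u := by
  have h := S.q_D_cmul j (-1) hu
  have e : (fun p => (-1 : ℂ) * u p) = -u := by
    funext p; simp
  rw [e] at h; rw [h]; funext p; simp

theorem DAlg.q_D_sub {u v : P → ℂ} (j : κ) (hu : S.Sm u) (hv : S.Sm v) :
    S.D j (u - v) = S.D j u - S.D j v := by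
  rw [sub_eq_add_neg, S.D_add j hu (S.q_sm_neg hv), S.q_D_neg j hv, sub_eq_add_neg]

theorem DAlg.q_D_sum {α : Type*} (j : κ) (s : Finset α) {u : α → P → ℂ}
    (h : ∀ a ∈ s, S.Sm (u a)) : S.D j (∑ a ∈ s, u a) = ∑ a ∈ s, S.D j (u a) := by
  classical
  induction s using Finset.induction_on with
  | empty => simpa using S.q_D_zero j
  | insert a s ha ih =>
    rw [Finset.sum_insert ha, Finset.sum_insert ha,
      S.D_add j (h a (Finset.mem_insert_self _ _))
        (S.q_sm_sum s (fun b hb => h b (Finset.mem_insert_of_mem hb))),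
      ih (fun b hb => h b (Finset.mem_insert_of_mem hb))]

theorem DAlg.q_D_sum' {α : Type*} (j : κ) (s : Finset α) {u : α → P → ℂ}
    (h : ∀ a ∈ s, S.Sm (u a)) :
    S.D j (fun p => ∑ a ∈ s, u a p) = fun p => ∑ a ∈ s, S.D j (u a) p := by
  have e : (fun p => ∑ a ∈ s, u a p) = ∑ a ∈ s, u a := by
    funext p; simp
  rw [e, S.q_D_sum j s h]; funext p; simp

theorem DAlg.q_D_dot {X Y : Fin 4 → P → ℂ} (j : κ) (hX : ∀ i, S.Sm (X i))
    (hY : ∀ i, S.Sm (Y i)) (p : P) :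
    S.D j (dot X Y) p = dot (fun i => S.D j (X i)) Y p + dot X (fun i => S.D j (Y i)) p := by
  unfold dot
  have h : ∀ i ∈ (Finset.univ : Finset (Fin 4)), S.Sm (X i * Y i) :=
    fun i _ => S.sm_mul (hX i) (hY i)
  have e := S.q_D_sum' j Finset.univ h
  have e' : (fun p => ∑ i, (X i * Y i) p) = fun p => ∑ i, X i p * Y i p := rfl
  rw [e'] at e
  rw [e, ← Finset.sum_add_distrib]
  refine Finset.sum_congr rfl (fun i _ => ?_)
  rw [S.D_mul j (hX i) (hY i)]
  rfl

/-! ### rules for `dir` -/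

section
variable [Fintype κ]

theorem DAlg.q_dir_mul (c : κ → P → ℂ) {u v : P → ℂ} (hu : S.Sm u) (hv : S.Sm v) (p : P) :
    S.dir c (u * v) p = S.dir c u p * v p + u p * S.dir c v p := by
  unfold DAlg.dir
  rw [Finset.sum_mul, Finset.mul_sum, ← Finset.sum_add_distrib]
  refine Finset.sum_congr rfl (fun j _ => ?_)
  rw [S.D_mul j hu hv]
  simp only [Pi.add_apply, Pi.mul_apply]; ring

theorem DAlg.q_dir_add (c : κ → P → ℂ) {u v : P → ℂ} (hu : S.Sm u) (hv : S.Sm v) (p : P) :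
    S.dir c (u + v) p = S.dir c u p + S.dir c v p := by
  unfold DAlg.dir
  rw [← Finset.sum_add_distrib]
  refine Finset.sum_congr rfl (fun j _ => ?_)
  rw [S.D_add j hu hv]
  simp only [Pi.add_apply]; ring

theorem DAlg.q_dir_sub (c : κ → P → ℂ) {u v : P → ℂ} (hu : S.Sm u) (hv : S.Sm v) (p : P) :
    S.dir c (u - v) p = S.dir c u p - S.dir c v p := by
  unfold DAlg.dir
  rw [← Finset.sum_sub_distrib]
  refine Finset.sum_congr rfl (fun j _ => ?_)
  rw [S.q_D_sub j hu hv]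
  simp only [Pi.sub_apply]; ring

theorem DAlg.q_dir_cmul (c : κ → P → ℂ) (a : ℂ) {u : P → ℂ} (hu : S.Sm u) (p : P) :
    S.dir c (fun p => a * u p) p = a * S.dir c u p := by
  unfold DAlg.dir
  rw [Finset.mul_sum]
  refine Finset.sum_congr rfl (fun j _ => ?_)
  rw [S.q_D_cmul j a hu]; ring

theorem DAlg.q_dir_dot (c : κ → P → ℂ) {X Y : Fin 4 → P → ℂ} (hX : ∀ i, S.Sm (X i))
    (hY : ∀ i, S.Sm (Y i)) (p : P) :
    S.dir c (dot X Y) p = dot (fun i => S.dir c (X i)) Y p + dot X (fun i => S.dir c (Y i)) p := by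
  unfold DAlg.dir
  have h : ∀ j, c j p * S.D j (dot X Y) p =
      c j p * dot (fun i => S.D j (X i)) Y p + c j p * dot X (fun i => S.D j (Y i)) p := by
    intro j; rw [S.q_D_dot j hX hY, mul_add]
  rw [Finset.sum_congr rfl (fun j _ => h j), Finset.sum_add_distrib]
  congr 1
  · unfold dot
    simp only [Finset.mul_sum, Finset.sum_mul]
    rw [Finset.sum_comm]
    refine Finset.sum_congr rfl (fun i _ => Finset.sum_congr rfl (fun j _ => ?_)); ring
  · unfold dot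
    simp only [Finset.mul_sum]
    rw [Finset.sum_comm]
    refine Finset.sum_congr rfl (fun i _ => Finset.sum_congr rfl (fun j _ => ?_)); ring

end

/-! ### supports -/

theorem DAlg.Zs.q_apply {S : DAlg P κ} {K : Set P} {u : P → ℂ} (h : S.Zs K u) {p : P}
    (hp : p ∉ K) : u p = 0 := h [] p hp

theorem DAlg.q_wd_append (w : List κ) (j : κ) (u : P → ℂ) :
    S.wd (w ++ [j]) u = S.wd w (S.D j u) := by
  induction w with
  | nil => rfl
  | cons a w ih => simp only [List.cons_append, DAlg.wd, ih]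

theorem DAlg.Zs.q_D {S : DAlg P κ} {K : Set P} {u : P → ℂ} (h : S.Zs K u) (j : κ) :
    S.Zs K (S.D j u) := by
  intro w p hp
  rw [← S.q_wd_append]; exact h _ p hp

theorem DAlg.q_sm_wd {u : P → ℂ} (w : List κ) (hu : S.Sm u) : S.Sm (S.wd w u) := by
  induction w with
  | nil => exact hu
  | cons a w ih => exact S.sm_D a ih

theorem DAlg.q_wd_add {u v : P → ℂ} (w : List κ) (hu : S.Sm u) (hv : S.Sm v) :
    S.wd w (u + v) = S.wd w u + S.wd w v := by
  induction w with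
  | nil => rfl
  | cons a w ih =>
    simp only [DAlg.wd, ih]
    exact S.D_add a (S.q_sm_wd w hu) (S.q_sm_wd w hv)

theorem DAlg.Zs.q_zero {S : DAlg P κ} {K : Set P} : S.Zs K (0 : P → ℂ) := by
  intro w p _
  have : ∀ w : List κ, S.wd w (0 : P → ℂ) = 0 := by
    intro w
    induction w with
    | nil => rfl
    | cons a w ih => simp only [DAlg.wd, ih]; exact S.q_D_zero a
  rw [this]; rfl

theorem DAlg.Zs.q_add {S : DAlg P κ} {K : Set P} {u v : P → ℂ} (hu : S.Zs K u) (hv : S.Zs K v)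
    (su : S.Sm u) (sv : S.Sm v) : S.Zs K (u + v) := by
  intro w p hp
  rw [S.q_wd_add w su sv]
  simp only [Pi.add_apply, hu w p hp, hv w p hp, add_zero]

theorem DAlg.Zs.q_mul_left {S : DAlg P κ} {K : Set P} {u v : P → ℂ} (hu : S.Zs K u)
    (su : S.Sm u) (sv : S.Sm v) : S.Zs K (u * v) := by
  intro w
  induction w using List.reverseRecOn generalizing u v with
  | nil => intro p hp; show (u * v) p = 0; simp [hu.q_apply hp]
  | append_singleton w j ih =>
    intro p hp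
    rw [S.q_wd_append, S.D_mul j su sv,
      S.q_wd_add w (S.sm_mul (S.sm_D j su) sv) (S.sm_mul su (S.sm_D j sv))]
    simp only [Pi.add_apply, ih (hu.q_D j) (S.sm_D j su) sv p hp, ih hu su (S.sm_D j sv) p hp,
      add_zero]

theorem DAlg.Zs.q_mul_right {S : DAlg P κ} {K : Set P} {u v : P → ℂ} (hv : S.Zs K v)
    (su : S.Sm u) (sv : S.Sm v) : S.Zs K (u * v) := by
  rw [mul_comm]; exact hv.q_mul_left sv su

theorem DAlg.Zs.q_cmul {S : DAlg P κ} {K : Set P} {u : P → ℂ} (hu : S.Zs K u) (c : ℂ)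
    (su : S.Sm u) : S.Zs K (fun p => c * u p) :=
  hu.q_mul_right (S.sm_const c) su

theorem DAlg.Zs.q_neg {S : DAlg P κ} {K : Set P} {u : P → ℂ} (hu : S.Zs K u)
    (su : S.Sm u) : S.Zs K (-u) := by
  have h := hu.q_cmul (-1) su
  have e : (fun p => (-1 : ℂ) * u p) = -u := by
    funext p; simp
  rwa [e] at h

theorem DAlg.Zs.q_sub {S : DAlg P κ} {K : Set P} {u v : P → ℂ} (hu : S.Zs K u) (hv : S.Zs K v)
    (su : S.Sm u) (sv : S.Sm v) : S.Zs K (u - v) := by
  rw [sub_eq_add_neg]; exact hu.q_add (hv.q_neg sv) su (S.q_sm_neg sv)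

theorem DAlg.Zs.q_sum {S : DAlg P κ} {K : Set P} {α : Type*} (s : Finset α) {u : α → P → ℂ}
    (h : ∀ a ∈ s, S.Zs K (u a)) (hs : ∀ a ∈ s, S.Sm (u a)) : S.Zs K (∑ a ∈ s, u a) := by
  classical
  induction s using Finset.induction_on with
  | empty => simpa using DAlg.Zs.q_zero
  | insert a s ha ih =>
    rw [Finset.sum_insert ha]
    exact (h a (Finset.mem_insert_self _ _)).q_add
      (ih (fun b hb => h b (Finset.mem_insert_of_mem hb))
        (fun b hb => hs b (Finset.mem_insert_of_mem hb)))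
      (hs a (Finset.mem_insert_self _ _))
      (S.q_sm_sum s (fun b hb => hs b (Finset.mem_insert_of_mem hb)))

theorem DAlg.Zs.q_sum' {S : DAlg P κ} {K : Set P} {α : Type*} (s : Finset α) {u : α → P → ℂ}
    (h : ∀ a ∈ s, S.Zs K (u a)) (hs : ∀ a ∈ s, S.Sm (u a)) :
    S.Zs K (fun p => ∑ a ∈ s, u a p) := by
  have e : (fun p => ∑ a ∈ s, u a p) = ∑ a ∈ s, u a := by
    funext p; simp
  rw [e]; exact DAlg.Zs.q_sum s h hs

theorem DAlg.Zs.q_dir {S : DAlg P κ} [Fintype κ] {K : Set P} {c : κ → P → ℂ} {u : P → ℂ}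
    (hu : S.Zs K u) (hc : ∀ j, S.Sm (c j)) (su : S.Sm u) : S.Zs K (S.dir c u) :=
  DAlg.Zs.q_sum' _ (fun j _ => (hu.q_D j).q_mul_right (hc j) (S.sm_D j su))
    (fun j _ => S.sm_mul (hc j) (S.sm_D j su))

theorem DAlg.Zs.q_dot {S : DAlg P κ} {K : Set P} {X V : Fin 4 → P → ℂ}
    (hV : ∀ i, S.Zs K (V i)) (sX : ∀ i, S.Sm (X i)) (sV : ∀ i, S.Sm (V i)) :
    S.Zs K (dot X V) :=
  DAlg.Zs.q_sum' _ (fun i _ => (hV i).q_mul_right (sX i) (sV i))
    (fun i _ => S.sm_mul (sX i) (sV i))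

/-! ### the phase factor -/

/-- `exp(iλΨ)` -/
noncomputable def qph (lam : ℝ) (Ψ : P → ℂ) : P → ℂ :=
  fun p => Complex.exp (Complex.I * lam * ((Ψ p).re : ℂ))

theorem contDiff_qph (lam : ℝ) :
    ContDiff ℝ ∞ (fun x : ℝ => Complex.exp (Complex.I * lam * (x : ℂ))) := by
  have h1 : ContDiff ℝ ∞ (fun x : ℝ => (Complex.I * lam * (x : ℂ))) :=
    contDiff_const.mul Complex.ofRealCLM.contDiff
  exact h1.cexp

theorem deriv_qph (lam x : ℝ) :
    deriv (fun x : ℝ => Complex.exp (Complex.I * lam * (x : ℂ))) x =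
      Complex.I * lam * Complex.exp (Complex.I * lam * (x : ℂ)) := by
  have h0 : HasDerivAt (fun y : ℂ => Complex.exp (Complex.I * lam * y))
      (Complex.exp (Complex.I * lam * (x : ℂ)) * (Complex.I * lam * 1)) (x : ℂ) :=
    ((hasDerivAt_id (x : ℂ)).const_mul (Complex.I * lam)).cexp
  have h1 := h0.comp_ofReal
  rw [h1.deriv]; ring

theorem DAlg.q_sm_ph {Ψ : P → ℂ} (lam : ℝ) (h : S.Sm Ψ) (hr : Rl Ψ) : S.Sm (qph lam Ψ) :=
  S.sm_comp (F := fun x : ℝ => Complex.exp (Complex.I * lam * (x : ℂ))) (contDiff_qph lam) h hr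

theorem DAlg.q_D_ph {Ψ : P → ℂ} (lam : ℝ) (j : κ) (h : S.Sm Ψ) (hr : Rl Ψ) (p : P) :
    S.D j (qph lam Ψ) p = Complex.I * lam * S.D j Ψ p * qph lam Ψ p := by
  have e := S.D_comp (F := fun x : ℝ => Complex.exp (Complex.I * lam * (x : ℂ))) j
    (contDiff_qph lam) h hr
  have e' := congrFun e p
  rw [deriv_qph] at e'
  unfold qph
  rw [e']; ring

section
variable [Fintype κ]

theorem DAlg.q_dir_ph (c : κ → P → ℂ) {Ψ : P → ℂ} (lam : ℝ) (h : S.Sm Ψ) (hr : Rl Ψ) (p : P) :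
    S.dir c (qph lam Ψ) p = Complex.I * lam * S.dir c Ψ p * qph lam Ψ p := by
  unfold DAlg.dir
  rw [Finset.mul_sum, Finset.sum_mul]
  refine Finset.sum_congr rfl (fun j _ => ?_)
  rw [S.q_D_ph lam j h hr]; ring

/-! ### the linearised operator -/

theorem q_lin_alg (a b c d tX wX tv wv : Fin 4 → ℂ) (x y z w : ℂ)
    (ha : ∀ i, a i = x * tX i + y * wX i) (hb : ∀ i, b i = z * tX i + w * wX i)
    (hc : ∀ i, c i = x * tv i + y * wv i) (hd : ∀ i, d i = z * tv i + w * wv i) :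
    ∑ i, a i * d i + ∑ i, b i * c i =
      x * z * (2 * ∑ i, tX i * tv i) +
      (x * w + z * y) * (∑ i, tX i * wv i + ∑ i, wX i * tv i) +
      y * w * (2 * ∑ i, wX i * wv i) := by
  simp only [Finset.mul_sum, ← Finset.sum_add_distrib]
  refine Finset.sum_congr rfl (fun i _ => ?_)
  rw [ha, hb, hc, hd]; ring

/-- components of the linearised operator in a ray -/
theorem DAlg.q_lin_ray {r : Ray P κ} (hr : r.Ok S) {X v : Fin 4 → P → ℂ}
    (sX : ∀ i, S.Sm (X i)) (sv : ∀ i, S.Sm (v i)) (j k : κ) {p : P} (hp : p ∈ r.K) :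
    S.lin X v j k p =
      S.D j r.Ψ p * S.D k r.Ψ p *
        (2 * dot (fun i => S.dir r.t (X i)) (fun i => S.dir r.t (v i)) p) +
      (S.D j r.Ψ p * r.β k p + S.D k r.Ψ p * r.β j p) *
        (dot (fun i => S.dir r.t (X i)) (fun i => S.dir r.w (v i)) p +
          dot (fun i => S.dir r.w (X i)) (fun i => S.dir r.t (v i)) p) +
      r.β j p * r.β k p *
        (2 * dot (fun i => S.dir r.w (X i)) (fun i => S.dir r.w (v i)) p) := by
  have h := q_lin_alg (fun i => S.D j (X i) p) (fun i => S.D k (X i) p)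
    (fun i => S.D j (v i) p) (fun i => S.D k (v i) p)
    (fun i => S.dir r.t (X i) p) (fun i => S.dir r.w (X i) p)
    (fun i => S.dir r.t (v i) p) (fun i => S.dir r.w (v i) p)
    (S.D j r.Ψ p) (r.β j p) (S.D k r.Ψ p) (r.β k p)
    (fun i => hr.dec _ (sX i) j p hp) (fun i => hr.dec _ (sX i) k p hp)
    (fun i => hr.dec _ (sv i) j p hp) (fun i => hr.dec _ (sv i) k p hp)
  exact h

end

end Vale.Agent.P205.F
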