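import Vale.Agent.P205.F.WkbFO

/-!
Bounds for the WKB solve and linearity (P205, block W).
-/

set_option linter.all false

open scoped ContDiff

noncomputable section

namespace Vale.Agent.P205.F

universe u

variable {P : Type u} {κ : Type} [Fintype κ] (S : DAlg P κ)

/-- bounds on the geometric data -/
structure WGeo {ι : Type*} (L θ : ι → ℝ) (r : ι → Ray P κ) (F : ι → Frm P)
    (X : ι → Fin 4 → P → ℂ) : Prop where
  t : ∀ j, S.FO θ L (fun i => (r i).t j)
  w : ∀ j, S.FO θ L (fun i => (r i).w j)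
  N : ∀ a, S.FO θ L (fun i => (F i).N a)
  P1 : ∀ a, S.FO θ L (fun i => (F i).P1 a)
  P2 : ∀ a, S.FO θ L (fun i => (F i).P2 a)
  tt : ∀ a, S.FO θ L (fun i => S.dirv (r i).t (S.dirv (r i).t (X i)) a)
  wt : ∀ a, S.FO θ L (fun i => S.dirv (r i).w (S.dirv (r i).t (X i)) a)
  tw : ∀ a, S.FO θ L (fun i => S.dirv (r i).t (S.dirv (r i).w (X i)) a)

section
variable {S} {ι : Type*} {L θ lam σ : ι → ℝ} {r : ι → Ray P κ} {F : ι → Frm P}
  {X : ι → Fin 4 → P → ℂ}

theorem vec_bd (G : WGeo S L θ r F X) (hL : ∀ i, 1 ≤ L i) (hθ : ∀ i, 1 ≤ θ i)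
    (hσ : ∀ i, 0 ≤ σ i) {x : ι → Fin 3 → P → ℂ}
    (x0 : S.FO θ (fun i => σ i / (L i * θ i)) (fun i => x i 0))
    (x1 : S.FO θ (fun i => σ i / (L i * θ i)) (fun i => x i 1))
    (x2 : S.FO θ σ (fun i => x i 2)) (a : Fin 4) :
    S.FO θ (fun i => σ i * L i) (fun i => (F i).vec (x i) a) := by
  have hθ0 : ∀ i, 0 ≤ θ i := fun i => zero_le_one.trans (hθ i)
  have hL0 : ∀ i, 0 ≤ L i := fun i => zero_le_one.trans (hL i)
  have hLθ : ∀ i, 1 ≤ L i * θ i := fun i => one_le_mul_of_one_le_of_one_le (hL i) (hθ i)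
  have hq : ∀ i, σ i / (L i * θ i) ≤ σ i := fun i => div_le_self (hσ i) (hLθ i)
  have y0 := x0.q_mono hθ0 hq
  have y1 := x1.q_mono hθ0 hq
  exact ((y0.q_mul (G.P1 a) hθ0 hσ hL0).q_add (y1.q_mul (G.P2 a) hθ0 hσ hL0)).q_add
    (x2.q_mul (G.N a) hθ0 hσ hL0)

theorem wstep_bd (G : WGeo S L θ r F X) (hL : ∀ i, 1 ≤ L i) (hθ : ∀ i, 1 ≤ θ i)
    (hlam : ∀ i, L i ^ 3 * θ i ≤ lam i) (hσ : ∀ i, 0 ≤ σ i) {h x : ι → Fin 3 → P → ℂ}
    (h0 : S.FO θ σ (fun i => h i 0)) (h1 : S.FO θ σ (fun i => h i 1))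
    (x0 : S.FO θ (fun i => σ i / (L i * θ i)) (fun i => x i 0))
    (x1 : S.FO θ (fun i => σ i / (L i * θ i)) (fun i => x i 1))
    (x2 : S.FO θ σ (fun i => x i 2)) :
    S.FO θ (fun i => σ i * L i ^ 2 / lam i)
      (fun i => S.wstep (lam i) (r i) (F i) (X i) (h i) (x i) 0) ∧
    S.FO θ (fun i => σ i * L i ^ 2 / lam i)
      (fun i => S.wstep (lam i) (r i) (F i) (X i) (h i) (x i) 1) ∧
    S.FO θ (fun i => σ i * (L i ^ 3 * θ i / lam i))
      (fun i => S.dir (r i).w (S.wstep (lam i) (r i) (F i) (X i) (h i) (x i) 1)) := by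
  have hθ0 : ∀ i, 0 ≤ θ i := fun i => zero_le_one.trans (hθ i)
  have hL0 : ∀ i, 0 ≤ L i := fun i => zero_le_one.trans (hL i)
  have hLpos : ∀ i, 0 < L i := fun i => zero_lt_one.trans_le (hL i)
  have hθpos : ∀ i, 0 < θ i := fun i => zero_lt_one.trans_le (hθ i)
  have hLθ : ∀ i, 1 ≤ L i * θ i := fun i => one_le_mul_of_one_le_of_one_le (hL i) (hθ i)
  have hlpos : ∀ i, 0 < lam i := fun i =>
    lt_of_lt_of_le (by have := hLpos i; have := hθpos i; positivity) (hlam i)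
  have hσL : ∀ i, 0 ≤ σ i * L i := fun i => mul_nonneg (hσ i) (hL0 i)
  have hV := fun a => vec_bd G hL hθ hσ x0 x1 x2 a
  have hL2 : ∀ i, σ i ≤ σ i * L i ^ 2 := fun i => by
    have : (1 : ℝ) ≤ L i ^ 2 := one_le_pow₀ (hL i)
    nlinarith [hσ i]
  have hq0 : ∀ i, 0 ≤ σ i / (L i * θ i) := fun i =>
    div_nonneg (hσ i) (zero_le_one.trans (hLθ i))
  -- the products
  have c1 : ∀ i, L i * (σ i * L i) ≤ σ i * L i ^ 2 := fun i => le_of_eq (by ring)
  have d1 := (DAlg.FO.q_dot (fun a => G.tt a) hV hθ0 hL0 hσL).q_mono hθ0 c1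
  have d2 := (DAlg.FO.q_dot (fun a => G.wt a) hV hθ0 hL0 hσL).q_mono hθ0 c1
  have d3 := (DAlg.FO.q_dot (fun a => G.tw a) hV hθ0 hL0 hσL).q_mono hθ0 c1
  have c2 : ∀ i, L i * (σ i / (L i * θ i) * θ i) ≤ σ i * L i ^ 2 := fun i => by
    have e : L i * (σ i / (L i * θ i) * θ i) = σ i := by
      have := (hLpos i).ne'; have := (hθpos i).ne'; field_simp
    rw [e]; exact hL2 i
  have t0 := (DAlg.FO.q_dir G.t x0 hθ0 hL0 hq0).q_mono hθ0 c2
  have t1 := (DAlg.FO.q_dir G.t x1 hθ0 hL0 hq0).q_mono hθ0 c2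
  have w0 := (DAlg.FO.q_dir G.w x0 hθ0 hL0 hq0).q_mono hθ0 c2
  have g0 := h0.q_mono hθ0 hL2
  have g1 := h1.q_mono hθ0 hL2
  have hsL : ∀ i, 0 ≤ σ i * L i ^ 2 := fun i => mul_nonneg (hσ i) (pow_nonneg (hL0 i) 2)
  have hc : ∀ i, ‖(Complex.I * (lam i : ℂ))⁻¹‖ ≤ (lam i)⁻¹ := fun i => by
    rw [norm_inv, norm_mul, Complex.norm_I, one_mul, Complex.norm_real, Real.norm_eq_abs,
      abs_of_pos (hlpos i)]
  have hfin : ∀ i, (lam i)⁻¹ * (σ i * L i ^ 2) ≤ σ i * L i ^ 2 / lam i := fun i =>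
    le_of_eq (by rw [div_eq_mul_inv]; ring)
  have r0 : S.FO θ (fun i => σ i * L i ^ 2 / lam i)
      (fun i => S.wstep (lam i) (r i) (F i) (X i) (h i) (x i) 0) := by
    simp only [S.wstep_zero]
    exact ((((g0.q_kmul (1 / 2)).q_add d1).q_sub t0).q_cmul hθ0 hsL hc).q_mono hθ0 hfin
  have r1 : S.FO θ (fun i => σ i * L i ^ 2 / lam i)
      (fun i => S.wstep (lam i) (r i) (F i) (X i) (h i) (x i) 1) := by
    simp only [S.wstep_one]
    exact (((g1.q_add (d2.q_add d3)).q_sub (w0.q_add t1)).q_cmul hθ0 hsL hc).q_mono hθ0 hfin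
  refine ⟨r0, r1, ?_⟩
  have hs1 : ∀ i, 0 ≤ σ i * L i ^ 2 / lam i := fun i => div_nonneg (hsL i) (hlpos i).le
  refine (DAlg.FO.q_dir G.w r1 hθ0 hL0 hs1).q_mono hθ0 (fun i => le_of_eq ?_)
  have := (hlpos i).ne'
  field_simp

/-- bounds for the states -/
theorem wst_bd (G : WGeo S L θ r F X) (hL : ∀ i, 1 ≤ L i) (hθ : ∀ i, 1 ≤ θ i)
    (hlam : ∀ i, L i ^ 3 * θ i ≤ lam i) {s : ι → ℝ} (hs : ∀ i, 0 ≤ s i)
    {h : ι → Fin 3 → P → ℂ} (hh : ∀ c, S.FO θ s (fun i => h i c)) (m : ℕ) :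
    S.FO θ (fun i => s i * L i ^ 2 / lam i)
      (fun i => S.wst (lam i) (r i) (F i) (X i) (h i) m 0) ∧
    S.FO θ (fun i => s i * L i ^ 2 / lam i)
      (fun i => S.wst (lam i) (r i) (F i) (X i) (h i) m 1) ∧
    S.FO θ (fun i => s i * (L i ^ 3 * θ i / lam i))
      (fun i => S.dir (r i).w (S.wst (lam i) (r i) (F i) (X i) (h i) m 1)) := by
  have hθ0 : ∀ i, 0 ≤ θ i := fun i => zero_le_one.trans (hθ i)
  have hL0 : ∀ i, 0 ≤ L i := fun i => zero_le_one.trans (hL i)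
  have hLpos : ∀ i, 0 < L i := fun i => zero_lt_one.trans_le (hL i)
  have hθpos : ∀ i, 0 < θ i := fun i => zero_lt_one.trans_le (hθ i)
  have hlpos : ∀ i, 0 < lam i := fun i =>
    lt_of_lt_of_le (by have := hLpos i; have := hθpos i; positivity) (hlam i)
  induction m with
  | zero =>
    have e0 : (fun i => S.wst (lam i) (r i) (F i) (X i) (h i) 0 0) = fun _ _ => 0 := by
      funext i; rw [S.wst_zero]; rfl
    have e1 : (fun i => S.wst (lam i) (r i) (F i) (X i) (h i) 0 1) = fun _ _ => 0 := by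
      funext i; rw [S.wst_zero]; rfl
    have e2 : (fun i => S.dir (r i).w (S.wst (lam i) (r i) (F i) (X i) (h i) 0 1)) =
        fun _ _ => 0 := by
      funext i
      have : S.wst (lam i) (r i) (F i) (X i) (h i) 0 1 = 0 := by rw [S.wst_zero]; rfl
      rw [this]
      funext q
      unfold DAlg.dir
      simp [S.q_D_zero]
    rw [e0, e1, e2]
    exact ⟨DAlg.FO.q_zero, DAlg.FO.q_zero, DAlg.FO.q_zero⟩
  | succ m ih =>
    obtain ⟨i0, i1, i2⟩ := ih
    have c : ∀ i, s i * L i ^ 2 / lam i ≤ s i / (L i * θ i) := fun i => by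
      rw [div_le_div_iff₀ (hlpos i) (mul_pos (hLpos i) (hθpos i))]
      have := mul_le_mul_of_nonneg_left (hlam i) (hs i)
      nlinarith [this]
    have c2 : ∀ i, s i * (L i ^ 3 * θ i / lam i) ≤ s i := fun i => by
      have : L i ^ 3 * θ i / lam i ≤ 1 := (div_le_one (hlpos i)).2 (hlam i)
      nlinarith [hs i]
    have y2 : S.FO θ s (fun i => S.wst (lam i) (r i) (F i) (X i) (h i) m 2) := by
      have e : (fun i => S.wst (lam i) (r i) (F i) (X i) (h i) m 2) =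
          fun i q => S.dir (r i).w (S.wst (lam i) (r i) (F i) (X i) (h i) m 1) q
            - 1 / 2 * h i 2 q := by
        funext i q; rw [S.wst_two]
      rw [e]
      exact (i2.q_mono hθ0 c2).q_sub ((hh 2).q_kmul (1 / 2))
    exact wstep_bd G hL hθ hlam hs (hh 0) (hh 1) (i0.q_mono hθ0 c) (i1.q_mono hθ0 c) y2

theorem vec_sub (F : Frm P) (x y : Fin 3 → P → ℂ) (Y : Fin 4 → P → ℂ) (q : P) :
    dot Y (F.vec (fun c q => x c q - y c q)) q = dot Y (F.vec x) q - dot Y (F.vec y) q := by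
  rw [vec_dot, vec_dot, vec_dot]; ring

theorem DAlg.q_dir_sub' (S : DAlg P κ) (c : κ → P → ℂ) {u v : P → ℂ} (hu : S.Sm u)
    (hv : S.Sm v) (p : P) :
    S.dir c (fun q => u q - v q) p = S.dir c u p - S.dir c v p := S.q_dir_sub c hu hv p

/-- difference of two steps -/
theorem wstep_sub (S : DAlg P κ) (lam : ℝ) (r : Ray P κ) (F : Frm P) (X : Fin 4 → P → ℂ)
    (h x y : Fin 3 → P → ℂ) (sx : ∀ c, S.Sm (x c)) (sy : ∀ c, S.Sm (y c)) :
    (∀ q, S.wstep lam r F X h x 0 q - S.wstep lam r F X h y 0 q =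
      S.wstep lam r F X (fun _ _ => 0) (fun c q => x c q - y c q) 0 q) ∧
    (∀ q, S.wstep lam r F X h x 1 q - S.wstep lam r F X h y 1 q =
      S.wstep lam r F X (fun _ _ => 0) (fun c q => x c q - y c q) 1 q) := by
  constructor
  · intro q
    rw [S.wstep_zero, S.wstep_zero, S.wstep_zero]
    simp only [vec_sub, S.q_dir_sub' r.t (sx 0) (sy 0)]
    ring
  · intro q
    rw [S.wstep_one, S.wstep_one, S.wstep_one]
    simp only [vec_sub, S.q_dir_sub' r.t (sx 1) (sy 1), S.q_dir_sub' r.w (sx 0) (sy 0)]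
    ring

theorem wst_sm (G : WGeo S L θ r F X) (hL : ∀ i, 1 ≤ L i) (hθ : ∀ i, 1 ≤ θ i)
    (hlam : ∀ i, L i ^ 3 * θ i ≤ lam i) {s : ι → ℝ} (hs : ∀ i, 0 ≤ s i)
    {h : ι → Fin 3 → P → ℂ} (hh : ∀ c, S.FO θ s (fun i => h i c)) (m : ℕ) (i : ι) (c : Fin 3) :
    S.Sm (S.wst (lam i) (r i) (F i) (X i) (h i) m c) := by
  obtain ⟨a0, a1, a2⟩ := wst_bd G hL hθ hlam hs hh m
  have h2 : S.Sm (S.wst (lam i) (r i) (F i) (X i) (h i) m 2) := by
    have e : S.wst (lam i) (r i) (F i) (X i) (h i) m 2 =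
        fun q => S.dir (r i).w (S.wst (lam i) (r i) (F i) (X i) (h i) m 1) q
          - 1 / 2 * h i 2 q := by
      funext q; rw [S.wst_two]
    rw [e]
    exact S.q_sm_sub' (a2.1 i) (S.q_sm_cmul _ ((hh 2).1 i))
  fin_cases c
  · exact a0.1 i
  · exact a1.1 i
  · exact h2

/-- bounds for the differences of consecutive states -/
theorem wdiff_bd (G : WGeo S L θ r F X) (hL : ∀ i, 1 ≤ L i) (hθ : ∀ i, 1 ≤ θ i)
    (hlam : ∀ i, L i ^ 3 * θ i ≤ lam i) {s : ι → ℝ} (hs : ∀ i, 0 ≤ s i)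
    {h : ι → Fin 3 → P → ℂ} (hh : ∀ c, S.FO θ s (fun i => h i c)) (m : ℕ) :
    S.FO θ (fun i => s i * (L i ^ 3 * θ i / lam i) ^ m * L i ^ 2 / lam i)
      (fun i q => S.wst (lam i) (r i) (F i) (X i) (h i) m 0 q
        - S.wst (lam i) (r i) (F i) (X i) (h i) (m + 1) 0 q) ∧
    S.FO θ (fun i => s i * (L i ^ 3 * θ i / lam i) ^ m * L i ^ 2 / lam i)
      (fun i q => S.wst (lam i) (r i) (F i) (X i) (h i) m 1 q
        - S.wst (lam i) (r i) (F i) (X i) (h i) (m + 1) 1 q) ∧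
    S.FO θ (fun i => s i * (L i ^ 3 * θ i / lam i) ^ (m + 1))
      (fun i q => S.wst (lam i) (r i) (F i) (X i) (h i) m 2 q
        - S.wst (lam i) (r i) (F i) (X i) (h i) (m + 1) 2 q) := by
  have hθ0 : ∀ i, 0 ≤ θ i := fun i => zero_le_one.trans (hθ i)
  have hL0 : ∀ i, 0 ≤ L i := fun i => zero_le_one.trans (hL i)
  have hLpos : ∀ i, 0 < L i := fun i => zero_lt_one.trans_le (hL i)
  have hθpos : ∀ i, 0 < θ i := fun i => zero_lt_one.trans_le (hθ i)
  have hlpos : ∀ i, 0 < lam i := fun i =>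
    lt_of_lt_of_le (by have := hLpos i; have := hθpos i; positivity) (hlam i)
  have hρ : ∀ i, 0 ≤ L i ^ 3 * θ i / lam i := fun i =>
    div_nonneg (mul_nonneg (pow_nonneg (hL0 i) 3) (hθ0 i)) (hlpos i).le
  induction m with
  | zero =>
    obtain ⟨a0, a1, a2⟩ := wst_bd G hL hθ hlam hs hh 0
    obtain ⟨b0, b1, b2⟩ := wst_bd G hL hθ hlam hs hh 1
    have c : ∀ i, s i * L i ^ 2 / lam i ≤
        s i * (L i ^ 3 * θ i / lam i) ^ 0 * L i ^ 2 / lam i := fun i => by
      rw [pow_zero, mul_one]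
    have c' : ∀ i, s i * (L i ^ 3 * θ i / lam i) ≤
        s i * (L i ^ 3 * θ i / lam i) ^ (0 + 1) := fun i => by
      rw [zero_add, pow_one]
    refine ⟨(a0.q_sub b0).q_mono hθ0 c, (a1.q_sub b1).q_mono hθ0 c, ?_⟩
    have e : (fun i q => S.wst (lam i) (r i) (F i) (X i) (h i) 0 2 q
        - S.wst (lam i) (r i) (F i) (X i) (h i) (0 + 1) 2 q) =
        fun i q => S.dir (r i).w (S.wst (lam i) (r i) (F i) (X i) (h i) 0 1) q
          - S.dir (r i).w (S.wst (lam i) (r i) (F i) (X i) (h i) 1 1) q := by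
      funext i q
      rw [S.wst_two, S.wst_two]; ring
    rw [e]
    exact (a2.q_sub b2).q_mono hθ0 c'
  | succ m ih =>
    obtain ⟨i0, i1, i2⟩ := ih
    have sx := wst_sm G hL hθ hlam hs hh m
    have sy := wst_sm G hL hθ hlam hs hh (m + 1)
    have sz := wst_sm G hL hθ hlam hs hh (m + 2)
    have hρ' : ∀ i, 0 ≤ s i * (L i ^ 3 * θ i / lam i) ^ (m + 1) := fun i =>
      mul_nonneg (hs i) (pow_nonneg (hρ i) _)
    have cc : ∀ i, s i * (L i ^ 3 * θ i / lam i) ^ m * L i ^ 2 / lam i ≤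
        s i * (L i ^ 3 * θ i / lam i) ^ (m + 1) / (L i * θ i) := fun i => by
      refine le_of_eq ?_
      rw [pow_succ (L i ^ 3 * θ i / lam i) m]
      generalize (L i ^ 3 * θ i / lam i) ^ m = A
      have := (hlpos i).ne'; have := (hLpos i).ne'; have := (hθpos i).ne'
      field_simp
    have key := wstep_bd (lam := lam)
      (x := fun i c q => S.wst (lam i) (r i) (F i) (X i) (h i) m c q
        - S.wst (lam i) (r i) (F i) (X i) (h i) (m + 1) c q) (h := fun _ _ _ => 0)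
      G hL hθ hlam hρ' DAlg.FO.q_zero DAlg.FO.q_zero
      (i0.q_mono hθ0 cc) (i1.q_mono hθ0 cc) i2
    obtain ⟨k0, k1, k2⟩ := key
    have d := fun i => wstep_sub S (lam i) (r i) (F i) (X i) (h i)
      (S.wst (lam i) (r i) (F i) (X i) (h i) m) (S.wst (lam i) (r i) (F i) (X i) (h i) (m + 1))
      (sx i) (sy i)
    have f0 : (fun i q => S.wst (lam i) (r i) (F i) (X i) (h i) (m + 1) 0 q
        - S.wst (lam i) (r i) (F i) (X i) (h i) (m + 1 + 1) 0 q) =
        (fun i => S.wstep (lam i) (r i) (F i) (X i) (fun _ _ => 0)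
          (fun c q => S.wst (lam i) (r i) (F i) (X i) (h i) m c q
            - S.wst (lam i) (r i) (F i) (X i) (h i) (m + 1) c q) 0) := by
      funext i q; exact (d i).1 q
    have f1 : (fun i q => S.wst (lam i) (r i) (F i) (X i) (h i) (m + 1) 1 q
        - S.wst (lam i) (r i) (F i) (X i) (h i) (m + 1 + 1) 1 q) =
        (fun i => S.wstep (lam i) (r i) (F i) (X i) (fun _ _ => 0)
          (fun c q => S.wst (lam i) (r i) (F i) (X i) (h i) m c q
            - S.wst (lam i) (r i) (F i) (X i) (h i) (m + 1) c q) 1) := by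
      funext i q; exact (d i).2 q
    refine ⟨by rw [f0]; exact k0, by rw [f1]; exact k1, ?_⟩
    have f2 : (fun i q => S.wst (lam i) (r i) (F i) (X i) (h i) (m + 1) 2 q
        - S.wst (lam i) (r i) (F i) (X i) (h i) (m + 1 + 1) 2 q) =
        (fun i => S.dir (r i).w (S.wstep (lam i) (r i) (F i) (X i) (fun _ _ => 0)
          (fun c q => S.wst (lam i) (r i) (F i) (X i) (h i) m c q
            - S.wst (lam i) (r i) (F i) (X i) (h i) (m + 1) c q) 1)) := by
      funext i q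
      have e : (fun q => S.wst (lam i) (r i) (F i) (X i) (h i) (m + 1) 1 q
        - S.wst (lam i) (r i) (F i) (X i) (h i) (m + 1 + 1) 1 q) =
        S.wstep (lam i) (r i) (F i) (X i) (fun _ _ => 0)
          (fun c q => S.wst (lam i) (r i) (F i) (X i) (h i) m c q
            - S.wst (lam i) (r i) (F i) (X i) (h i) (m + 1) c q) 1 := congrFun f1 i
      rw [← e, S.q_dir_sub' (r i).w (sy i 1) (sz i 1), S.wst_two, S.wst_two]
      ring
    rw [f2]
    refine k2.q_mono hθ0 (fun i => le_of_eq ?_)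
    rw [pow_succ (L i ^ 3 * θ i / lam i) (m + 1)]
    ring

end

/-- **(W2)** -/
theorem DAlg.wkbBd : S.WkbBd := by
  intro ι L θ lam s r F X m h hL hθ hlam hs gt gw gN gP1 gP2 gtt gwt gtw hh
  have G : WGeo S L θ r F X := ⟨gt, gw, gN, gP1, gP2, gtt, gwt, gtw⟩
  have hθ0 : ∀ i, 0 ≤ θ i := fun i => zero_le_one.trans (hθ i)
  have hL0 : ∀ i, 0 ≤ L i := fun i => zero_le_one.trans (hL i)
  have hLpos : ∀ i, 0 < L i := fun i => zero_lt_one.trans_le (hL i)
  have hθpos : ∀ i, 0 < θ i := fun i => zero_lt_one.trans_le (hθ i)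
  have hlpos : ∀ i, 0 < lam i := fun i =>
    lt_of_lt_of_le (by have := hLpos i; have := hθpos i; positivity) (hlam i)
  have hρ : ∀ i, 0 ≤ L i ^ 3 * θ i / lam i := fun i =>
    div_nonneg (mul_nonneg (pow_nonneg (hL0 i) 3) (hθ0 i)) (hlpos i).le
  obtain ⟨i0, i1, i2⟩ := wst_bd G hL hθ hlam hs hh m
  have c : ∀ i, s i * L i ^ 2 / lam i ≤ s i / (L i * θ i) := fun i => by
    rw [div_le_div_iff₀ (hlpos i) (mul_pos (hLpos i) (hθpos i))]
    have := mul_le_mul_of_nonneg_left (hlam i) (hs i)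
    nlinarith [this]
  have c2 : ∀ i, s i * (L i ^ 3 * θ i / lam i) ≤ s i := fun i => by
    have : L i ^ 3 * θ i / lam i ≤ 1 := (div_le_one (hlpos i)).2 (hlam i)
    nlinarith [hs i]
  have y2 : S.FO θ s (fun i => S.wst (lam i) (r i) (F i) (X i) (h i) m 2) := by
    have e : (fun i => S.wst (lam i) (r i) (F i) (X i) (h i) m 2) =
        fun i q => S.dir (r i).w (S.wst (lam i) (r i) (F i) (X i) (h i) m 1) q
          - 1 / 2 * h i 2 q := by
      funext i q; rw [S.wst_two]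
    rw [e]
    exact (i2.q_mono hθ0 c2).q_sub ((hh 2).q_kmul (1 / 2))
  refine ⟨fun a => vec_bd G hL hθ hs (i0.q_mono hθ0 c) (i1.q_mono hθ0 c) y2 a, fun a => ?_, ?_⟩
  · have e : (fun i => fun q => S.wkb (lam i) (r i) (F i) (X i) m (h i) a q
        + h i 2 q / 2 * (F i).N a q) = fun i q =>
        (S.wst (lam i) (r i) (F i) (X i) (h i) m 0 q * (F i).P1 a q +
        S.wst (lam i) (r i) (F i) (X i) (h i) m 1 q * (F i).P2 a q) +
        S.dir (r i).w (S.wst (lam i) (r i) (F i) (X i) (h i) m 1) q * (F i).N a q := by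
      funext i q
      simp only [DAlg.wkb, Frm.vec]
      rw [S.wst_two]; ring
    rw [e]
    have hsL : ∀ i, 0 ≤ s i * L i ^ 2 / lam i := fun i =>
      div_nonneg (mul_nonneg (hs i) (pow_nonneg (hL0 i) 2)) (hlpos i).le
    have hsρ : ∀ i, 0 ≤ s i * (L i ^ 3 * θ i / lam i) := fun i => mul_nonneg (hs i) (hρ i)
    have l1 : ∀ i, s i * L i ^ 2 / lam i * L i ≤ s i * L i ^ 4 * (θ i / lam i) := fun i => by
      have h1 : s i * L i ^ 2 / lam i * L i = (s i * L i ^ 3 / lam i) * 1 := by ring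
      have h2 : s i * L i ^ 4 * (θ i / lam i) = (s i * L i ^ 3 / lam i) * (L i * θ i) := by ring
      rw [h1, h2]
      exact mul_le_mul_of_nonneg_left (one_le_mul_of_one_le_of_one_le (hL i) (hθ i))
        (div_nonneg (mul_nonneg (hs i) (pow_nonneg (hL0 i) 3)) (hlpos i).le)
    have l2 : ∀ i, s i * (L i ^ 3 * θ i / lam i) * L i ≤ s i * L i ^ 4 * (θ i / lam i) :=
      fun i => le_of_eq (by ring)
    exact (((i0.q_mul (gP1 a) hθ0 hsL hL0).q_mono hθ0 l1).q_add
      ((i1.q_mul (gP2 a) hθ0 hsL hL0).q_mono hθ0 l1)).q_add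
      ((i2.q_mul (gN a) hθ0 hsρ hL0).q_mono hθ0 l2)
  · obtain ⟨d0, d1, d2⟩ := wdiff_bd G hL hθ hlam hs hh m
    have hc : ∀ i, ‖(Complex.I * (lam i : ℂ))‖ ≤ lam i := fun i => by
      rw [norm_mul, Complex.norm_I, one_mul, Complex.norm_real, Real.norm_eq_abs,
        abs_of_pos (hlpos i)]
    have hd : ∀ i, 0 ≤ s i * (L i ^ 3 * θ i / lam i) ^ m * L i ^ 2 / lam i := fun i =>
      div_nonneg (mul_nonneg (mul_nonneg (hs i) (pow_nonneg (hρ i) _)) (pow_nonneg (hL0 i) 2))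
        (hlpos i).le
    have l3 : ∀ i, lam i * (s i * (L i ^ 3 * θ i / lam i) ^ m * L i ^ 2 / lam i) ≤
        s i * L i ^ 2 * (L i ^ 3 * θ i / lam i) ^ m := fun i => by
      refine le_of_eq ?_
      have := (hlpos i).ne'
      field_simp
    intro c
    fin_cases c
    · have e : (fun i => S.wres (lam i) (r i) (F i) (X i) m (h i) 0) = fun i q =>
          2 * ((Complex.I * (lam i : ℂ)) * (S.wst (lam i) (r i) (F i) (X i) (h i) m 0 q
            - S.wst (lam i) (r i) (F i) (X i) (h i) (m + 1) 0 q)) := by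
        funext i q
        simp only [DAlg.wres, Matrix.cons_val_zero]
        ring
      show S.FO _ _ (fun i => S.wres (lam i) (r i) (F i) (X i) m (h i) 0)
      rw [e]
      exact ((d0.q_cmul hθ0 hd hc).q_mono hθ0 l3).q_kmul 2
    · have e : (fun i => S.wres (lam i) (r i) (F i) (X i) m (h i) 1) = fun i q =>
          ((Complex.I * (lam i : ℂ)) * (S.wst (lam i) (r i) (F i) (X i) (h i) m 1 q
            - S.wst (lam i) (r i) (F i) (X i) (h i) (m + 1) 1 q)) := by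
        funext i q
        simp only [DAlg.wres, Matrix.cons_val_one, Matrix.cons_val_zero]
      show S.FO _ _ (fun i => S.wres (lam i) (r i) (F i) (X i) m (h i) 1)
      rw [e]
      exact (d1.q_cmul hθ0 hd hc).q_mono hθ0 l3
    · have e : (fun i => S.wres (lam i) (r i) (F i) (X i) m (h i) 2) = fun i q => 0 := by
        funext i q
        simp only [DAlg.wres, Matrix.cons_val]
      show S.FO _ _ (fun i => S.wres (lam i) (r i) (F i) (X i) m (h i) 2)
      rw [e]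
      exact DAlg.FO.q_zero

/-! ### linearity -/

theorem DAlg.q_dir_lin (c : κ → P → ℂ) {u v : P → ℂ} (hu : S.Sm u) (hv : S.Sm v) (a : ℂ) (p : P) :
    S.dir c (fun q => u q + a * v q) p = S.dir c u p + a * S.dir c v p := by
  have h1 := S.q_dir_add c hu (S.q_sm_cmul a hv) p
  rw [S.q_dir_cmul c a hv] at h1
  exact h1

theorem vec_lin (F : Frm P) (x y : Fin 3 → P → ℂ) (a : ℂ) (Y : Fin 4 → P → ℂ) (q : P) :
    dot Y (F.vec (fun c q => x c q + a * y c q)) q =
      dot Y (F.vec x) q + a * dot Y (F.vec y) q := by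
  rw [vec_dot, vec_dot, vec_dot]; ring

theorem wst_lin {lam : ℝ} {r : Ray P κ} {F : Frm P} {X : Fin 4 → P → ℂ}
    (hr : r.Ok S) (sX : ∀ a, S.Sm (X a)) (hF : F.Ok S r X) {h h' : Fin 3 → P → ℂ}
    (sh : ∀ c, S.Sm (h c)) (sh' : ∀ c, S.Sm (h' c)) (c : ℂ) (m : ℕ) :
    S.wst lam r F X (fun b q => h b q + c * h' b q) m =
      fun b q => S.wst lam r F X h m b q + c * S.wst lam r F X h' m b q := by
  have shh : ∀ b, S.Sm (fun q => h b q + c * h' b q) := fun b =>
    S.q_sm_add' (sh b) (S.q_sm_cmul c (sh' b))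
  induction m with
  | zero =>
    funext b q
    rw [S.wst_zero, S.wst_zero, S.wst_zero]
    fin_cases b
    · simp
    · simp
    · show (-1 / 2 : ℂ) * (h 2 q + c * h' 2 q) = (-1 / 2) * h 2 q + c * ((-1 / 2) * h' 2 q)
      ring
  | succ m ih =>
    have sx := S.wst_ok (lam := lam) hr sX hF sh m
    have sy := S.wst_ok (lam := lam) hr sX hF sh' m
    have sx' := S.wst_ok (lam := lam) hr sX hF sh (m + 1)
    have sy' := S.wst_ok (lam := lam) hr sX hF sh' (m + 1)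
    have e0 : S.wst lam r F X (fun b q => h b q + c * h' b q) (m + 1) 0 =
        fun q => S.wst lam r F X h (m + 1) 0 q + c * S.wst lam r F X h' (m + 1) 0 q := by
      funext q
      show S.wstep lam r F X _ (S.wst lam r F X (fun b q => h b q + c * h' b q) m) 0 q =
        S.wstep lam r F X h (S.wst lam r F X h m) 0 q +
          c * S.wstep lam r F X h' (S.wst lam r F X h' m) 0 q
      rw [ih, S.wstep_zero, S.wstep_zero, S.wstep_zero]
      simp only [vec_lin, S.q_dir_lin r.t (sx 0) (sy 0) c]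
      ring
    have e1 : S.wst lam r F X (fun b q => h b q + c * h' b q) (m + 1) 1 =
        fun q => S.wst lam r F X h (m + 1) 1 q + c * S.wst lam r F X h' (m + 1) 1 q := by
      funext q
      show S.wstep lam r F X _ (S.wst lam r F X (fun b q => h b q + c * h' b q) m) 1 q =
        S.wstep lam r F X h (S.wst lam r F X h m) 1 q +
          c * S.wstep lam r F X h' (S.wst lam r F X h' m) 1 q
      rw [ih, S.wstep_one, S.wstep_one, S.wstep_one]
      simp only [vec_lin, S.q_dir_lin r.t (sx 1) (sy 1) c, S.q_dir_lin r.w (sx 0) (sy 0) c]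
      ring
    have e2 : S.wst lam r F X (fun b q => h b q + c * h' b q) (m + 1) 2 =
        fun q => S.wst lam r F X h (m + 1) 2 q + c * S.wst lam r F X h' (m + 1) 2 q := by
      funext q
      rw [S.wst_two, S.wst_two, S.wst_two, e1, S.q_dir_lin r.w (sx' 1) (sy' 1) c]
      ring
    funext b
    fin_cases b
    · exact e0
    · exact e1
    · exact e2

/-- **(W3)** -/
theorem DAlg.wkbLin : S.WkbLin := by
  intro lam r F X m h h' c hr sX hF sh sh' a q
  simp only [DAlg.wkb]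
  rw [wst_lin S hr sX hF sh sh' c m]
  simp only [Frm.vec]
  ring

end Vale.Agent.P205.F
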