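import Vale.Agent.P205.F.Wkb

/-!
Bounds for families: local calculus used for the WKB solve (P205, block W).
-/

set_option linter.all false

open scoped ContDiff

noncomputable section

namespace Vale.Agent.P205.F

universe u

variable {P : Type u} {κ : Type} (S : DAlg P κ)

theorem DAlg.q_Bd_mono {μ C C' : ℝ} {k k' : ℕ} {u : P → ℂ} (h : S.Bd μ k C u) (hμ : 0 ≤ μ)
    (hk : k' ≤ k) (hC : C ≤ C') : S.Bd μ k' C' u := fun w hw p =>
  (h w (hw.trans hk) p).trans (mul_le_mul_of_nonneg_right hC (pow_nonneg hμ _))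

theorem DAlg.q_Bd_D {μ C : ℝ} {k : ℕ} {u : P → ℂ} (h : S.Bd μ (k + 1) C u) (j : κ) :
    S.Bd μ k (C * μ) (S.D j u) := by
  intro w hw p
  have := h (w ++ [j]) (by simpa using hw) p
  rw [S.q_wd_append] at this
  refine this.trans (le_of_eq ?_)
  rw [List.length_append, List.length_singleton, pow_succ]; ring

theorem DAlg.q_Bd_add {μ C C' : ℝ} {k : ℕ} {u v : P → ℂ} (hu : S.Bd μ k C u)
    (hv : S.Bd μ k C' v) (su : S.Sm u) (sv : S.Sm v) : S.Bd μ k (C + C') (u + v) := by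
  intro w hw p
  rw [S.q_wd_add w su sv]
  refine (norm_add_le _ _).trans ?_
  rw [add_mul]
  exact add_le_add (hu w hw p) (hv w hw p)

theorem DAlg.q_wd_cmul {u : P → ℂ} (w : List κ) (c : ℂ) (hu : S.Sm u) :
    S.wd w (fun p => c * u p) = fun p => c * S.wd w u p := by
  induction w with
  | nil => rfl
  | cons a w ih =>
    show S.D a (S.wd w (fun p => c * u p)) = _
    rw [ih]
    exact S.q_D_cmul a c (S.q_sm_wd w hu)

theorem DAlg.q_Bd_cmul {μ C : ℝ} {k : ℕ} {u : P → ℂ} (hu : S.Bd μ k C u) (c : ℂ)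
    (su : S.Sm u) : S.Bd μ k (‖c‖ * C) (fun p => c * u p) := by
  intro w hw p
  rw [S.q_wd_cmul w c su]
  rw [norm_mul, mul_assoc]
  exact mul_le_mul_of_nonneg_left (hu w hw p) (norm_nonneg _)

theorem DAlg.q_Bd_mul_aux {μ : ℝ} (hμ : 0 ≤ μ) (w : List κ) :
    ∀ (u v : P → ℂ) (C C' : ℝ), S.Sm u → S.Sm v → S.Bd μ w.length C u →
      S.Bd μ w.length C' v → ∀ p, ‖S.wd w (u * v) p‖ ≤ 2 ^ w.length * (C * C') * μ ^ w.length := by
  induction w using List.reverseRecOn with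
  | nil =>
    intro u v C C' su sv hu hv p
    have h1 := hu [] le_rfl p
    have h2 := hv [] le_rfl p
    simp only [DAlg.wd, List.length_nil, pow_zero, mul_one, one_mul, Pi.mul_apply, norm_mul] at *
    exact mul_le_mul h1 h2 (norm_nonneg _) ((norm_nonneg _).trans h1)
  | append_singleton w j ih =>
    intro u v C C' su sv hu hv p
    rw [List.length_append, List.length_singleton] at hu hv
    rw [S.q_wd_append, S.D_mul j su sv,
      S.q_wd_add w (S.sm_mul (S.sm_D j su) sv) (S.sm_mul su (S.sm_D j sv))]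
    have h1 := ih (S.D j u) v (C * μ) C' (S.sm_D j su) sv (S.q_Bd_D hu j)
      (S.q_Bd_mono hv hμ (Nat.le_succ _) le_rfl) p
    have h2 := ih u (S.D j v) C (C' * μ) su (S.sm_D j sv)
      (S.q_Bd_mono hu hμ (Nat.le_succ _) le_rfl) (S.q_Bd_D hv j) p
    refine (norm_add_le _ _).trans ((add_le_add h1 h2).trans (le_of_eq ?_))
    rw [List.length_append, List.length_singleton, pow_succ, pow_succ]; ring

theorem DAlg.q_Bd_mul {μ C C' : ℝ} {k : ℕ} {u v : P → ℂ} (hμ : 0 ≤ μ) (hC : 0 ≤ C)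
    (hC' : 0 ≤ C') (su : S.Sm u) (sv : S.Sm v)
    (hu : S.Bd μ k C u) (hv : S.Bd μ k C' v) : S.Bd μ k (2 ^ k * (C * C')) (u * v) := by
  intro w hw p
  refine (S.q_Bd_mul_aux hμ w u v C C' su sv (S.q_Bd_mono hu hμ hw le_rfl)
    (S.q_Bd_mono hv hμ hw le_rfl) p).trans ?_
  refine mul_le_mul_of_nonneg_right (mul_le_mul_of_nonneg_right
    (pow_le_pow_right₀ one_le_two hw) (mul_nonneg hC hC')) (pow_nonneg hμ _)

/-! ### families -/

variable {ι : Type*} {S}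
variable {μ s s' : ι → ℝ} {u v : ι → P → ℂ}

theorem DAlg.FO.q_sm (h : S.FO μ s u) (i : ι) : S.Sm (u i) := h.1 i

theorem DAlg.FO.q_mono (h : S.FO μ s u) (hμ : ∀ i, 0 ≤ μ i) (hs : ∀ i, s i ≤ s' i) :
    S.FO μ s' u := by
  refine ⟨h.1, fun k => ?_⟩
  obtain ⟨C, hC, hb⟩ := h.2 k
  exact ⟨C, hC, fun i => S.q_Bd_mono (hb i) (hμ i) le_rfl (mul_le_mul_of_nonneg_left (hs i) hC)⟩

theorem DAlg.FO.q_add (hu : S.FO μ s u) (hv : S.FO μ s v) :
    S.FO μ s (fun i p => u i p + v i p) := by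
  refine ⟨fun i => S.sm_add (hu.1 i) (hv.1 i), fun k => ?_⟩
  obtain ⟨C, hC, hb⟩ := hu.2 k
  obtain ⟨C', hC', hb'⟩ := hv.2 k
  refine ⟨C + C', add_nonneg hC hC', fun i => ?_⟩
  have := S.q_Bd_add (hb i) (hb' i) (hu.1 i) (hv.1 i)
  rw [← add_mul] at this
  exact this

theorem DAlg.FO.q_cmul (hu : S.FO μ s u) {τ : ι → ℝ} {c : ι → ℂ} (hμ : ∀ i, 0 ≤ μ i)
    (hs : ∀ i, 0 ≤ s i) (hc : ∀ i, ‖c i‖ ≤ τ i) : S.FO μ (fun i => τ i * s i)
      (fun i p => c i * u i p) := by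
  refine ⟨fun i => S.q_sm_cmul _ (hu.1 i), fun k => ?_⟩
  obtain ⟨C, hC, hb⟩ := hu.2 k
  refine ⟨C, hC, fun i => ?_⟩
  have h1 := S.q_Bd_cmul (hb i) (c i) (hu.1 i)
  refine S.q_Bd_mono h1 (hμ i) le_rfl ?_
  have : ‖c i‖ * (C * s i) ≤ τ i * (C * s i) :=
    mul_le_mul_of_nonneg_right (hc i) (mul_nonneg hC (hs i))
  linarith [this, mul_left_comm (τ i) C (s i)]

theorem DAlg.FO.q_kmul (hu : S.FO μ s u) (c : ℂ) : S.FO μ s (fun i p => c * u i p) := by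
  refine ⟨fun i => S.q_sm_cmul _ (hu.1 i), fun k => ?_⟩
  obtain ⟨C, hC, hb⟩ := hu.2 k
  refine ⟨‖c‖ * C, mul_nonneg (norm_nonneg _) hC, fun i => ?_⟩
  have h1 := S.q_Bd_cmul (hb i) c (hu.1 i)
  rw [← mul_assoc] at h1
  exact h1

theorem DAlg.FO.q_neg (hu : S.FO μ s u) : S.FO μ s (fun i p => - u i p) := by
  have h := hu.q_kmul (-1)
  simpa using h

theorem DAlg.FO.q_sub (hu : S.FO μ s u) (hv : S.FO μ s v) :
    S.FO μ s (fun i p => u i p - v i p) := by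
  have h := hu.q_add hv.q_neg
  simpa [sub_eq_add_neg] using h

theorem DAlg.FO.q_mul (hu : S.FO μ s u) (hv : S.FO μ s' v) (hμ : ∀ i, 0 ≤ μ i)
    (hs : ∀ i, 0 ≤ s i) (hs' : ∀ i, 0 ≤ s' i) :
    S.FO μ (fun i => s i * s' i) (fun i p => u i p * v i p) := by
  refine ⟨fun i => S.sm_mul (hu.1 i) (hv.1 i), fun k => ?_⟩
  obtain ⟨C, hC, hb⟩ := hu.2 k
  obtain ⟨C', hC', hb'⟩ := hv.2 k
  refine ⟨2 ^ k * (C * C'), by positivity, fun i => ?_⟩
  have h1 := S.q_Bd_mul (hμ i) (mul_nonneg hC (hs i)) (mul_nonneg hC' (hs' i)) (hu.1 i)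
    (hv.1 i) (hb i) (hb' i)
  refine S.q_Bd_mono h1 (hμ i) le_rfl (le_of_eq ?_)
  ring

theorem DAlg.FO.q_zero : S.FO μ s (fun _ _ => 0) := by
  refine ⟨fun i => S.q_sm_zero, fun k => ⟨0, le_rfl, fun i => ?_⟩⟩
  intro w hw p
  have : ∀ w : List κ, S.wd w (fun _ : P => (0 : ℂ)) = 0 := by
    intro w
    induction w with
    | nil => rfl
    | cons a w ih => simp only [DAlg.wd, ih]; exact S.q_D_zero a
  rw [this]; simp

theorem DAlg.FO.q_sum {α : Type*} (t : Finset α) {u : α → ι → P → ℂ}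
    (h : ∀ a ∈ t, S.FO μ s (u a)) : S.FO μ s (fun i p => ∑ a ∈ t, u a i p) := by
  classical
  induction t using Finset.induction_on with
  | empty => simpa using DAlg.FO.q_zero
  | insert a t ha ih =>
    have e : (fun i p => ∑ b ∈ insert a t, u b i p) =
        (fun i p => u a i p + ∑ b ∈ t, u b i p) := by
      funext i p; rw [Finset.sum_insert ha]
    rw [e]
    exact (h a (Finset.mem_insert_self _ _)).q_add
      (ih (fun b hb => h b (Finset.mem_insert_of_mem hb)))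

theorem DAlg.FO.q_D (hu : S.FO μ s u) (j : κ) :
    S.FO μ (fun i => s i * μ i) (fun i => S.D j (u i)) := by
  refine ⟨fun i => S.sm_D j (hu.1 i), fun k => ?_⟩
  obtain ⟨C, hC, hb⟩ := hu.2 (k + 1)
  refine ⟨C, hC, fun i => ?_⟩
  have h1 := S.q_Bd_D (hb i) j
  rw [mul_assoc] at h1
  exact h1

theorem DAlg.FO.q_dot {X V : ι → Fin 4 → P → ℂ} (hX : ∀ a, S.FO μ s (fun i => X i a))
    (hV : ∀ a, S.FO μ s' (fun i => V i a)) (hμ : ∀ i, 0 ≤ μ i)
    (hs : ∀ i, 0 ≤ s i) (hs' : ∀ i, 0 ≤ s' i) :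
    S.FO μ (fun i => s i * s' i) (fun i => dot (X i) (V i)) :=
  DAlg.FO.q_sum _ (fun a _ => (hX a).q_mul (hV a) hμ hs hs')

theorem DAlg.FO.q_dir [Fintype κ] {c : ι → κ → P → ℂ}
    (hc : ∀ j, S.FO μ s (fun i => c i j)) (hu : S.FO μ s' u) (hμ : ∀ i, 0 ≤ μ i)
    (hs : ∀ i, 0 ≤ s i) (hs' : ∀ i, 0 ≤ s' i) :
    S.FO μ (fun i => s i * (s' i * μ i)) (fun i => S.dir (c i) (u i)) :=
  DAlg.FO.q_sum _ (fun j _ => (hc j).q_mul (hu.q_D j) hμ hs
    (fun i => mul_nonneg (hs' i) (hμ i)))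

end Vale.Agent.P205.F
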